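import Mathlib
import Crest.Prelude.Def_FinProb
import Crest.Prelude.Def_TraceRecon

/-!
# Row 300, trace layer: definitions (helper862)

Words and traces are handled as REVERSED lists in `chE`, `Nw`, `Fw` (head = last letter).
-/

set_option autoImplicit false

namespace Crest.Agent.R300

open Crest.FinProb Crest.TraceRecon

/-- Expectation of `f (trace)` under retention probability `p`; word and trace are reversed lists. -/
noncomputable def chE (p : ℝ) : List Bool → (List Bool → ℂ) → ℂ
  | [], f => f []
  | a :: w, f => ((1 - p : ℝ) : ℂ) * chE p w f + (p : ℂ) * chE p w (fun y => f (a :: y))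

/-- Nested exponential sums: `Nw b w u`, `w` the reversed word, `u` the list of gap factors
(outermost gap first), `b` the base factor of the leftmost gap. -/
noncomputable def Nw (b : ℂ) : List Bool → List ℂ → ℂ
  | [], [] => 1
  | [], _ :: _ => 0
  | _ :: w, [] => b * Nw b w []
  | a :: w, z :: u => z * (Nw b w (z :: u) + if a then Nw b w u else 0)

/-- The unbiased estimator of `Nw b · u` from a trace at retention `p`. -/
noncomputable def Fw (p : ℝ) (b : ℂ) : List Bool → List ℂ → ℂ
  | [], [] => 1
  | [], _ :: _ => 0
  | _ :: y, [] => ((b - (1 - p : ℝ)) / p) * Fw p b y []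
  | a :: y, z :: u => ((z - (1 - p : ℝ)) / p) * Fw p b y (z :: u)
      + (z / p) * (if a then Fw p b y u else 0)

/-- `bitsMon J y = 1` if all bits of the trace `y` (NOT reversed) at the positions in `J` are `true`. -/
noncomputable def bitsMon (J : Finset ℕ) (y : List Bool) : ℂ :=
  if ∀ j ∈ J, y.getD j false = true then 1 else 0

/-- Expectation of `f (trace of x)`. -/
noncomputable def trE {n : ℕ} (p : ℝ) (x : Fin n → Bool) (f : List Bool → ℂ) : ℂ :=
  ∑ keep : Fin n → Bool, (bernoulliWeight p keep : ℂ) * f (traceOf x keep)

/-- Extension of a word by zeros, with complex values. -/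
noncomputable def extC {n : ℕ} (x : Fin n → Bool) (m : ℕ) : ℂ :=
  if h : m < n then (if x ⟨m, h⟩ then 1 else 0) else 0

/-- disc of accessible gap factors -/
def inDisc (p : ℝ) (z : ℂ) : Prop := ‖z - (1 - p : ℝ)‖ ≤ p

end Crest.Agent.R300
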