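import Mathlib
import Crest.Agent.R300.TrBase

/-!
# Row 300: algebra of nested words (helper862)
-/

set_option autoImplicit false

namespace Crest.Agent.R300

open Crest.FinProb Crest.TraceRecon

/-- quasi-shuffle with multiplication of the gap factors -/
def qs : List ℂ → List ℂ → List (List ℂ)
  | [], v => [v]
  | z :: u, [] => [z :: u]
  | z :: u, y :: v =>
      ((qs u (y :: v)) ++ (qs (z :: u) v) ++ (qs u v)).map (fun t => (z * y) :: t)
termination_by u v => u.length + v.length

/-- causal exponential filter -/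
noncomputable def eop (z : ℂ) (f : List Bool → ℂ) : List Bool → ℂ
  | [] => 0
  | a :: w => z * (eop z f w + if a then f w else 0)

/-- reversed prefix of length `M` of an infinite word -/
def pre (x : ℕ → Bool) : ℕ → List Bool
  | 0 => []
  | M + 1 => x M :: pre x M

theorem trE_eq_chE {n : ℕ} (p : ℝ) (x : Fin n → Bool) (f : List Bool → ℂ) :
    trE p x f = chE p (List.ofFn x).reverse (fun y => f y.reverse) := by
  sorry

theorem chE_Fw (p : ℝ) (hp : p ≠ 0) (b : ℂ) (w : List Bool) (u : List ℂ) :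
    chE p w (fun y => Fw p b y u) = Nw b w u := by
  sorry

theorem Nw_mul_qs (w : List Bool) (u v : List ℂ) :
    Nw 1 w u * Nw 1 w v = ((qs u v).map (Nw 1 w)).sum := by
  sorry

theorem qs_length_le (u v : List ℂ) : (qs u v).length ≤ 3 ^ (u.length + v.length) := by
  sorry

theorem qs_word_length_le (u v t : List ℂ) (ht : t ∈ qs u v) : t.length ≤ u.length + v.length := by
  sorry

/-- entries of the words in `qs u v` are `z`, `y` or `z * y`. -/
theorem qs_entries (u v t : List ℂ) (ht : t ∈ qs u v) (s : ℂ) (hs : s ∈ t) :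
    s ∈ u ∨ s ∈ v ∨ ∃ z ∈ u, ∃ y ∈ v, s = z * y := by
  sorry

theorem eop_Nw (z b : ℂ) (w : List Bool) (u : List ℂ) :
    eop z (fun w => Nw b w u) w = Nw b w (z :: u) := by
  sorry

theorem eop_pre (z : ℂ) (g : List Bool → ℂ) (x : ℕ → Bool) (M : ℕ) :
    eop z g (pre x M) = ∑ m ∈ Finset.range M, z ^ (M - m) * (if x m then g (pre x m) else 0) := by
  sorry

theorem Nw_pow_mul (b : ℂ) (w : List Bool) (u : List ℂ) :
    b ^ w.length * Nw 1 w u = Nw b w (u.map (fun z => b * z)) := by
  sorry

theorem Nw_norm_le (b : ℂ) (w : List Bool) (u : List ℂ) (hb : ‖b‖ ≤ 1) (hu : ∀ z ∈ u, ‖z‖ ≤ 1) :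
    ‖Nw b w u‖ ≤ ((w.length : ℝ) + 1) ^ u.length := by
  sorry

/-- total sum over the last position: outermost gap factor 1 -/
theorem Nw_one_cons_pre (b : ℂ) (u : List ℂ) (x : ℕ → Bool) (n : ℕ) :
    Nw b (pre x n) (1 :: u) = ∑ M ∈ Finset.range n, (if x M then Nw b (pre x M) u else 0) := by
  sorry

end Crest.Agent.R300
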