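import Mathlib
import Crest.Agent.R300.Words

/-!
# Row 300: calculus of accessible functionals (helper862)
-/

set_option autoImplicit false

namespace Crest.Agent.R300

open Complex

/-- `f` is, on words of length `≤ n`, a limit of combinations `Σ c Nw 1 · u` with `Σ ‖c‖ ≤ K`,
`|u| ≤ k`, entries of `u` in `Z`. -/
def Acc (n k : ℕ) (K : ℝ) (Z : Set ℂ) (f : List Bool → ℂ) : Prop :=
  ∀ ε : ℝ, 0 < ε → ∃ (J : ℕ) (co : Fin J → ℂ) (u : Fin J → List ℂ),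
    (∑ j, ‖co j‖) ≤ K ∧ (∀ j, (u j).length ≤ k ∧ ∀ z ∈ u j, z ∈ Z) ∧
    ∀ w : List Bool, w.length ≤ n → ‖f w - ∑ j, co j * Nw 1 w (u j)‖ ≤ ε

theorem Acc.one (n : ℕ) (Z : Set ℂ) : Acc n 0 1 Z (fun _ => 1) := by
  sorry

theorem Acc.mono {n k k' : ℕ} {K K' : ℝ} {Z Z' : Set ℂ} {f : List Bool → ℂ}
    (h : Acc n k K Z f) (hk : k ≤ k') (hK : K ≤ K') (hZ : Z ⊆ Z') : Acc n k' K' Z' f := by
  sorry

theorem Acc.conj {n k : ℕ} {K : ℝ} {Z : Set ℂ} {f : List Bool → ℂ} (h : Acc n k K Z f)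
    (hZ : ∀ z ∈ Z, (starRingEnd ℂ) z ∈ Z) : Acc n k K Z (fun w => (starRingEnd ℂ) (f w)) := by
  sorry

theorem Acc.eop {n k : ℕ} {K : ℝ} {Z : Set ℂ} {f : List Bool → ℂ} (h : Acc n k K Z f)
    (z : ℂ) (hz : ‖z‖ ≤ 1) : Acc n (k + 1) K (insert z Z) (eop z f) := by
  sorry

theorem Acc.add {n k : ℕ} {K K' : ℝ} {Z : Set ℂ} {f g : List Bool → ℂ} (hf : Acc n k K Z f)
    (hg : Acc n k K' Z g) : Acc n k (K + K') Z (fun w => f w + g w) := by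
  sorry

/-- product of finitely many accessible functionals; the entries are products of at most one entry
of each factor -/
theorem Acc.prod {n : ℕ} {c : ℕ} (k : Fin c → ℕ) (K : Fin c → ℝ) (Z : Fin c → Set ℂ)
    (f : Fin c → List Bool → ℂ) (hZ : ∀ j, ∀ z ∈ Z j, ‖z‖ ≤ 1)
    (hf : ∀ j, Acc n (k j) (K j) (Z j) (f j)) :
    Acc n (∑ j, k j) ((∏ j, K j) * 3 ^ (c * ∑ j, k j))
      {z | ∃ s : Fin c → ℂ, z = ∏ j, s j ∧ ∀ j, s j = 1 ∨ s j ∈ Z j} (fun w => ∏ j, f j w) := by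
  sorry

/-- closure under limits of bounded combinations -/
theorem Acc.lim {n k : ℕ} {K M : ℝ} {Z : Set ℂ} (hM : 0 ≤ M) (hK : 0 ≤ K) {f : List Bool → ℂ}
    (h : ∀ ε : ℝ, 0 < ε → ∃ (J : ℕ) (co : Fin J → ℂ) (g : Fin J → List Bool → ℂ),
      (∑ j, ‖co j‖) ≤ M ∧ (∀ j, Acc n k K Z (g j)) ∧
      ∀ w : List Bool, w.length ≤ n → ‖f w - ∑ j, co j * g j w‖ ≤ ε) :
    Acc n k (M * K) Z f := by
  sorry

end Crest.Agent.R300
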