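import Mathlib
import Crest.Agent.R300.Words

/-!
# Row 300: the estimator of a nested word is a polynomial in the bits (interface helper862)
-/

set_option autoImplicit false

namespace Crest.Agent.R300

/-- the estimator of a word with outermost gap factor `1` is a polynomial in the bits -/
theorem Fw_bits (p : ℝ) (hp : 0 < p) (hp1 : p ≤ 1) (b : ℂ) (u : List ℂ) (n : ℕ)
    (hb : inDisc p b) (hu : ∀ z ∈ u, inDisc p z) :
    ∃ a : Finset ℕ → ℂ, (∀ J, a J ≠ 0 → J ⊆ Finset.range n ∧ J.card ≤ u.length + 1) ∧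
      (∑ J ∈ (Finset.range n).powerset, ‖a J‖) ≤ (((n : ℝ) + 1) / p) ^ (u.length + 1) ∧
      ∀ y : List Bool, y.length ≤ n →
        Fw p b y.reverse (1 :: u) = ∑ J ∈ (Finset.range n).powerset, a J * bitsMon J y := by
  sorry

end Crest.Agent.R300
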