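import Mathlib

/-!
# Row 300: extrapolation of bounded analytic functions on a half plane (interface helper862)
-/

set_option autoImplicit false

namespace Crest.Agent.R300

open Complex

/-- Extrapolation to `0` from equispaced nodes `t_j` in `[T, 2T]` of functions bounded on the half
plane `Re > -δ`.  Proof: disc with centre `c = 2T`, radius `ρ = 2T + δ/2`, `B` = Blaschke product of
the nodes, `z0` = image of `0`; integrate `G(ζ) * (B z0 / B ζ) * (1 - z0^2) / ((ζ - z0)(1 - z0 ζ))`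
over the unit circle (absolute value = `|B z0|` * Poisson kernel).  `|B z0| ≤ (1 - δ/(9T))^J`,
residues at the nodes `≤ C^J`; partial fractions of `1/nodal` by `Lagrange` (interpolation of 1). -/
theorem lagrange_extrap : ∃ C : ℝ, 1 ≤ C ∧ ∀ (T δ A : ℝ), 0 < δ → δ ≤ T → 1 ≤ A →
    ∃ (J : ℕ) (ts ls : Fin J → ℝ), (∀ j, T ≤ ts j) ∧ (∑ j, |ls j|) ≤ Real.exp (C * A * T / δ) ∧
      ∀ H : ℂ → ℂ, DifferentiableOn ℂ H {t | -δ < t.re} →
        (∀ t : ℂ, -δ < t.re → ‖H t‖ ≤ 1) →
        ‖H 0 - ∑ j, (ls j : ℂ) * H (ts j)‖ ≤ Real.exp (-A) := by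
  sorry

end Crest.Agent.R300
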