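import Mathlib
import Crest.Agent.R300.FwBits
import Crest.Agent.R300.Lagrange

/-!
# Row 300: extrapolation from retention `p` to retention `1 - q0` (interface helper862)
-/

set_option autoImplicit false

namespace Crest.Agent.R300

open Complex

/-- parabolic shift `1/(1-z) ↦ 1/(1-z) + t` -/
noncomputable def shift (t : ℂ) (z : ℂ) : ℂ := 1 - (1 - z) / (1 + t * (1 - z))

theorem shift_inDisc (p p0 : ℝ) (hp : 0 < p) (hpp : p ≤ p0) (hp0 : p0 < 1) (t : ℝ)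
    (ht : 1 / (2 * p) - 1 / (2 * p0) ≤ t) (z : ℂ) (hz : inDisc p0 z) :
    inDisc p (shift t z) := by
  sorry

theorem shift_norm_le (p0 : ℝ) (hp0 : 0 < p0) (hp1 : p0 < 1) (t : ℂ)
    (ht : -(1 / (2 * p0) - 1 / 2) ≤ t.re) (z : ℂ) (hz : inDisc p0 z) :
    ‖shift t z‖ ≤ 1 ∧ (z ≠ 1 → 1 + t * (1 - z) ≠ 0) := by
  sorry

/-- Estimators at retention `p` for all words whose gap factors lie in the disc of `1 - q0`. -/
theorem Nw_estimator (q0 : ℝ) (hq0 : 0 < q0) (hq1 : q0 ≤ 1 / 2) : ∃ C : ℝ, 1 ≤ C ∧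
    ∀ (p A : ℝ), 0 < p → p < 1 → 1 ≤ A → ∀ (n : ℕ) (b : ℂ) (u : List ℂ),
      inDisc (1 - q0) b → (∀ z ∈ u, inDisc (1 - q0) z) →
      ∃ a : Finset ℕ → ℂ, (∀ J, a J ≠ 0 → J ⊆ Finset.range n ∧ J.card ≤ u.length + 1) ∧
        (∑ J ∈ (Finset.range n).powerset, ‖a J‖) ≤
          Real.exp (C / p * (A + (u.length + 1) * Real.log (n + 2))) ∧
        ∀ x : Fin n → Bool,
          ‖(∑ J ∈ (Finset.range n).powerset, a J * trE p x (bitsMon J))
            - Nw b (List.ofFn x).reverse (1 :: u)‖ ≤ Real.exp (-A) := by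
  sorry

end Crest.Agent.R300
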