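import Mathlib
import Crest.Agent.R300.TrBase

/-!
# Row 300, ideal functionals (helper862), FROZEN INTERFACE

Units: cycles.  Levels `j = 1..L` (node of level `j` multiplies `k` windowed transforms of width
`om j`; the result is used with the window of level `j-1`).  Window of level `j ≥ 1`:
`exp (-π M² / om_j²)`, of level `0`: `exp (-2 π eps M)`; both are `win iv ep`.
-/

set_option autoImplicit false

namespace Crest.Agent.R300

open Complex

/-- window `exp (-π iv M² - 2 π ep M)`, `M` relative to the first unknown position -/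
noncomputable def win (iv ep M : ℝ) : ℝ := Real.exp (-Real.pi * iv * M ^ 2 - 2 * Real.pi * ep * M)

/-- One level of a functional code. `fl c = 0`: slot absent, `1`: child `Φ`, `2`: child `conj Φ`.
`nu c`: SIGNED frequency (cycles): the factor of the slot is `exp (-2 π i nu_c m)`. -/
structure Node where
  /-- slot flags -/
  fl : Fin 4 → Fin 3
  /-- signed frequencies -/
  nu : Fin 4 → ℝ
  /-- point of the contour (positive real part) -/
  S : ℂ

/-- present slots -/
def Node.pr (N : Node) : Finset (Fin 4) := Finset.univ.filter (fun c => N.fl c ≠ 0)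

/-- number of present slots -/
def Node.k (N : Node) : ℕ := N.pr.card

/-- total frequency -/
noncomputable def Node.Om (N : Node) : ℝ := ∑ c ∈ N.pr, N.nu c

/-- child value with conjugation flag -/
noncomputable def cjf (b : Fin 3) (z : ℂ) : ℂ := if b = 2 then (starRingEnd ℂ) z else z

/-- width of the Gaussian of the location at a node with `k` slots -/
noncomputable def omp (om iv : ℝ) (k : ℕ) : ℝ := 1 / Real.sqrt (k / om ^ 2 - iv)

/-- Gap kernel; `B = Σ d_c`, `Q = Σ d_c²` over the present slots. -/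
noncomputable def gam (om iv ep : ℝ) (k : ℕ) (S : ℂ) (B Q : ℝ) : ℂ :=
  ((omp om iv k / om : ℝ) : ℂ) *
    cexp (Real.pi * ((omp om iv k : ℂ) ^ 2 * (S + B / om ^ 2 + ep) ^ 2 - Q / om ^ 2))

/-- position tuples of the present slots with maximum exactly `M` (absent slots are put at `M`) -/
def tuples (P : Finset (Fin 4)) (M : ℕ) : Finset (Fin 4 → ℕ) :=
  (Fintype.piFinset fun _ : Fin 4 => Finset.range (M + 1)).filter
    (fun m => (∀ c, c ∉ P → m c = M) ∧ ∃ c ∈ P, m c = M)

/-- the composite functional -/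
noncomputable def nodeF (om iv ep : ℝ) (N : Node) (f : ℕ → ℂ) (M : ℕ) : ℂ :=
  ∑ m ∈ tuples N.pr M,
    gam om iv ep N.k N.S (∑ c ∈ N.pr, ((M : ℝ) - m c)) (∑ c ∈ N.pr, ((M : ℝ) - m c) ^ 2) *
      ∏ c ∈ N.pr, (cjf (N.fl c) (f (m c)) * cexp (2 * Real.pi * I * N.nu c * ((M : ℂ) - m c)))

/-- parameters: number of levels, widths `om j` (`j ≥ 1`), location damping `eps` -/
structure IPar where
  /-- number of levels -/
  L : ℕ
  /-- window widths -/
  om : ℕ → ℝ
  /-- location damping at level 0 -/
  eps : ℝ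

/-- `1/om_j²`, zero for `j = 0` -/
noncomputable def IPar.iv (P : IPar) (j : ℕ) : ℝ := if j = 0 then 0 else 1 / (P.om j) ^ 2

/-- damping part of the window of level `j`: only for `j = 0` -/
noncomputable def IPar.ep (P : IPar) (j : ℕ) : ℝ := if j = 0 then P.eps else 0

/-- the functional with a given path; a path of length `L - j` is a functional of level `j`, its
children-windows have width `om (j+1)` and its own window is the one of level `j`. -/
noncomputable def phi (P : IPar) (x : ℕ → ℂ) : List Node → ℕ → ℂ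
  | [] => x
  | N :: l => nodeF (P.om (P.L - l.length)) (P.iv (P.L - l.length - 1)) (P.ep (P.L - l.length - 1))
      N (phi P x l)

/-- windowed one-sided transform, seen from position `t` (unknown part); window `win iv ep` -/
noncomputable def Uval (n t : ℕ) (iv ep : ℝ) (psi : ℕ → ℂ) (S : ℂ) : ℂ :=
  ∑ M ∈ Finset.Ico t n, psi M * win iv ep ((M : ℝ) - t) * cexp (-(2 * Real.pi * S * ((M : ℂ) - t)))

/-- full windowed transform of `f` at a real frequency `nu` -/
noncomputable def Vval (n t : ℕ) (iv ep : ℝ) (nu : ℝ) (f : ℕ → ℂ) : ℂ :=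
  ∑ m ∈ Finset.range n, f m * win iv ep ((m : ℝ) - t) * cexp (-(2 * Real.pi * I * nu * ((m : ℂ) - t)))

/-- known part of `Vval` (positions before `t`) -/
noncomputable def Kval (t : ℕ) (iv ep : ℝ) (nu : ℝ) (f : ℕ → ℂ) : ℂ :=
  ∑ m ∈ Finset.range t, f m * win iv ep ((m : ℝ) - t) * cexp (-(2 * Real.pi * I * nu * ((m : ℂ) - t)))

/-- product of transforms prescribed by the slots of a node -/
noncomputable def Tprod (n t : ℕ) (om : ℝ) (N : Node) (f : ℕ → ℂ) : ℂ :=
  ∏ c ∈ N.pr, Vval n t (1 / om ^ 2) 0 (N.nu c) (fun m => cjf (N.fl c) (f m))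

/-- product of the known parts -/
noncomputable def Kprod (t : ℕ) (om : ℝ) (N : Node) (f : ℕ → ℂ) : ℂ :=
  ∏ c ∈ N.pr, Kval t (1 / om ^ 2) 0 (N.nu c) (fun m => cjf (N.fl c) (f m))

/-- slope parameter of the contour -/
noncomputable def kp : ℝ := 10 / 21

/-- contour points `S(τ) = sig + kp |τ| + i τ` -/
noncomputable def cPt (sig τ : ℝ) : ℂ := ((sig + kp * |τ| : ℝ) : ℂ) + I * τ

/-- contour weight `1 - i kp sgn τ` -/
noncomputable def cWt (τ : ℝ) : ℂ := 1 - I * (kp * Real.sign τ : ℝ)

end Crest.Agent.R300
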