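import Mathlib
import Crest.Agent.R300.Ideal

/-!
# Row 300: a Gaussian on the cone contour (interface helper862)
-/

set_option autoImplicit false

namespace Crest.Agent.R300

open Complex

/-- cone contour exponent (cycles): damping `y + |τ|/10`, frequency `τ` -/
noncomputable def coneS (y τ : ℝ) : ℂ := ((y + |τ| / 10 : ℝ) : ℂ) + I * τ

/-- The Gaussian `exp (-π v²/om²)` on the cone contour.  From
`exp (-π v²/om²) = om ∫ exp (π om² s²) exp (2 π s v) ds / i` along `s = coneS y τ`; Riemann sums.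
The mass, weighted by `exp (2 π Re s m)`, is controlled for all real `m`. -/
theorem gau_cone : ∃ C : ℝ, 1 ≤ C ∧ ∀ (om y : ℝ), 1 ≤ om → 0 ≤ y → ∀ (V ε : ℝ), 0 < ε →
    ∃ (J : ℕ) (co : Fin J → ℂ) (τ : Fin J → ℝ),
      (∀ v : ℝ, |v| ≤ V → ‖(Real.exp (-Real.pi * v ^ 2 / om ^ 2) : ℂ)
        - ∑ j, co j * cexp (2 * Real.pi * coneS y (τ j) * v)‖ ≤ ε) ∧
      ∀ m : ℝ, (∑ j, ‖co j‖ * Real.exp (2 * Real.pi * (coneS y (τ j)).re * m)) ≤
        C * Real.exp (C * om ^ 2 * y ^ 2 + 2 * Real.pi * y * |m| + m ^ 2 / (20 * om ^ 2)) := by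
  sorry

end Crest.Agent.R300
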