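import Mathlib
import Crest.Agent.R300.GauCone

/-!
# Row 300: the gap kernel as a limit of bounded combinations of damped exponentials (helper862)
-/

set_option autoImplicit false

namespace Crest.Agent.R300

open Complex

/-- The gap kernel of a node.  Proof: if `d_lead = 0` then
`gam = om⁻¹ ∫_ℝ exp (-π m² (1/om² - iv) + 2 π (S + ep) m) ∏_{c ≠ lead} exp (-π (m - d_c)²/om²) dm`
(complete the square); insert `gau_cone` (with `v = m - d_c`) in every factor; the mass is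
`om⁻¹ ∫ exp (-π m² (1/om² - iv) + 2 π (X + ep) |m|) (C exp (C om² y² + 2 π y |m| + m²/(20 om²)))³ dm`.
Riemann sum in `m`. -/
theorem gam_hull : ∃ C : ℝ, 1 ≤ C ∧ ∀ (om iv ep y X : ℝ), 1 ≤ om → 0 ≤ iv → iv * om ^ 2 ≤ 1 / 256 →
    0 ≤ ep → ep * om ≤ 1 / 1024 → 0 ≤ y →
    ∀ (P : Finset (Fin 4)) (lead : Fin 4) (S : ℂ), 2 ≤ P.card → lead ∈ P →
      0 ≤ S.re → S.re ≤ X →
    ∀ (n : ℕ) (ε : ℝ), 0 < ε →
    ∃ (J : ℕ) (co : Fin J → ℂ) (τ : Fin J → Fin 4 → ℝ),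
      (∑ k, ‖co k‖) ≤ Real.exp (C * (1 + Real.log om + om ^ 2 * (y + X) ^ 2)) ∧
      ∀ δ : Fin 4 → ℕ, δ lead = 0 → (∀ j, δ j ≤ n) →
        ‖gam om iv ep P.card S (∑ j ∈ P, (δ j : ℝ)) (∑ j ∈ P, (δ j : ℝ) ^ 2)
          - ∑ k, co k * ∏ j ∈ P.erase lead, cexp (-(2 * Real.pi * coneS y (τ k j) * (δ j : ℂ)))‖
          ≤ ε := by
  sorry

end Crest.Agent.R300
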