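import Mathlib
import Crest.Agent.R300.TrBase

/-!
# Row 300: additive rule for gap exponents (helper862)

A gap factor is `exp (-a + i F)`.
-/

set_option autoImplicit false

namespace Crest.Agent.R300

open Complex

/-- elementary contribution of a node of index `i + 1`: quadratic or cone type -/
def Elem (q : ℝ) (i : ℕ) (a F : ℝ) : Prop :=
  0 ≤ a ∧ (F ^ 2 ≤ a / (48 * q * 8 ^ i) ∨ |F| ≤ a / (8 * q))

/-- sums of contributions that can be simultaneously active in a functional with a path of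
length `d` (total number of levels `L`). -/
def Psum (q : ℝ) (L : ℕ) : ℕ → ℝ × ℝ → Prop
  | 0, e => e = (0, 0)
  | d + 1, e => ∃ s : Fin 4 → ℝ × ℝ, e = ∑ j, s j ∧
      ∀ j, s j = (0, 0) ∨ Psum q L d (s j) ∨ (j ≠ 0 ∧ Elem q (L - (d + 1)) (s j).1 (s j).2)

/-- gap factors of functionals with path length `d` -/
def Zset (q : ℝ) (L d : ℕ) : Set ℂ :=
  {z | ∃ e : ℝ × ℝ, Psum q L d e ∧ z = cexp (-(e.1 : ℂ) + I * e.2)}

theorem disc_lemma (q a F : ℝ) (hq : 0 < q) (hq1 : q ≤ 1 / 16) (ha : 2 * q * min 4 (F ^ 2) ≤ a) :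
    inDisc (1 - q) (cexp (-(a : ℂ) + I * F)) := by
  sorry

/-- The whole sum, plus a location contribution, is accessible.  Proof: split into cone and
quadratic contributions, `min 4 F² ≤ 2 min 2 F_C² + 2 F_Q²`, `min 2 t² ≤ √2 |t|`, Cauchy-Schwarz with
weights `8^i` (`Σ 3·4^i/8^i ≤ 6`) and `1/6` for the location. -/
theorem Psum_rule (q : ℝ) (hq : 0 < q) (L : ℕ) (e : ℝ × ℝ) (he : Psum q L L e) (x y : ℝ)
    (hx : 0 ≤ x) (hxy : y ^ 2 ≤ x / (8 * q) ∨ |y| ≤ x / (8 * q)) :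
    0 ≤ e.1 + x ∧ 2 * q * min 4 ((e.2 + y) ^ 2) ≤ e.1 + x := by
  sorry

theorem Psum_nonneg (q : ℝ) (hq : 0 < q) (L d : ℕ) (e : ℝ × ℝ) (he : Psum q L d e) : 0 ≤ e.1 := by
  sorry

theorem Zset_norm_le (q : ℝ) (hq : 0 < q) (L d : ℕ) (z : ℂ) (hz : z ∈ Zset q L d) : ‖z‖ ≤ 1 := by
  sorry

theorem Zset_conj (q : ℝ) (L d : ℕ) (z : ℂ) (hz : z ∈ Zset q L d) :
    (starRingEnd ℂ) z ∈ Zset q L d := by
  sorry

end Crest.Agent.R300
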