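import Mathlib
import Crest.Agent.R300.Acc
import Crest.Agent.R300.Prof
import Crest.Agent.R300.GamHull

/-!
# Row 300: accessibility of composites, definitions and node step (interface helper862)
-/

set_option autoImplicit false

namespace Crest.Agent.R300

open Complex

/-- hypotheses on the level parameters used by the access theorem; `y j` is a damping that only
occurs in the proof (not in the program), `r j` bounds the frequencies in nodes of index `j`
(`1 ≤ j ≤ L`), `X j` the real parts of the contour points, `r 0` the location frequency. -/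
structure LevOK (q : ℝ) (P : IPar) (r y X : ℕ → ℝ) : Prop where
  om1 : ∀ j, 1 ≤ j → j ≤ P.L → 1 ≤ P.om j
  om2 : ∀ j, 1 ≤ j → j < P.L → 16 * P.om (j + 1) ≤ P.om j
  eps0 : 0 < P.eps
  eps1 : P.eps * P.om 1 ≤ 1 / 1024
  rpos : ∀ j, 1 ≤ j → j ≤ P.L → 0 ≤ r j
  ypos : ∀ j, 1 ≤ j → j ≤ P.L → 0 ≤ y j
  Xpos : ∀ j, 1 ≤ j → j ≤ P.L → 0 ≤ X j
  rule : ∀ j, 1 ≤ j → j ≤ P.L → 1207 * q * 8 ^ (j - 1) * (r j) ^ 2 ≤ y j ∨ 16 * q * r j ≤ y j

/-- admissible node at a level -/
structure NodeOK (r X : ℝ) (N : Node) : Prop where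
  k2 : 2 ≤ N.k
  nu : ∀ c ∈ N.pr, |N.nu c| ≤ r
  Sre : 0 ≤ N.S.re
  SX : N.S.re ≤ X

/-- admissible path -/
def PathOK (P : IPar) (r X : ℕ → ℝ) : List Node → Prop
  | [] => True
  | N :: l => NodeOK (r (P.L - l.length)) (X (P.L - l.length)) N ∧ PathOK P r X l

/-- one node step of the calculus: if the child is accessible so is the composite
(`i + 1` = index of the node, `d = L - i - 1` = path length of the child). -/
theorem node_acc : ∃ C : ℝ, 1 ≤ C ∧ ∀ (q : ℝ) (L d : ℕ) (om iv ep r y X : ℝ), 0 < q → q ≤ 1 / 1024 →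
    d < L → 1 ≤ om → 0 ≤ iv → iv * om ^ 2 ≤ 1 / 256 → 0 ≤ ep → ep * om ≤ 1 / 1024 →
    0 ≤ r → 0 ≤ y → (1207 * q * 8 ^ (L - d - 1) * r ^ 2 ≤ y ∨ 16 * q * r ≤ y) →
    ∀ (N : Node), NodeOK r X N →
    ∀ (n k : ℕ) (K : ℝ) (g : List Bool → ℂ), 1 ≤ K → Acc n k K (Zset q L d) g →
    ∃ g' : List Bool → ℂ,
      Acc n (4 * k + 3) (Real.exp (C * (1 + Real.log om + om ^ 2 * (y + X) ^ 2)) * K ^ 4 *
        3 ^ (16 * (k + 1)) * 64) (Zset q L (d + 1)) g' ∧
      ∀ x : ℕ → Bool, ∀ M ≤ n,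
        nodeF om iv ep N (fun m => if x m then g (pre x m) else 0) M
          = if x M then g' (pre x M) else 0 := by
  sorry

end Crest.Agent.R300
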