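import Mathlib
import Crest.Agent.R300.NodeAcc
import Crest.Agent.R300.Extrap

/-!
# Row 300: access to the level-0 functionals from traces (interface helper862)
-/

set_option autoImplicit false

namespace Crest.Agent.R300

open Complex

/-- accessibility of the functionals in terms of nested words -/
theorem phi_acc : ∃ C : ℝ, 1 ≤ C ∧ ∀ (q : ℝ) (P : IPar) (r y X : ℕ → ℝ), 0 < q → q ≤ 1 / 1024 →
    LevOK q P r y X → ∀ (n : ℕ) (l : List Node), l.length = P.L → PathOK P r X l →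
    ∃ g : List Bool → ℂ,
      Acc n (4 ^ P.L - 1) (Real.exp (C * (4 ^ P.L * (P.L + 1) + ∑ j ∈ Finset.Icc 1 P.L,
        4 ^ (j - 1) * (1 + Real.log (P.om j) + P.om j ^ 2 * (y j + X j) ^ 2)))) (Zset q P.L P.L) g ∧
      ∀ x : ℕ → Bool, ∀ M ≤ n,
        phi P (fun m => if x m then 1 else 0) l M = if x M then g (pre x M) else 0 := by
  sorry

/-- ACCESS THEOREM: estimators for the level-0 statistics with controlled coefficients. -/
theorem access (q0 : ℝ) (hq0 : 0 < q0) (hq1 : q0 ≤ 1 / 1024) : ∃ C : ℝ, 1 ≤ C ∧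
    ∀ (p q A : ℝ), 0 < p → p < 1 → 0 < q → q ≤ q0 → (1 - p ≤ q ∨ q = q0) → 1 ≤ A →
    ∀ (P : IPar) (r y X : ℕ → ℝ), LevOK q P r y X →
    ∀ (n : ℕ) (l : List Node) (f : ℝ), l.length = P.L → PathOK P r X l →
      (51 * q * f ^ 2 ≤ P.eps ∨ |f| ≤ P.eps / (8 * q)) →
    ∃ co : Finset ℕ → ℂ, (∀ J, co J ≠ 0 → J ⊆ Finset.range n ∧ J.card ≤ 4 ^ P.L) ∧
      (∑ J ∈ (Finset.range n).powerset, ‖co J‖) ≤
        Real.exp (C / p * (A + 4 ^ P.L * (P.L + 1) * Real.log (n + 2) + ∑ j ∈ Finset.Icc 1 P.L,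
          4 ^ (j - 1) * (1 + Real.log (P.om j) + P.om j ^ 2 * (y j + X j) ^ 2))) ∧
      ∀ x : Fin n → Bool,
        ‖(∑ J ∈ (Finset.range n).powerset, co J * trE p x (bitsMon J))
          - ∑ M ∈ Finset.range n, phi P (extC x) l M *
              cexp (-(2 * Real.pi * ((P.eps : ℂ) + I * f) * M))‖ ≤ Real.exp (-A) := by
  sorry

end Crest.Agent.R300
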