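import Mathlib

/-!
# Row 300, analysis part 1: Jensen's inequality in the left half plane

For an exponential sum `D s = ∑ m ∈ range N, c m * exp (s * m)` with `‖D (i ν)‖ ≤ exp (-h ν)`,
`h` bounded and measurable, one has `‖D (-σ + i y)‖ ≤ exp (-∫ h ν P(ν) dν)` with `P` the Poisson
kernel of the left half plane at `-σ + i y`.
-/

open MeasureTheory Complex Set Filter Topology
open scoped Real

namespace Crest.Agent.R300

/-- Poisson kernel of the left half plane at `-σ + i y`. -/
noncomputable def poi (σ y ν : ℝ) : ℝ := (σ / π) / (σ ^ 2 + (ν - y) ^ 2)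

/-- exponential sum -/
noncomputable def expSum (N : ℕ) (c : ℕ → ℂ) (s : ℂ) : ℂ := ∑ m ∈ Finset.range N, c m * exp (s * m)

theorem differentiable_expSum (N : ℕ) (c : ℕ → ℂ) : Differentiable ℂ (expSum N c) := by
  unfold expSum
  fun_prop

theorem norm_expSum_le (N : ℕ) (c : ℕ → ℂ) {s : ℂ} (hs : s.re ≤ 0) :
    ‖expSum N c s‖ ≤ ∑ m ∈ Finset.range N, ‖c m‖ := by
  unfold expSum
  refine (norm_sum_le _ _).trans (Finset.sum_le_sum fun m _ => ?_)
  rw [norm_mul, norm_exp]
  have : (s * (m : ℂ)).re ≤ 0 := by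
    simp only [mul_re, natCast_re, natCast_im, mul_zero, sub_zero]
    exact mul_nonpos_of_nonpos_of_nonneg hs (Nat.cast_nonneg m)
  exact mul_le_of_le_one_right (norm_nonneg _) (Real.exp_le_one_iff.2 this)

/-- Jensen's inequality. -/
theorem log_norm_le_circleAverage {f : ℂ → ℂ} {R : ℝ} (hR : 0 < R)
    (hf : AnalyticOnNhd ℂ f (Metric.closedBall 0 R)) (h0 : f 0 ≠ 0) :
    Real.log ‖f 0‖ ≤ Real.circleAverage (fun z => Real.log ‖f z‖) 0 R := by
  have hf' : AnalyticOnNhd ℂ f (Metric.closedBall 0 |R|) := by rwa [abs_of_pos hR]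
  rw [hf'.circleAverage_log_norm hR.ne' h0]
  have : 0 ≤ ∑ᶠ u, MeromorphicOn.divisor f (Metric.closedBall 0 |R|) u * Real.log (R * ‖0 - u‖⁻¹) := by
    refine finsum_nonneg fun u => ?_
    by_cases hu : u ∈ Metric.closedBall (0 : ℂ) |R|
    · have h1 : 0 ≤ MeromorphicOn.divisor f (Metric.closedBall 0 |R|) u :=
        (MeromorphicOn.AnalyticOnNhd.divisor_nonneg hf') u
      have h2 : ‖u‖ ≤ R := by simpa [abs_of_pos hR] using hu
      refine mul_nonneg (by exact_mod_cast h1) ?_
      rcases eq_or_ne u 0 with rfl | hu0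
      · simp
      · apply Real.log_nonneg
        have : 0 < ‖u‖ := norm_pos_iff.2 hu0
        simp only [zero_sub, norm_neg]
        rw [← div_eq_mul_inv, one_le_div this]
        exact h2
    · have : MeromorphicOn.divisor f (Metric.closedBall 0 |R|) u = 0 :=
        Function.locallyFinsuppWithin.apply_eq_zero_of_notMem _ hu
      simp [this]
  linarith

/-- zeros of an analytic function on a circle are negligible -/
theorem ae_circleMap_ne_zero {f : ℂ → ℂ} {R : ℝ} (hR : 0 < R)
    (hf : AnalyticOnNhd ℂ f (Metric.closedBall 0 R)) (h0 : f 0 ≠ 0) :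
    ∀ᵐ θ ∂(volume.restrict (uIoc (0 : ℝ) (2 * π))), f (circleMap 0 R θ) ≠ 0 := by
  have h1 : f ⁻¹' {0}ᶜ ∈ codiscreteWithin (Metric.closedBall (0 : ℂ) R) :=
    hf.preimage_zero_mem_codiscreteWithin h0 (by simp [hR.le])
      ((convex_closedBall (0 : ℂ) R).isConnected ⟨0, by simp [hR.le]⟩)
  have h2 : f ⁻¹' {0}ᶜ ∈ codiscreteWithin (Metric.sphere (0 : ℂ) |R|) := by
    rw [abs_of_pos hR]
    exact codiscreteWithin_mono Metric.sphere_subset_closedBall h1
  have h3 : (circleMap 0 R) ⁻¹' (f ⁻¹' {0}ᶜ) ∈ codiscrete ℝ :=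
    circleMap_preimage_codiscrete hR.ne' h2
  have h4 : (circleMap 0 R) ⁻¹' (f ⁻¹' {0}ᶜ) ∈ codiscreteWithin (uIoc (0 : ℝ) (2 * π)) :=
    codiscreteWithin_mono (subset_univ _) h3
  exact ae_restrict_le_codiscreteWithin measurableSet_uIoc h4

/-- Limit form of Jensen's inequality on the unit disc: bounded analytic functions. -/
theorem norm_le_exp_neg_average {f : ℂ → ℂ} {B : ℝ} (hf : DifferentiableOn ℂ f (Metric.ball 0 1))
    (hB : ∀ z ∈ Metric.ball (0 : ℂ) 1, ‖f z‖ ≤ B) {g : ℝ → ℝ} (hg : Measurable g) {C : ℝ}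
    (hC : ∀ θ, |g θ| ≤ C) {F : ℝ → ℝ} (hFm : Measurable F)
    (hlim : ∀ᵐ θ ∂(volume.restrict (uIoc (0 : ℝ) (2 * π))),
      Tendsto (fun r : ℝ => ‖f (circleMap 0 r θ)‖) (𝓝[<] 1) (𝓝 (F θ)))
    (hF : ∀ θ, F θ ≤ Real.exp (-g θ)) :
    ‖f 0‖ ≤ Real.exp (-((2 * π)⁻¹ * ∫ θ in (0 : ℝ)..2 * π, g θ)) := by
  rcases eq_or_ne (f 0) 0 with h0 | h0
  · rw [h0, norm_zero]; exact (Real.exp_pos _).le
  have hfpos : 0 < ‖f 0‖ := norm_pos_iff.2 h0
  rw [← Real.log_le_iff_le_exp hfpos]
  have hpi : (0 : ℝ) < 2 * π := by positivity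
  set δ : ℝ := Real.exp (-C) with hδ
  have hδ0 : 0 < δ := Real.exp_pos _
  have hB0 : 0 < B := hfpos.trans_le (hB 0 (by simp))
  -- the truncated functions
  set G : ℝ → ℝ → ℝ := fun r θ => Real.log (max ‖f (circleMap 0 r θ)‖ δ) with hG
  have hmem : ∀ r : ℝ, 0 < r → r < 1 → ∀ θ, circleMap 0 r θ ∈ Metric.ball (0 : ℂ) 1 := by
    intro r hr hr1 θ
    simp [abs_of_pos hr, hr1]
  have hcont : ∀ r : ℝ, 0 < r → r < 1 → Continuous (fun θ : ℝ => f (circleMap 0 r θ)) := by
    intro r hr hr1
    exact hf.continuousOn.comp_continuous (continuous_circleMap 0 r) (hmem r hr hr1)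
  have hGcont : ∀ r : ℝ, 0 < r → r < 1 → Continuous (G r) := by
    intro r hr hr1
    have := (hcont r hr hr1).norm.max (continuous_const (y := δ))
    exact this.log fun θ => (lt_max_of_lt_right hδ0).ne'
  have hlow : ∀ r : ℝ, 0 < r → r < 1 →
      Real.log ‖f 0‖ ≤ (2 * π)⁻¹ * ∫ θ in (0 : ℝ)..2 * π, G r θ := by
    intro r hr hr1
    have han : AnalyticOnNhd ℂ f (Metric.closedBall 0 r) := by
      intro z hz
      have hz1 : z ∈ Metric.ball (0 : ℂ) 1 :=
        Metric.mem_ball.2 (lt_of_le_of_lt (Metric.mem_closedBall.1 hz) hr1)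
      exact hf.analyticAt (Metric.isOpen_ball.mem_nhds hz1)
    have h1 := log_norm_le_circleAverage hr han h0
    refine h1.trans ?_
    unfold Real.circleAverage
    rw [smul_eq_mul]
    refine mul_le_mul_of_nonneg_left ?_ (by positivity)
    refine intervalIntegral.integral_mono_ae_restrict hpi.le ?_
      ((hGcont r hr hr1).intervalIntegrable _ _) ?_
    · have : MeromorphicOn f (Metric.sphere 0 |r|) := by
        rw [abs_of_pos hr]
        exact (han.mono Metric.sphere_subset_closedBall).meromorphicOn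
      exact this.circleIntegrable_log_norm
    · have := ae_circleMap_ne_zero hr han h0
      rw [uIoc_of_le hpi.le, restrict_Ioc_eq_restrict_Icc] at this
      filter_upwards [this] with θ hz
      exact Real.log_le_log (norm_pos_iff.2 hz) (le_max_left _ _)
  -- the limit
  have hlimint : Tendsto (fun r : ℝ => ∫ θ in (0 : ℝ)..2 * π, G r θ) (𝓝[<] 1)
      (𝓝 (∫ θ in (0 : ℝ)..2 * π, Real.log (max (F θ) δ))) := by
    have hnear : ∀ᶠ r : ℝ in 𝓝[<] 1, 0 < r ∧ r < 1 := by
      have h1 : ∀ᶠ r : ℝ in 𝓝[<] 1, r ∈ Ioo (0 : ℝ) 1 := Ioo_mem_nhdsLT one_pos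
      exact h1.mono fun r hr => hr
    refine intervalIntegral.tendsto_integral_filter_of_dominated_convergence
      (fun _ => |Real.log δ| + |Real.log (max B δ)|) ?_ ?_ (by simp) ?_
    · filter_upwards [hnear] with r hr
      exact (hGcont r hr.1 hr.2).aestronglyMeasurable
    · filter_upwards [hnear] with r hr
      refine Eventually.of_forall fun θ _ => ?_
      have h1 : Real.log δ ≤ G r θ := Real.log_le_log hδ0 (le_max_right _ _)
      have h2 : G r θ ≤ Real.log (max B δ) :=
        Real.log_le_log (lt_max_of_lt_right hδ0)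
          (max_le_max_right _ (hB _ (hmem r hr.1 hr.2 θ)))
      rw [Real.norm_eq_abs, abs_le]
      constructor
      · have := neg_abs_le (Real.log δ)
        have := abs_nonneg (Real.log (max B δ))
        linarith
      · have := le_abs_self (Real.log (max B δ))
        have := abs_nonneg (Real.log δ)
        linarith
    · rw [← ae_restrict_iff' measurableSet_uIoc]
      filter_upwards [hlim] with θ hθ
      have : Tendsto (fun r : ℝ => max ‖f (circleMap 0 r θ)‖ δ) (𝓝[<] 1) (𝓝 (max (F θ) δ)) :=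
        hθ.max tendsto_const_nhds
      exact this.log (lt_max_of_lt_right hδ0).ne'
  have hle : Real.log ‖f 0‖ ≤ (2 * π)⁻¹ * ∫ θ in (0 : ℝ)..2 * π, Real.log (max (F θ) δ) := by
    refine ge_of_tendsto (hlimint.const_mul _) ?_
    have h1 : ∀ᶠ r : ℝ in 𝓝[<] 1, r ∈ Ioo (0 : ℝ) 1 := Ioo_mem_nhdsLT one_pos
    filter_upwards [h1] with r hr
    exact hlow r hr.1 hr.2
  refine hle.trans ?_
  rw [← mul_neg, ← intervalIntegral.integral_neg]
  refine mul_le_mul_of_nonneg_left ?_ (by positivity)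
  have hbdd : ∀ (u : ℝ → ℝ), Measurable u → (∀ θ, |u θ| ≤ C) →
      IntervalIntegrable u volume 0 (2 * π) := by
    intro u hu hb
    refine (intervalIntegrable_const (c := C)).mono_fun hu.aestronglyMeasurable ?_
    refine Eventually.of_forall fun θ => ?_
    exact (hb θ).trans (le_abs_self C)
  have hFb : ∀ θ, |Real.log (max (F θ) δ)| ≤ C := by
    intro θ
    rw [abs_le]
    constructor
    · have := Real.log_le_log hδ0 (le_max_right (F θ) δ)
      rwa [hδ, Real.log_exp] at this
    · have h1 : max (F θ) δ ≤ Real.exp C := by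
        refine max_le ((hF θ).trans (Real.exp_le_exp.2 ?_)) (Real.exp_le_exp.2 ?_)
        · have := (abs_le.1 (hC θ)).1
          linarith
        · have := (abs_nonneg _).trans (hC θ)
          linarith
      have := Real.log_le_log (lt_max_of_lt_right hδ0) h1
      rwa [Real.log_exp] at this
  have hFlim : IntervalIntegrable (fun θ => Real.log (max (F θ) δ)) volume 0 (2 * π) :=
    hbdd _ (Real.measurable_log.comp (hFm.max measurable_const)) hFb
  have hgint : IntervalIntegrable (fun θ => -g θ) volume 0 (2 * π) :=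
    hbdd _ hg.neg fun θ => by simpa using hC θ
  refine intervalIntegral.integral_mono_on hpi.le hFlim hgint fun θ _ => ?_
  have h1 : max (F θ) δ ≤ Real.exp (-g θ) := by
    refine max_le (hF θ) (Real.exp_le_exp.2 ?_)
    have := (abs_le.1 (hC θ)).2
    linarith
  calc Real.log (max (F θ) δ) ≤ Real.log (Real.exp (-g θ)) :=
        Real.log_le_log (lt_max_of_lt_right hδ0) h1
    _ = -g θ := Real.log_exp _

/-- change of variables `ν = y + σ tan (θ / 2)` -/
theorem integral_tan_half (k : ℝ → ℝ) :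
    ∫ θ in (0 : ℝ)..2 * π, k (Real.tan (θ / 2)) = 2 * ∫ x, k x * (1 / (1 + x ^ 2)) := by
  have h1 : ∫ θ in (0 : ℝ)..2 * π, k (Real.tan (θ / 2)) = 2 * ∫ u in (0 : ℝ)..π, k (Real.tan u) := by
    rw [intervalIntegral.integral_comp_div (fun u => k (Real.tan u)) two_ne_zero]
    simp
  have h2 : ∫ u in (0 : ℝ)..π, k (Real.tan u) = ∫ u in (-(π / 2))..(π / 2), k (Real.tan u) := by
    have hper : Function.Periodic (fun u => k (Real.tan u)) π := fun u => by
      simp only [Real.tan_periodic u]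
    have := hper.intervalIntegral_add_eq 0 (-(π / 2))
    rw [zero_add] at this
    rw [this]
    congr 1
    ring
  have h3 : ∫ u in (-(π / 2))..(π / 2), k (Real.tan u) = ∫ x, k x * (1 / (1 + x ^ 2)) := by
    have hle : -(π / 2) ≤ π / 2 := by linarith [Real.pi_pos]
    rw [intervalIntegral.integral_of_le hle, integral_Ioc_eq_integral_Ioo, ← Real.range_arctan,
      ← image_univ]
    rw [integral_image_eq_integral_abs_deriv_smul MeasurableSet.univ
      (fun x _ => (Real.hasDerivAt_arctan x).hasDerivWithinAt) Real.arctan_injective.injOn]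
    rw [Measure.restrict_univ]
    refine integral_congr_ae (Eventually.of_forall fun x => ?_)
    simp only [Real.tan_arctan, smul_eq_mul]
    rw [abs_of_pos (by positivity)]
    ring
  rw [h1, h2, h3]

theorem integral_poi_eq (h : ℝ → ℝ) {σ : ℝ} (hσ : 0 < σ) (y : ℝ) :
    ∫ ν, h ν * poi σ y ν = (2 * π)⁻¹ * ∫ θ in (0 : ℝ)..2 * π, h (y + σ * Real.tan (θ / 2)) := by
  rw [integral_tan_half (fun x => h (y + σ * x))]
  have h1 : ∫ ν, h ν * poi σ y ν = ∫ ν, h (y + ν) * poi σ y (y + ν) := by
    rw [integral_add_left_eq_self (fun ν => h ν * poi σ y ν) y]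
  have h2 : ∫ ν, h (y + ν) * poi σ y (y + ν) = σ * ∫ x, h (y + σ * x) * poi σ y (y + σ * x) := by
    rw [Measure.integral_comp_mul_left (fun ν => h (y + ν) * poi σ y (y + ν)) σ]
    rw [smul_eq_mul, abs_of_pos (inv_pos.2 hσ), ← mul_assoc, mul_inv_cancel₀ hσ.ne', one_mul]
  rw [h1, h2, ← integral_const_mul, mul_inv_rev, mul_comm (π⁻¹) (2⁻¹ : ℝ), mul_assoc,
    ← mul_assoc _ 2 _, mul_comm (π⁻¹) 2, mul_assoc, ← mul_assoc 2⁻¹ 2, inv_mul_cancel₀ two_ne_zero,
    one_mul, ← integral_const_mul]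
  refine integral_congr_ae (Eventually.of_forall fun x => ?_)
  simp only [poi]
  have : (1 : ℝ) + x ^ 2 ≠ 0 := by positivity
  field_simp
  ring

/-- Jensen's inequality in the left half plane. -/
theorem norm_expSum_le_exp_neg_integral (N : ℕ) (c : ℕ → ℂ) {h : ℝ → ℝ} (hm : Measurable h)
    {C : ℝ} (hC : ∀ ν, |h ν| ≤ C)
    (hh : ∀ ν : ℝ, ‖expSum N c (I * ν)‖ ≤ Real.exp (-h ν)) {σ : ℝ} (hσ : 0 < σ) (y : ℝ) :
    ‖expSum N c (-σ + I * y)‖ ≤ Real.exp (-∫ ν, h ν * poi σ y ν) := by
  set φ : ℂ → ℂ := fun z => I * y - σ * ((1 - z) / (1 + z)) with hφ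
  set f : ℂ → ℂ := fun z => expSum N c (φ z) with hf
  have hne : ∀ z ∈ Metric.ball (0 : ℂ) 1, 1 + z ≠ 0 := by
    intro z hz h0
    have : z = -1 := by linear_combination h0
    rw [this] at hz
    simp at hz
  have hre : ∀ z ∈ Metric.ball (0 : ℂ) 1, (φ z).re ≤ 0 := by
    intro z hz
    have hz1 : ‖z‖ < 1 := by simpa using hz
    have hnz := hne z hz
    have h1 : ((1 - z) / (1 + z)).re = (1 - ‖z‖ ^ 2) / ‖1 + z‖ ^ 2 := by
      rw [div_re, ← normSq_eq_norm_sq (1 + z), ← add_div, ← normSq_eq_norm_sq z]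
      congr 1
      simp [normSq_apply]
      ring
    have h2 : 0 ≤ ((1 - z) / (1 + z)).re := by
      rw [h1]
      apply div_nonneg _ (by positivity)
      nlinarith [norm_nonneg z]
    simp only [hφ, sub_re, mul_re, I_re, ofReal_re, zero_mul, I_im, ofReal_im, mul_zero, sub_zero,
      sub_self, zero_sub]
    nlinarith
  have hdiff : DifferentiableOn ℂ f (Metric.ball 0 1) := by
    refine (differentiable_expSum N c).comp_differentiableOn ?_
    intro z hz
    have := hne z hz
    apply DifferentiableAt.differentiableWithinAt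
    simp only [hφ]
    fun_prop (disch := exact this)
  have hcirc : ∀ θ : ℝ, φ (circleMap 0 1 θ) = I * ((y + σ * Real.tan (θ / 2) : ℝ) : ℂ) := by
    intro θ
    have hcm : circleMap 0 1 θ = exp (θ * I) := by simp [circleMap]
    have e1 : exp (θ * I) = exp ((θ / 2 : ℝ) * I) ^ 2 := by
      rw [← Complex.exp_nat_mul]
      congr 1
      push_cast
      ring
    have e2 : exp ((θ / 2 : ℝ) * I) = (Real.cos (θ / 2) : ℂ) + (Real.sin (θ / 2) : ℂ) * I := by
      rw [exp_mul_I, ofReal_cos, ofReal_sin]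
    have e3 : (Real.cos (θ / 2) : ℂ) ^ 2 + (Real.sin (θ / 2) : ℂ) ^ 2 = 1 := by
      rw [← ofReal_pow, ← ofReal_pow, ← ofReal_add, Real.cos_sq_add_sin_sq, ofReal_one]
    simp only [hφ]
    rw [hcm, e1, e2, Real.tan_eq_sin_div_cos]
    push_cast [-ofReal_cos, -ofReal_sin]
    generalize (Real.cos (θ / 2) : ℂ) = a at e3 ⊢
    generalize (Real.sin (θ / 2) : ℂ) = b at e3 ⊢
    have n1 : 1 - (a + b * I) ^ 2 = -(2 * b * I) * (a + b * I) := by
      have : (1 : ℂ) = a ^ 2 + b ^ 2 := e3.symm
      calc 1 - (a + b * I) ^ 2 = (a ^ 2 + b ^ 2) - (a + b * I) ^ 2 := by rw [e3]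
        _ = -(2 * b * I) * (a + b * I) := by ring_nf; simp; ring
    have n2 : 1 + (a + b * I) ^ 2 = 2 * a * (a + b * I) := by
      calc 1 + (a + b * I) ^ 2 = (a ^ 2 + b ^ 2) + (a + b * I) ^ 2 := by rw [e3]
        _ = 2 * a * (a + b * I) := by ring_nf; simp
    have n3 : a + b * I ≠ 0 := by
      intro h0
      have : (a + b * I) * (a - b * I) = 1 := by
        calc (a + b * I) * (a - b * I) = a ^ 2 + b ^ 2 := by ring_nf; simp
          _ = 1 := e3
      rw [h0, zero_mul] at this
      exact zero_ne_one this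
    rw [n1, n2, mul_div_mul_right _ _ n3]
    rcases eq_or_ne a 0 with ha | ha
    · simp [ha]
    · field_simp
      ring
  have key := norm_le_exp_neg_average (f := f) (B := ∑ m ∈ Finset.range N, ‖c m‖) hdiff
    (fun z hz => norm_expSum_le N c (hre z hz))
    (g := fun θ => h (y + σ * Real.tan (θ / 2))) ?_ (C := C) (fun θ => hC _)
    (F := fun θ => ‖f (circleMap 0 1 θ)‖) ?_ ?_ ?_
  · rw [integral_poi_eq h hσ y]
    convert key using 3
    simp [hφ]
    ring
  · have htan : Measurable Real.tan := by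
      have : Real.tan = fun x => Real.sin x / Real.cos x := by
        funext x; exact Real.tan_eq_sin_div_cos x
      rw [this]
      fun_prop
    exact hm.comp (measurable_const.add (measurable_const.mul
      (htan.comp (measurable_id.div_const 2))))
  · have h1 : Measurable f := by
      refine (differentiable_expSum N c).continuous.measurable.comp ?_
      simp only [hφ]
      fun_prop
    exact (h1.comp (continuous_circleMap 0 1).measurable).norm
  · have hnull : ∀ᵐ θ ∂(volume.restrict (uIoc (0 : ℝ) (2 * π))), θ ≠ π := by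
      refine ae_restrict_of_ae ?_
      exact Measure.ae_ne volume π
    have hmem : ∀ᵐ θ ∂(volume.restrict (uIoc (0 : ℝ) (2 * π))), θ ∈ uIoc (0 : ℝ) (2 * π) :=
      ae_restrict_mem measurableSet_uIoc
    filter_upwards [hnull, hmem] with θ hθ hθ2
    have hne1 : 1 + circleMap 0 1 θ ≠ 0 := by
      rw [uIoc_of_le (by positivity)] at hθ2
      intro h0
      have hcm : circleMap 0 1 θ = exp (θ * I) := by simp [circleMap]
      have h1 : exp (θ * I) = -1 := by rw [← hcm]; linear_combination h0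
      have h2 : (exp (θ * I)).re = -1 := by rw [h1]; simp
      rw [exp_ofReal_mul_I_re] at h2
      have h3 : (exp (θ * I)).im = 0 := by rw [h1]; simp
      rw [exp_ofReal_mul_I_im] at h3
      obtain ⟨k, hk⟩ := Real.cos_eq_neg_one_iff.1 h2
      have hpi := Real.pi_pos
      have hk0 : k = 0 := by
        have h4 : (-1 : ℝ) < k := by
          have := hθ2.1
          nlinarith
        have h5 : (k : ℝ) < 1 := by
          have := hθ2.2
          nlinarith
        have h4' : (-1 : ℤ) < k := by exact_mod_cast h4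
        have h5' : k < (1 : ℤ) := by exact_mod_cast h5
        omega
      rw [hk0] at hk
      exact hθ (by simpa using hk.symm)
    have hcont : ContinuousAt f (circleMap 0 1 θ) := by
      refine (differentiable_expSum N c).continuous.continuousAt.comp ?_
      simp only [hφ]
      fun_prop (disch := exact hne1)
    have h2 : Tendsto (fun r : ℝ => circleMap 0 r θ) (𝓝[<] 1) (𝓝 (circleMap 0 1 θ)) := by
      have : Continuous (fun r : ℝ => circleMap 0 r θ) := by
        unfold circleMap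
        fun_prop
      exact (this.tendsto 1).mono_left nhdsWithin_le_nhds
    exact (hcont.tendsto.comp h2).norm
  · intro θ
    simp only [hf]
    rw [hcirc θ]
    exact hh _

/-- Jensen's inequality at the centre of the disc `z = exp s` (i.e. at `s = -∞`). -/
theorem norm_coeff_zero_le {N : ℕ} (hN : 0 < N) (c : ℕ → ℂ) {h : ℝ → ℝ} (hm : Measurable h)
    {C : ℝ} (hC : ∀ ν, |h ν| ≤ C)
    (hh : ∀ ν : ℝ, ‖expSum N c (I * ν)‖ ≤ Real.exp (-h ν)) :
    ‖c 0‖ ≤ Real.exp (-((2 * π)⁻¹ * ∫ θ in (0 : ℝ)..2 * π, h θ)) := by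
  set f : ℂ → ℂ := fun z => ∑ m ∈ Finset.range N, c m * z ^ m with hf
  have hfc : Continuous f := by fun_prop
  have hfd : Differentiable ℂ f := by fun_prop
  have hf0 : f 0 = c 0 := by
    simp only [hf]
    rw [Finset.sum_eq_single 0]
    · simp
    · intro m _ hm0; simp [hm0]
    · intro h; exact absurd (Finset.mem_range.2 hN) h
  have hcirc : ∀ θ : ℝ, f (circleMap 0 1 θ) = expSum N c (I * θ) := by
    intro θ
    simp only [hf, expSum, circleMap, zero_add, ofReal_one, one_mul]
    refine Finset.sum_congr rfl fun m _ => ?_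
    rw [← Complex.exp_nat_mul]
    congr 2
    ring
  rw [← hf0]
  refine norm_le_exp_neg_average (B := ∑ m ∈ Finset.range N, ‖c m‖) hfd.differentiableOn ?_ hm hC
    (F := fun θ => ‖f (circleMap 0 1 θ)‖) ?_ ?_ ?_
  · intro z hz
    have hz1 : ‖z‖ ≤ 1 := by
      have : ‖z‖ < 1 := by simpa using hz
      exact this.le
    refine (norm_sum_le _ _).trans (Finset.sum_le_sum fun m _ => ?_)
    rw [norm_mul, norm_pow]
    exact mul_le_of_le_one_right (norm_nonneg _) (pow_le_one₀ (norm_nonneg _) hz1)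
  · exact (hfc.comp (continuous_circleMap 0 1)).norm.measurable
  · refine Eventually.of_forall fun θ => ?_
    have h2 : Tendsto (fun r : ℝ => circleMap 0 r θ) (𝓝[<] 1) (𝓝 (circleMap 0 1 θ)) := by
      have : Continuous (fun r : ℝ => circleMap 0 r θ) := by
        unfold circleMap
        fun_prop
      exact (this.tendsto 1).mono_left nhdsWithin_le_nhds
    exact ((hfc.tendsto _).comp h2).norm
  · intro θ
    rw [hcirc θ]
    exact hh θ

end Crest.Agent.R300
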