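import Crest.Agent.R300.An1

/-!
# Row 300, analysis part 2: the threshold lemma
-/

open MeasureTheory Complex Set Filter Topology
open scoped Real

namespace Crest.Agent.R300

theorem poi_pos {σ : ℝ} (hσ : 0 < σ) (y ν : ℝ) : 0 < poi σ y ν := by
  unfold poi
  have := Real.pi_pos
  positivity

theorem continuous_poi {σ : ℝ} (hσ : 0 < σ) (y : ℝ) : Continuous (poi σ y) := by
  unfold poi
  have : ∀ ν : ℝ, σ ^ 2 + (ν - y) ^ 2 ≠ 0 := fun ν => by positivity
  fun_prop (disch := exact this _)

/-- primitive of the Poisson kernel -/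
theorem hasDerivAt_poi_prim {σ : ℝ} (hσ : 0 < σ) (y ν : ℝ) :
    HasDerivAt (fun ν => π⁻¹ * Real.arctan ((ν - y) / σ)) (poi σ y ν) ν := by
  have h1 : HasDerivAt (fun ν : ℝ => (ν - y) / σ) (1 / σ) ν :=
    ((hasDerivAt_id ν).sub_const y).div_const σ
  have h2 := (h1.arctan).const_mul (π⁻¹)
  refine h2.congr_deriv ?_
  unfold poi
  have := Real.pi_pos
  field_simp

theorem intervalIntegral_poi {σ : ℝ} (hσ : 0 < σ) (y a b : ℝ) :
    ∫ ν in a..b, poi σ y ν
      = π⁻¹ * Real.arctan ((b - y) / σ) - π⁻¹ * Real.arctan ((a - y) / σ) :=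
  intervalIntegral.integral_eq_sub_of_hasDerivAt (fun ν _ => hasDerivAt_poi_prim hσ y ν)
    ((continuous_poi hσ y).intervalIntegrable _ _)

theorem integral_poi {σ : ℝ} (hσ : 0 < σ) (y : ℝ) : ∫ ν, poi σ y ν = 1 := by
  have := integral_poi_eq (fun _ => 1) hσ y
  simp only [one_mul] at this
  rw [this]
  simp
  field_simp

theorem integrable_poi {σ : ℝ} (hσ : 0 < σ) (y : ℝ) : Integrable (poi σ y) := by
  by_contra h
  have := integral_undef h
  rw [integral_poi hσ y] at this
  exact one_ne_zero this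

/-- symmetric comparison of kernels: this is where the slope `√5` of the wedge enters -/
theorem poi_compare {σ y : ℝ} (hσ : 0 < σ) (hy : y ^ 2 ≤ 5 * σ ^ 2) (x : ℝ) :
    2 * ((σ / (2 * π)) / (σ ^ 2 + x ^ 2 / 4)) ≤ 3 * (poi σ y x + poi σ y (-x)) := by
  unfold poi
  have hpi := Real.pi_pos
  have e1 : 0 < σ ^ 2 + x ^ 2 / 4 := by positivity
  have e2 : 0 < σ ^ 2 + (x - y) ^ 2 := by positivity
  have e3 : 0 < σ ^ 2 + (-x - y) ^ 2 := by positivity
  have key : 1 / (σ ^ 2 + x ^ 2 / 4)
      ≤ 3 * (1 / (σ ^ 2 + (x - y) ^ 2) + 1 / (σ ^ 2 + (-x - y) ^ 2)) := by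
    rw [div_add_div _ _ e2.ne' e3.ne', ← mul_div_assoc, div_le_div_iff₀ e1 (by positivity)]
    nlinarith [sq_nonneg (x * y), mul_nonneg (sub_nonneg.2 hy) (sq_nonneg σ), sq_nonneg x,
      mul_nonneg (sub_nonneg.2 hy) (sq_nonneg x), mul_nonneg (sub_nonneg.2 hy) (sq_nonneg y),
      sq_nonneg (σ ^ 2), sq_nonneg (x ^ 2), mul_nonneg (sq_nonneg σ) (sq_nonneg x)]
  have e4 : 0 < σ / π := by positivity
  calc 2 * ((σ / (2 * π)) / (σ ^ 2 + x ^ 2 / 4)) = (σ / π) * (1 / (σ ^ 2 + x ^ 2 / 4)) := by
        field_simp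
    _ ≤ (σ / π) * (3 * (1 / (σ ^ 2 + (x - y) ^ 2) + 1 / (σ ^ 2 + (-x - y) ^ 2))) :=
        mul_le_mul_of_nonneg_left key e4.le
    _ = _ := by field_simp

/-- almost all of the mass is in `[-R, R]` -/
theorem poi_mass {σ y R : ℝ} (hσ : 0 < σ) (hy : y ^ 2 ≤ 5 * σ ^ 2) (hR : 32 * σ ≤ R) :
    77 / 80 ≤ ∫ ν in (-R)..R, poi σ y ν := by
  have hpi := Real.pi_pos
  have hy' : |y| ≤ 3 * σ := by
    apply abs_le_of_sq_le_sq _ (by positivity)
    nlinarith
  rw [abs_le] at hy'
  have hat : ∀ t : ℝ, 29 ≤ t → π / 2 - 1 / 29 ≤ Real.arctan t := by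
    intro t ht
    have ht0 : 0 < t := by linarith
    have h1 := Real.arctan_inv_of_pos ht0
    have h2 : Real.arctan t⁻¹ ≤ t⁻¹ := by
      have h3 : (0 : ℝ) ≤ t⁻¹ := by positivity
      have h4 := Real.le_tan (x := Real.arctan t⁻¹) (by rwa [Real.arctan_nonneg])
        (Real.arctan_lt_pi_div_two _)
      rwa [Real.tan_arctan] at h4
    have h3 : t⁻¹ ≤ 1 / 29 := by
      rw [inv_eq_one_div]
      exact one_div_le_one_div_of_le (by norm_num) ht
    linarith
  rw [intervalIntegral_poi hσ]
  have h1 : 29 ≤ (R - y) / σ := by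
    rw [le_div_iff₀ hσ]; nlinarith [hy'.2]
  have h2 : 29 ≤ (R + y) / σ := by
    rw [le_div_iff₀ hσ]; nlinarith [hy'.1]
  have h3 : (-R - y) / σ = -((R + y) / σ) := by ring
  rw [h3, Real.arctan_neg]
  have h4 := hat _ h1
  have h5 := hat _ h2
  have h6 : π⁻¹ * (π - 2 / 29)
      ≤ π⁻¹ * Real.arctan ((R - y) / σ) - π⁻¹ * -Real.arctan ((R + y) / σ) := by
    rw [← mul_sub]
    refine mul_le_mul_of_nonneg_left ?_ (by positivity)
    linarith
  refine le_trans ?_ h6
  rw [mul_sub, inv_mul_cancel₀ hpi.ne']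
  have h7 : π⁻¹ ≤ 1 / 3 := by
    rw [inv_eq_one_div]
    exact one_div_le_one_div_of_le (by norm_num) (by linarith [Real.pi_gt_three])
  linarith

theorem poi_shift_le {σ y d : ℝ} (hσ : 0 < σ) (hy : y ^ 2 ≤ 5 * σ ^ 2) (hd : 0 ≤ d) :
    ∫ ν in (y - d / 2)..(y + d / 2), poi σ y ν ≤ 3 * ∫ ν in (-d)..d, poi σ y ν := by
  have h1 : ∫ ν in (y - d / 2)..(y + d / 2), poi σ y ν
      = ∫ x in (-d)..d, ((σ / (2 * π)) / (σ ^ 2 + x ^ 2 / 4)) := by
    have := intervalIntegral.integral_comp_mul_add (a := -d) (b := d) (fun ν => poi σ y ν)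
      (two_ne_zero' ℝ |> fun h => (inv_ne_zero h)) y
    have e1 : (2 : ℝ)⁻¹ * -d + y = y - d / 2 := by ring
    have e2 : (2 : ℝ)⁻¹ * d + y = y + d / 2 := by ring
    rw [e1, e2, inv_inv] at this
    have h2 : ∫ ν in (y - d / 2)..(y + d / 2), poi σ y ν
        = 2⁻¹ * ∫ x in (-d)..d, poi σ y (2⁻¹ * x + y) := by
      rw [this, smul_eq_mul, ← mul_assoc, inv_mul_cancel₀ two_ne_zero, one_mul]
    rw [h2, ← intervalIntegral.integral_const_mul]
    refine intervalIntegral.integral_congr fun x _ => ?_
    unfold poi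
    have hpi := Real.pi_pos
    have : σ ^ 2 + x ^ 2 / 4 ≠ 0 := by positivity
    simp only [add_sub_cancel_right]
    field_simp
    ring
  have h2 : ∫ ν in (-d)..d, poi σ y ν = ∫ ν in (-d)..d, poi σ y (-ν) := by
    have := intervalIntegral.integral_comp_neg (a := -d) (b := d) (fun ν => poi σ y ν)
    rw [this]; simp
  have hc := continuous_poi hσ y
  have h3 : 3 * ∫ ν in (-d)..d, poi σ y ν
      = ∫ ν in (-d)..d, (3 / 2) * (poi σ y ν + poi σ y (-ν)) := by
    have hc' : Continuous (fun ν => poi σ y (-ν)) := hc.comp continuous_neg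
    rw [intervalIntegral.integral_const_mul, intervalIntegral.integral_add
      (hc.intervalIntegrable _ _) (hc'.intervalIntegrable _ _), ← h2]
    ring
  rw [h1, h3]
  refine intervalIntegral.integral_mono_on (by linarith) ?_ ?_ fun x _ => ?_
  · apply Continuous.intervalIntegrable
    have : ∀ x : ℝ, σ ^ 2 + x ^ 2 / 4 ≠ 0 := fun x => by positivity
    fun_prop (disch := exact this _)
  · apply Continuous.intervalIntegrable
    exact continuous_const.mul (hc.add (hc.comp continuous_neg))
  · have := poi_compare hσ hy x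
    linarith

/-- the weight function of the threshold lemma -/
noncomputable def thr (a : ℝ → ℝ) (R d ν : ℝ) : ℝ :=
  if |ν| ≤ R then a ν + (if |ν| < d then 3 / 7 else 0) else 0

theorem measurable_thr {a : ℝ → ℝ} (ha : Measurable a) (R d : ℝ) : Measurable (thr a R d) := by
  unfold thr
  refine Measurable.ite ?_ (ha.add (Measurable.ite ?_ measurable_const measurable_const))
    measurable_const
  · exact measurableSet_le measurable_id.abs measurable_const
  · exact measurableSet_lt measurable_id.abs measurable_const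

/-- **threshold lemma**, integral form -/
theorem le_integral_thr {σ y R d : ℝ} (hσ : 0 < σ) (hy : y ^ 2 ≤ 5 * σ ^ 2) (hR : 32 * σ ≤ R)
    (hd : 0 ≤ d) {a : ℝ → ℝ} (ha : Measurable a) (ha0 : ∀ x, 0 ≤ a x) (ha1 : ∀ x, a x ≤ 2 / 7)
    (hpair : ∀ x, |x| ≤ R → |x + d| ≤ R → 2 / 7 ≤ a x + a (x + d)) :
    11 / 80 ≤ ∫ ν, thr a R d ν * poi σ y ν := by
  have hR0 : 0 < R := by linarith
  have hmass := poi_mass hσ hy hR
  have hc := continuous_poi hσ y
  have hP0 : ∀ ν, 0 ≤ poi σ y ν := fun ν => (poi_pos hσ y ν).le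
  -- integrability of `a * poi`
  have hint : ∀ (b : ℝ → ℝ), Measurable b → (∀ x, 0 ≤ b x) → (∀ x, b x ≤ 1) →
      Integrable (fun ν => b ν * poi σ y ν) := by
    intro b hb hb0 hb1
    refine (integrable_poi hσ y).mono (hb.mul hc.measurable).aestronglyMeasurable ?_
    refine Eventually.of_forall fun ν => ?_
    rw [norm_mul, Real.norm_eq_abs, abs_of_nonneg (hb0 ν)]
    exact mul_le_of_le_one_left (norm_nonneg _) (hb1 ν)
  have hthr0 : ∀ x, 0 ≤ thr a R d x := by
    intro x; unfold thr; split_ifs <;> linarith [ha0 x]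
  have hthr1 : ∀ x, thr a R d x ≤ 1 := by
    intro x; unfold thr; split_ifs <;> linarith [ha1 x]
  have hTint := hint _ (measurable_thr ha R d) hthr0 hthr1
  have haint := hint a ha ha0 (fun x => by linarith [ha1 x])
  rcases le_or_gt d R with hdR | hdR
  · -- main case
    have step1 : (∫ ν in (-R)..R, a ν * poi σ y ν) + (3 / 7) * ∫ ν in (-d)..d, poi σ y ν
        ≤ ∫ ν, thr a R d ν * poi σ y ν := by
      have e1 : ∫ ν in (-R)..R, a ν * poi σ y ν
          = ∫ ν, (Icc (-R) R).indicator (fun ν => a ν * poi σ y ν) ν := by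
        rw [integral_indicator measurableSet_Icc, intervalIntegral.integral_of_le (by linarith),
          integral_Icc_eq_integral_Ioc]
      have e2 : (3 / 7) * ∫ ν in (-d)..d, poi σ y ν
          = ∫ ν, (Ioo (-d) d).indicator (fun ν => (3 / 7) * poi σ y ν) ν := by
        rw [integral_indicator measurableSet_Ioo, intervalIntegral.integral_of_le (by linarith),
          integral_Ioc_eq_integral_Ioo, integral_const_mul]
      rw [e1, e2, ← integral_add (haint.indicator measurableSet_Icc)
        (((integrable_poi hσ y).const_mul _).indicator measurableSet_Ioo)]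
      refine (integral_congr_ae (Eventually.of_forall fun ν => ?_)).le
      simp only [indicator, mem_Icc, mem_Ioo, thr, abs_le, abs_lt]
      by_cases h1 : -R ≤ ν ∧ ν ≤ R
      · by_cases h2 : -d < ν ∧ ν < d
        · simp only [h1, h2, and_self, if_true]; ring
        · simp only [h1, h2, and_self, if_true, if_false]; ring
      · have h2 : ¬ (-d < ν ∧ ν < d) := fun h2 => h1 ⟨by linarith [h2.1], by linarith [h2.2]⟩
        simp only [h1, h2, if_false]; ring
    have step2 : (2 / 7) * ((∫ ν in (-R)..R, poi σ y ν) - ∫ ν in (y - d / 2)..(y + d / 2), poi σ y ν)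
        ≤ 2 * ∫ ν in (-R)..R, a ν * poi σ y ν := by
      have hy' : |y| ≤ 3 * σ := by
        apply abs_le_of_sq_le_sq _ (by positivity)
        nlinarith
      rw [abs_le] at hy'
      have hII : ∀ u v : ℝ, IntervalIntegrable (fun ν => a ν * poi σ y ν) volume u v :=
        fun u v => haint.intervalIntegrable
      have hIIP : ∀ u v : ℝ, IntervalIntegrable (poi σ y) volume u v :=
        fun u v => hc.intervalIntegrable u v
      have hshift : Integrable (fun ν => a (ν + d) * poi σ y (ν + d)) := haint.comp_add_right d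
      have hIIs : ∀ u v : ℝ, IntervalIntegrable (fun ν => a (ν + d) * poi σ y (ν + d)) volume u v :=
        fun u v => hshift.intervalIntegrable
      have hf0 : ∀ ν, 0 ≤ a ν * poi σ y ν := fun ν => mul_nonneg (ha0 ν) (hP0 ν)
      -- the two halves
      have p1 : ∫ ν in (-R)..(R - d), a ν * poi σ y ν ≤ ∫ ν in (-R)..R, a ν * poi σ y ν := by
        rw [← intervalIntegral.integral_add_adjacent_intervals (hII (-R) (R - d)) (hII (R - d) R)]
        have : 0 ≤ ∫ ν in (R - d)..R, a ν * poi σ y ν :=
          intervalIntegral.integral_nonneg (by linarith) fun ν _ => hf0 ν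
        linarith
      have p2 : ∫ ν in (-R)..(R - d), a (ν + d) * poi σ y (ν + d)
          ≤ ∫ ν in (-R)..R, a ν * poi σ y ν := by
        rw [intervalIntegral.integral_comp_add_right (fun ν => a ν * poi σ y ν) d]
        have e : R - d + d = R := by ring
        rw [e, ← intervalIntegral.integral_add_adjacent_intervals (hII (-R) (-R + d))
          (hII (-R + d) R)]
        have : 0 ≤ ∫ ν in (-R)..(-R + d), a ν * poi σ y ν :=
          intervalIntegral.integral_nonneg (by linarith) fun ν _ => hf0 ν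
        linarith
      have m1 : -R ≤ y - d / 2 := by linarith
      have m2 : y - d / 2 ≤ R - d := by linarith
      have q1 : (2 / 7) * ∫ ν in (-R)..(y - d / 2), poi σ y ν
          ≤ ∫ ν in (-R)..(y - d / 2), (a ν * poi σ y ν + a (ν + d) * poi σ y (ν + d)) := by
        rw [← intervalIntegral.integral_const_mul]
        refine intervalIntegral.integral_mono_on m1 ((hIIP _ _).const_mul _)
          ((hII _ _).add (hIIs _ _)) fun x hx => ?_
        have h1 := hpair x (abs_le.2 ⟨hx.1, by linarith [hx.2]⟩)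
          (abs_le.2 ⟨by linarith [hx.1], by linarith [hx.2]⟩)
        have h2 : poi σ y x ≤ poi σ y (x + d) := by
          unfold poi
          apply div_le_div_of_nonneg_left (by positivity) (by positivity)
          nlinarith [hx.2]
        nlinarith [ha0 x, ha0 (x + d), hP0 x, hP0 (x + d)]
      have q2 : (2 / 7) * ∫ ν in (y + d / 2)..R, poi σ y ν
          ≤ ∫ ν in (y - d / 2)..(R - d), (a ν * poi σ y ν + a (ν + d) * poi σ y (ν + d)) := by
        have e : ∫ ν in (y + d / 2)..R, poi σ y ν = ∫ ν in (y - d / 2)..(R - d), poi σ y (ν + d) := by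
          rw [intervalIntegral.integral_comp_add_right (fun ν => poi σ y ν) d]
          congr 1 <;> ring
        have hcs : Continuous (fun ν => poi σ y (ν + d)) := hc.comp (continuous_add_const d)
        rw [e, ← intervalIntegral.integral_const_mul]
        refine intervalIntegral.integral_mono_on m2 ((hcs.intervalIntegrable _ _).const_mul _)
          ((hII _ _).add (hIIs _ _)) fun x hx => ?_
        have h1 := hpair x (abs_le.2 ⟨by linarith [hx.1], by linarith [hx.2]⟩)
          (abs_le.2 ⟨by linarith [hx.1], by linarith [hx.2]⟩)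
        have h2 : poi σ y (x + d) ≤ poi σ y x := by
          unfold poi
          apply div_le_div_of_nonneg_left (by positivity) (by positivity)
          nlinarith [hx.1]
        nlinarith [ha0 x, ha0 (x + d), hP0 x, hP0 (x + d)]
      have s1 : (∫ ν in (-R)..(y - d / 2), (a ν * poi σ y ν + a (ν + d) * poi σ y (ν + d)))
          + ∫ ν in (y - d / 2)..(R - d), (a ν * poi σ y ν + a (ν + d) * poi σ y (ν + d))
          = (∫ ν in (-R)..(R - d), a ν * poi σ y ν)
            + ∫ ν in (-R)..(R - d), a (ν + d) * poi σ y (ν + d) := by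
        rw [intervalIntegral.integral_add_adjacent_intervals ((hII _ _).add (hIIs _ _))
          ((hII _ _).add (hIIs _ _)), intervalIntegral.integral_add (hII _ _) (hIIs _ _)]
      have s2 : ∫ ν in (-R)..R, poi σ y ν = (∫ ν in (-R)..(y - d / 2), poi σ y ν)
          + (∫ ν in (y - d / 2)..(y + d / 2), poi σ y ν) + ∫ ν in (y + d / 2)..R, poi σ y ν := by
        rw [intervalIntegral.integral_add_adjacent_intervals (hIIP _ _) (hIIP _ _),
          intervalIntegral.integral_add_adjacent_intervals (hIIP _ _) (hIIP _ _)]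
      rw [s2]
      linarith
    have step3 := poi_shift_le hσ hy hd
    linarith
  · have step1 : (3 / 7) * (∫ ν in (-R)..R, poi σ y ν)
        ≤ ∫ ν, thr a R d ν * poi σ y ν := by
      have e2 : (3 / 7) * ∫ ν in (-R)..R, poi σ y ν
          = ∫ ν, (Ioo (-R) R).indicator (fun ν => (3 / 7) * poi σ y ν) ν := by
        rw [integral_indicator measurableSet_Ioo, intervalIntegral.integral_of_le (by linarith),
          integral_Ioc_eq_integral_Ioo, integral_const_mul]
      rw [e2]
      refine integral_mono (((integrable_poi hσ y).const_mul _).indicator measurableSet_Ioo)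
        hTint fun ν => ?_
      simp only [indicator, mem_Ioo, thr, abs_le, abs_lt]
      by_cases h1 : -R < ν ∧ ν < R
      · have h2 : -R ≤ ν ∧ ν ≤ R := ⟨h1.1.le, h1.2.le⟩
        have h3 : -d < ν ∧ ν < d := ⟨by linarith [h1.1], by linarith [h1.2]⟩
        simp only [h1, h2, h3, and_self, if_true]
        nlinarith [ha0 ν, hP0 ν]
      · simp only [h1, if_false]
        exact mul_nonneg (hthr0 ν |> fun h => by simpa [thr, abs_le, abs_lt] using h) (hP0 ν)
    linarith

/-- **threshold theorem** (one level of the recursion, analytic core). -/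
theorem threshold_halfplane {N : ℕ} {c : ℕ → ℂ} {K A σ y R d : ℝ} (hK : 1 ≤ K) (hA : 0 ≤ A)
    (hσ : 0 < σ) (hy : y ^ 2 ≤ 5 * σ ^ 2) (hR : 32 * σ ≤ R)
    (hd : 0 ≤ d) {a : ℝ → ℝ} (ha : Measurable a) (ha0 : ∀ x, 0 ≤ a x) (ha1 : ∀ x, a x ≤ 2 / 7)
    (hpair : ∀ x, |x| ≤ R → |x + d| ≤ R → 2 / 7 ≤ a x + a (x + d))
    (h1 : ∀ ν : ℝ, ‖expSum N c (I * ν)‖ ≤ K)
    (h2 : ∀ ν : ℝ, |ν| ≤ R → ‖expSum N c (I * ν)‖ ≤ K * Real.exp (-(A * a ν)))
    (h3 : ∀ ν : ℝ, |ν| ≤ R → |ν| < d →
      ‖expSum N c (I * ν)‖ ≤ K * Real.exp (-(A * (a ν + 3 / 7)))) :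
    ‖expSum N c (-σ + I * y)‖ ≤ K * Real.exp (-(11 / 80 * A)) := by
  have hK0 : 0 < K := by linarith
  have hthr0 : ∀ x, 0 ≤ thr a R d x := by
    intro x; unfold thr; split_ifs <;> linarith [ha0 x]
  have hthr1 : ∀ x, thr a R d x ≤ 1 := by
    intro x; unfold thr; split_ifs <;> linarith [ha1 x]
  have hc := continuous_poi hσ y
  set h : ℝ → ℝ := fun ν => A * thr a R d ν - Real.log K with hh
  have hmeas : Measurable h := (measurable_const.mul (measurable_thr ha R d)).sub_const _
  have hlogK : 0 ≤ Real.log K := Real.log_nonneg hK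
  have hbd : ∀ ν, |h ν| ≤ A + Real.log K := by
    intro ν
    rw [abs_le]
    constructor
    · have := mul_nonneg hA (hthr0 ν)
      simp only [hh]; linarith
    · have := mul_le_mul_of_nonneg_left (hthr1 ν) hA
      simp only [hh]; linarith
  have hbound : ∀ ν : ℝ, ‖expSum N c (I * ν)‖ ≤ Real.exp (-h ν) := by
    intro ν
    have e : Real.exp (-h ν) = K * Real.exp (-(A * thr a R d ν)) := by
      rw [hh, show -(A * thr a R d ν - Real.log K) = Real.log K + -(A * thr a R d ν) by ring,
        Real.exp_add, Real.exp_log hK0]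
    rw [e]
    unfold thr
    split_ifs with c1 c2
    · exact h3 ν c1 c2
    · simpa using h2 ν c1
    · simpa using h1 ν
  have key := norm_expSum_le_exp_neg_integral N c hmeas hbd hbound hσ y
  refine key.trans ?_
  have hthrint : Integrable (fun ν => thr a R d ν * poi σ y ν) := by
    refine (integrable_poi hσ y).mono ((measurable_thr ha R d).mul hc.measurable).aestronglyMeasurable ?_
    refine Eventually.of_forall fun ν => ?_
    rw [norm_mul, Real.norm_eq_abs, abs_of_nonneg (hthr0 ν)]
    exact mul_le_of_le_one_left (norm_nonneg _) (hthr1 ν)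
  have e1 : ∫ ν, h ν * poi σ y ν = A * (∫ ν, thr a R d ν * poi σ y ν) - Real.log K := by
    have : ∀ ν, h ν * poi σ y ν = A * (thr a R d ν * poi σ y ν) - Real.log K * poi σ y ν := by
      intro ν; simp only [hh]; ring
    simp_rw [this]
    rw [integral_sub (hthrint.const_mul _) ((integrable_poi hσ y).const_mul _),
      integral_const_mul, integral_const_mul, integral_poi hσ y, mul_one]
  rw [e1]
  have h4 := le_integral_thr hσ hy hR hd ha ha0 ha1 hpair
  calc Real.exp (-(A * (∫ ν, thr a R d ν * poi σ y ν) - Real.log K))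
      ≤ Real.exp (Real.log K + -(11 / 80 * A)) := by
        apply Real.exp_le_exp.2
        nlinarith
    _ = K * Real.exp (-(11 / 80 * A)) := by rw [Real.exp_add, Real.exp_log hK0]

/-- Jensen at the centre, with the interval `[-π, π]`. -/
theorem norm_coeff_zero_le' {N : ℕ} (hN : 0 < N) (c : ℕ → ℂ) {h : ℝ → ℝ} (hm : Measurable h)
    {C : ℝ} (hC : ∀ ν, |h ν| ≤ C)
    (hh : ∀ ν : ℝ, |ν| ≤ π → ‖expSum N c (I * ν)‖ ≤ Real.exp (-h ν)) :
    ‖c 0‖ ≤ Real.exp (-((2 * π)⁻¹ * ∫ θ in (-π)..π, h θ)) := by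
  have hpi := Real.pi_pos
  set B : ℝ := ∑ m ∈ Finset.range N, ‖c m‖ with hB
  have hB0 : 0 ≤ B := Finset.sum_nonneg fun _ _ => norm_nonneg _
  have hC0 : 0 ≤ C := (abs_nonneg _).trans (hC 0)
  set C₂ : ℝ := Real.log (B + 1) with hC₂
  have hC₂0 : 0 ≤ C₂ := Real.log_nonneg (by linarith)
  set g : ℝ → ℝ := fun θ => if θ ∈ Icc 0 π then h θ else
    if θ ∈ Ioc π (2 * π) then h (θ - 2 * π) else -C₂ with hg
  have hgm : Measurable g := by
    refine Measurable.ite measurableSet_Icc hm (Measurable.ite measurableSet_Ioc ?_ measurable_const)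
    exact hm.comp (measurable_id.sub_const _)
  have hgC : ∀ θ, |g θ| ≤ C + C₂ := by
    intro θ
    simp only [hg]
    split_ifs
    · linarith [hC θ]
    · linarith [hC (θ - 2 * π)]
    · rw [abs_neg, abs_of_nonneg hC₂0]; linarith
  have hgb : ∀ θ : ℝ, ‖expSum N c (I * θ)‖ ≤ Real.exp (-g θ) := by
    intro θ
    simp only [hg]
    split_ifs with c1 c2
    · exact hh θ (abs_le.2 ⟨by linarith [c1.1], c1.2⟩)
    · have h1 := hh (θ - 2 * π) (abs_le.2 ⟨by linarith [c2.1], by linarith [c2.2]⟩)
      have h2 : expSum N c (I * ((θ - 2 * π : ℝ) : ℂ)) = expSum N c (I * θ) := by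
        unfold expSum
        refine Finset.sum_congr rfl fun m _ => ?_
        congr 1
        have : I * ((θ - 2 * π : ℝ) : ℂ) * m = I * θ * m - (m : ℤ) * (2 * π * I) := by
          push_cast; ring
        rw [this, exp_sub, exp_int_mul_two_pi_mul_I, div_one]
      rw [← h2]; exact h1
    · rw [neg_neg, hC₂, Real.exp_log (by linarith)]
      have := norm_expSum_le N c (s := I * θ) (by simp)
      linarith
  have key := norm_coeff_zero_le hN c hgm hgC hgb
  have hint : ∀ u v : ℝ, IntervalIntegrable h volume u v := by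
    intro u v
    refine (intervalIntegrable_const (c := C)).mono_fun hm.aestronglyMeasurable ?_
    refine Eventually.of_forall fun θ => ?_
    exact (hC θ).trans (le_abs_self C)
  have hgint : ∀ u v : ℝ, IntervalIntegrable g volume u v := by
    intro u v
    refine (intervalIntegrable_const (c := C + C₂)).mono_fun hgm.aestronglyMeasurable ?_
    refine Eventually.of_forall fun θ => ?_
    exact (hgC θ).trans (le_abs_self _)
  have e1 : ∫ θ in (0 : ℝ)..2 * π, g θ = ∫ θ in (-π)..π, h θ := by
    rw [← intervalIntegral.integral_add_adjacent_intervals (hgint 0 π) (hgint π (2 * π))]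
    have a1 : ∫ θ in (0 : ℝ)..π, g θ = ∫ θ in (0 : ℝ)..π, h θ := by
      refine intervalIntegral.integral_congr fun θ hθ => ?_
      rw [uIcc_of_le hpi.le] at hθ
      simp only [hg, if_pos hθ]
    have a2 : ∫ θ in π..2 * π, g θ = ∫ θ in π..2 * π, h (θ - 2 * π) := by
      refine intervalIntegral.integral_congr_ae (Eventually.of_forall fun θ hθ => ?_)
      rw [uIoc_of_le (by linarith)] at hθ
      have : θ ∉ Icc 0 π := fun h' => absurd h'.2 (not_le.2 hθ.1)
      simp only [hg, if_neg this, if_pos hθ]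
    rw [a1, a2, intervalIntegral.integral_comp_sub_right (fun θ => h θ) (2 * π)]
    have b1 : π - 2 * π = -π := by ring
    have b2 : 2 * π - 2 * π = 0 := by ring
    rw [b1, b2, add_comm, intervalIntegral.integral_add_adjacent_intervals (hint _ _) (hint _ _)]
  rwa [e1] at key

/-- **final level**: the first coefficient -/
theorem threshold_final {N : ℕ} (hN : 0 < N) {c : ℕ → ℂ} {K A d : ℝ} (hK : 1 ≤ K) (hA : 0 ≤ A)
    (hd : 0 ≤ d) {a : ℝ → ℝ} (ha : Measurable a) (ha0 : ∀ x, 0 ≤ a x) (ha1 : ∀ x, a x ≤ 2 / 7)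
    (hpair : ∀ x, |x| ≤ π → |x + d| ≤ π → 2 / 7 ≤ a x + a (x + d))
    (h2 : ∀ ν : ℝ, |ν| ≤ π → ‖expSum N c (I * ν)‖ ≤ K * Real.exp (-(A * a ν)))
    (h3 : ∀ ν : ℝ, |ν| ≤ π → |ν| < d →
      ‖expSum N c (I * ν)‖ ≤ K * Real.exp (-(A * (a ν + 3 / 7)))) :
    ‖c 0‖ ≤ K * Real.exp (-(A / 7)) := by
  have hpi := Real.pi_pos
  have hK0 : 0 < K := by linarith
  have hlogK : 0 ≤ Real.log K := Real.log_nonneg hK
  set b : ℝ → ℝ := fun ν => a ν + (if |ν| < d then 3 / 7 else 0) with hb
  have hbm : Measurable b := ha.add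
    (Measurable.ite (measurableSet_lt measurable_id.abs measurable_const)
      measurable_const measurable_const)
  have hb0 : ∀ x, 0 ≤ b x := by
    intro x; simp only [hb]; split_ifs <;> linarith [ha0 x]
  have hb1 : ∀ x, b x ≤ 1 := by
    intro x; simp only [hb]; split_ifs <;> linarith [ha1 x]
  set h : ℝ → ℝ := fun ν => A * b ν - Real.log K with hh
  have hmeas : Measurable h := (measurable_const.mul hbm).sub_const _
  have hbd : ∀ ν, |h ν| ≤ A + Real.log K := by
    intro ν
    rw [abs_le]
    constructor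
    · have := mul_nonneg hA (hb0 ν)
      simp only [hh]; linarith
    · have := mul_le_mul_of_nonneg_left (hb1 ν) hA
      simp only [hh]; linarith
  have hbound : ∀ ν : ℝ, |ν| ≤ π → ‖expSum N c (I * ν)‖ ≤ Real.exp (-h ν) := by
    intro ν hν
    have e : Real.exp (-h ν) = K * Real.exp (-(A * b ν)) := by
      rw [hh, show -(A * b ν - Real.log K) = Real.log K + -(A * b ν) by ring,
        Real.exp_add, Real.exp_log hK0]
    rw [e]
    simp only [hb]
    split_ifs with c2
    · exact h3 ν hν c2
    · simpa using h2 ν hν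
  have key := norm_coeff_zero_le' hN c hmeas hbd hbound
  refine key.trans ?_
  have hint : ∀ (g : ℝ → ℝ), Measurable g → (∀ x, 0 ≤ g x) → (∀ x, g x ≤ 1) → ∀ u v : ℝ,
      IntervalIntegrable g volume u v := by
    intro g hg hg0 hg1 u v
    refine (intervalIntegrable_const (c := (1 : ℝ))).mono_fun hg.aestronglyMeasurable ?_
    refine Eventually.of_forall fun θ => ?_
    show |g θ| ≤ |(1 : ℝ)|
    rw [abs_of_nonneg (hg0 θ), abs_one]
    exact hg1 θ
  have hia := hint a ha ha0 (fun x => by linarith [ha1 x])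
  have hib := hint b hbm hb0 hb1
  have e1 : ∫ ν in (-π)..π, h ν = A * (∫ ν in (-π)..π, b ν) - 2 * π * Real.log K := by
    simp only [hh]
    rw [intervalIntegral.integral_sub ((hib _ _).const_mul _) intervalIntegrable_const,
      intervalIntegral.integral_const_mul, intervalIntegral.integral_const, smul_eq_mul]
    ring
  have e2 : 2 * π / 7 ≤ ∫ ν in (-π)..π, b ν := by
    rcases le_or_gt π d with hdπ | hdπ
    · have : ∫ ν in (-π)..π, (3 / 7 : ℝ) ≤ ∫ ν in (-π)..π, b ν := by
        refine intervalIntegral.integral_mono_ae_restrict (by linarith) intervalIntegrable_const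
          (hib _ _) ?_
        have hne : ∀ᵐ θ ∂(volume.restrict (Icc (-π) π)), θ ≠ π :=
          ae_restrict_of_ae (Measure.ae_ne volume π)
        have hne' : ∀ᵐ θ ∂(volume.restrict (Icc (-π) π)), θ ≠ -π :=
          ae_restrict_of_ae (Measure.ae_ne volume (-π))
        filter_upwards [hne, hne', ae_restrict_mem measurableSet_Icc] with ν n1 n2 n3
        have : |ν| < d := by
          refine lt_of_lt_of_le (abs_lt.2 ⟨lt_of_le_of_ne n3.1 (Ne.symm n2), lt_of_le_of_ne n3.2 n1⟩) hdπ
        simp only [hb, if_pos this]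
        linarith [ha0 ν]
      rw [intervalIntegral.integral_const, smul_eq_mul] at this
      linarith
    · have hiI : ∀ u v : ℝ, IntervalIntegrable (fun ν : ℝ => if |ν| < d then (3 / 7 : ℝ) else 0)
          volume u v := by
        refine hint _ (Measurable.ite (measurableSet_lt measurable_id.abs measurable_const)
          measurable_const measurable_const) ?_ ?_
        · intro x; split_ifs <;> norm_num
        · intro x; split_ifs <;> norm_num
      have f1 : ∫ ν in (-π)..π, b ν = (∫ ν in (-π)..π, a ν)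
          + ∫ ν in (-π)..π, (if |ν| < d then (3 / 7 : ℝ) else 0) := by
        simp only [hb]
        rw [intervalIntegral.integral_add (hia _ _) (hiI _ _)]
      have f2 : (6 / 7) * d ≤ ∫ ν in (-π)..π, (if |ν| < d then (3 / 7 : ℝ) else 0) := by
        have g1 : ∫ ν in (-d)..d, (3 / 7 : ℝ)
            ≤ ∫ ν in (-d)..d, (if |ν| < d then (3 / 7 : ℝ) else 0) := by
          refine intervalIntegral.integral_mono_ae_restrict (by linarith) intervalIntegrable_const
            (hiI _ _) ?_
          have hne : ∀ᵐ θ ∂(volume.restrict (Icc (-d) d)), θ ≠ d :=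
            ae_restrict_of_ae (Measure.ae_ne volume d)
          have hne' : ∀ᵐ θ ∂(volume.restrict (Icc (-d) d)), θ ≠ -d :=
            ae_restrict_of_ae (Measure.ae_ne volume (-d))
          filter_upwards [hne, hne', ae_restrict_mem measurableSet_Icc] with ν n1 n2 n3
          have : |ν| < d :=
            abs_lt.2 ⟨lt_of_le_of_ne n3.1 (Ne.symm n2), lt_of_le_of_ne n3.2 n1⟩
          simp [if_pos this]
        have g2 : ∫ ν in (-d)..d, (if |ν| < d then (3 / 7 : ℝ) else 0)
            ≤ ∫ ν in (-π)..π, (if |ν| < d then (3 / 7 : ℝ) else 0) := by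
          refine intervalIntegral.integral_mono_interval (by linarith) (by linarith) (by linarith)
            (Eventually.of_forall fun x => ?_) (hiI _ _)
          simp only [Pi.zero_apply]
          split_ifs <;> norm_num
        rw [intervalIntegral.integral_const, smul_eq_mul] at g1
        linarith
      have f3 : (1 / 7) * (2 * π - d) ≤ ∫ ν in (-π)..π, a ν := by
        have has : ∀ u v : ℝ, IntervalIntegrable (fun ν => a (ν + d)) volume u v :=
          hint _ (ha.comp (measurable_id.add_const d)) (fun x => ha0 _)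
            (fun x => by linarith [ha1 (x + d)])
        have p1 : ∫ ν in (-π)..(π - d), a ν ≤ ∫ ν in (-π)..π, a ν :=
          intervalIntegral.integral_mono_interval le_rfl (by linarith) (by linarith)
            (Eventually.of_forall fun x => ha0 x) (hia _ _)
        have p2 : ∫ ν in (-π)..(π - d), a (ν + d) ≤ ∫ ν in (-π)..π, a ν := by
          rw [intervalIntegral.integral_comp_add_right (fun ν => a ν) d]
          exact intervalIntegral.integral_mono_interval (by linarith) (by linarith) (by linarith)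
            (Eventually.of_forall fun x => ha0 x) (hia _ _)
        have p3 : ∫ ν in (-π)..(π - d), (2 / 7 : ℝ) ≤ ∫ ν in (-π)..(π - d), (a ν + a (ν + d)) := by
          refine intervalIntegral.integral_mono_on (by linarith) intervalIntegrable_const
            ((hia _ _).add (has _ _)) fun x hx => ?_
          exact hpair x (abs_le.2 ⟨hx.1, by linarith [hx.2]⟩)
            (abs_le.2 ⟨by linarith [hx.1], by linarith [hx.2]⟩)
        rw [intervalIntegral.integral_const, smul_eq_mul,
          intervalIntegral.integral_add (hia _ _) (has _ _)] at p3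
        linarith
      rw [f1]
      linarith
  rw [e1]
  calc Real.exp (-((2 * π)⁻¹ * (A * (∫ ν in (-π)..π, b ν) - 2 * π * Real.log K)))
      ≤ Real.exp (Real.log K + -(A / 7)) := by
        apply Real.exp_le_exp.2
        have h5 : (2 * π)⁻¹ * (A * (∫ ν in (-π)..π, b ν) - 2 * π * Real.log K)
            = (2 * π)⁻¹ * (A * (∫ ν in (-π)..π, b ν)) - Real.log K := by
          field_simp
        rw [h5]
        have h6 : (2 * π)⁻¹ * (A * (2 * π / 7)) ≤ (2 * π)⁻¹ * (A * (∫ ν in (-π)..π, b ν)) :=
          mul_le_mul_of_nonneg_left (mul_le_mul_of_nonneg_left e2 hA) (by positivity)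
        have h7 : (2 * π)⁻¹ * (A * (2 * π / 7)) = A / 7 := by
          field_simp
        linarith
    _ = K * Real.exp (-(A / 7)) := by rw [Real.exp_add, Real.exp_log hK0]

end Crest.Agent.R300
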