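import Crest.Agent.R300.An2

/-!
# Row 300, analysis part 3: chain of divisions and passage from the grid to the line

Base number `ϱ ∈ (0,1)`; the precision of the data is `ε = ϱ ^ 7`, the threshold is `ϱ ^ 2`.
-/

open MeasureTheory Complex Set Filter Topology
open scoped Real ComplexConjugate

namespace Crest.Agent.R300

/-- one division step of the chain -/
theorem chain_step {E E' Eh T : ℂ} {ϱ δ : ℝ} (hϱ : 0 < ϱ) (hE : ϱ ^ 2 ≤ ‖E‖) (hE' : ϱ ^ 2 ≤ ‖E'‖)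
    (hT : ‖T - E' * conj E‖ ≤ ϱ ^ 7) (hEh : ‖Eh - E‖ ≤ δ * ‖E‖) (hδ : δ ≤ 1 / 2) :
    ‖T / conj Eh - E'‖ ≤ (δ + ϱ ^ 3) * (1 + 2 * δ) * ‖E'‖ := by
  have h2 : 0 < ϱ ^ 2 := by positivity
  have hE0 : 0 < ‖E‖ := h2.trans_le hE
  have hE'0 : 0 < ‖E'‖ := h2.trans_le hE'
  have hδ0 : 0 ≤ δ := by
    by_contra h
    push Not at h
    have := mul_neg_of_neg_of_pos h hE0
    linarith [norm_nonneg (Eh - E)]
  have hEhn : (1 - δ) * ‖E‖ ≤ ‖Eh‖ := by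
    have h3 : ‖E‖ ≤ ‖Eh‖ + ‖Eh - E‖ := by
      calc ‖E‖ = ‖Eh - (Eh - E)‖ := by congr 1; ring
        _ ≤ ‖Eh‖ + ‖Eh - E‖ := norm_sub_le _ _
    linarith
  have hEh0 : 0 < ‖Eh‖ := lt_of_lt_of_le (mul_pos (by linarith) hE0) hEhn
  have hconj : conj Eh ≠ 0 := by
    rw [Ne, map_eq_zero]
    exact norm_pos_iff.1 hEh0
  have e1 : T / conj Eh - E' = ((T - E' * conj E) + E' * conj (E - Eh)) / conj Eh := by
    rw [map_sub]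
    field_simp
    ring
  rw [e1, norm_div, RCLike.norm_conj]
  rw [div_le_iff₀ hEh0]
  have n1 : ‖(T - E' * conj E) + E' * conj (E - Eh)‖ ≤ ϱ ^ 7 + ‖E'‖ * (δ * ‖E‖) := by
    refine (norm_add_le _ _).trans (add_le_add hT ?_)
    rw [norm_mul, RCLike.norm_conj, norm_sub_rev]
    exact mul_le_mul_of_nonneg_left hEh (norm_nonneg _)
  have n2 : ϱ ^ 7 ≤ ϱ ^ 3 * (‖E'‖ * ‖E‖) := by
    have : ϱ ^ 2 * ϱ ^ 2 ≤ ‖E'‖ * ‖E‖ := mul_le_mul hE' hE (by positivity) (by positivity)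
    calc ϱ ^ 7 = ϱ ^ 3 * (ϱ ^ 2 * ϱ ^ 2) := by ring
      _ ≤ _ := mul_le_mul_of_nonneg_left this (by positivity)
  have n3 : (δ + ϱ ^ 3) * (‖E'‖ * ‖E‖) ≤ (δ + ϱ ^ 3) * (1 + 2 * δ) * ‖E'‖ * ‖Eh‖ := by
    have h5 : ‖E‖ ≤ (1 + 2 * δ) * ‖Eh‖ := by
      have : 1 ≤ (1 + 2 * δ) * (1 - δ) := by nlinarith
      calc ‖E‖ = 1 * ‖E‖ := (one_mul _).symm
        _ ≤ ((1 + 2 * δ) * (1 - δ)) * ‖E‖ := mul_le_mul_of_nonneg_right this hE0.le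
        _ = (1 + 2 * δ) * ((1 - δ) * ‖E‖) := by ring
        _ ≤ _ := mul_le_mul_of_nonneg_left hEhn (by linarith)
    have h6 : 0 ≤ (δ + ϱ ^ 3) * ‖E'‖ := by positivity
    nlinarith [mul_le_mul_of_nonneg_left h5 h6]
  calc _ ≤ ϱ ^ 7 + ‖E'‖ * (δ * ‖E‖) := n1
    _ ≤ (δ + ϱ ^ 3) * (‖E'‖ * ‖E‖) := by nlinarith
    _ ≤ _ := n3

/-- relative errors along the chain -/
theorem chain_error {ϱ : ℝ} (hϱ : 0 < ϱ) {kd : ℕ} {E Eh T : ℕ → ℂ}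
    (hE : ∀ k < kd, ϱ ^ 2 ≤ ‖E k‖)
    (h0 : 0 < kd → ‖Eh 0 - E 0‖ ≤ 2 * ϱ ^ 3 * ‖E 0‖)
    (hT : ∀ k, k + 1 < kd → ‖T k - E (k + 1) * conj (E k)‖ ≤ ϱ ^ 7)
    (hEh : ∀ k, k + 1 < kd → Eh (k + 1) = T k / conj (Eh k))
    (hsmall : 8 * ((kd : ℝ) + 1) ^ 2 * ϱ ^ 3 ≤ 1) :
    ∀ k < kd, ‖Eh k - E k‖ ≤ 2 * (k + 1) * ϱ ^ 3 * ‖E k‖ := by
  have h3 : 0 < ϱ ^ 3 := by positivity
  intro k
  induction k with
  | zero =>
    intro hk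
    have := h0 hk
    simpa using this
  | succ k ih =>
    intro hk
    have ihk := ih (by omega)
    have hkd : ((k : ℝ) + 1) + 1 ≤ kd := by exact_mod_cast hk
    have hk0 : (0 : ℝ) ≤ k := Nat.cast_nonneg k
    set δ : ℝ := 2 * (k + 1) * ϱ ^ 3 with hδdef
    have hδ0 : 0 ≤ δ := by positivity
    have hsm : 8 * ((k : ℝ) + 2) ^ 2 * ϱ ^ 3 ≤ 1 := by
      refine le_trans ?_ hsmall
      have : ((k : ℝ) + 2) ^ 2 ≤ ((kd : ℝ) + 1) ^ 2 := by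
        apply pow_le_pow_left₀ (by positivity); linarith
      nlinarith
    have hδ1 : δ ≤ 1 / 2 := by
      rw [hδdef]; nlinarith
    have hstep := chain_step hϱ (hE k (by omega)) (hE (k + 1) hk) (hT k hk) ihk hδ1
    rw [hEh k hk]
    refine hstep.trans ?_
    refine mul_le_mul_of_nonneg_right ?_ (norm_nonneg _)
    push_cast
    have h5 : 2 * δ * (δ + ϱ ^ 3) ≤ ϱ ^ 3 := by
      have e : 2 * δ * (δ + ϱ ^ 3) = (4 * (k + 1) * (2 * k + 3) * ϱ ^ 3) * ϱ ^ 3 := by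
        rw [hδdef]; ring
      rw [e]
      refine mul_le_of_le_one_left h3.le ?_
      refine le_trans ?_ hsm
      nlinarith
    have : (δ + ϱ ^ 3) * (1 + 2 * δ) = δ + ϱ ^ 3 + 2 * δ * (δ + ϱ ^ 3) := by ring
    rw [this]
    have e2 : 2 * ((k : ℝ) + 1 + 1) * ϱ ^ 3 = δ + 2 * ϱ ^ 3 := by rw [hδdef]; ring
    rw [e2]
    linarith

/-- recovering a single value from a three-fold product -/
theorem recover_value {V E Eh T : ℂ} {ϱ δ w : ℝ} (hϱ : 0 < ϱ) (hE : ϱ ^ 2 ≤ ‖E‖)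
    (hT : ‖T - V * conj E‖ ≤ ϱ ^ 7) (hEh : ‖Eh - E‖ ≤ δ * ‖E‖) (hδ : δ ≤ 1 / 2)
    (hw : ϱ ^ 2 ≤ w) (hV : ‖V‖ ≤ 2 * w) :
    ‖T / conj Eh - V‖ ≤ (2 * ϱ ^ 3 + 4 * δ) * w := by
  have h2 : 0 < ϱ ^ 2 := by positivity
  have hE0 : 0 < ‖E‖ := h2.trans_le hE
  have hw0 : 0 < w := h2.trans_le hw
  have hδ0 : 0 ≤ δ := by
    by_contra h
    push Not at h
    have := mul_neg_of_neg_of_pos h hE0
    linarith [norm_nonneg (Eh - E)]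
  have hEhn : (1 - δ) * ‖E‖ ≤ ‖Eh‖ := by
    have h3 : ‖E‖ ≤ ‖Eh‖ + ‖Eh - E‖ := by
      calc ‖E‖ = ‖Eh - (Eh - E)‖ := by congr 1; ring
        _ ≤ ‖Eh‖ + ‖Eh - E‖ := norm_sub_le _ _
    linarith
  have hEhn2 : ‖E‖ ≤ 2 * ‖Eh‖ := by nlinarith
  have hEh0 : 0 < ‖Eh‖ := by linarith
  have hconj : conj Eh ≠ 0 := by
    rw [Ne, map_eq_zero]
    exact norm_pos_iff.1 hEh0
  have e1 : T / conj Eh - V = ((T - V * conj E) + V * conj (E - Eh)) / conj Eh := by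
    rw [map_sub]
    field_simp
    ring
  rw [e1, norm_div, RCLike.norm_conj, div_le_iff₀ hEh0]
  have n1 : ‖(T - V * conj E) + V * conj (E - Eh)‖ ≤ ϱ ^ 7 + ‖V‖ * (δ * ‖E‖) := by
    refine (norm_add_le _ _).trans (add_le_add hT ?_)
    rw [norm_mul, RCLike.norm_conj, norm_sub_rev]
    exact mul_le_mul_of_nonneg_left hEh (norm_nonneg _)
  have n2 : ϱ ^ 7 ≤ ϱ ^ 3 * (w * ‖E‖) := by
    have : ϱ ^ 2 * ϱ ^ 2 ≤ w * ‖E‖ := mul_le_mul hw hE (by positivity) hw0.le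
    calc ϱ ^ 7 = ϱ ^ 3 * (ϱ ^ 2 * ϱ ^ 2) := by ring
      _ ≤ _ := mul_le_mul_of_nonneg_left this (by positivity)
  have n3 : ‖V‖ * (δ * ‖E‖) ≤ 2 * w * (δ * ‖E‖) :=
    mul_le_mul_of_nonneg_right hV (by positivity)
  have n4 : (ϱ ^ 3 + 2 * δ) * (w * ‖E‖) ≤ (ϱ ^ 3 + 2 * δ) * (w * (2 * ‖Eh‖)) := by
    refine mul_le_mul_of_nonneg_left ?_ (by positivity)
    exact mul_le_mul_of_nonneg_left hEhn2 hw0.le
  calc _ ≤ ϱ ^ 7 + ‖V‖ * (δ * ‖E‖) := n1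
    _ ≤ (ϱ ^ 3 + 2 * δ) * (w * ‖E‖) := by nlinarith
    _ ≤ _ := n4
    _ = _ := by ring

end Crest.Agent.R300
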