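import Crest.Agent.R300.An2

/-!
# Row 300, analysis part 4: the averaging inequality for the pseudo-expectation decoder

* `claimB`: if `a(x) + a(x + k' η) ≥ G k` for some `k' ≤ k`, then on every interval
  `∫ a ≥ (1/2) ∫ G(⌊r/η⌋)`;
* `levelG_halfplane`, `levelG_final`: the level step (factor `20/3`, resp. `6`).
-/

open MeasureTheory Complex Set Filter Topology
open scoped Real

namespace Crest.Agent.R300

/-- the step function `r ↦ G ⌊r/η⌋` -/
noncomputable def stepG (G : ℕ → ℝ) (η r : ℝ) : ℝ := G ⌊r / η⌋₊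

theorem stepG_mono {G : ℕ → ℝ} (hG : Monotone G) {η : ℝ} (hη : 0 < η) : Monotone (stepG G η) :=
  fun _ _ hrs => hG (Nat.floor_mono (div_le_div_of_nonneg_right hrs hη.le))

theorem stepG_intervalIntegrable {G : ℕ → ℝ} (hG : Monotone G) {η : ℝ} (hη : 0 < η) (u v : ℝ) :
    IntervalIntegrable (stepG G η) volume u v :=
  (stepG_mono hG hη).intervalIntegrable

theorem measurable_stepG {G : ℕ → ℝ} (hG : Monotone G) {η : ℝ} (hη : 0 < η) :
    Measurable (stepG G η) := (stepG_mono hG hη).measurable

theorem stepG_le {G : ℕ → ℝ} {η B : ℝ} (hG : ∀ k, G k ≤ B) (r : ℝ) : stepG G η r ≤ B := hG _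

theorem stepG_nonneg {G : ℕ → ℝ} {η : ℝ} (hG : ∀ k, 0 ≤ G k) (r : ℝ) : 0 ≤ stepG G η r := hG _

/-- **Claim B**, continuous form. -/
theorem claimB {a : ℝ → ℝ} (ha : ∀ u v, IntervalIntegrable a volume u v) {G : ℕ → ℝ}
    (hG : Monotone G) {η R : ℝ} (hη : 0 < η)
    (hpair : ∀ k : ℕ, ∃ k' ≤ k, ∀ x : ℝ, |x| ≤ R → |x + k' * η| ≤ R → G k ≤ a x + a (x + k' * η))
    {u v : ℝ} (hu : -R ≤ u) (huv : u ≤ v) (hv : v ≤ R) :
    (1 / 2) * ∫ r in (0 : ℝ)..(v - u), stepG G η r ≤ ∫ x in u..v, a x := by
  have main : ∀ n : ℕ, ∀ u v : ℝ, -R ≤ u → u ≤ v → v ≤ R → v - u ≤ n * η →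
      (1 / 2) * ∫ r in (0 : ℝ)..(v - u), stepG G η r ≤ ∫ x in u..v, a x := by
    intro n
    induction n with
    | zero =>
      intro u v _ huv _ hl
      have : v = u := by
        simp at hl
        linarith
      rw [this]
      simp
    | succ n ih =>
      intro u v hu huv hv hl
      rcases le_or_gt (v - u) (n * η) with hle | hgt
      · exact ih u v hu huv hv hle
      obtain ⟨k', hk', hp⟩ := hpair n
      set h : ℝ := k' * η with hh
      have hk'' : (k' : ℝ) ≤ n := by exact_mod_cast hk'
      have hh0 : 0 ≤ h := by positivity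
      have hhn : h ≤ n * η := by
        rw [hh]; exact mul_le_mul_of_nonneg_right hk'' hη.le
      have hhl : h ≤ v - u := by linarith
      -- first pieces
      have i1 := ih u (u + h) hu (by linarith) (by linarith) (by linarith)
      have i2 := ih (v - h) v (by linarith) (by linarith) hv (by linarith)
      rw [show u + h - u = h by ring] at i1
      rw [show v - (v - h) = h by ring] at i2
      have i3 : ∫ x in u..(v - h), (a x + a (x + h)) = (∫ x in u..(v - h), a x)
          + ∫ x in (u + h)..v, a x := by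
        rw [intervalIntegral.integral_add (ha _ _)]
        · congr 1
          rw [intervalIntegral.integral_comp_add_right (fun x => a x) h]
          congr 1
          ring
        · have := (ha (u + h) v).comp_add_right h
          simpa using this
      have i4 : (v - h - u) * G n ≤ ∫ x in u..(v - h), (a x + a (x + h)) := by
        have : ∫ x in u..(v - h), G n ≤ ∫ x in u..(v - h), (a x + a (x + h)) := by
          refine intervalIntegral.integral_mono_on (by linarith) intervalIntegrable_const ?_ ?_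
          · refine (ha _ _).add ?_
            have := (ha (u + h) v).comp_add_right h
            simpa using this
          · intro x hx
            refine hp x ?_ ?_
            · rw [abs_le]; exact ⟨by linarith [hx.1], by linarith [hx.2]⟩
            · rw [abs_le]; exact ⟨by linarith [hx.1], by linarith [hx.2]⟩
        simpa using this
      have i5 := intervalIntegral.integral_add_adjacent_intervals (ha u (v - h)) (ha (v - h) v)
      have i6 := intervalIntegral.integral_add_adjacent_intervals (ha u (u + h)) (ha (u + h) v)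
      have i7 := intervalIntegral.integral_add_adjacent_intervals
        (stepG_intervalIntegrable hG hη 0 h) (stepG_intervalIntegrable hG hη h (v - u))
      have i8 : ∫ r in h..(v - u), stepG G η r ≤ (v - u - h) * G n := by
        have : ∫ r in h..(v - u), stepG G η r ≤ ∫ r in h..(v - u), G n := by
          refine intervalIntegral.integral_mono_on_of_le_Ioo hhl
            (stepG_intervalIntegrable hG hη _ _) intervalIntegrable_const ?_
          intro r hr
          refine hG ?_
          have : r / η < n + 1 := by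
            rw [div_lt_iff₀ hη]
            have h2 := hr.2
            push_cast at hl
            linarith
          have h0 : 0 ≤ r / η := div_nonneg (by linarith [hr.1]) hη.le
          have := (Nat.floor_lt h0).2 (by exact_mod_cast this : r / η < ((n + 1 : ℕ) : ℝ))
          omega
        simpa using this
      linarith
  obtain ⟨n, hn⟩ := exists_nat_ge ((v - u) / η)
  exact main n u v hu huv hv (by rwa [div_le_iff₀ hη] at hn)

/-- Abel summation: positivity of primitives is inherited by decreasing weights. -/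
theorem abel_nonneg {f u : ℝ → ℝ} {T : ℝ} (hT : 0 ≤ T) (hf : ContDiff ℝ 1 f)
    (hf' : ∀ t ∈ Icc 0 T, deriv f t ≤ 0) (hfT : 0 ≤ f T) (hu : IntervalIntegrable u volume 0 T)
    (hU : ∀ t ∈ Icc 0 T, 0 ≤ ∫ s in (0 : ℝ)..t, u s) :
    0 ≤ ∫ t in (0 : ℝ)..T, f t * u t := by
  set U : ℝ → ℝ := fun t => ∫ s in (0 : ℝ)..t, u s with hUdef
  have hUac : AbsolutelyContinuousOnInterval U 0 T :=
    hu.absolutelyContinuousOnInterval_intervalIntegral (c := 0) (by simp)
  have hfac : AbsolutelyContinuousOnInterval f 0 T :=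
    hf.contDiffOn.absolutelyContinuousOnInterval
  have key := hfac.integral_mul_deriv_eq_deriv_mul hUac
  have e1 : ∫ t in (0 : ℝ)..T, f t * u t = ∫ t in (0 : ℝ)..T, f t * deriv U t := by
    refine intervalIntegral.integral_congr_ae ?_
    filter_upwards [hu.ae_hasDerivAt_integral] with t ht ht2
    have := (ht (uIoc_subset_uIcc ht2) 0 (by simp)).deriv
    rw [this]
  rw [e1, key]
  have hU0 : U 0 = 0 := by simp [hUdef]
  rw [hU0, mul_zero, sub_zero]
  have h1 : 0 ≤ f T * U T := mul_nonneg hfT (hU T ⟨hT, le_refl _⟩)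
  have h2 : ∫ t in (0 : ℝ)..T, deriv f t * U t ≤ 0 := by
    have : ∫ t in (0 : ℝ)..T, deriv f t * U t ≤ ∫ t in (0 : ℝ)..T, (0 : ℝ) := by
      refine intervalIntegral.integral_mono_on hT ?_ intervalIntegrable_const ?_
      · exact hfac.intervalIntegrable_deriv.mul_continuousOn hUac.continuousOn
      · intro t ht
        exact mul_nonpos_of_nonpos_of_nonneg (hf' t ht) (hU t ht)
    simpa using this
  linarith

/-- the centred kernel -/
noncomputable def qk (σ t : ℝ) : ℝ := (σ / π) / (σ ^ 2 + t ^ 2)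

theorem poi_add {σ y t : ℝ} : poi σ y (y + t) = qk σ t := by
  unfold poi qk
  simp

theorem poi_sub {σ y t : ℝ} : poi σ y (y - t) = qk σ t := by
  unfold poi qk
  simp


theorem qk_pos {σ : ℝ} (hσ : 0 < σ) (t : ℝ) : 0 < qk σ t := by
  unfold qk
  have := Real.pi_pos
  positivity

theorem contDiff_qk {σ : ℝ} (hσ : 0 < σ) : ContDiff ℝ 1 (qk σ) := by
  unfold qk
  have : ∀ t : ℝ, σ ^ 2 + t ^ 2 ≠ 0 := fun t => by positivity
  fun_prop (disch := exact this _)

theorem deriv_qk_nonpos {σ : ℝ} (hσ : 0 < σ) {t : ℝ} (ht : 0 ≤ t) : deriv (qk σ) t ≤ 0 := by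
  have hpi := Real.pi_pos
  have h0 : σ ^ 2 + t ^ 2 ≠ 0 := by positivity
  have h1 : HasDerivAt (fun t : ℝ => σ ^ 2 + t ^ 2) (2 * t) t := by
    have := (hasDerivAt_pow 2 t).const_add (σ ^ 2)
    simpa using this
  have h2 : HasDerivAt (qk σ) (-(σ / π) * (2 * t) / (σ ^ 2 + t ^ 2) ^ 2) t := by
    have := (hasDerivAt_const t (σ / π)).div h1 h0
    refine this.congr_deriv ?_
    ring
  rw [h2.deriv]
  apply div_nonpos_of_nonpos_of_nonneg _ (by positivity)
  have : 0 ≤ σ / π * (2 * t) := by positivity
  linarith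

theorem half_stepG_le {a : ℝ → ℝ} (ha : ∀ u v, IntervalIntegrable a volume u v) {G : ℕ → ℝ}
    (hG : Monotone G) {η R : ℝ} (hη : 0 < η)
    (hpair : ∀ k : ℕ, ∃ k' ≤ k, ∀ x : ℝ, |x| ≤ R → |x + k' * η| ≤ R → G k ≤ a x + a (x + k' * η))
    {σ y T : ℝ} (hσ : 0 < σ) (hT : 0 ≤ T) (h1 : -R ≤ y - T) (h2 : y + T ≤ R) :
    ∫ t in (0 : ℝ)..T, qk σ t * stepG G η (2 * t) ≤ ∫ x in (y - T)..(y + T), a x * poi σ y x := by
  have hGi : ∀ u v, IntervalIntegrable (fun t => stepG G η (2 * t)) volume u v := by
    intro u v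
    have : Monotone (fun t => stepG G η (2 * t)) := fun r s hrs =>
      stepG_mono hG hη (mul_le_mul_of_nonneg_left hrs zero_le_two)
    exact this.intervalIntegrable
  have ha1 : ∀ u v, IntervalIntegrable (fun t => a (y + t)) volume u v := by
    intro u v
    have := (ha (u + y) (v + y)).comp_add_left y
    simpa using this
  have ha2 : ∀ u v, IntervalIntegrable (fun t => a (y - t)) volume u v := by
    intro u v
    have := (ha (y - u) (y - v)).comp_sub_left y
    simpa using this
  have hq : Continuous (qk σ) := (contDiff_qk hσ).continuous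
  have key := abel_nonneg (f := qk σ) (u := fun t => a (y + t) + a (y - t) - stepG G η (2 * t))
    hT (contDiff_qk hσ) (fun t ht => deriv_qk_nonpos hσ ht.1) (qk_pos hσ T).le
    (((ha1 _ _).add (ha2 _ _)).sub (hGi _ _)) ?_
  · have e0 : ∀ t, qk σ t * (a (y + t) + a (y - t) - stepG G η (2 * t))
        = a (y + t) * qk σ t + a (y - t) * qk σ t - qk σ t * stepG G η (2 * t) := by
      intro t; ring
    simp_rw [e0] at key
    rw [intervalIntegral.integral_sub, intervalIntegral.integral_add] at key
    · have e1 : ∫ t in (0 : ℝ)..T, a (y + t) * qk σ t = ∫ x in y..(y + T), a x * poi σ y x := by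
        have := intervalIntegral.integral_comp_add_left (a := 0) (b := T)
          (fun x => a x * poi σ y x) y
        simp only [poi_add, add_zero] at this
        exact this
      have e2 : ∫ t in (0 : ℝ)..T, a (y - t) * qk σ t = ∫ x in (y - T)..y, a x * poi σ y x := by
        have := intervalIntegral.integral_comp_sub_left (a := 0) (b := T)
          (fun x => a x * poi σ y x) y
        simp only [poi_sub, sub_zero] at this
        exact this
      have e3 := intervalIntegral.integral_add_adjacent_intervals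
        ((ha (y - T) y).mul_continuousOn (continuous_poi hσ y).continuousOn)
        ((ha y (y + T)).mul_continuousOn (continuous_poi hσ y).continuousOn)
      rw [e1, e2] at key
      rw [← e3]
      linarith
    · exact (ha1 _ _).mul_continuousOn hq.continuousOn
    · exact (ha2 _ _).mul_continuousOn hq.continuousOn
    · exact ((ha1 _ _).mul_continuousOn hq.continuousOn).add
        ((ha2 _ _).mul_continuousOn hq.continuousOn)
    · exact (hGi _ _).continuousOn_mul hq.continuousOn
  · intro t ht
    rw [intervalIntegral.integral_sub ((ha1 _ _).add (ha2 _ _)) (hGi _ _),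
      intervalIntegral.integral_add (ha1 _ _) (ha2 _ _)]
    have c := claimB ha hG hη hpair (u := y - t) (v := y + t) (by linarith [ht.2])
      (by linarith [ht.1]) (by linarith [ht.2])
    have e1 : ∫ s in (0 : ℝ)..t, a (y + s) = ∫ x in y..(y + t), a x := by
      have := intervalIntegral.integral_comp_add_left (a := 0) (b := t) (fun x => a x) y
      rwa [add_zero] at this
    have e2 : ∫ s in (0 : ℝ)..t, a (y - s) = ∫ x in (y - t)..y, a x := by
      have := intervalIntegral.integral_comp_sub_left (a := 0) (b := t) (fun x => a x) y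
      rwa [sub_zero] at this
    have e3 : ∫ s in (0 : ℝ)..t, stepG G η (2 * s)
        = (1 / 2) * ∫ r in (0 : ℝ)..(y + t - (y - t)), stepG G η r := by
      have := intervalIntegral.integral_comp_mul_left (a := 0) (b := t)
        (fun x => stepG G η x) (two_ne_zero (α := ℝ))
      rw [this, smul_eq_mul]
      congr 2
      · norm_num
      · ring
      · ring
    have e4 := intervalIntegral.integral_add_adjacent_intervals (ha (y - t) y) (ha y (y + t))
    rw [e1, e2, e3]
    linarith

/-- pointwise comparison; the slope `√7` of the wedge enters here -/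
theorem poi_compare' {σ y : ℝ} (hσ : 0 < σ) (hy : y ^ 2 ≤ 7 * σ ^ 2) (r : ℝ) :
    (1 / 2) * qk σ (r / 2) ≤ 2 * (poi σ y r + poi σ y (-r)) := by
  unfold poi qk
  have hpi := Real.pi_pos
  have e1 : 0 < σ ^ 2 + (r / 2) ^ 2 := by positivity
  have e2 : 0 < σ ^ 2 + (r - y) ^ 2 := by positivity
  have e3 : 0 < σ ^ 2 + (-r - y) ^ 2 := by positivity
  have key : 1 / (σ ^ 2 + (r / 2) ^ 2)
      ≤ 4 * (1 / (σ ^ 2 + (r - y) ^ 2) + 1 / (σ ^ 2 + (-r - y) ^ 2)) := by
    rw [div_add_div _ _ e2.ne' e3.ne', ← mul_div_assoc, div_le_div_iff₀ e1 (by positivity)]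
    have h1 : 0 ≤ (σ ^ 2 + r ^ 2 + y ^ 2) * (7 * σ ^ 2 + r ^ 2 - y ^ 2) := by
      apply mul_nonneg (by positivity)
      nlinarith [sq_nonneg r]
    nlinarith [sq_nonneg (r * y)]
  have e4 : 0 < σ / π := by positivity
  calc (1 / 2) * ((σ / π) / (σ ^ 2 + (r / 2) ^ 2))
      = (σ / π) * ((1 / 2) * (1 / (σ ^ 2 + (r / 2) ^ 2))) := by
        field_simp
    _ ≤ (σ / π) * ((1 / 2) * (4 * (1 / (σ ^ 2 + (r - y) ^ 2) + 1 / (σ ^ 2 + (-r - y) ^ 2)))) := by
        gcongr
    _ = _ := by field_simp; ring

/-- mass of the centred kernel on `[0, T]` -/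
theorem qk_mass {σ T : ℝ} (hσ : 0 < σ) (hT : 8 * σ ≤ T) :
    9 / 20 ≤ ∫ t in (0 : ℝ)..T, qk σ t := by
  have hpi := Real.pi_pos
  have h1 : ∀ t : ℝ, HasDerivAt (fun t => π⁻¹ * Real.arctan (t / σ)) (qk σ t) t := by
    intro t
    have h1 : HasDerivAt (fun ν : ℝ => ν / σ) (1 / σ) t := (hasDerivAt_id t).div_const σ
    have h2 := (h1.arctan).const_mul (π⁻¹)
    refine h2.congr_deriv ?_
    unfold qk
    field_simp
  rw [intervalIntegral.integral_eq_sub_of_hasDerivAt (fun t _ => h1 t)
    ((contDiff_qk hσ).continuous.intervalIntegrable _ _)]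
  simp only [zero_div, Real.arctan_zero, mul_zero, sub_zero]
  have ht : 8 ≤ T / σ := by rw [le_div_iff₀ hσ]; linarith
  have ht0 : 0 < T / σ := by linarith
  have h2 := Real.arctan_inv_of_pos ht0
  have h3 : Real.arctan (T / σ)⁻¹ ≤ (T / σ)⁻¹ := by
    have h3 : (0 : ℝ) ≤ (T / σ)⁻¹ := by positivity
    have h4 := Real.le_tan (x := Real.arctan (T / σ)⁻¹) (by rwa [Real.arctan_nonneg])
      (Real.arctan_lt_pi_div_two _)
    rwa [Real.tan_arctan] at h4
  have h4 : (T / σ)⁻¹ ≤ 1 / 8 := by
    rw [inv_eq_one_div]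
    exact one_div_le_one_div_of_le (by norm_num) ht
  have h5 : π / 2 - 1 / 8 ≤ Real.arctan (T / σ) := by linarith
  have h6 : π⁻¹ * (π / 2 - 1 / 8) ≤ π⁻¹ * Real.arctan (T / σ) :=
    mul_le_mul_of_nonneg_left h5 (by positivity)
  have h7 : π⁻¹ * (π / 2 - 1 / 8) = 1 / 2 - π⁻¹ / 8 := by field_simp
  have h8 : π⁻¹ ≤ 1 / 3 := by
    rw [inv_eq_one_div]
    exact one_div_le_one_div_of_le (by norm_num) (by linarith [Real.pi_gt_three])
  linarith

/-- **averaging inequality** on the half plane -/
theorem levelG_integral {A σ y R η : ℝ} (hA : 0 ≤ A) (hσ : 0 < σ) (hy : y ^ 2 ≤ 7 * σ ^ 2)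
    (hR : 16 * σ ≤ R) (hη : 0 < η) {a : ℝ → ℝ} (ha : Measurable a) (ha0 : ∀ x, 0 ≤ a x)
    (ha1 : ∀ x, a x ≤ A / 3) {G : ℕ → ℝ} (hG : Monotone G) (hG0 : ∀ k, 0 ≤ G k)
    (hG1 : ∀ k, G k ≤ A / 3)
    (hpair : ∀ k : ℕ, ∃ k' ≤ k, ∀ x : ℝ, |x| ≤ R → |x + k' * η| ≤ R →
      G k ≤ a x + a (x + k' * η)) :
    3 / 20 * A ≤ ∫ ν in (-R)..R, (2 / 3 * A - 2 * stepG G η |ν| + a ν) * poi σ y ν := by
  have hy3 : |y| ≤ 3 * σ := by
    apply abs_le_of_sq_le_sq _ (by positivity)
    nlinarith
  have hR0 : 0 < R := by linarith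
  have hai : ∀ u v, IntervalIntegrable a volume u v := by
    intro u v
    refine (intervalIntegrable_const (c := A / 3)).mono_fun ha.aestronglyMeasurable ?_
    refine Eventually.of_forall fun θ => ?_
    show |a θ| ≤ |A / 3|
    rw [abs_of_nonneg (ha0 θ), abs_of_nonneg (by positivity)]
    exact ha1 θ
  have hc := continuous_poi hσ y
  have hsi : ∀ u v, IntervalIntegrable (fun ν => stepG G η |ν|) volume u v := by
    intro u v
    refine (intervalIntegrable_const (c := A / 3)).mono_fun
      ((measurable_stepG hG hη).comp measurable_id.abs).aestronglyMeasurable ?_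
    refine Eventually.of_forall fun θ => ?_
    have h1 : ‖stepG G η |θ|‖ = stepG G η |θ| := by
      rw [Real.norm_eq_abs, abs_of_nonneg (stepG_nonneg hG0 _)]
    have h2 : ‖A / 3‖ = A / 3 := by
      rw [Real.norm_eq_abs, abs_of_nonneg (by positivity)]
    beta_reduce
    rw [h1, h2]
    exact stepG_le hG1 _
  -- the `a` part
  set T : ℝ := R - |y| with hTdef
  have hT : R / 2 ≤ T := by rw [hTdef]; linarith
  have h1 := half_stepG_le hai hG hη hpair hσ (y := y) (T := T) (by linarith)
    (by rw [hTdef]; linarith [neg_abs_le y]) (by rw [hTdef]; linarith [le_abs_self y])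
  have hap0 : ∀ ν, 0 ≤ a ν * poi σ y ν := fun ν => mul_nonneg (ha0 ν) (poi_pos hσ y ν).le
  have hapi : ∀ u v, IntervalIntegrable (fun ν => a ν * poi σ y ν) volume u v :=
    fun u v => (hai u v).mul_continuousOn hc.continuousOn
  have h2 : ∫ x in (y - T)..(y + T), a x * poi σ y x ≤ ∫ ν in (-R)..R, a ν * poi σ y ν := by
    have c1 : -R ≤ y - T := by rw [hTdef]; linarith [neg_abs_le y]
    have c2 : y + T ≤ R := by rw [hTdef]; linarith [le_abs_self y]
    exact intervalIntegral.integral_mono_interval c1 (by linarith) c2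
      (Eventually.of_forall fun ν => hap0 ν) (hapi _ _)
  have hq : Continuous (qk σ) := (contDiff_qk hσ).continuous
  have hGi : ∀ u v, IntervalIntegrable (fun t => qk σ t * stepG G η (2 * t)) volume u v := by
    intro u v
    have : Monotone (fun t => stepG G η (2 * t)) := fun r s hrs =>
      stepG_mono hG hη (mul_le_mul_of_nonneg_left hrs zero_le_two)
    exact this.intervalIntegrable.continuousOn_mul hq.continuousOn
  have h3 : ∫ t in (0 : ℝ)..(R / 2), qk σ t * stepG G η (2 * t)
      ≤ ∫ t in (0 : ℝ)..T, qk σ t * stepG G η (2 * t) :=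
    intervalIntegral.integral_mono_interval (le_refl _) (by linarith) hT
      (Eventually.of_forall fun ν => mul_nonneg (qk_pos hσ _).le (stepG_nonneg hG0 _)) (hGi _ _)
  have h4 : ∫ t in (0 : ℝ)..(R / 2), qk σ t * stepG G η (2 * t)
      = ∫ r in (0 : ℝ)..R, (1 / 2 * qk σ (r / 2)) * stepG G η r := by
    have := intervalIntegral.integral_comp_mul_left (a := 0) (b := R / 2)
      (fun r => (qk σ (r / 2)) * stepG G η r) (two_ne_zero (α := ℝ))
    simp only [mul_div_cancel_left₀ _ (two_ne_zero (α := ℝ)), mul_zero, smul_eq_mul] at this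
    rw [this, ← intervalIntegral.integral_const_mul]
    rw [show 2 * (R / 2) = R by ring]
    refine intervalIntegral.integral_congr fun r _ => ?_
    ring
  -- the `G` part
  have h5 : ∫ ν in (-R)..R, stepG G η |ν| * poi σ y ν
      = ∫ r in (0 : ℝ)..R, stepG G η r * (poi σ y r + poi σ y (-r)) := by
    have hi : ∀ u v, IntervalIntegrable (fun ν => stepG G η |ν| * poi σ y ν) volume u v :=
      fun u v => (hsi u v).mul_continuousOn hc.continuousOn
    rw [← intervalIntegral.integral_add_adjacent_intervals (hi (-R) 0) (hi 0 R)]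
    have e1 : ∫ ν in (-R)..0, stepG G η |ν| * poi σ y ν
        = ∫ r in (0 : ℝ)..R, stepG G η |r| * poi σ y (-r) := by
      have := intervalIntegral.integral_comp_neg (a := 0) (b := R)
        (fun ν => stepG G η |ν| * poi σ y ν)
      simp only [abs_neg, neg_zero] at this
      exact this.symm
    rw [e1, ← intervalIntegral.integral_add]
    · refine intervalIntegral.integral_congr fun r hr => ?_
      rw [uIcc_of_le hR0.le] at hr
      simp only [abs_of_nonneg hr.1]
      ring
    · refine (hsi _ _).mul_continuousOn ?_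
      exact (hc.comp continuous_neg).continuousOn
    · exact hi _ _
  -- combination
  have hgi : ∀ (g : ℝ → ℝ), Continuous g → ∀ u v,
      IntervalIntegrable (fun r => g r * stepG G η r) volume u v :=
    fun g hg u v => (stepG_intervalIntegrable hG hη u v).continuousOn_mul hg.continuousOn
  set w : ℝ → ℝ := fun r => 2 * (poi σ y r + poi σ y (-r)) - 1 / 2 * qk σ (r / 2) with hw
  have hwc : Continuous w := by
    have c1 : Continuous fun r => poi σ y (-r) := hc.comp continuous_neg
    have c2 : Continuous fun r : ℝ => qk σ (r / 2) := hq.comp (continuous_id.div_const 2)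
    simp only [hw]
    exact (continuous_const.mul (hc.add c1)).sub (continuous_const.mul c2)
  have hw0 : ∀ r, 0 ≤ w r := fun r => by
    simp only [hw]; linarith [poi_compare' hσ hy r]
  have h6 : ∫ r in (0 : ℝ)..R, w r * stepG G η r ≤ A / 3 * ∫ r in (0 : ℝ)..R, w r := by
    rw [← intervalIntegral.integral_const_mul]
    refine intervalIntegral.integral_mono_on hR0.le (hgi w hwc _ _)
      ((hwc.intervalIntegrable _ _).const_mul _) ?_
    intro r _
    rw [mul_comm]
    exact mul_le_mul_of_nonneg_right (stepG_le hG1 _) (hw0 r)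
  have h7 : ∫ r in (0 : ℝ)..R, w r * stepG G η r
      = 2 * (∫ ν in (-R)..R, stepG G η |ν| * poi σ y ν)
        - ∫ r in (0 : ℝ)..R, (1 / 2 * qk σ (r / 2)) * stepG G η r := by
    rw [h5, ← intervalIntegral.integral_const_mul, ← intervalIntegral.integral_sub]
    · refine intervalIntegral.integral_congr fun r _ => ?_
      simp only [hw]; ring
    · refine IntervalIntegrable.const_mul ?_ 2
      refine (stepG_intervalIntegrable hG hη _ _).mul_continuousOn ?_
      exact (hc.add (hc.comp continuous_neg)).continuousOn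
    · exact hgi (fun r => 1 / 2 * qk σ (r / 2))
        (continuous_const.mul (hq.comp (continuous_id.div_const 2))) _ _
  have h8 : ∫ r in (0 : ℝ)..R, w r
      = 2 * (∫ ν in (-R)..R, poi σ y ν) - ∫ t in (0 : ℝ)..(R / 2), qk σ t := by
    have e1 : ∫ ν in (-R)..R, poi σ y ν = ∫ r in (0 : ℝ)..R, (poi σ y r + poi σ y (-r)) := by
      rw [← intervalIntegral.integral_add_adjacent_intervals
        (hc.intervalIntegrable (-R) 0) (hc.intervalIntegrable 0 R)]
      have := intervalIntegral.integral_comp_neg (a := 0) (b := R) (fun ν => poi σ y ν)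
      simp only [neg_zero] at this
      rw [← this, ← intervalIntegral.integral_add]
      · refine intervalIntegral.integral_congr fun r _ => ?_
        ring
      · exact (hc.comp continuous_neg).intervalIntegrable _ _
      · exact hc.intervalIntegrable _ _
    have e2 : ∫ t in (0 : ℝ)..(R / 2), qk σ t = ∫ r in (0 : ℝ)..R, 1 / 2 * qk σ (r / 2) := by
      have := intervalIntegral.integral_comp_div (a := 0) (b := R)
        (fun r => qk σ r) (two_ne_zero (α := ℝ))
      rw [intervalIntegral.integral_const_mul, this, smul_eq_mul, zero_div]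
      ring
    rw [e1, e2, ← intervalIntegral.integral_const_mul, ← intervalIntegral.integral_sub]
    · exact ((hc.add (hc.comp continuous_neg)).intervalIntegrable _ _).const_mul _
    · exact (continuous_const.mul (hq.comp (continuous_id.div_const 2))).intervalIntegrable _ _
  have h9 := qk_mass hσ (T := R / 2) (by linarith)
  have h10 : ∫ ν in (-R)..R, (2 / 3 * A - 2 * stepG G η |ν| + a ν) * poi σ y ν
      = 2 / 3 * A * (∫ ν in (-R)..R, poi σ y ν)
        - 2 * (∫ ν in (-R)..R, stepG G η |ν| * poi σ y ν) + ∫ ν in (-R)..R, a ν * poi σ y ν := by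
    have i1 : IntervalIntegrable (fun ν => stepG G η |ν| * poi σ y ν) volume (-R) R :=
      (hsi _ _).mul_continuousOn hc.continuousOn
    rw [← intervalIntegral.integral_const_mul, ← intervalIntegral.integral_const_mul,
      ← intervalIntegral.integral_sub, ← intervalIntegral.integral_add]
    · refine intervalIntegral.integral_congr fun r _ => ?_
      ring
    · exact ((hc.intervalIntegrable _ _).const_mul _).sub (i1.const_mul _)
    · exact hapi _ _
    · exact (hc.intervalIntegrable _ _).const_mul _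
    · exact i1.const_mul _
  rw [h10]
  have h11 : A / 3 * (9 / 20) ≤ A / 3 * ∫ t in (0 : ℝ)..(R / 2), qk σ t :=
    mul_le_mul_of_nonneg_left h9 (by positivity)
  rw [h7, h8] at h6
  rw [mul_sub] at h6
  rw [h4] at h3
  linarith


/-- **level step, analytic core** (half plane). -/
theorem levelG_halfplane {N : ℕ} {c : ℕ → ℂ} {K A σ y R η : ℝ} (hK : 1 ≤ K) (hA : 0 ≤ A)
    (hσ : 0 < σ) (hy : y ^ 2 ≤ 7 * σ ^ 2) (hR : 16 * σ ≤ R) (hη : 0 < η)
    {a : ℝ → ℝ} (ha : Measurable a) (ha0 : ∀ x, 0 ≤ a x)
    (ha1 : ∀ x, a x ≤ A / 3) {G : ℕ → ℝ} (hG : Monotone G) (hG0 : ∀ k, 0 ≤ G k)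
    (hG1 : ∀ k, G k ≤ A / 3)
    (hpair : ∀ k : ℕ, ∃ k' ≤ k, ∀ x : ℝ, |x| ≤ R → |x + k' * η| ≤ R →
      G k ≤ a x + a (x + k' * η))
    (h1 : ∀ ν : ℝ, ‖expSum N c (I * ν)‖ ≤ K)
    (h2 : ∀ ν : ℝ, |ν| ≤ R →
      ‖expSum N c (I * ν)‖ ≤ K * Real.exp (-(2 / 3 * A - 2 * G ⌊|ν| / η⌋₊ + a ν))) :
    ‖expSum N c (-σ + I * y)‖ ≤ K * Real.exp (-(3 / 20 * A)) := by
  have hK0 : 0 < K := by linarith
  have hR0 : 0 < R := by linarith
  have hlogK : 0 ≤ Real.log K := Real.log_nonneg hK
  have hc := continuous_poi hσ y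
  have hmG : Measurable (fun ν : ℝ => stepG G η |ν|) :=
    (measurable_stepG hG hη).comp measurable_id.abs
  set b : ℝ → ℝ := fun ν => if |ν| ≤ R then 2 / 3 * A - 2 * stepG G η |ν| + a ν else 0 with hb
  have hbm : Measurable b := Measurable.ite (measurableSet_le measurable_id.abs measurable_const)
    ((measurable_const.sub (measurable_const.mul hmG)).add ha) measurable_const
  have hb0 : ∀ x, 0 ≤ b x := by
    intro x; simp only [hb]
    split_ifs
    · linarith [ha0 x, stepG_le hG1 (η := η) |x|]
    · exact le_refl _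
  have hb1 : ∀ x, b x ≤ A := by
    intro x; simp only [hb]
    split_ifs
    · linarith [ha1 x, stepG_nonneg hG0 (η := η) |x|]
    · exact hA
  set h : ℝ → ℝ := fun ν => b ν - Real.log K with hh
  have hmeas : Measurable h := hbm.sub_const _
  have hbd : ∀ ν, |h ν| ≤ A + Real.log K := by
    intro ν
    rw [abs_le]
    simp only [hh]
    constructor
    · linarith [hb0 ν]
    · linarith [hb1 ν]
  have hbound : ∀ ν : ℝ, ‖expSum N c (I * ν)‖ ≤ Real.exp (-h ν) := by
    intro ν
    have e : Real.exp (-h ν) = K * Real.exp (-b ν) := by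
      rw [hh, show -(b ν - Real.log K) = Real.log K + -b ν by ring,
        Real.exp_add, Real.exp_log hK0]
    rw [e]
    simp only [hb]
    split_ifs with c1
    · exact h2 ν c1
    · simpa using h1 ν
  have key := norm_expSum_le_exp_neg_integral N c hmeas hbd hbound hσ y
  refine key.trans ?_
  have hbint : Integrable (fun ν => b ν * poi σ y ν) := by
    refine ((integrable_poi hσ y).const_mul A).mono (hbm.mul hc.measurable).aestronglyMeasurable ?_
    refine Eventually.of_forall fun ν => ?_
    rw [norm_mul, norm_mul, Real.norm_eq_abs, Real.norm_eq_abs A, abs_of_nonneg (hb0 ν),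
      abs_of_nonneg hA]
    exact mul_le_mul_of_nonneg_right (hb1 ν) (norm_nonneg _)
  have e1 : ∫ ν, h ν * poi σ y ν = (∫ ν, b ν * poi σ y ν) - Real.log K := by
    have : ∀ ν, h ν * poi σ y ν = b ν * poi σ y ν - Real.log K * poi σ y ν := by
      intro ν; simp only [hh]; ring
    simp_rw [this]
    rw [integral_sub hbint ((integrable_poi hσ y).const_mul _),
      integral_const_mul, integral_poi hσ y, mul_one]
  rw [e1]
  have h4 := levelG_integral hA hσ hy hR hη ha ha0 ha1 hG hG0 hG1 hpair
  have h5 : ∫ ν in (-R)..R, (2 / 3 * A - 2 * stepG G η |ν| + a ν) * poi σ y ν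
      ≤ ∫ ν, b ν * poi σ y ν := by
    have e2 : ∫ ν in (-R)..R, (2 / 3 * A - 2 * stepG G η |ν| + a ν) * poi σ y ν
        = ∫ ν in Ioc (-R) R, b ν * poi σ y ν := by
      rw [intervalIntegral.integral_of_le (by linarith)]
      refine setIntegral_congr_fun measurableSet_Ioc fun ν hν => ?_
      have : |ν| ≤ R := abs_le.2 ⟨hν.1.le, hν.2⟩
      simp only [hb, if_pos this]
    rw [e2]
    exact setIntegral_le_integral hbint
      (Eventually.of_forall fun ν => mul_nonneg (hb0 ν) (poi_pos hσ y ν).le)
  calc Real.exp (-((∫ ν, b ν * poi σ y ν) - Real.log K))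
      ≤ Real.exp (Real.log K + -(3 / 20 * A)) := by
        apply Real.exp_le_exp.2
        linarith
    _ = K * Real.exp (-(3 / 20 * A)) := by rw [Real.exp_add, Real.exp_log hK0]

/-- **final level, analytic core**: the first coefficient. -/
theorem levelG_final {N : ℕ} (hN : 0 < N) {c : ℕ → ℂ} {K A η : ℝ} (hK : 1 ≤ K) (hA : 0 ≤ A)
    (hη : 0 < η) {a : ℝ → ℝ} (ha : Measurable a) (ha0 : ∀ x, 0 ≤ a x)
    (ha1 : ∀ x, a x ≤ A / 3) {G : ℕ → ℝ} (hG : Monotone G) (hG0 : ∀ k, 0 ≤ G k)
    (hG1 : ∀ k, G k ≤ A / 3)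
    (hpair : ∀ k : ℕ, ∃ k' ≤ k, ∀ x : ℝ, |x| ≤ π → |x + k' * η| ≤ π →
      G k ≤ a x + a (x + k' * η))
    (h2 : ∀ ν : ℝ, |ν| ≤ π →
      ‖expSum N c (I * ν)‖ ≤ K * Real.exp (-(2 / 3 * A - 2 * G ⌊|ν| / η⌋₊ + a ν))) :
    ‖c 0‖ ≤ K * Real.exp (-(A / 6)) := by
  have hpi := Real.pi_pos
  have hK0 : 0 < K := by linarith
  have hlogK : 0 ≤ Real.log K := Real.log_nonneg hK
  have hmG : Measurable (fun ν : ℝ => stepG G η |ν|) :=
    (measurable_stepG hG hη).comp measurable_id.abs
  set b : ℝ → ℝ := fun ν => 2 / 3 * A - 2 * stepG G η |ν| + a ν with hb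
  have hbm : Measurable b := (measurable_const.sub (measurable_const.mul hmG)).add ha
  have hb0 : ∀ x, 0 ≤ b x := by
    intro x; simp only [hb]
    linarith [ha0 x, stepG_le hG1 (η := η) |x|]
  have hb1 : ∀ x, b x ≤ A := by
    intro x; simp only [hb]
    linarith [ha1 x, stepG_nonneg hG0 (η := η) |x|]
  set h : ℝ → ℝ := fun ν => b ν - Real.log K with hh
  have hmeas : Measurable h := hbm.sub_const _
  have hbd : ∀ ν, |h ν| ≤ A + Real.log K := by
    intro ν
    rw [abs_le]
    simp only [hh]
    constructor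
    · linarith [hb0 ν]
    · linarith [hb1 ν]
  have hbound : ∀ ν : ℝ, |ν| ≤ π → ‖expSum N c (I * ν)‖ ≤ Real.exp (-h ν) := by
    intro ν hν
    have e : Real.exp (-h ν) = K * Real.exp (-b ν) := by
      rw [hh, show -(b ν - Real.log K) = Real.log K + -b ν by ring,
        Real.exp_add, Real.exp_log hK0]
    rw [e]
    exact h2 ν hν
  have key := norm_coeff_zero_le' hN c hmeas hbd hbound
  refine key.trans ?_
  have hint : ∀ (g : ℝ → ℝ), Measurable g → (∀ x, 0 ≤ g x) → (∀ x, g x ≤ A) → ∀ u v : ℝ,
      IntervalIntegrable g volume u v := by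
    intro g hg hg0 hg1 u v
    refine (intervalIntegrable_const (c := A)).mono_fun hg.aestronglyMeasurable ?_
    refine Eventually.of_forall fun θ => ?_
    have h1 : ‖g θ‖ = g θ := by rw [Real.norm_eq_abs, abs_of_nonneg (hg0 θ)]
    have h2 : ‖A‖ = A := by rw [Real.norm_eq_abs, abs_of_nonneg hA]
    beta_reduce
    rw [h1, h2]
    exact hg1 θ
  have hia := hint a ha ha0 (fun x => by linarith [ha1 x])
  have hib := hint b hbm hb0 hb1
  have his := hint (fun ν => stepG G η |ν|) hmG (fun x => stepG_nonneg hG0 _)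
    (fun x => (stepG_le hG1 _).trans (by linarith))
  have e1 : ∫ ν in (-π)..π, h ν = (∫ ν in (-π)..π, b ν) - 2 * π * Real.log K := by
    simp only [hh]
    rw [intervalIntegral.integral_sub (hib _ _) intervalIntegrable_const,
      intervalIntegral.integral_const, smul_eq_mul]
    ring
  have e2 : ∫ ν in (-π)..π, b ν = 2 / 3 * A * (2 * π) - 2 * (∫ ν in (-π)..π, stepG G η |ν|)
      + ∫ ν in (-π)..π, a ν := by
    simp only [hb]
    rw [intervalIntegral.integral_add _ (hia _ _), intervalIntegral.integral_sub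
      intervalIntegrable_const ((his _ _).const_mul _), intervalIntegral.integral_const,
      intervalIntegral.integral_const_mul, smul_eq_mul]
    · ring
    · exact intervalIntegrable_const.sub ((his _ _).const_mul _)
  have hsi := stepG_intervalIntegrable hG hη
  have e3 : ∫ ν in (-π)..π, stepG G η |ν| = 2 * ∫ r in (0 : ℝ)..π, stepG G η r := by
    rw [← intervalIntegral.integral_add_adjacent_intervals (his (-π) 0) (his 0 π)]
    have := intervalIntegral.integral_comp_neg (a := 0) (b := π) (fun ν => stepG G η |ν|)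
    simp only [abs_neg, neg_zero] at this
    rw [← this]
    have : ∫ r in (0 : ℝ)..π, stepG G η |r| = ∫ r in (0 : ℝ)..π, stepG G η r := by
      refine intervalIntegral.integral_congr fun r hr => ?_
      rw [uIcc_of_le hpi.le] at hr
      simp only [abs_of_nonneg hr.1]
    rw [this]
    ring
  have e4 := claimB hia hG hη hpair (u := -π) (v := π) (le_refl _) (by linarith) (le_refl _)
  have e5 : 2 * (∫ r in (0 : ℝ)..π, stepG G η r) ≤ ∫ r in (0 : ℝ)..(π - -π), stepG G η r := by
    rw [← intervalIntegral.integral_add_adjacent_intervals (hsi 0 π) (hsi π (π - -π))]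
    have : ∫ r in (0 : ℝ)..π, stepG G η r ≤ ∫ r in π..(π - -π), stepG G η r := by
      have c1 := intervalIntegral.integral_comp_add_right (a := 0) (b := π) (stepG G η) π
      rw [zero_add, show π + π = π - -π by ring] at c1
      rw [← c1]
      refine intervalIntegral.integral_mono_on hpi.le (hsi _ _) ?_ ?_
      · have : Monotone (fun r => stepG G η (r + π)) := fun r s hrs =>
          stepG_mono hG hη (by linarith)
        exact this.intervalIntegrable
      · intro r _
        exact stepG_mono hG hη (by linarith)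
    linarith
  have e6 : ∫ r in (0 : ℝ)..π, stepG G η r ≤ π * (A / 3) := by
    have : ∫ r in (0 : ℝ)..π, stepG G η r ≤ ∫ r in (0 : ℝ)..π, A / 3 :=
      intervalIntegral.integral_mono_on hpi.le (hsi _ _) intervalIntegrable_const
        (fun r _ => stepG_le hG1 _)
    rw [intervalIntegral.integral_const, smul_eq_mul, sub_zero] at this
    exact this
  have e7 : π * A / 3 ≤ ∫ ν in (-π)..π, b ν := by
    rw [e2, e3]
    linarith
  have e8 : A / 6 ≤ (2 * π)⁻¹ * ∫ ν in (-π)..π, b ν := by
    have : (2 * π)⁻¹ * (π * A / 3) ≤ (2 * π)⁻¹ * ∫ ν in (-π)..π, b ν :=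
      mul_le_mul_of_nonneg_left e7 (by positivity)
    have e9 : (2 * π)⁻¹ * (π * A / 3) = A / 6 := by field_simp; ring
    linarith
  have e10 : (2 * π)⁻¹ * (2 * π * Real.log K) = Real.log K := by
    field_simp
  calc Real.exp (-((2 * π)⁻¹ * ∫ θ in (-π)..π, h θ))
      ≤ Real.exp (Real.log K + -(A / 6)) := by
        apply Real.exp_le_exp.2
        rw [e1, mul_sub, e10]
        linarith
    _ = K * Real.exp (-(A / 6)) := by rw [Real.exp_add, Real.exp_log hK0]

end Crest.Agent.R300
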