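import Mathlib

set_option autoImplicit false

/-!
Row 300, upper bound: pseudo-expectations of degree `D` on functions of a Boolean word
(blueprint U of helper300, section 0), and the `Bd` calculus.
-/

namespace Crest.Agent.R300

open Finset

/-- words with positions in `ι`. -/
abbrev Cube (ι : Type*) := ι → Bool

/-- complex functions of a word. -/
abbrev Fn (ι : Type*) := Cube ι → ℂ

/-- a bit as a complex number. -/
def bitC (b : Bool) : ℂ := if b then 1 else 0

@[simp] theorem bitC_true : bitC true = 1 := rfl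
@[simp] theorem bitC_false : bitC false = 0 := rfl

theorem norm_bitC_le (b : Bool) : ‖bitC b‖ ≤ 1 := by cases b <;> simp

theorem star_bitC (b : Bool) : star (bitC b) = bitC b := by cases b <;> simp

theorem bitC_mul_self (b : Bool) : bitC b * bitC b = bitC b := by cases b <;> simp

section mon

variable {ι : Type*}

/-- the monomial `x_S = ∏_{j ∈ S} x_j`. -/
def mon (S : Finset ι) : Fn ι := fun x => ∏ j ∈ S, bitC (x j)

/-- the coordinate function `x_j`. -/
def coord (j : ι) : Fn ι := fun x => bitC (x j)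

theorem mon_apply (S : Finset ι) (x : Cube ι) : mon S x = ∏ j ∈ S, bitC (x j) := rfl

theorem coord_apply (j : ι) (x : Cube ι) : coord j x = bitC (x j) := rfl

@[simp] theorem mon_empty : mon (∅ : Finset ι) = 1 := by
  funext x; simp [mon]

theorem mon_singleton (j : ι) : mon ({j} : Finset ι) = coord j := by
  funext x; simp [mon, coord]

theorem mon_eq_ite (S : Finset ι) (x : Cube ι) :
    mon S x = if ∀ j ∈ S, x j = true then 1 else 0 := by
  classical
  unfold mon
  split_ifs with h
  · exact Finset.prod_eq_one fun j hj => by rw [h j hj]; rfl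
  · push Not at h
    obtain ⟨j, hj, hx⟩ := h
    exact Finset.prod_eq_zero hj (by simp at hx; rw [hx]; rfl)

theorem mon_mul_mon [DecidableEq ι] (S T : Finset ι) : mon S * mon T = mon (S ∪ T) := by
  funext x
  simp only [Pi.mul_apply, mon_eq_ite]
  by_cases h1 : ∀ j ∈ S, x j = true
  · by_cases h2 : ∀ j ∈ T, x j = true
    · have h3 : ∀ j ∈ S ∪ T, x j = true := fun j hj =>
        (Finset.mem_union.mp hj).elim (h1 j) (h2 j)
      rw [if_pos h1, if_pos h2, if_pos h3, mul_one]
    · have h3 : ¬ ∀ j ∈ S ∪ T, x j = true := fun h =>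
        h2 fun j hj => h j (Finset.mem_union_right _ hj)
      rw [if_neg h2, if_neg h3, mul_zero]
  · have h3 : ¬ ∀ j ∈ S ∪ T, x j = true := fun h =>
      h1 fun j hj => h j (Finset.mem_union_left _ hj)
    rw [if_neg h1, if_neg h3, zero_mul]

theorem mon_mul_self (S : Finset ι) : mon S * mon S = mon S := by
  classical
  rw [mon_mul_mon, Finset.union_self]

theorem star_mon (S : Finset ι) : star (mon S) = mon S := by
  funext x
  simp only [Pi.star_apply, mon_eq_ite]
  split_ifs <;> simp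

theorem norm_mon_le (S : Finset ι) (x : Cube ι) : ‖mon S x‖ ≤ 1 := by
  rw [mon_eq_ite]; split_ifs <;> simp

theorem mon_insert [DecidableEq ι] {j : ι} {S : Finset ι} (hj : j ∉ S) :
    mon (insert j S) = coord j * mon S := by
  funext x
  simp [mon, coord, Finset.prod_insert hj]

end mon

section Bd

variable {ι : Type*} [Fintype ι]

/-- `BdOn A d c P`: `P` is a combination of monomials `x_S`, `S ⊆ A`, `|S| ≤ d`, with
coefficients of total mass `≤ c`. -/
def BdOn (A : Finset ι) (d : ℕ) (c : ℝ) (P : Fn ι) : Prop :=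
  ∃ a : Finset ι → ℂ, (∀ S, a S ≠ 0 → S ⊆ A ∧ S.card ≤ d) ∧
    (P = ∑ S, a S • mon S) ∧ ∑ S, ‖a S‖ ≤ c

/-- `Bd d c P`: degree `≤ d` and coefficient mass `≤ c`. -/
abbrev Bd (d : ℕ) (c : ℝ) (P : Fn ι) : Prop := BdOn Finset.univ d c P

/-- degree `≤ d`. -/
def Deg (d : ℕ) (P : Fn ι) : Prop := ∃ c, Bd d c P

/-- degree `≤ d` and only variables in `A`. -/
def DegOn (A : Finset ι) (d : ℕ) (P : Fn ι) : Prop := ∃ c, BdOn A d c P

variable {A B : Finset ι} {d e : ℕ} {c c' : ℝ} {P Q : Fn ι}

theorem BdOn.nonneg (h : BdOn A d c P) : 0 ≤ c := by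
  obtain ⟨a, -, -, h⟩ := h
  exact (Finset.sum_nonneg fun _ _ => norm_nonneg _).trans h

theorem BdOn.mono (h : BdOn A d c P) (hA : A ⊆ B) (hd : d ≤ e) (hc : c ≤ c') :
    BdOn B e c' P := by
  obtain ⟨a, h1, h2, h3⟩ := h
  exact ⟨a, fun S hS => ⟨(h1 S hS).1.trans hA, (h1 S hS).2.trans hd⟩, h2, h3.trans hc⟩

theorem BdOn.mono_deg (h : BdOn A d c P) (hd : d ≤ e) : BdOn A e c P :=
  h.mono subset_rfl hd le_rfl

theorem BdOn.mono_mass (h : BdOn A d c P) (hc : c ≤ c') : BdOn A d c' P :=
  h.mono subset_rfl le_rfl hc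

theorem BdOn.toBd (h : BdOn A d c P) : Bd d c P := h.mono (Finset.subset_univ _) le_rfl le_rfl

theorem BdOn.deg (h : BdOn A d c P) : Deg d P := ⟨c, h.toBd⟩

theorem BdOn.degOn (h : BdOn A d c P) : DegOn A d P := ⟨c, h⟩

theorem DegOn.deg (h : DegOn A d P) : Deg d P := h.elim fun _ hc => hc.deg

theorem BdOn.zero (hc : 0 ≤ c) : BdOn A d c (0 : Fn ι) :=
  ⟨0, by simp, by simp, by simpa using hc⟩

theorem BdOn.smul_mon {S : Finset ι} (hS : S ⊆ A) (hd : S.card ≤ d) (z : ℂ) :
    BdOn A d ‖z‖ (z • mon S) := by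
  classical
  refine ⟨fun T => if T = S then z else 0, ?_, ?_, ?_⟩
  · intro T hT
    by_cases h : T = S
    · subst h; exact ⟨hS, hd⟩
    · simp [h] at hT
  · simp only [ite_smul, zero_smul, Finset.sum_ite_eq', Finset.mem_univ, if_true]
  · apply le_of_eq
    simp only [apply_ite norm, norm_zero, Finset.sum_ite_eq', Finset.mem_univ, if_true]

theorem BdOn.mon {S : Finset ι} (hS : S ⊆ A) (hd : S.card ≤ d) : BdOn A d 1 (mon S) := by
  have := BdOn.smul_mon hS hd 1
  simpa using this

theorem BdOn.coord {j : ι} (hj : j ∈ A) (hd : 1 ≤ d) : BdOn A d 1 (coord j) := by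
  rw [← mon_singleton]
  exact BdOn.mon (by simpa using hj) (by simpa using hd)

theorem BdOn.const (z : ℂ) : BdOn A d ‖z‖ (fun _ => z : Fn ι) := by
  have h := BdOn.smul_mon (A := A) (S := ∅) (d := d) (by simp) (by simp) z
  have e : (z • R300.mon (∅ : Finset ι)) = (fun _ => z : Fn ι) := by
    funext x; simp
  rwa [e] at h

theorem BdOn.one : BdOn A d 1 (1 : Fn ι) := by
  have h := BdOn.mon (A := A) (S := ∅) (d := d) (by simp) (by simp)
  simpa using h

theorem BdOn.add (hP : BdOn A d c P) (hQ : BdOn A d c' Q) : BdOn A d (c + c') (P + Q) := by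
  obtain ⟨a, h1, h2, h3⟩ := hP
  obtain ⟨b, k1, k2, k3⟩ := hQ
  refine ⟨a + b, ?_, ?_, ?_⟩
  · intro S hS
    by_cases ha : a S = 0
    · exact k1 S (by intro hb; exact hS (by simp [ha, hb]))
    · exact h1 S ha
  · rw [h2, k2, ← Finset.sum_add_distrib]
    exact Finset.sum_congr rfl fun S _ => by simp [add_smul]
  · calc ∑ S, ‖(a + b) S‖ ≤ ∑ S, (‖a S‖ + ‖b S‖) := Finset.sum_le_sum fun S _ => norm_add_le _ _
      _ = ∑ S, ‖a S‖ + ∑ S, ‖b S‖ := Finset.sum_add_distrib
      _ ≤ c + c' := add_le_add h3 k3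

theorem BdOn.smul (hP : BdOn A d c P) (z : ℂ) : BdOn A d (‖z‖ * c) (z • P) := by
  obtain ⟨a, h1, h2, h3⟩ := hP
  refine ⟨fun S => z * a S, ?_, ?_, ?_⟩
  · intro S hS
    exact h1 S (right_ne_zero_of_mul hS)
  · rw [h2, Finset.smul_sum]
    exact Finset.sum_congr rfl fun S _ => by rw [smul_smul]
  · simp only [norm_mul, ← Finset.mul_sum]
    exact mul_le_mul_of_nonneg_left h3 (norm_nonneg _)

theorem BdOn.neg (hP : BdOn A d c P) : BdOn A d c (-P) := by
  have := hP.smul (-1)
  simpa using this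

theorem BdOn.sub (hP : BdOn A d c P) (hQ : BdOn A d c' Q) : BdOn A d (c + c') (P - Q) := by
  rw [sub_eq_add_neg]
  exact hP.add hQ.neg

theorem BdOn.sum {κ : Type*} (s : Finset κ) (c : κ → ℝ) (P : κ → Fn ι)
    (h : ∀ k ∈ s, BdOn A d (c k) (P k)) : BdOn A d (∑ k ∈ s, c k) (∑ k ∈ s, P k) := by
  classical
  induction s using Finset.induction_on with
  | empty => simpa using BdOn.zero (A := A) (d := d) le_rfl
  | insert k s hk ih =>
    rw [Finset.sum_insert hk, Finset.sum_insert hk]
    exact (h k (Finset.mem_insert_self _ _)).add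
      (ih fun j hj => h j (Finset.mem_insert_of_mem hj))

theorem BdOn.star (hP : BdOn A d c P) : BdOn A d c (star P) := by
  obtain ⟨a, h1, h2, h3⟩ := hP
  refine ⟨fun S => Star.star (a S), ?_, ?_, ?_⟩
  · intro S hS
    exact h1 S (by simpa using hS)
  · rw [h2, star_sum]
    refine Finset.sum_congr rfl fun S _ => ?_
    rw [star_smul, star_mon]
  · simpa using h3

theorem BdOn.mul (hP : BdOn A d c P) (hQ : BdOn A e c' Q) : BdOn A (d + e) (c * c') (P * Q) := by
  classical
  obtain ⟨a, h1, h2, h3⟩ := hP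
  obtain ⟨b, k1, k2, k3⟩ := hQ
  have hPQ : P * Q = ∑ S, ∑ T, (a S * b T) • R300.mon (S ∪ T) := by
    rw [h2, k2, Finset.sum_mul]
    refine Finset.sum_congr rfl fun S _ => ?_
    rw [Finset.mul_sum]
    refine Finset.sum_congr rfl fun T _ => ?_
    rw [smul_mul_smul_comm, mon_mul_mon]
  rw [hPQ]
  have hterm : ∀ S T, BdOn A (d + e) (‖a S‖ * ‖b T‖) ((a S * b T) • R300.mon (S ∪ T)) := by
    intro S T
    by_cases ha : a S = 0
    · simpa [ha] using BdOn.zero (A := A) (d := d + e) le_rfl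
    by_cases hb : b T = 0
    · simpa [hb] using BdOn.zero (A := A) (d := d + e) le_rfl
    have := BdOn.smul_mon (A := A) (S := S ∪ T) (d := d + e)
      (Finset.union_subset (h1 S ha).1 (k1 T hb).1)
      ((Finset.card_union_le _ _).trans (add_le_add (h1 S ha).2 (k1 T hb).2)) (a S * b T)
    rwa [norm_mul] at this
  have h := BdOn.sum Finset.univ _ _ fun S _ => BdOn.sum Finset.univ _ _ fun T _ => hterm S T
  refine h.mono_mass ?_
  rw [← Finset.sum_mul_sum]
  exact mul_le_mul h3 k3 (Finset.sum_nonneg fun _ _ => norm_nonneg _)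
    ((Finset.sum_nonneg fun _ _ => norm_nonneg _).trans h3)

theorem BdOn.prod {κ : Type*} (s : Finset κ) (d : κ → ℕ) (c : κ → ℝ) (P : κ → Fn ι)
    (h : ∀ k ∈ s, BdOn A (d k) (c k) (P k)) :
    BdOn A (∑ k ∈ s, d k) (∏ k ∈ s, c k) (∏ k ∈ s, P k) := by
  classical
  induction s using Finset.induction_on with
  | empty => simpa using BdOn.one (A := A) (d := 0)
  | insert k s hk ih =>
    rw [Finset.sum_insert hk, Finset.prod_insert hk, Finset.prod_insert hk]
    exact (h k (Finset.mem_insert_self _ _)).mul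
      (ih fun j hj => h j (Finset.mem_insert_of_mem hj))

theorem BdOn.pow (hP : BdOn A d c P) (k : ℕ) : BdOn A (k * d) (c ^ k) (P ^ k) := by
  have := BdOn.prod (Finset.range k) (fun _ => d) (fun _ => c) (fun _ => P) (fun _ _ => hP)
  simpa using this

theorem BdOn.norm_le (hP : BdOn A d c P) (x : Cube ι) : ‖P x‖ ≤ c := by
  obtain ⟨a, h1, h2, h3⟩ := hP
  rw [h2, Finset.sum_apply]
  refine (norm_sum_le _ _).trans (le_trans (Finset.sum_le_sum fun S _ => ?_) h3)
  rw [Pi.smul_apply, norm_smul]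
  exact mul_le_of_le_one_right (norm_nonneg _) (norm_mon_le _ _)

theorem BdOn.one_sub_mon {S : Finset ι} (hS : S ⊆ A) (hd : S.card ≤ d) :
    BdOn A d 2 (1 - R300.mon S) := by
  have := (BdOn.one (A := A) (d := d)).sub (BdOn.mon hS hd)
  norm_num at this
  exact this

theorem Deg.mono (h : Deg d P) (hd : d ≤ e) : Deg e P := h.imp fun _ hc => hc.mono_deg hd

theorem Deg.zero : Deg d (0 : Fn ι) := ⟨0, BdOn.zero le_rfl⟩

theorem Deg.one : Deg d (1 : Fn ι) := ⟨1, BdOn.one⟩

theorem Deg.const (z : ℂ) : Deg d (fun _ => z : Fn ι) := ⟨_, BdOn.const z⟩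

theorem Deg.add (hP : Deg d P) (hQ : Deg d Q) : Deg d (P + Q) := by
  obtain ⟨c, hc⟩ := hP
  obtain ⟨c', hc'⟩ := hQ
  exact ⟨_, hc.add hc'⟩

theorem Deg.smul (hP : Deg d P) (z : ℂ) : Deg d (z • P) := by
  obtain ⟨c, hc⟩ := hP
  exact ⟨_, hc.smul z⟩

theorem Deg.neg (hP : Deg d P) : Deg d (-P) := by
  obtain ⟨c, hc⟩ := hP
  exact ⟨_, hc.neg⟩

theorem Deg.sub (hP : Deg d P) (hQ : Deg d Q) : Deg d (P - Q) := by
  obtain ⟨c, hc⟩ := hP
  obtain ⟨c', hc'⟩ := hQ
  exact ⟨_, hc.sub hc'⟩

theorem Deg.star (hP : Deg d P) : Deg d (star P) := by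
  obtain ⟨c, hc⟩ := hP
  exact ⟨_, hc.star⟩

theorem Deg.mul (hP : Deg d P) (hQ : Deg e Q) : Deg (d + e) (P * Q) := by
  obtain ⟨c, hc⟩ := hP
  obtain ⟨c', hc'⟩ := hQ
  exact ⟨_, hc.mul hc'⟩

theorem Deg.sum {κ : Type*} (s : Finset κ) (P : κ → Fn ι) (h : ∀ k ∈ s, Deg d (P k)) :
    Deg d (∑ k ∈ s, P k) := by
  classical
  induction s using Finset.induction_on with
  | empty => simpa using Deg.zero
  | insert k s hk ih =>
    rw [Finset.sum_insert hk]
    exact (h k (Finset.mem_insert_self _ _)).add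
      (ih fun j hj => h j (Finset.mem_insert_of_mem hj))

theorem Deg.prod {κ : Type*} (s : Finset κ) (d : κ → ℕ) (P : κ → Fn ι)
    (h : ∀ k ∈ s, Deg (d k) (P k)) : Deg (∑ k ∈ s, d k) (∏ k ∈ s, P k) := by
  classical
  induction s using Finset.induction_on with
  | empty => simpa using Deg.one (d := 0)
  | insert k s hk ih =>
    rw [Finset.sum_insert hk, Finset.prod_insert hk]
    exact (h k (Finset.mem_insert_self _ _)).mul
      (ih fun j hj => h j (Finset.mem_insert_of_mem hj))

theorem Deg.mon {S : Finset ι} (hd : S.card ≤ d) : Deg d (mon S) :=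
  ⟨1, BdOn.mon (Finset.subset_univ _) hd⟩

theorem Deg.coord (j : ι) (hd : 1 ≤ d) : Deg d (coord j) :=
  ⟨1, BdOn.coord (Finset.mem_univ _) hd⟩

end Bd

/-- A pseudo-expectation of degree `D`: a linear functional on functions of a word, normalised,
real, and nonnegative on squares of polynomials of degree `≤ D`. -/
structure PE (ι : Type*) [Fintype ι] (D : ℕ) where
  /-- the functional -/
  L : Fn ι →ₗ[ℂ] ℂ
  map_one : L 1 = 1
  map_star : ∀ f, L (star f) = star (L f)
  pos : ∀ P, Deg D P → 0 ≤ (L (star P * P)).re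

namespace PE

variable {ι : Type*} [Fintype ι] {D : ℕ} (E : PE ι D)
variable {A B : Finset ι} {d e : ℕ} {c c' : ℝ} {P Q : Fn ι}

/-- the seminorm `N(P) = sqrt (L |P|^2)`. -/
noncomputable def N (P : Fn ι) : ℝ := Real.sqrt (E.L (star P * P)).re

theorem N_nonneg (P : Fn ι) : 0 ≤ E.N P := Real.sqrt_nonneg _

theorem L_self_im (P : Fn ι) : (E.L (star P * P)).im = 0 := by
  have h := E.map_star (star P * P)
  rw [star_mul, star_star] at h
  have h2 := congrArg Complex.im h
  simp at h2
  linarith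

theorem L_self_eq (P : Fn ι) : E.L (star P * P) = ((E.L (star P * P)).re : ℂ) := by
  apply Complex.ext
  · simp
  · simpa using E.L_self_im P

theorem N_sq (hP : Deg D P) : E.N P ^ 2 = (E.L (star P * P)).re := by
  unfold N
  rw [Real.sq_sqrt (E.pos P hP)]

theorem N_star (P : Fn ι) : E.N (star P) = E.N P := by
  unfold N
  rw [star_star, mul_comm]

theorem N_smul (z : ℂ) (P : Fn ι) : E.N (z • P) = ‖z‖ * E.N P := by
  unfold N
  have h : star (z • P) * (z • P) = (star z * z) • (star P * P) := by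
    rw [star_smul, smul_mul_smul_comm]
  rw [h, map_smul, smul_eq_mul]
  have h2 : star z * z = ((‖z‖ ^ 2 : ℝ) : ℂ) := by
    have := Complex.conj_mul' z
    simpa using this
  rw [h2, Complex.re_ofReal_mul, Real.sqrt_mul (by positivity), Real.sqrt_sq (norm_nonneg _)]

theorem N_neg (P : Fn ι) : E.N (-P) = E.N P := by
  have := E.N_smul (-1) P
  simpa using this

theorem N_zero : E.N 0 = 0 := by
  unfold N
  simp

theorem N_const (z : ℂ) : E.N (fun _ => z) = ‖z‖ := by
  have h : (fun _ => z : Fn ι) = z • (1 : Fn ι) := by funext x; simp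
  rw [h, E.N_smul]
  have : E.N 1 = 1 := by
    unfold N
    simp [E.map_one]
  rw [this, mul_one]

theorem N_one : E.N 1 = 1 := by
  unfold N
  simp [E.map_one]

/-- Cauchy-Schwarz. -/
theorem cauchy (hP : Deg D P) (hQ : Deg D Q) : ‖E.L (star P * Q)‖ ≤ E.N P * E.N Q := by
  set z := E.L (star P * Q) with hz
  -- for every real t and unit w : 0 ≤ N(P)^2 t^2 - 2 t |z| + N(Q)^2
  have key : ∀ t : ℝ, 0 ≤ E.N P ^ 2 * t ^ 2 - 2 * t * ‖z‖ + E.N Q ^ 2 := by
    intro t
    obtain ⟨w, hw1, hw2⟩ : ∃ w : ℂ, ‖w‖ = 1 ∧ star w * z = (‖z‖ : ℂ) := by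
      by_cases h0 : z = 0
      · exact ⟨1, by simp, by simp [h0]⟩
      · refine ⟨z / ‖z‖, ?_, ?_⟩
        · rw [norm_div]
          simp [h0]
        · have hne : (‖z‖ : ℂ) ≠ 0 := by
            simpa using h0
          have h5 : star z * z = (‖z‖ : ℂ) ^ 2 := by
            have := Complex.conj_mul' z
            simpa using this
          have h6 : star (z / (‖z‖ : ℂ)) = star z / (‖z‖ : ℂ) := by
            simp
          rw [h6, div_mul_eq_mul_div, h5]
          field_simp
    set R : Fn ι := ((t : ℂ) * w) • P - Q with hR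
    have hRdeg : Deg D R := (hP.smul _).sub hQ
    have hpos := E.pos R hRdeg
    have e1 : star R * R = (star ((t : ℂ) * w) * ((t : ℂ) * w)) • (star P * P)
        - (star ((t : ℂ) * w)) • (star P * Q) - ((t : ℂ) * w) • (star Q * P) + star Q * Q := by
      rw [hR]
      simp only [star_sub, star_smul]
      funext x
      simp only [Pi.mul_apply, Pi.sub_apply, Pi.add_apply, Pi.smul_apply, Pi.star_apply,
        smul_eq_mul]
      ring
    have e2 : E.L (star Q * P) = star z := by
      rw [hz, ← E.map_star, star_mul, star_star]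
    rw [e1, map_add, map_sub, map_sub, map_smul, map_smul, map_smul, e2, ← hz, E.L_self_eq P,
      E.L_self_eq Q, ← E.N_sq hP, ← E.N_sq hQ] at hpos
    have e3 : star ((t : ℂ) * w) * ((t : ℂ) * w) = ((t ^ 2 : ℝ) : ℂ) := by
      have h7 : star w * w = 1 := by
        have := Complex.conj_mul' w
        rw [hw1] at this
        simpa using this
      have h8 : star ((t : ℂ) * w) = (t : ℂ) * star w := by
        simp
      rw [h8]
      calc (t : ℂ) * star w * ((t : ℂ) * w) = (t : ℂ) ^ 2 * (star w * w) := by ring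
        _ = _ := by rw [h7]; push_cast; ring
    have e4 : star ((t : ℂ) * w) * z = ((t * ‖z‖ : ℝ) : ℂ) := by
      have h8 : star ((t : ℂ) * w) = (t : ℂ) * star w := by
        simp
      rw [h8, mul_assoc, hw2]
      push_cast
      ring
    have e5 : (t : ℂ) * w * star z = ((t * ‖z‖ : ℝ) : ℂ) := by
      have := congrArg star e4
      rw [star_mul, star_star] at this
      rw [mul_comm, this]
      simp
    simp only [smul_eq_mul] at hpos
    rw [e3, e4, e5] at hpos
    simp only [Complex.add_re, Complex.sub_re, ← Complex.ofReal_mul, Complex.ofReal_re] at hpos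
    nlinarith
  -- discriminant
  have hd := discrim_le_zero (a := E.N P ^ 2) (b := -(2 * ‖z‖)) (c := E.N Q ^ 2) (by
    intro t
    have := key t
    nlinarith)
  unfold discrim at hd
  have h9 : ‖z‖ ^ 2 ≤ (E.N P * E.N Q) ^ 2 := by nlinarith
  exact le_of_sq_le_sq h9 (mul_nonneg (E.N_nonneg _) (E.N_nonneg _))

theorem N_add_le (hP : Deg D P) (hQ : Deg D Q) : E.N (P + Q) ≤ E.N P + E.N Q := by
  have h1 : E.N (P + Q) ^ 2 ≤ (E.N P + E.N Q) ^ 2 := by
    rw [E.N_sq (hP.add hQ)]
    have e1 : star (P + Q) * (P + Q) = star P * P + star P * Q + star Q * P + star Q * Q := by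
      rw [star_add]; ring
    rw [e1, map_add, map_add, map_add]
    simp only [Complex.add_re]
    rw [← E.N_sq hP, ← E.N_sq hQ]
    have h2 := (Complex.re_le_norm (E.L (star P * Q))).trans (E.cauchy hP hQ)
    have h3 := (Complex.re_le_norm (E.L (star Q * P))).trans (E.cauchy hQ hP)
    nlinarith
  exact le_of_sq_le_sq h1 (add_nonneg (E.N_nonneg _) (E.N_nonneg _))

theorem N_sub_le (hP : Deg D P) (hQ : Deg D Q) : E.N (P - Q) ≤ E.N P + E.N Q := by
  rw [sub_eq_add_neg]
  refine (E.N_add_le hP hQ.neg).trans ?_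
  rw [E.N_neg]

theorem N_sub_comm (P Q : Fn ι) : E.N (P - Q) = E.N (Q - P) := by
  rw [← E.N_neg, neg_sub]

theorem N_sum_le {κ : Type*} (s : Finset κ) (P : κ → Fn ι) (h : ∀ k ∈ s, Deg D (P k)) :
    E.N (∑ k ∈ s, P k) ≤ ∑ k ∈ s, E.N (P k) := by
  classical
  induction s using Finset.induction_on with
  | empty => simp [E.N_zero]
  | insert k s hk ih =>
    rw [Finset.sum_insert hk, Finset.sum_insert hk]
    have h1 := fun j hj => h j (Finset.mem_insert_of_mem (a := j) (b := k) hj)
    exact (E.N_add_le (h k (Finset.mem_insert_self _ _)) (Deg.sum s P h1)).trans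
      (add_le_add le_rfl (ih h1))

theorem norm_L_le (hP : Deg D P) : ‖E.L P‖ ≤ E.N P := by
  have := E.cauchy (Deg.one (d := D)) hP
  rw [star_one, one_mul, E.N_one, one_mul] at this
  exact this

/-- Lemma M: multiplication by a monomial is a contraction. -/
theorem N_mon_mul_le {S : Finset ι} (hP : Deg d P) (hd : S.card + d ≤ D) :
    E.N (mon S * P) ≤ E.N P := by
  have hPD : Deg D P := hP.mono (le_trans (Nat.le_add_left _ _) hd)
  have h1 : Deg D (mon S * P) := ((Deg.mon le_rfl).mul hP).mono hd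
  have h2 : Deg D ((1 - mon S) * P) := by
    have h3 : Deg S.card (1 - mon S : Fn ι) := Deg.one.sub (Deg.mon le_rfl)
    exact (h3.mul hP).mono hd
  have h4 : E.N (mon S * P) ^ 2 ≤ E.N P ^ 2 := by
    rw [E.N_sq h1, E.N_sq hPD]
    have hpos := E.pos _ h2
    have e1 : star ((1 - mon S) * P) * ((1 - mon S) * P) =
        star P * P - star (mon S * P) * (mon S * P) := by
      simp only [star_mul', star_sub, star_one, star_mon]
      have := mon_mul_self S
      calc (1 - mon S) * star P * ((1 - mon S) * P)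
          = star P * P * (1 - 2 * mon S + mon S * mon S) := by ring
        _ = star P * P * (1 - 2 * (mon S * mon S) + mon S * mon S) := by rw [this]
        _ = _ := by ring
    rw [e1, map_sub, Complex.sub_re] at hpos
    linarith
  exact le_of_sq_le_sq h4 (E.N_nonneg _)

/-- multiplication by a polynomial of mass `c` has norm `≤ c`. -/
theorem N_mul_le (hQ : Bd d c Q) (hP : Deg e P) (hd : d + e ≤ D) :
    E.N (Q * P) ≤ c * E.N P := by
  obtain ⟨a, h1, h2, h3⟩ := hQ
  have hterm : ∀ S : Finset ι, Deg D (a S • (mon S * P)) ∧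
      E.N (a S • (mon S * P)) ≤ ‖a S‖ * E.N P := by
    intro S
    by_cases ha : a S = 0
    · rw [ha, zero_smul, E.N_zero]
      exact ⟨Deg.zero, by simp⟩
    · have hcard := (h1 S ha).2
      refine ⟨(((Deg.mon hcard).mul hP).mono hd).smul _, ?_⟩
      rw [E.N_smul]
      exact mul_le_mul_of_nonneg_left
        (E.N_mon_mul_le hP (le_trans (Nat.add_le_add_right hcard _) hd)) (norm_nonneg _)
  have e1 : Q * P = ∑ S, a S • (mon S * P) := by
    rw [h2, Finset.sum_mul]
    exact Finset.sum_congr rfl fun S _ => by rw [smul_mul_assoc]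
  rw [e1]
  refine (E.N_sum_le _ _ fun S _ => (hterm S).1).trans ?_
  refine (Finset.sum_le_sum fun S _ => (hterm S).2).trans ?_
  rw [← Finset.sum_mul]
  exact mul_le_mul_of_nonneg_right h3 (E.N_nonneg _)

theorem N_mul_le' (hQ : Bd d c Q) (hP : Deg e P) (hd : d + e ≤ D) :
    E.N (P * Q) ≤ c * E.N P := by
  rw [mul_comm]
  exact E.N_mul_le hQ hP hd

theorem N_le (hQ : Bd d c Q) (hd : d ≤ D) : E.N Q ≤ c := by
  have := E.N_mul_le hQ (Deg.one (d := 0)) (by simpa using hd)
  rwa [mul_one, E.N_one, mul_one] at this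

theorem norm_L_le_mass (hQ : Bd d c Q) (hd : d ≤ D) : ‖E.L Q‖ ≤ c :=
  (E.norm_L_le (hQ.deg.mono hd)).trans (E.N_le hQ hd)

/-- product of two approximations: `N(PQ - P'Q') ≤ c N(P-P') + c' N(Q-Q')`. -/
theorem N_mul_sub_mul_le {P' Q' : Fn ι} (hQ : Bd e c Q) (hP' : Bd d c' P')
    (hP : Deg d P) (hQ' : Deg e Q') (hd : d + e ≤ D) :
    E.N (P * Q - P' * Q') ≤ c * E.N (P - P') + c' * E.N (Q - Q') := by
  have e1 : P * Q - P' * Q' = Q * (P - P') + P' * (Q - Q') := by ring
  have hd' : e + d ≤ D := by omega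
  have k1 : Deg d (P - P') := hP.sub hP'.deg
  have k2 : Deg e (Q - Q') := (hQ.deg).sub hQ'
  rw [e1]
  refine (E.N_add_le ((hQ.deg.mul k1).mono hd') ((hP'.deg.mul k2).mono hd)).trans ?_
  exact add_le_add (E.N_mul_le hQ k1 hd') (E.N_mul_le hP' k2 hd)

/-! ### the known prefix -/

/-- the letters in `A` are known to be those of `xs`. -/
def Fix (xs : Cube ι) (A : Finset ι) : Prop :=
  ∀ j ∈ A, E.N (coord j - fun _ => bitC (xs j)) = 0

variable {E}

theorem Fix.mono {xs : Cube ι} (h : E.Fix xs A) (hBA : B ⊆ A) : E.Fix xs B :=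
  fun j hj => h j (hBA hj)

theorem Fix.mon_mul {xs : Cube ι} (h : E.Fix xs A) (hP : Deg d P) {S : Finset ι} (hS : S ⊆ A)
    (hd : S.card + d ≤ D) : E.N ((mon S - fun _ => mon S xs) * P) = 0 := by
  classical
  obtain ⟨c, hc⟩ := hP
  induction S using Finset.induction_on with
  | empty =>
    have : ((mon (∅ : Finset ι) - fun _ => mon ∅ xs) * P : Fn ι) = 0 := by
      funext x; simp
    rw [this, E.N_zero]
  | insert j S hj ih =>
    have hjA : j ∈ A := hS (Finset.mem_insert_self _ _)
    have hSA : S ⊆ A := fun i hi => hS (Finset.mem_insert_of_mem hi)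
    rw [Finset.card_insert_of_notMem hj] at hd
    have ih' := ih hSA (by omega)
    have e1 : ((mon (insert j S) - fun _ => mon (insert j S) xs) * P : Fn ι)
        = (mon S * P) * (coord j - fun _ => bitC (xs j))
          + (fun _ => bitC (xs j)) * ((mon S - fun _ => mon S xs) * P) := by
      rw [mon_insert hj]
      funext x
      simp only [Pi.mul_apply, Pi.sub_apply, Pi.add_apply, coord]
      ring
    rw [e1]
    have hk1 : Bd (S.card + d) (1 * c) (mon S * P) :=
      (BdOn.mon (Finset.subset_univ _) le_rfl).mul hc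
    have hk2 : Deg 1 (coord j - fun _ => bitC (xs j) : Fn ι) :=
      (Deg.coord j le_rfl).sub (Deg.const _)
    have hk3 : E.N ((mon S * P) * (coord j - fun _ => bitC (xs j))) ≤ 0 := by
      refine (E.N_mul_le hk1 hk2 (by omega)).trans ?_
      rw [h j hjA, mul_zero]
    have hk4 : Deg (S.card + d) ((mon S - fun _ => mon S xs) * P : Fn ι) :=
      ((Deg.mon le_rfl).sub (Deg.const _)).mul hc.deg
    have hk5 : E.N ((fun _ => bitC (xs j)) * ((mon S - fun _ => mon S xs) * P)) ≤ 0 := by
      have := E.N_mul_le (d := 0) (BdOn.const (A := Finset.univ) (bitC (xs j))) hk4 (by omega)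
      rw [ih', mul_zero] at this
      exact this
    have hk6 : Deg D ((mon S * P) * (coord j - fun _ => bitC (xs j))) :=
      (hk1.deg.mul hk2).mono (by omega)
    have hk7 : Deg D ((fun _ => bitC (xs j)) * ((mon S - fun _ => mon S xs) * P) : Fn ι) :=
      ((Deg.const (d := 0) (bitC (xs j))).mul hk4).mono (by omega)
    have := E.N_add_le hk6 hk7
    have h0 := E.N_nonneg ((mon S * P) * (coord j - fun _ => bitC (xs j))
          + (fun _ => bitC (xs j)) * ((mon S - fun _ => mon S xs) * P))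
    linarith

/-- a polynomial in the known letters may be replaced by its value, also inside a product. -/
theorem Fix.mul_eq_zero {xs : Cube ι} (h : E.Fix xs A) (hQ : DegOn A d Q) (hP : Deg e P)
    (hd : d + e ≤ D) : E.N ((Q - fun _ => Q xs) * P) = 0 := by
  obtain ⟨c, a, h1, h2, -⟩ := hQ
  have e1 : (Q - fun _ => Q xs) * P = ∑ S, a S • ((mon S - fun _ => mon S xs) * P) := by
    funext x
    rw [h2]
    simp only [Pi.mul_apply, Pi.sub_apply, Finset.sum_apply, Pi.smul_apply, smul_eq_mul]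
    rw [← Finset.sum_sub_distrib, Finset.sum_mul]
    refine Finset.sum_congr rfl fun S _ => by ring
  have hterm : ∀ S : Finset ι, Deg D (a S • ((mon S - fun _ => mon S xs) * P) : Fn ι) ∧
      E.N (a S • ((mon S - fun _ => mon S xs) * P)) = 0 := by
    intro S
    by_cases ha : a S = 0
    · rw [ha, zero_smul, E.N_zero]
      exact ⟨Deg.zero, rfl⟩
    · obtain ⟨hSA, hcard⟩ := h1 S ha
      refine ⟨((((Deg.mon hcard).sub (Deg.const _)).mul hP).mono hd).smul _, ?_⟩
      rw [E.N_smul, h.mon_mul hP hSA (le_trans (Nat.add_le_add_right hcard _) hd), mul_zero]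
  have h3 := E.N_sum_le Finset.univ _ fun S _ => (hterm S).1
  rw [← e1] at h3
  rw [Finset.sum_eq_zero fun S _ => (hterm S).2] at h3
  exact le_antisymm h3 (E.N_nonneg _)

theorem Fix.eq_zero {xs : Cube ι} (h : E.Fix xs A) (hQ : DegOn A d Q) (hd : d ≤ D) :
    E.N (Q - fun _ => Q xs) = 0 := by
  have := h.mul_eq_zero hQ (Deg.one (d := 0)) (by simpa using hd)
  rwa [mul_one] at this

variable (E)

/-! ### evaluation at a word -/

/-- evaluation at a word is a pseudo-expectation of every degree. -/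
def eval (D : ℕ) (y : Cube ι) : PE ι D where
  L := LinearMap.proj y
  map_one := rfl
  map_star := fun _ => rfl
  pos := by
    intro P _
    have : (LinearMap.proj y : Fn ι →ₗ[ℂ] ℂ) (star P * P) = star (P y) * P y := rfl
    rw [this]
    have h2 : star (P y) * P y = ((‖P y‖ ^ 2 : ℝ) : ℂ) := by
      have := Complex.conj_mul' (P y)
      simpa using this
    rw [h2, Complex.ofReal_re]
    positivity

@[simp] theorem eval_L (y : Cube ι) (P : Fn ι) : (eval D y).L P = P y := rfl

@[simp] theorem eval_N (y : Cube ι) (P : Fn ι) : (eval D y).N P = ‖P y‖ := by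
  unfold N
  have : (eval D y).L (star P * P) = star (P y) * P y := rfl
  rw [this]
  have h2 : star (P y) * P y = ((‖P y‖ ^ 2 : ℝ) : ℂ) := by
    have := Complex.conj_mul' (P y)
    simpa using this
  rw [h2, Complex.ofReal_re, Real.sqrt_sq (norm_nonneg _)]

theorem eval_fix {y xs : Cube ι} (h : ∀ j ∈ A, y j = xs j) : (eval D y).Fix xs A := by
  intro j hj
  rw [eval_N]
  simp [coord, h j hj]

end PE

end Crest.Agent.R300
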