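import Mathlib
import Crest.Agent.R300.PE

set_option autoImplicit false

/-!
Row 300, upper bound: the L² chain of a pseudo-expectation, abstract form.
-/

namespace Crest.Agent.R300

open Finset

namespace PE

variable {ι : Type*} [Fintype ι] {D : ℕ} (E : PE ι D)

/-- deviation from the value at `x`. -/
def dv (x : Cube ι) (P : Fn ι) : Fn ι := P - fun _ => P x

variable {E} in
theorem dv_deg {x : Cube ι} {d : ℕ} {P : Fn ι} (hP : Deg d P) : Deg d (dv x P) :=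
  hP.sub (Deg.const _)

theorem ratio_step {m : ℕ} (hD : 6 * m ≤ D) {x : Cube ι} {F F' : Fn ι} (hF : Bd (2 * m) 1 F)
    (hF' : Bd (2 * m) 1 F') {ε ϱ : ℝ} (hε : 0 ≤ ε) (hϱ : 0 < ϱ) (hz : ϱ ≤ ‖F x‖)
    (hz' : ϱ ≤ ‖F' x‖) (h4 : E.N (dv x (star F' * F')) ≤ ε)
    (h4' : E.N (dv x (F * star F')) ≤ ε) :
    E.N ((F x)⁻¹ • F - (F' x)⁻¹ • F') ≤ 2 * ε / ϱ ^ 3 := by
  have hzn : F x ≠ 0 := by
    intro h; rw [h, norm_zero] at hz; linarith
  have hzn' : F' x ≠ 0 := by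
    intro h; rw [h, norm_zero] at hz'; linarith
  have hsn' : star (F' x) ≠ 0 := by simpa using hzn'
  have key : (F x)⁻¹ • F - (F' x)⁻¹ • F' = (F x * (star (F' x) * F' x))⁻¹ •
      (-(F * dv x (star F' * F')) + dv x (F * star F') * F') := by
    funext y
    simp only [dv, Pi.smul_apply, Pi.sub_apply, Pi.add_apply, Pi.neg_apply, Pi.mul_apply,
      Pi.star_apply, smul_eq_mul]
    field_simp
    ring
  have d1 : Deg (2 * m + 2 * m) (dv x (star F' * F')) := dv_deg (hF'.star.deg.mul hF'.deg)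
  have d2 : Deg (2 * m + 2 * m) (dv x (F * star F')) := dv_deg (hF.deg.mul hF'.star.deg)
  have n1 : E.N (F * dv x (star F' * F')) ≤ 1 * ε :=
    (E.N_mul_le hF d1 (by omega)).trans (by linarith)
  have n2 : E.N (dv x (F * star F') * F') ≤ 1 * ε :=
    (E.N_mul_le' hF' d2 (by omega)).trans (by linarith)
  have d3 : Deg D (-(F * dv x (star F' * F'))) := ((hF.deg.mul d1).mono (by omega)).neg
  have d4 : Deg D (dv x (F * star F') * F') := (d2.mul hF'.deg).mono (by omega)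
  have n3 : E.N (-(F * dv x (star F' * F')) + dv x (F * star F') * F') ≤ 2 * ε := by
    refine (E.N_add_le d3 d4).trans ?_
    rw [E.N_neg]
    linarith
  rw [key, E.N_smul, norm_inv, norm_mul, norm_mul, norm_star]
  have hpos : 0 < ‖F x‖ * (‖F' x‖ * ‖F' x‖) := by
    have := norm_pos_iff.2 hzn
    have := norm_pos_iff.2 hzn'
    positivity
  have hge : ϱ ^ 3 ≤ ‖F x‖ * (‖F' x‖ * ‖F' x‖) := by
    have : ϱ ^ 3 = ϱ * (ϱ * ϱ) := by ring
    rw [this]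
    exact mul_le_mul hz (mul_le_mul hz' hz' hϱ.le (norm_nonneg _)) (by positivity) (norm_nonneg _)
  have hinv : (‖F x‖ * (‖F' x‖ * ‖F' x‖))⁻¹ ≤ (ϱ ^ 3)⁻¹ := inv_anti₀ (by positivity) hge
  calc (‖F x‖ * (‖F' x‖ * ‖F' x‖))⁻¹ * E.N _ ≤ (ϱ ^ 3)⁻¹ * (2 * ε) :=
        mul_le_mul hinv n3 (E.N_nonneg _) (by positivity)
    _ = 2 * ε / ϱ ^ 3 := by ring

theorem ratio_zero {x : Cube ι} {F : Fn ι} {ε ϱ : ℝ} (hε : 0 ≤ ε) (hϱ : 0 < ϱ)
    (hz : ϱ ≤ ‖F x‖) (h : E.N (dv x F) ≤ ε) :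
    E.N ((F x)⁻¹ • F - 1) ≤ ε / ϱ := by
  have hzn : F x ≠ 0 := by
    intro h; rw [h, norm_zero] at hz; linarith
  have key : (F x)⁻¹ • F - 1 = (F x)⁻¹ • dv x F := by
    funext y
    simp only [dv, Pi.smul_apply, Pi.sub_apply, Pi.one_apply, smul_eq_mul]
    field_simp
  rw [key, E.N_smul, norm_inv]
  have hinv : (‖F x‖)⁻¹ ≤ ϱ⁻¹ := inv_anti₀ hϱ hz
  calc ‖F x‖⁻¹ * E.N (dv x F) ≤ ϱ⁻¹ * ε := mul_le_mul hinv h (E.N_nonneg _) (by positivity)
    _ = ε / ϱ := by ring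

/-- chain: ratios `F_j / F_j(x)` stay near `1`. -/
theorem ratio_chain {m : ℕ} (hD : 6 * m ≤ D) {x : Cube ι} {F : ℕ → Fn ι} {k : ℕ} {ε ϱ : ℝ}
    (hF : ∀ j ≤ k, Bd (2 * m) 1 (F j)) (hε : 0 ≤ ε) (hϱ : 0 < ϱ) (hϱ1 : ϱ ≤ 1)
    (hz : ∀ j ≤ k, ϱ ≤ ‖F j x‖)
    (h0 : E.N (dv x (F 0)) ≤ ε)
    (h4 : ∀ j ≤ k, E.N (dv x (star (F j) * F j)) ≤ ε)
    (h4' : ∀ j < k, E.N (dv x (F (j + 1) * star (F j))) ≤ ε) :
    ∀ j ≤ k, E.N ((F j x)⁻¹ • F j - 1) ≤ (2 * j + 1) * (ε / ϱ ^ 3) := by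
  intro j
  induction j with
  | zero =>
    intro hj
    refine (E.ratio_zero hε hϱ (hz 0 hj) h0).trans ?_
    have : ε / ϱ ≤ ε / ϱ ^ 3 := by
      apply div_le_div_of_nonneg_left hε (by positivity)
      calc ϱ ^ 3 = ϱ * ϱ ^ 2 := by ring
        _ ≤ ϱ * 1 := mul_le_mul_of_nonneg_left (by nlinarith) hϱ.le
        _ = ϱ := by ring
    simpa using this
  | succ j ih =>
    intro hj
    have i1 := ih (by omega)
    have i2 := E.ratio_step hD (x := x) (hF (j + 1) hj) (hF j (by omega)) hε hϱ (hz _ hj)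
      (hz j (by omega)) (h4 j (by omega)) (h4' j (by omega))
    have hdeg : ∀ i ≤ k, Deg D ((F i x)⁻¹ • F i) := fun i hi =>
      ((hF i hi).deg.mono (by omega)).smul _
    have e : (F (j + 1) x)⁻¹ • F (j + 1) - 1
        = ((F (j + 1) x)⁻¹ • F (j + 1) - (F j x)⁻¹ • F j) + ((F j x)⁻¹ • F j - 1) := by ring
    rw [e]
    refine (E.N_add_le ((hdeg _ hj).sub (hdeg j (by omega)))
      ((hdeg j (by omega)).sub Deg.one)).trans ?_
    push_cast
    have : 2 * ε / ϱ ^ 3 = 2 * (ε / ϱ ^ 3) := by ring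
    rw [this] at i2
    linarith

theorem recover {m : ℕ} (hD : 6 * m ≤ D) {x : Cube ι} {V F : Fn ι} (hV : Bd m 1 V)
    (hF : Bd (2 * m) 1 F) {ε ϱ δ : ℝ} (hε : 0 ≤ ε) (hϱ : 0 < ϱ) (hz : ϱ ≤ ‖F x‖)
    (h2 : E.N (dv x (star F * F)) ≤ ε) (h3 : E.N (dv x (V * star F)) ≤ ε)
    (hX : E.N ((F x)⁻¹ • F - 1) ≤ δ) :
    E.N (dv x V) ≤ 2 * ε / ϱ ^ 2 + ‖V x‖ * δ := by
  have hzn : F x ≠ 0 := by
    intro h; rw [h, norm_zero] at hz; linarith
  have hsn : star (F x) ≠ 0 := by simpa using hzn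
  have key : dv x V = (star (F x) * F x)⁻¹ •
      (-(V * dv x (star F * F)) + dv x (V * star F) * F) + V x • ((F x)⁻¹ • F - 1) := by
    funext y
    simp only [dv, Pi.smul_apply, Pi.sub_apply, Pi.add_apply, Pi.neg_apply, Pi.mul_apply,
      Pi.star_apply, Pi.one_apply, smul_eq_mul]
    field_simp
    ring
  have d1 : Deg (2 * m + 2 * m) (dv x (star F * F)) := dv_deg (hF.star.deg.mul hF.deg)
  have d2 : Deg (m + 2 * m) (dv x (V * star F)) := dv_deg (hV.deg.mul hF.star.deg)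
  have n1 : E.N (V * dv x (star F * F)) ≤ 1 * ε :=
    (E.N_mul_le hV d1 (by omega)).trans (by linarith)
  have n2 : E.N (dv x (V * star F) * F) ≤ 1 * ε :=
    (E.N_mul_le' hF d2 (by omega)).trans (by linarith)
  have d3 : Deg D (-(V * dv x (star F * F))) := ((hV.deg.mul d1).mono (by omega)).neg
  have d4 : Deg D (dv x (V * star F) * F) := (d2.mul hF.deg).mono (by omega)
  have n3 : E.N (-(V * dv x (star F * F)) + dv x (V * star F) * F) ≤ 2 * ε := by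
    refine (E.N_add_le d3 d4).trans ?_
    rw [E.N_neg]
    linarith
  have d5 : Deg D ((F x)⁻¹ • F - 1) := ((hF.deg.mono (by omega)).smul _).sub Deg.one
  rw [key]
  refine (E.N_add_le ((d3.add d4).smul _) (d5.smul _)).trans ?_
  rw [E.N_smul, E.N_smul, norm_inv, norm_mul, norm_star]
  have hge : ϱ ^ 2 ≤ ‖F x‖ * ‖F x‖ := by
    have : ϱ ^ 2 = ϱ * ϱ := by ring
    rw [this]
    exact mul_le_mul hz hz hϱ.le (norm_nonneg _)
  have hinv : (‖F x‖ * ‖F x‖)⁻¹ ≤ (ϱ ^ 2)⁻¹ := inv_anti₀ (by positivity) hge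
  have h5 : (‖F x‖ * ‖F x‖)⁻¹ * E.N (-(V * dv x (star F * F)) + dv x (V * star F) * F)
      ≤ 2 * ε / ϱ ^ 2 := by
    calc _ ≤ (ϱ ^ 2)⁻¹ * (2 * ε) := mul_le_mul hinv n3 (E.N_nonneg _) (by positivity)
      _ = 2 * ε / ϱ ^ 2 := by ring
  exact add_le_add h5 (mul_le_mul_of_nonneg_left hX (norm_nonneg _))

theorem star_ratio {x : Cube ι} (F : Fn ι) :
    E.N ((star F x)⁻¹ • star F - 1) = E.N ((F x)⁻¹ • F - 1) := by
  have : (star F x)⁻¹ • star F - 1 = star ((F x)⁻¹ • F - 1) := by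
    rw [star_sub, star_smul, star_one]
    simp
  rw [this, E.N_star]

/-- crude bound from the modulus relation alone. -/
theorem crude {m : ℕ} (hD : 2 * m ≤ D) {x : Cube ι} {V : Fn ι} (hV : Bd m 1 V) {ε : ℝ}
    (h : E.N (dv x (star V * V)) ≤ ε) : E.N (dv x V) ≤ 2 * ‖V x‖ + Real.sqrt ε := by
  have dV : Deg D V := hV.deg.mono (by omega)
  have d1 : Deg D (dv x (star V * V)) := dv_deg ((hV.star.deg.mul hV.deg).mono (by omega))
  have hL := (Complex.re_le_norm _).trans (E.norm_L_le d1)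
  have e1 : E.L (dv x (star V * V)) = E.L (star V * V) - ((‖V x‖ ^ 2 : ℝ) : ℂ) := by
    have : (dv x (star V * V)) = star V * V - ((‖V x‖ ^ 2 : ℝ) : ℂ) • (1 : Fn ι) := by
      funext y
      simp only [dv, Pi.sub_apply, Pi.mul_apply, Pi.star_apply, Pi.smul_apply, Pi.one_apply,
        smul_eq_mul, mul_one]
      congr 1
      have := Complex.conj_mul' (V x)
      simpa using this
    rw [this, map_sub, map_smul, E.map_one, smul_eq_mul, mul_one]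
  rw [e1, Complex.sub_re, Complex.ofReal_re, ← E.N_sq dV] at hL
  have h2 : E.N V ^ 2 ≤ ‖V x‖ ^ 2 + ε := by linarith
  have hε : 0 ≤ ε := (E.N_nonneg _).trans h
  have h3 : E.N V ≤ ‖V x‖ + Real.sqrt ε := by
    have h4 : E.N V ^ 2 ≤ (‖V x‖ + Real.sqrt ε) ^ 2 := by
      have h5 := Real.sq_sqrt hε
      have h6 : 0 ≤ ‖V x‖ * Real.sqrt ε := by positivity
      nlinarith
    exact le_of_sq_le_sq h4 (by positivity)
  have h7 : E.N (dv x V) ≤ E.N V + E.N (fun _ => V x : Fn ι) :=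
    E.N_sub_le dV (Deg.const _)
  rw [E.N_const] at h7
  linarith

end PE

end Crest.Agent.R300
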