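import Mathlib
import Crest.Agent.R300.Ideal
import Crest.Agent.R300.Contour

/-!
# Row 300: contour identity (interface helper862)
-/

set_option autoImplicit false

namespace Crest.Agent.R300

open Complex

theorem kp_nonneg : (0:ℝ) ≤ kp := by unfold kp; norm_num

theorem kp_lt_one : kp < 1 := by unfold kp; norm_num

theorem cPt_eq_ctr (sig τ : ℝ) : cPt sig τ = Contour.ctr sig kp τ := by
  unfold cPt Contour.ctr
  push_cast
  ring

theorem cWt_eq_dctr (τ : ℝ) : cWt τ = Contour.dctr kp τ := by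
  unfold cWt Contour.dctr
  push_cast
  ring

theorem kiv_pos {om iv : ℝ} {k : ℕ} (hk : 2 ≤ k) (hom : 1 ≤ om)
    (hiv1 : iv * om ^ 2 ≤ 1 / 256) : 0 < (k:ℝ) / om ^ 2 - iv := by
  have hom2 : 0 < om ^ 2 := by positivity
  have hk2 : (2:ℝ) ≤ k := by exact_mod_cast hk
  rw [sub_pos, lt_div_iff₀ hom2]
  linarith

theorem omp_pos {om iv : ℝ} {k : ℕ} (hk : 2 ≤ k) (hom : 1 ≤ om)
    (hiv1 : iv * om ^ 2 ≤ 1 / 256) : 0 < omp om iv k := by
  unfold omp
  have := kiv_pos hk hom hiv1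
  positivity

theorem omp_sq {om iv : ℝ} {k : ℕ} (hk : 2 ≤ k) (hom : 1 ≤ om)
    (hiv1 : iv * om ^ 2 ≤ 1 / 256) : omp om iv k ^ 2 = 1 / ((k:ℝ) / om ^ 2 - iv) := by
  unfold omp
  rw [div_pow, one_pow, Real.sq_sqrt (kiv_pos hk hom hiv1).le]

/-- The integrand in terms of the Gaussian exponential of `Contour`. -/
theorem gam_mul_exp {om iv ep sig : ℝ} {k : ℕ} (hk : 2 ≤ k) (hom : 1 ≤ om)
    (hiv1 : iv * om ^ 2 ≤ 1 / 256) (M B Q τ : ℝ) :
    cWt τ * gam om iv ep k (cPt sig τ) B Q * cexp (-(2 * Real.pi * cPt sig τ * M))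
      = (((omp om iv k / om : ℝ) : ℂ) * cexp (-(Real.pi * Q / om ^ 2))) *
        (Contour.gf (omp om iv k ^ 2) (B / om ^ 2 + ep) M (Contour.ctr sig kp τ)
          * Contour.dctr kp τ) := by
  rw [← cPt_eq_ctr, ← cWt_eq_dctr]
  unfold gam Contour.gf
  have e : cexp (Real.pi * ((omp om iv k : ℂ) ^ 2 * (cPt sig τ + B / om ^ 2 + ep) ^ 2 - Q / om ^ 2))
      * cexp (-(2 * Real.pi * cPt sig τ * M))
      = cexp (-(Real.pi * Q / om ^ 2)) * cexp (Real.pi * ((omp om iv k ^ 2 : ℝ) : ℂ)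
        * (cPt sig τ + (B / om ^ 2 + ep)) ^ 2 - 2 * Real.pi * cPt sig τ * M) := by
    rw [← Complex.exp_add, ← Complex.exp_add]
    congr 1
    push_cast
    ring
  calc cWt τ * (((omp om iv k / om : ℝ) : ℂ) *
      cexp (Real.pi * ((omp om iv k : ℂ) ^ 2 * (cPt sig τ + B / om ^ 2 + ep) ^ 2 - Q / om ^ 2)))
        * cexp (-(2 * Real.pi * cPt sig τ * M))
      = cWt τ * ((omp om iv k / om : ℝ) : ℂ) * (cexp (Real.pi * ((omp om iv k : ℂ) ^ 2
        * (cPt sig τ + B / om ^ 2 + ep) ^ 2 - Q / om ^ 2))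
          * cexp (-(2 * Real.pi * cPt sig τ * M))) := by ring
    _ = _ := by rw [e]; ring

/-- The contour identity: exact superposition, continuous version (all real `M`). -/
theorem contour_integral (om iv ep sig : ℝ) (k : ℕ) (hk : 2 ≤ k) (hom : 1 ≤ om) (hiv : 0 ≤ iv)
    (hiv1 : iv * om ^ 2 ≤ 1 / 256) (hep : 0 ≤ ep) (M B Q : ℝ) :
    MeasureTheory.Integrable (fun τ : ℝ =>
      cWt τ * gam om iv ep k (cPt sig τ) B Q * cexp (-(2 * Real.pi * cPt sig τ * M))) ∧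
    om * ∫ τ : ℝ, cWt τ * gam om iv ep k (cPt sig τ) B Q * cexp (-(2 * Real.pi * cPt sig τ * M))
      = cexp (-(Real.pi * (k * M ^ 2 - 2 * M * B + Q) / om ^ 2)
          + Real.pi * iv * M ^ 2 + 2 * Real.pi * ep * M) := by
  have hp := omp_pos hk hom hiv1
  have hp2 := omp_sq hk hom hiv1
  have hkv := kiv_pos hk hom hiv1
  have hom0 : (om:ℂ) ≠ 0 := by
    have : om ≠ 0 := by linarith
    exact_mod_cast this
  have hK := Contour.kink (A := omp om iv k ^ 2) (by positivity) (B / om ^ 2 + ep) M sig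
    kp_nonneg kp_lt_one
  simp_rw [gam_mul_exp (ep := ep) (sig := sig) hk hom hiv1 M B Q]
  refine ⟨hK.1.const_mul _, ?_⟩
  rw [MeasureTheory.integral_const_mul, hK.2, Real.sqrt_sq hp.le]
  have hpC : ((omp om iv k : ℝ) : ℂ) ≠ 0 := by exact_mod_cast hp.ne'
  have e1 : (om:ℂ) * ((((omp om iv k / om : ℝ) : ℂ) * cexp (-(Real.pi * Q / om ^ 2)))
      * (((1 / omp om iv k : ℝ) : ℂ) * cexp (2 * Real.pi * (B / om ^ 2 + ep) * M
        - Real.pi * M ^ 2 / ((omp om iv k ^ 2 : ℝ) : ℂ))))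
      = cexp (-(Real.pi * Q / om ^ 2)) * cexp (2 * Real.pi * (B / om ^ 2 + ep) * M
        - Real.pi * M ^ 2 / ((omp om iv k ^ 2 : ℝ) : ℂ)) := by
    push_cast
    field_simp
  rw [e1, ← Complex.exp_add]
  congr 1
  have hkvC : ((k:ℂ) / om ^ 2 - iv) ≠ 0 := by
    have : (((k:ℝ) / om ^ 2 - iv : ℝ) : ℂ) ≠ 0 := by exact_mod_cast hkv.ne'
    push_cast at this
    exact this
  rw [hp2]
  push_cast
  rw [one_div, div_inv_eq_mul]
  ring

end Crest.Agent.R300
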