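import Mathlib
import Crest.Agent.R300.Ideal

/-!
# Row 300: bound of the gap kernel (interface helper862)
-/

set_option autoImplicit false

namespace Crest.Agent.R300

open Complex

/-- Bound of the gap kernel on the contour, with a Gaussian decay in the location frequency and in
the gaps. -/
theorem gam_bound : ∃ C : ℝ, 1 ≤ C ∧ ∀ (om iv ep sig τ : ℝ) (k : ℕ) (B Q : ℝ),
    2 ≤ k → k ≤ 4 → 1 ≤ om → 0 ≤ iv → iv * om ^ 2 ≤ 1 / 256 → 0 ≤ ep → ep * om ≤ 1 / 1024 →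
    1 / 2 ≤ om * sig → om * sig ≤ 1 → 0 ≤ B → B ^ 2 ≤ (k - 1) * Q →
    ‖gam om iv ep k (cPt sig τ) B Q‖ ≤ C * Real.exp (-(om ^ 2 * τ ^ 2) / C - Q / (C * om ^ 2)) := by
  sorry

end Crest.Agent.R300
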