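import Mathlib
import Crest.Agent.R300.GamBound
import Crest.Agent.R300.ContourInt

/-!
# Row 300: discrete superposition (interface helper862)
-/

set_option autoImplicit false

namespace Crest.Agent.R300

open Complex

/-- Discrete superposition with error decaying in `M` and in the gaps. -/
theorem contour_sum : ∃ C : ℝ, 1 ≤ C ∧ ∀ (om iv ep sig h : ℝ) (R k : ℕ) (M B Q : ℝ),
    2 ≤ k → k ≤ 4 → 1 ≤ om → 0 ≤ iv → iv * om ^ 2 ≤ 1 / 256 → 0 ≤ ep → ep * om ≤ 1 / 1024 →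
    1 / 2 ≤ om * sig → om * sig ≤ 1 → 0 < h → h ≤ 1 →
    0 ≤ M → 0 ≤ B → B ^ 2 ≤ (k - 1) * Q →
    ‖cexp (-(Real.pi * (k * M ^ 2 - 2 * M * B + Q) / om ^ 2)
          + Real.pi * iv * M ^ 2 + 2 * Real.pi * ep * M)
      - ∑ l ∈ Finset.Icc (-(R : ℤ)) R, (h * om : ℝ) * cWt (l * h) *
          gam om iv ep k (cPt sig (l * h)) B Q * cexp (-(2 * Real.pi * cPt sig (l * h) * M))‖
      ≤ (om * (1 + h * R)) ^ C * (C * Real.exp (-(om ^ 2 * (h * R) ^ 2) / C) + C * h) *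
          Real.exp (-M / (C * om) - Q / (C * om ^ 2)) := by
  sorry

end Crest.Agent.R300
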