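import Mathlib
import Crest.Prelude.Def_TraceRecon
import Crest.Prelude.Def_TraceSym
import Crest.Prelude.Def_TraceDecoder

/-!
# Row 300, upper bounds: probability layer

* `sum_pi_prod`, `second_moment`, `conc`: Chebyshev for `m` independent samples on a finite
  weighted space, for a finite family of `[0,1]`-valued statistics at once;
* `stat`, `T`, `That`: the `k`-point trace statistics, their expectations and empirical means;
* `good_event`, `good_event_sym`;
* `decoderSuccessProb_ge`: success probability of a decoder that is correct on an event.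
-/

set_option autoImplicit false

namespace Crest.Agent.R300.Prob

open Crest.FinProb Crest.TraceRecon Finset

noncomputable section

/-- Total weight of an event. -/
def prb {Ω : Type*} [Fintype Ω] (W : Ω → ℝ) (G : Ω → Prop) : ℝ :=
  haveI := Classical.decPred G
  ∑ ω, W ω * (if G ω then 1 else 0)

theorem prb_mono {Ω : Type*} [Fintype Ω] (W : Ω → ℝ) (hW : ∀ ω, 0 ≤ W ω) {G G' : Ω → Prop}
    (h : ∀ ω, G ω → G' ω) : prb W G ≤ prb W G' := by
  classical
  unfold prb
  refine Finset.sum_le_sum fun ω _ => mul_le_mul_of_nonneg_left ?_ (hW ω)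
  by_cases h1 : G ω
  · rw [if_pos h1, if_pos (h ω h1)]
  · rw [if_neg h1]; split_ifs <;> norm_num

theorem le_prb {Ω : Type*} [Fintype Ω] (W F : Ω → ℝ) (G : Ω → Prop)
    (h1 : ∀ ω, G ω → F ω ≤ W ω) (h2 : ∀ ω, ¬ G ω → F ω ≤ 0) : ∑ ω, F ω ≤ prb W G := by
  classical
  unfold prb
  refine Finset.sum_le_sum fun ω _ => ?_
  by_cases h : G ω
  · rw [if_pos h, mul_one]; exact h1 ω h
  · rw [if_neg h, mul_zero]; exact h2 ω h

/-! ## Independent samples from a finite weighted space -/

section General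

variable {ι Ω : Type*} [Fintype ι] [DecidableEq ι] [Fintype Ω]

theorem sum_pi_prod (F : ι → Ω → ℝ) :
    ∑ ω : ι → Ω, ∏ k, F k (ω k) = ∏ k, ∑ a, F k a := by
  classical
  rw [Finset.prod_univ_sum, Fintype.piFinset_univ]

theorem sum_prod_weight (w : Ω → ℝ) (hw1 : ∑ a, w a = 1) :
    ∑ ω : ι → Ω, ∏ k, w (ω k) = 1 := by
  rw [sum_pi_prod (fun _ => w)]
  simp [hw1]

theorem cross_moment (w : Ω → ℝ) (hw1 : ∑ a, w a = 1) (g : Ω → ℝ) (hg : ∑ a, w a * g a = 0)
    (k l : ι) :
    ∑ ω : ι → Ω, (∏ j, w (ω j)) * (g (ω k) * g (ω l))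
      = if k = l then ∑ a, w a * g a ^ 2 else 0 := by
  classical
  have h1 : ∀ ω : ι → Ω, (∏ j, w (ω j)) * (g (ω k) * g (ω l))
      = ∏ j, (w (ω j) * (if j = k then g (ω j) else 1) * (if j = l then g (ω j) else 1)) := by
    intro ω
    rw [Finset.prod_mul_distrib, Finset.prod_mul_distrib]
    rw [Finset.prod_ite_eq' Finset.univ k (fun j => g (ω j)),
      Finset.prod_ite_eq' Finset.univ l (fun j => g (ω j))]
    simp only [Finset.mem_univ, if_true]
    ring
  simp_rw [h1]
  rw [sum_pi_prod (fun j a => w a * (if j = k then g a else 1) * (if j = l then g a else 1))]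
  by_cases hkl : k = l
  · subst hkl
    rw [if_pos rfl]
    rw [Finset.prod_eq_single k]
    · refine Finset.sum_congr rfl fun a _ => ?_
      simp only [if_true]; ring
    · intro j _ hj
      simp only [if_neg hj, mul_one]
      exact hw1
    · intro h; exact absurd (Finset.mem_univ k) h
  · rw [if_neg hkl]
    apply Finset.prod_eq_zero (Finset.mem_univ k)
    simp only [if_true, if_neg hkl, mul_one]
    exact hg

theorem second_moment (w : Ω → ℝ) (hw1 : ∑ a, w a = 1) (g : Ω → ℝ)
    (hg : ∑ a, w a * g a = 0) :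
    ∑ ω : ι → Ω, (∏ j, w (ω j)) * (∑ k, g (ω k)) ^ 2
      = Fintype.card ι * ∑ a, w a * g a ^ 2 := by
  classical
  have h1 : ∀ ω : ι → Ω, (∏ j, w (ω j)) * (∑ k, g (ω k)) ^ 2
      = ∑ k, ∑ l, (∏ j, w (ω j)) * (g (ω k) * g (ω l)) := by
    intro ω
    rw [sq, Finset.sum_mul_sum, Finset.mul_sum]
    refine Finset.sum_congr rfl fun k _ => ?_
    rw [Finset.mul_sum]
  simp_rw [h1]
  rw [Finset.sum_comm]
  have h2 : ∀ k : ι, ∑ ω : ι → Ω, ∑ l, (∏ j, w (ω j)) * (g (ω k) * g (ω l))
      = ∑ a, w a * g a ^ 2 := by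
    intro k
    rw [Finset.sum_comm]
    simp_rw [cross_moment w hw1 g hg]
    simp
  simp_rw [h2]
  simp

theorem var_le (w : Ω → ℝ) (hw0 : ∀ a, 0 ≤ w a) (hw1 : ∑ a, w a = 1) (f : Ω → ℝ)
    (hf0 : ∀ a, 0 ≤ f a) (hf1 : ∀ a, f a ≤ 1) :
    ∑ a, w a * (f a - ∑ b, w b * f b) ^ 2 ≤ 1 / 4 := by
  set μ := ∑ b, w b * f b with hμ
  have h1 : ∑ a, w a * (f a - μ) ^ 2 = ∑ a, w a * f a ^ 2 - μ ^ 2 := by
    have : ∀ a, w a * (f a - μ) ^ 2 = w a * f a ^ 2 - 2 * μ * (w a * f a) + μ ^ 2 * w a := by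
      intro a; ring
    simp_rw [this]
    rw [Finset.sum_add_distrib, Finset.sum_sub_distrib, ← Finset.mul_sum, ← Finset.mul_sum, hw1,
      ← hμ]
    ring
  have h2 : ∑ a, w a * f a ^ 2 ≤ μ := by
    rw [hμ]
    refine Finset.sum_le_sum fun a _ => mul_le_mul_of_nonneg_left ?_ (hw0 a)
    nlinarith [hf0 a, hf1 a]
  rw [h1]
  nlinarith [sq_nonneg (μ - 1 / 2)]

/-- Chebyshev and the union bound for a finite family of `[0,1]`-valued statistics. -/
theorem conc (w : Ω → ℝ) (hw0 : ∀ a, 0 ≤ w a) (hw1 : ∑ a, w a = 1) {J : Type*}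
    (AA : Finset J) (f : J → Ω → ℝ) (hf0 : ∀ j a, 0 ≤ f j a) (hf1 : ∀ j a, f j a ≤ 1)
    (β : ℝ) (hβ : 0 < β) (hm : 0 < Fintype.card ι) :
    1 - (AA.card : ℝ) / (4 * Fintype.card ι * β ^ 2)
      ≤ prb (fun ω : ι → Ω => ∏ k, w (ω k))
          (fun ω => ∀ j ∈ AA, |(∑ k, f j (ω k)) / Fintype.card ι - ∑ a, w a * f j a| ≤ β) := by
  classical
  have hm' : (0 : ℝ) < Fintype.card ι := by exact_mod_cast hm
  refine le_trans ?_ (le_prb (fun ω : ι → Ω => ∏ k, w (ω k))
    (fun ω => (∏ k, w (ω k)) - ∑ j ∈ AA, (∏ k, w (ω k)) *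
          ((∑ k, (f j (ω k) - ∑ a, w a * f j a)) ^ 2 / (Fintype.card ι * β) ^ 2)) _ ?_ ?_)
  rotate_left
  · intro ω _
    have hP : 0 ≤ ∏ k, w (ω k) := Finset.prod_nonneg fun k _ => hw0 _
    have : 0 ≤ ∑ j ∈ AA, (∏ k, w (ω k)) *
          ((∑ k, (f j (ω k) - ∑ a, w a * f j a)) ^ 2 / (Fintype.card ι * β) ^ 2) :=
        Finset.sum_nonneg fun j _ => mul_nonneg hP (by positivity)
    show (∏ k, w (ω k)) - _ ≤ ∏ k, w (ω k)
    linarith
  · intro ω h
    have hP : 0 ≤ ∏ k, w (ω k) := Finset.prod_nonneg fun k _ => hw0 _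
    push Not at h
    obtain ⟨j, hj, hdev⟩ := h
    have h1 : (∏ k, w (ω k)) * 1 ≤ (∏ k, w (ω k)) *
          ((∑ k, (f j (ω k) - ∑ a, w a * f j a)) ^ 2 / (Fintype.card ι * β) ^ 2) := by
        apply mul_le_mul_of_nonneg_left _ hP
        rw [le_div_iff₀ (by positivity), one_mul]
        have h2 : ∑ k, (f j (ω k) - ∑ a, w a * f j a)
            = Fintype.card ι * ((∑ k, f j (ω k)) / Fintype.card ι - ∑ a, w a * f j a) := by
          rw [Finset.sum_sub_distrib, Finset.sum_const, Finset.card_univ, nsmul_eq_mul, mul_sub,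
            mul_div_cancel₀ _ hm'.ne']
        rw [h2, mul_pow, mul_pow]
        apply mul_le_mul_of_nonneg_left _ (by positivity)
        rw [← sq_abs ((∑ k, f j (ω k)) / Fintype.card ι - ∑ a, w a * f j a)]
        exact pow_le_pow_left₀ hβ.le hdev.le 2
    have h3 : (∏ k, w (ω k)) *
          ((∑ k, (f j (ω k) - ∑ a, w a * f j a)) ^ 2 / (Fintype.card ι * β) ^ 2)
          ≤ ∑ j ∈ AA, (∏ k, w (ω k)) *
          ((∑ k, (f j (ω k) - ∑ a, w a * f j a)) ^ 2 / (Fintype.card ι * β) ^ 2) :=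
        Finset.single_le_sum (f := fun j => (∏ k, w (ω k)) *
          ((∑ k, (f j (ω k) - ∑ a, w a * f j a)) ^ 2 / (Fintype.card ι * β) ^ 2))
          (fun j _ => mul_nonneg hP (by positivity)) hj
    show (∏ k, w (ω k)) - _ ≤ 0
    linarith
  rw [Finset.sum_sub_distrib, sum_prod_weight w hw1, Finset.sum_comm]
  have hj : ∀ j ∈ AA, ∑ ω : ι → Ω, (∏ k, w (ω k)) *
          ((∑ k, (f j (ω k) - ∑ a, w a * f j a)) ^ 2 / (Fintype.card ι * β) ^ 2)
        ≤ 1 / (4 * Fintype.card ι * β ^ 2) := by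
    intro j _
    have h1 : ∀ ω : ι → Ω, (∏ k, w (ω k)) *
          ((∑ k, (f j (ω k) - ∑ a, w a * f j a)) ^ 2 / (Fintype.card ι * β) ^ 2)
        = ((∏ k, w (ω k)) * (∑ k, (f j (ω k) - ∑ a, w a * f j a)) ^ 2)
            * (1 / (Fintype.card ι * β) ^ 2) := by
      intro ω; ring
    simp_rw [h1]
    rw [← Finset.sum_mul]
    rw [second_moment w hw1 (fun b => f j b - ∑ a, w a * f j a) (by
      simp_rw [mul_sub]
      rw [Finset.sum_sub_distrib, ← Finset.sum_mul, hw1]; ring)]
    have h2 := var_le w hw0 hw1 (f j) (hf0 j) (hf1 j)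
    calc (Fintype.card ι : ℝ) * (∑ a, w a * (f j a - ∑ a, w a * f j a) ^ 2)
          * (1 / (Fintype.card ι * β) ^ 2)
        ≤ (Fintype.card ι : ℝ) * (1 / 4) * (1 / (Fintype.card ι * β) ^ 2) := by
          apply mul_le_mul_of_nonneg_right _ (by positivity)
          exact mul_le_mul_of_nonneg_left h2 hm'.le
      _ = 1 / (4 * Fintype.card ι * β ^ 2) := by
          field_simp
  have h4 := Finset.sum_le_sum hj
  rw [Finset.sum_const, nsmul_eq_mul] at h4
  have h5 : (AA.card : ℝ) * (1 / (4 * Fintype.card ι * β ^ 2))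
      = (AA.card : ℝ) / (4 * Fintype.card ι * β ^ 2) := by ring
  rw [h5] at h4
  linarith

end General

/-! ## Bernoulli weights -/

theorem bw_nonneg {ι : Type*} [Fintype ι] {p : ℝ} (h0 : 0 ≤ p) (h1 : p ≤ 1) (ω : ι → Bool) :
    0 ≤ bernoulliWeight p ω := by
  unfold bernoulliWeight
  refine Finset.prod_nonneg fun i _ => ?_
  split_ifs
  · exact h0
  · linarith

theorem sum_bw {ι : Type*} [Fintype ι] [DecidableEq ι] (p : ℝ) :
    ∑ ω : ι → Bool, bernoulliWeight p ω = 1 := by
  unfold bernoulliWeight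
  rw [sum_pi_prod (fun (_ : ι) (b : Bool) => if b then p else 1 - p)]
  simp

/-! ## Trace statistics -/

/-- The value of the statistic `∏_{j ∈ a} y_j` on a trace `y` (with `y_j = 0` beyond the end). -/
def stat (a : Finset ℕ) (y : List Bool) : ℝ :=
  if ∀ j ∈ a, y.getD j false = true then 1 else 0

theorem stat_nonneg (a : Finset ℕ) (y : List Bool) : 0 ≤ stat a y := by
  unfold stat; split_ifs <;> norm_num

theorem stat_le_one (a : Finset ℕ) (y : List Bool) : stat a y ≤ 1 := by
  unfold stat; split_ifs <;> norm_num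

/-- The expectation of `stat a` over one trace of `x` at retention probability `p`. -/
def T (p : ℝ) {n : ℕ} (x : Fin n → Bool) (a : Finset ℕ) : ℝ :=
  ∑ keep : Fin n → Bool, bernoulliWeight p keep * stat a (traceOf x keep)

/-- The empirical mean of `stat a` over the observed traces. -/
def That {m : ℕ} (τ : Fin m → List Bool) (a : Finset ℕ) : ℝ :=
  (∑ k, stat a (τ k)) / m

/-- With large probability all empirical statistics of a finite family are accurate. -/
theorem good_event {n m : ℕ} (p : ℝ) (h0 : 0 ≤ p) (h1 : p ≤ 1) (x : Fin n → Bool)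
    (AA : Finset (Finset ℕ)) (β : ℝ) (hβ : 0 < β) (hm : 0 < m) :
    1 - (AA.card : ℝ) / (4 * m * β ^ 2)
      ≤ prb (fun keeps : Fin m → Fin n → Bool => ∏ k, bernoulliWeight p (keeps k))
          (fun keeps => ∀ a ∈ AA, |That (fun k => traceOf x (keeps k)) a - T p x a| ≤ β) := by
  have h := conc (ι := Fin m) (Ω := Fin n → Bool) (fun keep => bernoulliWeight p keep)
    (fun keep => bw_nonneg h0 h1 keep) (sum_bw p) AA
    (fun a keep => stat a (traceOf x keep)) (fun a keep => stat_nonneg _ _)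
    (fun a keep => stat_le_one _ _) β hβ (by simpa using hm)
  simp only [Fintype.card_fin] at h
  exact h

/-! ## Decoders -/

theorem uniformProb_le_one' {Ω : Type*} [Fintype Ω] (E : Set Ω) : 0 ≤ uniformProb E := by
  unfold uniformProb
  positivity

/-- A decoder that is correct (for every random tape) on an event of the traces succeeds with at
least the probability of that event. -/
theorem decoderSuccessProb_ge {n m : ℕ} (p : ℚ) (hp0 : 0 ≤ p) (hp1 : p ≤ 1)
    (A : List Bool × List Bool → List Bool) (r : Polynomial ℕ) (x : Fin n → Bool)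
    (good : (Fin m → Fin n → Bool) → Prop)
    (hgood : ∀ keeps, good keeps → ∀ tape : List Bool,
      readWord n (A (decoderInput n p (fun k => traceOf x (keeps k)), tape)) = x) :
    prb (fun keeps : Fin m → Fin n → Bool => ∏ k, bernoulliWeight (p : ℝ) (keeps k)) good
      ≤ decoderSuccessProb m p A r x := by
  classical
  unfold decoderSuccessProb prb
  refine Finset.sum_le_sum fun keeps _ => ?_
  have hP : 0 ≤ ∏ k, bernoulliWeight (p : ℝ) (keeps k) :=
    Finset.prod_nonneg fun k _ => bw_nonneg (by exact_mod_cast hp0) (by exact_mod_cast hp1) _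
  refine mul_le_mul_of_nonneg_left ?_ hP
  split_ifs with h
  · have : {ω : Fin (r.eval (decoderInput n p (fun k => traceOf x (keeps k))).length) → Bool |
        readWord n (A (decoderInput n p (fun k => traceOf x (keeps k)), List.ofFn ω)) = x}
        = Set.univ := by
      ext ω
      simp only [Set.mem_ofPred_eq, Set.mem_univ, iff_true]
      exact hgood keeps h _
    rw [this]
    unfold uniformProb
    simp
  · exact uniformProb_le_one' _

/-- Main form for the decoder: if the decoder is correct whenever all statistics `a ∈ AA` are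
within `β` of their expectations, it succeeds with probability at least `1 - |AA|/(4 m β²)`. -/
theorem decoderSuccessProb_ge_of_stat {n m : ℕ} (p : ℚ) (hp0 : 0 ≤ p) (hp1 : p ≤ 1)
    (A : List Bool × List Bool → List Bool) (r : Polynomial ℕ) (x : Fin n → Bool)
    (AA : Finset (Finset ℕ)) (β : ℝ) (hβ : 0 < β) (hm : 0 < m)
    (hgood : ∀ keeps : Fin m → Fin n → Bool,
      (∀ a ∈ AA, |That (fun k => traceOf x (keeps k)) a - T (p : ℝ) x a| ≤ β) →
      ∀ tape : List Bool,
      readWord n (A (decoderInput n p (fun k => traceOf x (keeps k)), tape)) = x) :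
    1 - (AA.card : ℝ) / (4 * m * β ^ 2) ≤ decoderSuccessProb m p A r x := by
  refine le_trans (good_event (p : ℝ) (by exact_mod_cast hp0) (by exact_mod_cast hp1) x AA β hβ hm)
    (decoderSuccessProb_ge p hp0 hp1 A r x _ hgood)

end

end Crest.Agent.R300.Prob
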