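import Mathlib
import Crest.Agent.R300.Prob

/-!
# Row 300: S0456 from the separation theorem

`SEP`: two binary words of length `n` whose `k`-point trace statistics (`k ≤ K`) agree up to `β`
are equal.  `sample_upper_of_SEP`: the frozen statement S0456.
-/

set_option autoImplicit false

namespace Crest.Agent.R300.Prob

open Crest.FinProb Crest.TraceRecon Finset

noncomputable section

/-! ## A small family of index sets -/

/-- All sets of at most `K` trace positions `< n`, as the image of a family of `(n+1)^K` codes. -/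
def idx (n K : ℕ) : Finset (Finset ℕ) :=
  (Finset.univ : Finset (Fin K → Fin (n + 1))).image
    (fun g => (Finset.univ.image (fun i => (g i : ℕ))).erase n)

theorem card_idx_le (n K : ℕ) : (idx n K).card ≤ (n + 1) ^ K := by
  unfold idx
  refine le_trans Finset.card_image_le ?_
  simp

theorem mem_idx {n K : ℕ} (a : Finset ℕ) (ha : a ⊆ Finset.range n) (hK : a.card ≤ K) :
    a ∈ idx n K := by
  classical
  unfold idx
  rw [Finset.mem_image]
  refine ⟨fun i => if h : (i : ℕ) < a.card then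
      ⟨a.orderEmbOfFin rfl ⟨i, h⟩, ?_⟩ else ⟨n, Nat.lt_succ_self n⟩, Finset.mem_univ _, ?_⟩
  · have := ha (Finset.orderEmbOfFin_mem a rfl ⟨i, h⟩)
    rw [Finset.mem_range] at this
    omega
  · ext j
    rw [Finset.mem_erase, Finset.mem_image]
    constructor
    · rintro ⟨hj, i, _, hi⟩
      by_cases h : (i : ℕ) < a.card
      · simp only [dif_pos h] at hi
        rw [← hi]
        exact Finset.orderEmbOfFin_mem a rfl _
      · simp only [dif_neg h] at hi
        exact absurd hi.symm hj
    · intro hj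
      have hjn : j < n := by simpa using ha hj
      refine ⟨by omega, ?_⟩
      have : j ∈ Set.range (a.orderEmbOfFin rfl) := by
        rw [Finset.range_orderEmbOfFin]; exact hj
      obtain ⟨l, hl⟩ := this
      refine ⟨⟨l, lt_of_lt_of_le l.2 hK⟩, Finset.mem_univ _, ?_⟩
      simp only [dif_pos l.2]
      exact hl

/-! ## Indicator words -/

/-- the indicator word of the symbol `α` -/
def ind {S : Type*} [DecidableEq S] {n : ℕ} (x : Fin n → S) (α : S) : Fin n → Bool :=
  fun i => decide (x i = α)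

theorem traceOf_ind {S : Type*} [DecidableEq S] {n : ℕ} (x : Fin n → S) (α : S)
    (keep : Fin n → Bool) :
    traceOf (ind x α) keep = (symTraceOf x keep).map (fun c => decide (c = α)) := by
  unfold traceOf symTraceOf ind
  rw [List.map_map]
  rfl

theorem ind_injective {S : Type*} [DecidableEq S] {n : ℕ} {x y : Fin n → S}
    (h : ∀ α, ind x α = ind y α) : x = y := by
  funext i
  have := congrFun (h (x i)) i
  unfold ind at this
  simp only [decide_true] at this
  have h2 := this.symm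
  rw [decide_eq_true_eq] at h2
  exact h2.symm

theorem stat_all_false (a : Finset ℕ) (y : List Bool) (hy : ∀ b ∈ y, b = false) :
    stat a y = if a = ∅ then 1 else 0 := by
  unfold stat
  by_cases h : a = ∅
  · subst h; simp
  · rw [if_neg h, if_neg]
    intro hall
    obtain ⟨j, hj⟩ := Finset.nonempty_iff_ne_empty.mpr h
    have h1 := hall j hj
    rw [List.getD_eq_getElem?_getD] at h1
    cases hg : y[j]? with
    | none => rw [hg] at h1; simp at h1
    | some b =>
      rw [hg] at h1
      simp only [Option.getD_some] at h1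
      have := hy b (List.mem_of_getElem? hg)
      rw [this] at h1
      exact absurd h1 (by simp)

theorem traceOf_false {S : Type*} [DecidableEq S] {n : ℕ} (x : Fin n → S) (α : S)
    (hα : ∀ i, x i ≠ α) (keep : Fin n → Bool) : ∀ b ∈ traceOf (ind x α) keep, b = false := by
  intro b hb
  unfold traceOf at hb
  rw [List.mem_map] at hb
  obtain ⟨i, _, hi⟩ := hb
  rw [← hi]
  unfold ind
  exact decide_eq_false (hα i)

/-- Simultaneous accuracy for all symbols; only the positions (not the alphabet) cost. -/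
theorem good_event_sym {S : Type*} [DecidableEq S] {n m : ℕ} (p : ℝ) (h0 : 0 ≤ p) (h1 : p ≤ 1)
    (x : Fin n → S) (AA : Finset (Finset ℕ)) (β : ℝ) (hβ : 0 < β) (hm : 0 < m) :
    1 - (n * AA.card : ℝ) / (4 * m * β ^ 2)
      ≤ prb (fun keeps : Fin m → Fin n → Bool => ∏ k, bernoulliWeight p (keeps k))
          (fun keeps => ∀ α : S, ∀ a ∈ AA,
            |That (fun k => traceOf (ind x α) (keeps k)) a - T p (ind x α) a| ≤ β) := by
  classical
  have h := conc (ι := Fin m) (Ω := Fin n → Bool) (fun keep => bernoulliWeight p keep)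
    (fun keep => bw_nonneg h0 h1 keep) (sum_bw p) ((Finset.univ : Finset (Fin n)) ×ˢ AA)
    (fun j keep => stat j.2 (traceOf (ind x (x j.1)) keep)) (fun a keep => stat_nonneg _ _)
    (fun a keep => stat_le_one _ _) β hβ (by simpa using hm)
  rw [Finset.card_product, Finset.card_univ, Fintype.card_fin, Fintype.card_fin,
    Nat.cast_mul] at h
  refine le_trans h ?_
  refine prb_mono _ (fun keeps => Finset.prod_nonneg fun k _ => bw_nonneg h0 h1 _) ?_
  intro keeps hk α a ha
  by_cases hα : ∃ i, x i = α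
  · obtain ⟨i, rfl⟩ := hα
    exact hk (i, a) (Finset.mem_product.mpr ⟨Finset.mem_univ _, ha⟩)
  · push Not at hα
    have e1 : That (fun k => traceOf (ind x α) (keeps k)) a = if a = ∅ then 1 else 0 := by
      unfold That
      have : ∀ k : Fin m, stat a (traceOf (ind x α) (keeps k)) = if a = ∅ then 1 else 0 :=
        fun k => stat_all_false a _ (traceOf_false x α hα _)
      simp_rw [this]
      rw [Finset.sum_const, Finset.card_univ, Fintype.card_fin, nsmul_eq_mul]
      rw [mul_comm, mul_div_assoc, div_self (by exact_mod_cast hm.ne'), mul_one]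
    have e2 : T p (ind x α) a = if a = ∅ then 1 else 0 := by
      unfold T
      have : ∀ keep : Fin n → Bool, stat a (traceOf (ind x α) keep) = if a = ∅ then 1 else 0 :=
        fun k => stat_all_false a _ (traceOf_false x α hα _)
      simp_rw [this]
      rw [← Finset.sum_mul, sum_bw, one_mul]
    rw [e1, e2, sub_self, abs_zero]
    exact hβ.le

/-! ## The separation theorem and S0456 -/

/-- `X = 1 + log n / (1 + log (1/(1-p)))` -/
def XX (n : ℕ) (p : ℝ) : ℝ := 1 + Real.log n / (1 + Real.log (1 / (1 - p)))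

/-- `Y = p⁻¹ log n X²` -/
def YY (n : ℕ) (p : ℝ) : ℝ := p⁻¹ * Real.log n * XX n p ^ 2

theorem one_le_XX {n : ℕ} {p : ℝ} (hn : 2 ≤ n) (h0 : 0 < p) (h1 : p < 1) : 1 ≤ XX n p := by
  unfold XX
  have hl : 0 ≤ Real.log (1 / (1 - p)) := by
    apply Real.log_nonneg
    rw [le_div_iff₀ (by linarith)]
    linarith
  have : 0 ≤ Real.log n / (1 + Real.log (1 / (1 - p))) :=
    div_nonneg (Real.log_nonneg (by exact_mod_cast (by omega : 1 ≤ n))) (by linarith)
  linarith

theorem log_le_YY {n : ℕ} {p : ℝ} (hn : 2 ≤ n) (h0 : 0 < p) (h1 : p < 1) :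
    Real.log n ≤ YY n p := by
  unfold YY
  have hX := one_le_XX hn h0 h1
  have hl : 0 ≤ Real.log n := Real.log_nonneg (by exact_mod_cast (by omega : 1 ≤ n))
  have hp : 1 ≤ p⁻¹ := (one_le_inv₀ h0).mpr h1.le
  have h2 : 1 ≤ XX n p ^ 2 := one_le_pow₀ hX
  calc Real.log n = 1 * Real.log n * 1 := by ring
    _ ≤ p⁻¹ * Real.log n * XX n p ^ 2 := by gcongr

/-- The separation theorem for binary words. -/
def SEP : Prop :=
  ∃ C : ℝ, 1 ≤ C ∧ ∀ n : ℕ, 2 ≤ n → ∀ p : ℝ, 0 < p → p < 1 →
    ∃ (K : ℕ) (β : ℝ), 0 < β ∧ (K : ℝ) * Real.log n ≤ C * YY n p ∧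
      Real.exp (-(C * YY n p)) ≤ β ∧
      ∀ x y : Fin n → Bool,
        (∀ a : Finset ℕ, a ⊆ Finset.range n → a.card ≤ K → |T p x a - T p y a| ≤ β) → x = y

/-- the predicate that the word `y` explains the data `τ` -/
def explains {s n m : ℕ} (p β : ℝ) (K : ℕ) (τ : Fin m → List (Fin s)) (y : Fin n → Fin s) : Prop :=
  ∀ α : Fin s, ∀ a ∈ idx n K,
    |That (fun k => (τ k).map (fun c => decide (c = α))) a - T p (ind y α) a| ≤ β / 2

open scoped Classical in
/-- the chosen word -/
def pick {s n m : ℕ} (p β : ℝ) (K : ℕ) (y0 : Fin n → Fin s) (τ : Fin m → List (Fin s)) :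
    Fin n → Fin s :=
  if h : ∃ y : Fin n → Fin s, explains p β K τ y then h.choose else y0

open scoped Classical in
/-- the rule -/
def rule {s n m : ℕ} (p β : ℝ) (K : ℕ) (y0 : Fin n → Fin s) (τ : Fin m → List (Fin s))
    (y : Fin n → Fin s) : ℝ := if y = pick p β K y0 τ then 1 else 0

theorem rule_isSymRule {s n m : ℕ} (p β : ℝ) (K : ℕ) (y0 : Fin n → Fin s) :
    IsSymRule (m := m) (rule (m := m) p β K y0) := by
  classical
  intro τ
  constructor
  · intro y; unfold rule; split_ifs <;> norm_num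
  · unfold rule
    rw [Finset.sum_ite_eq' Finset.univ]
    simp

theorem rule_success {s n m : ℕ} (p : ℝ) (h0 : 0 ≤ p) (h1 : p ≤ 1) (β : ℝ) (hβ : 0 < β) (K : ℕ)
    (hm : 0 < m) (y0 : Fin n → Fin s)
    (hsep : ∀ x y : Fin n → Bool,
        (∀ a : Finset ℕ, a ⊆ Finset.range n → a.card ≤ K → |T p x a - T p y a| ≤ β) → x = y)
    (x : Fin n → Fin s) :
    1 - (n * (idx n K).card : ℝ) / (m * β ^ 2)
      ≤ symSuccessProb (m := m) p (rule (m := m) p β K y0) x := by
  classical
  have h := good_event_sym (m := m) p h0 h1 x (idx n K) (β / 2) (by positivity) hm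
  have e : (n * (idx n K).card : ℝ) / (4 * m * (β / 2) ^ 2)
      = (n * (idx n K).card : ℝ) / (m * β ^ 2) := by
    congr 1; ring
  rw [e] at h
  refine le_trans h ?_
  unfold prb symSuccessProb
  refine Finset.sum_le_sum fun keeps _ => ?_
  refine mul_le_mul_of_nonneg_left ?_ (Finset.prod_nonneg fun k _ => bw_nonneg h0 h1 _)
  split_ifs with hg
  · have hx : explains p β K (fun k => symTraceOf x (keeps k)) x := by
      intro α a ha
      have := hg α a ha
      simp_rw [traceOf_ind] at this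
      exact this
    have hex : ∃ y : Fin n → Fin s, explains p β K (fun k => symTraceOf x (keeps k)) y := ⟨x, hx⟩
    have hpick : pick p β K y0 (fun k => symTraceOf x (keeps k)) = x := by
      unfold pick
      rw [dif_pos hex]
      have hy := hex.choose_spec
      set y := hex.choose
      apply ind_injective
      intro α
      apply hsep
      intro a ha haK
      have h1 := hx α a (mem_idx a ha haK)
      have h2 := hy α a (mem_idx a ha haK)
      rw [abs_le] at h1 h2 ⊢
      constructor <;> linarith [h1.1, h1.2, h2.1, h2.2]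
    unfold rule
    rw [hpick, if_pos rfl]
  · unfold rule; split_ifs <;> norm_num

/-- S0456 from the separation theorem. -/
theorem sample_upper_of_SEP (hS : SEP) :
    ∃ C : ℝ, ∀ s : ℕ, 2 ≤ s → ∀ n : ℕ, 2 ≤ n → ∀ p : ℝ, 0 < p → p < 1 →
      ∃ m : ℕ, (m : ℝ) ≤ Real.exp (C * p⁻¹ * Real.log n *
          (1 + Real.log n / (1 + Real.log (1 / (1 - p)))) ^ 2 *
          (1 + Real.log (1 + Real.log n / (1 + Real.log (1 / (1 - p))))) ^ 6) ∧
        ∃ K : (Fin m → List (Fin s)) → (Fin n → Fin s) → ℝ, IsSymRule K ∧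
          ∀ x : Fin n → Fin s, 2 / 3 ≤ symSuccessProb p K x := by
  obtain ⟨C, hC1, hC⟩ := hS
  refine ⟨3 + 4 * C, fun s hs n hn p hp0 hp1 => ?_⟩
  obtain ⟨K, β, hβ, hK, hβ', hsep⟩ := hC n hn p hp0 hp1
  have hn' : (0 : ℝ) < n := by exact_mod_cast (by omega : 0 < n)
  have hn1 : (1 : ℝ) ≤ n := by exact_mod_cast (by omega : 1 ≤ n)
  set m : ℕ := ⌈3 * (n : ℝ) * ((n : ℝ) + 1) ^ K / β ^ 2⌉₊ with hm
  have hm0 : 0 < m := Nat.ceil_pos.mpr (by positivity)
  have hY := log_le_YY hn hp0 hp1
  have hlog2 : (1 : ℝ) / 2 < Real.log 2 := by linarith [Real.log_two_gt_d9]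
  have hlogn : Real.log 2 ≤ Real.log n := Real.log_le_log (by norm_num) (by exact_mod_cast hn)
  have hX := one_le_XX hn hp0 hp1
  set Y := YY n p with hYdef
  have hYpos : 0 < Y := by linarith
  refine ⟨m, ?_, rule (m := m) p β K (fun _ => ⟨0, by omega⟩), rule_isSymRule _ _ _ _, ?_⟩
  · -- the bound on m
    have hβ0 : Real.exp (-(C * Y)) ≤ β := hβ'
    have hβ2 : 1 / β ^ 2 ≤ Real.exp (2 * (C * Y)) := by
      rw [div_le_iff₀ (by positivity)]
      have h1 : Real.exp (-(C * Y)) ^ 2 ≤ β ^ 2 := pow_le_pow_left₀ (Real.exp_pos _).le hβ0 2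
      have h2 : Real.exp (2 * (C * Y)) * Real.exp (-(C * Y)) ^ 2 = 1 := by
        rw [← Real.exp_nat_mul, ← Real.exp_add]
        norm_num
      calc (1 : ℝ) = Real.exp (2 * (C * Y)) * Real.exp (-(C * Y)) ^ 2 := h2.symm
        _ ≤ Real.exp (2 * (C * Y)) * β ^ 2 := by gcongr
    have hnK : ((n : ℝ) + 1) ^ K ≤ Real.exp (2 * (C * Y)) := by
      have h1 : (n : ℝ) + 1 ≤ Real.exp (2 * Real.log n) := by
        rw [two_mul, Real.exp_add, Real.exp_log hn']
        have h2n : (2 : ℝ) ≤ n := by exact_mod_cast hn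
        nlinarith
      calc ((n : ℝ) + 1) ^ K ≤ Real.exp (2 * Real.log n) ^ K :=
            pow_le_pow_left₀ (by positivity) h1 K
        _ = Real.exp (2 * (K * Real.log n)) := by rw [← Real.exp_nat_mul]; ring_nf
        _ ≤ Real.exp (2 * (C * Y)) := by
            apply Real.exp_le_exp.mpr; linarith
    have hn2 : (n : ℝ) ≤ Real.exp Y := by
      calc (n : ℝ) = Real.exp (Real.log n) := (Real.exp_log hn').symm
        _ ≤ Real.exp Y := Real.exp_le_exp.mpr hY
    have hexpY : 4 ≤ Real.exp (2 * Y) := by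
      have : Real.log 4 ≤ 2 * Y := by
        have : Real.log 4 = 2 * Real.log 2 := by
          rw [show (4 : ℝ) = 2 ^ 2 by norm_num, Real.log_pow]; norm_num
        rw [this]; linarith
      calc (4 : ℝ) = Real.exp (Real.log 4) := (Real.exp_log (by norm_num)).symm
        _ ≤ _ := Real.exp_le_exp.mpr this
    have hbase : 3 * (n : ℝ) * ((n : ℝ) + 1) ^ K / β ^ 2
        ≤ 3 * Real.exp ((1 + 4 * C) * Y) := by
      calc 3 * (n : ℝ) * ((n : ℝ) + 1) ^ K / β ^ 2
          = 3 * ((n : ℝ) * ((n : ℝ) + 1) ^ K * (1 / β ^ 2)) := by ring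
        _ ≤ 3 * (Real.exp Y * Real.exp (2 * (C * Y)) * Real.exp (2 * (C * Y))) := by gcongr
        _ = 3 * Real.exp ((1 + 4 * C) * Y) := by
            rw [← Real.exp_add, ← Real.exp_add]; ring_nf
    have hmle : (m : ℝ) ≤ 4 * Real.exp ((1 + 4 * C) * Y) := by
      have h1 := (Nat.ceil_lt_add_one (show 0 ≤ 3 * (n : ℝ) * ((n : ℝ) + 1) ^ K / β ^ 2 by
        positivity)).le
      have h2 : (1 : ℝ) ≤ Real.exp ((1 + 4 * C) * Y) := Real.one_le_exp (by positivity)
      calc (m : ℝ) ≤ 3 * (n : ℝ) * ((n : ℝ) + 1) ^ K / β ^ 2 + 1 := h1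
        _ ≤ 3 * Real.exp ((1 + 4 * C) * Y) + Real.exp ((1 + 4 * C) * Y) := by linarith
        _ = _ := by ring
    have hfin : (m : ℝ) ≤ Real.exp ((3 + 4 * C) * Y) := by
      calc (m : ℝ) ≤ 4 * Real.exp ((1 + 4 * C) * Y) := hmle
        _ ≤ Real.exp (2 * Y) * Real.exp ((1 + 4 * C) * Y) := by gcongr
        _ = Real.exp ((3 + 4 * C) * Y) := by rw [← Real.exp_add]; ring_nf
    refine hfin.trans (Real.exp_le_exp.mpr ?_)
    have hX' : 1 + Real.log n / (1 + Real.log (1 / (1 - p))) = XX n p := rfl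
    rw [hX']
    have h6 : 1 ≤ (1 + Real.log (XX n p)) ^ 6 := one_le_pow₀ (by linarith [Real.log_nonneg hX])
    have : (3 + 4 * C) * p⁻¹ * Real.log n * XX n p ^ 2 = (3 + 4 * C) * Y := by
      rw [hYdef]; unfold YY; ring
    rw [this]
    have hpos : 0 ≤ (3 + 4 * C) * Y := by positivity
    nlinarith
  · intro x
    have h := rule_success (m := m) p hp0.le hp1.le β hβ K hm0 (fun _ => (⟨0, by omega⟩ : Fin s))
      hsep x
    refine le_trans ?_ h
    have hcard : ((idx n K).card : ℝ) ≤ ((n : ℝ) + 1) ^ K := by exact_mod_cast card_idx_le n K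
    have hmge : 3 * (n : ℝ) * ((n : ℝ) + 1) ^ K / β ^ 2 ≤ m := Nat.le_ceil _
    have hm' : (0 : ℝ) < m := by exact_mod_cast hm0
    have : (n * (idx n K).card : ℝ) / (m * β ^ 2) ≤ 1 / 3 := by
      rw [div_le_iff₀ (by positivity)]
      rw [div_le_iff₀ (by positivity)] at hmge
      have : (n * (idx n K).card : ℝ) ≤ n * ((n : ℝ) + 1) ^ K := by gcongr
      linarith
    linarith

end

end Crest.Agent.R300.Prob
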