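import Crest.Agent.R300.Sdp
import Crest.Agent.Lib.PT.ListFns2
import Crest.Agent.Lib.PT.ArithRat

/-!
# Row 300: the solver is a polynomial-time function
-/

set_option autoImplicit false

namespace Crest.Agent.R300

open Crest.Agent.Lib.PT Finset

section basic

variable {γ α : Type} [PTCode γ] [PTCode α]

/-- list access with a binary index -/
theorem ptf_getDB {n : γ → ℕ} {l : γ → List α} {d : γ → α} (hn : PTF n) (hl : PTF l)
    (hd : PTF d) : PTF (fun c => (l c).getD (n c) (d c)) := by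
  have h := PTF.getD (n := fun c => min (n c) (l c).length) (PTF.natMinUn hn (PTU.length hl)) hl hd
  refine PTF.of_eq h (fun c => ?_)
  rcases lt_or_ge (n c) (l c).length with h | h
  · rw [min_eq_left h.le]
  · rw [min_eq_right h, List.getD_eq_default _ _ le_rfl, List.getD_eq_default _ _ h]

theorem ptf_idxf {idx : γ → List (List ℕ)} {i j : γ → ℕ} (h : PTF idx) (hi : PTF i) (hj : PTF j) :
    PTF (fun c => idxf (idx c) (i c) (j c)) := by
  unfold idxf
  exact ptf_getDB hj (ptf_getDB hi h (PTF.const _)) (PTF.const _)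

theorem ptf_entZ {A : γ → List (List ℤ)} {i j : γ → ℕ} (h : PTF A) (hi : PTF i) (hj : PTF j) :
    PTF (fun c => entZ (A c) (i c) (j c)) := by
  unfold entZ
  exact ptf_getDB hj (ptf_getDB hi h (PTF.const _)) (PTF.const _)

theorem ptf_tabZ {d : γ → ℕ} {f : γ → ℕ → ℕ → ℤ} (hd : PTU d)
    (hf : PTF (fun p : (γ × ℕ) × ℕ => f p.1.1 p.1.2 p.2)) : PTF (fun c => tabZ (d c) (f c)) := by
  unfold tabZ
  refine PTF.tabulate (f := fun c i => (List.range (d c)).map fun j => f c i j) hd ?_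
  exact PTF.tabulate (n := fun p : γ × ℕ => d p.1) (f := fun p j => f p.1 p.2 j)
    (PTU.comp hd PTF.fst) hf

theorem ptf_gridFloor {D : γ → ℕ} {x : γ → ℚ} (hD : PTU D) (hx : PTF x) :
    PTF (fun c => ⌊x c * 2 ^ D c⌋) :=
  PTF.ratFloor (PTF.ratMul hx (PTF.ratPow (f := fun _ => (2 : ℚ)) (PTF.const _) hD))

theorem ptf_matB {D : γ → ℕ} {idx : γ → List (List ℕ)} {u : γ → List ℚ} (hD : PTU D) (hi : PTF idx)
    (hu : PTF u) : PTF (fun c => matB (D c) (idx c) (u c)) := by
  unfold matB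
  refine ptf_tabZ (f := fun c i j => (if i = j then ((idx c).length : ℤ) * 2 ^ D c else 0)
    - ⌊(u c).getD (idxf (idx c) i j) 0 * 2 ^ D c⌋) (PTU.length hi) ?_
  have h11 : PTF (fun p : (γ × ℕ) × ℕ => p.1.1) := by fun_prop
  have h12 : PTF (fun p : (γ × ℕ) × ℕ => p.1.2) := by fun_prop
  have h2 : PTF (fun p : (γ × ℕ) × ℕ => p.2) := by fun_prop
  have hlen : PTF (fun p : (γ × ℕ) × ℕ => (((idx p.1.1).length : ℕ) : ℤ)) :=
    PTF.intNatCast (PTU.toPTF (PTU.comp (n := fun c => (idx c).length) (PTU.length hi) h11))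
  have hD' : PTU (fun p : (γ × ℕ) × ℕ => D p.1.1) := PTU.comp hD h11
  refine PTF.intSub (PTF.ite (PTPred.natEq h12 h2) (PTF.intMul hlen
    (PTF.intPow (f := fun _ => (2 : ℤ)) (PTF.const _) hD')) (PTF.const _)) ?_
  exact ptf_gridFloor hD' (ptf_getDB (ptf_idxf (PTF.comp hi h11) h12 h2) (PTF.comp hu h11)
    (PTF.const _))

theorem ptf_mulZ {d : γ → ℕ} {N A : γ → List (List ℤ)} (hd : PTU d) (hN : PTF N) (hA : PTF A) :
    PTF (fun c => mulZ (d c) (N c) (A c)) := by
  unfold mulZ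
  refine ptf_tabZ (f := fun c i j => ∑ l ∈ range (d c), entZ (A c) i l * entZ (N c) l j) hd ?_
  have h11 : PTF (fun p : (γ × ℕ) × ℕ => p.1.1) := by fun_prop
  refine PTF.intSumRange (PTU.comp hd h11) (f := fun (p : (γ × ℕ) × ℕ) (l : ℕ) =>
    entZ (A p.1.1) p.1.2 l * entZ (N p.1.1) l p.2) ?_
  have g11 : PTF (fun p : ((γ × ℕ) × ℕ) × ℕ => p.1.1.1) := by fun_prop
  have g12 : PTF (fun p : ((γ × ℕ) × ℕ) × ℕ => p.1.1.2) := by fun_prop
  have g1 : PTF (fun p : ((γ × ℕ) × ℕ) × ℕ => p.1.2) := by fun_prop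
  have g2 : PTF (fun p : ((γ × ℕ) × ℕ) × ℕ => p.2) := by fun_prop
  exact PTF.intMul (ptf_entZ (PTF.comp hA g11) g12 g2) (ptf_entZ (PTF.comp hN g11) g2 g1)

/-! ### the matrix power -/

theorem sz_int_le {z : ℤ} {n : ℕ} (h : z.natAbs < 2 ^ n) : sz z ≤ 3 + n := by
  rw [sz_int]
  have := Nat.size_le.2 h
  omega

theorem natAbs_lt_of_sz (z : ℤ) : z.natAbs < 2 ^ sz z := by
  rw [sz_int]
  calc z.natAbs < 2 ^ z.natAbs.size := Nat.lt_size_self _
    _ ≤ _ := Nat.pow_le_pow_right (by norm_num) (by omega)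

theorem sz_tabZ_le {d : ℕ} {f : ℕ → ℕ → ℤ} {s : ℕ} (h : ∀ i < d, ∀ j < d, sz (f i j) ≤ s) :
    sz (tabZ d f) ≤ d * (2 * (d * (2 * s + 1)) + 1) := by
  unfold tabZ
  refine (sz_list_le (m := d * (2 * s + 1)) ?_).trans (by simp)
  intro a ha
  obtain ⟨i, hi, rfl⟩ := List.mem_map.1 ha
  refine (sz_list_le (m := s) ?_).trans (by simp)
  intro b hb
  obtain ⟨j, hj, rfl⟩ := List.mem_map.1 hb
  exact h i (List.mem_range.1 hi) j (List.mem_range.1 hj)

theorem sz_getD_le {l : List α} {k : ℕ} {a : α} : sz (l.getD k a) ≤ sz l + sz a := by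
  rcases lt_or_ge k l.length with h | h
  · rw [List.getD_eq_getElem _ _ h]
    have := sz_mem_le (List.getElem_mem h)
    omega
  · rw [List.getD_eq_default _ _ h]
    omega

theorem sz_entZ_le (A : List (List ℤ)) (i j : ℕ) : sz (entZ A i j) ≤ sz A + 3 := by
  unfold entZ
  have h1 := sz_getD_le (l := A.getD i []) (k := j) (a := (0 : ℤ))
  have h2 := sz_getD_le (l := A) (k := i) (a := ([] : List ℤ))
  have h3 : sz (0 : ℤ) = 3 := by rw [sz_int]; simp
  have h4 : sz ([] : List ℤ) = 0 := rfl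
  omega

theorem mulZ_entry_bound {d : ℕ} {N : List (List ℤ)} (m : ℕ) :
    ∀ i < d, ∀ j < d, (entZ ((mulZ d N)^[m] (tabZ d fun i j => if i = j then 1 else 0)) i j).natAbs
      ≤ (d * 2 ^ (sz N + 3) + 1) ^ m := by
  induction m with
  | zero =>
    intro i hi j hj
    rw [Function.iterate_zero, id_eq, entZ_tab _ hi hj]
    split_ifs <;> simp
  | succ m ih =>
    intro i hi j hj
    rw [Function.iterate_succ_apply']
    set A := (mulZ d N)^[m] (tabZ d fun i j => if i = j then 1 else 0) with hA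
    unfold mulZ
    rw [entZ_tab _ hi hj]
    have h1 : (∑ l ∈ range d, entZ A i l * entZ N l j).natAbs
        ≤ ∑ l ∈ range d, (entZ A i l * entZ N l j).natAbs := by
      induction range d using Finset.cons_induction with
      | empty => simp
      | cons a s ha ih' =>
        rw [Finset.sum_cons, Finset.sum_cons]
        exact (Int.natAbs_add_le _ _).trans (Nat.add_le_add_left ih' _)
    refine h1.trans ?_
    have h2 : ∀ l ∈ range d, (entZ A i l * entZ N l j).natAbs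
        ≤ (d * 2 ^ (sz N + 3) + 1) ^ m * 2 ^ (sz N + 3) := by
      intro l hl
      rw [Int.natAbs_mul]
      refine Nat.mul_le_mul (ih i hi l (Finset.mem_range.1 hl)) ?_
      refine (natAbs_lt_of_sz _).le.trans ?_
      exact Nat.pow_le_pow_right (by norm_num) (sz_entZ_le N l j)
    refine (Finset.sum_le_sum h2).trans ?_
    rw [Finset.sum_const, Finset.card_range, smul_eq_mul, pow_succ]
    have aux : ∀ q b : ℕ, d * (q * b) ≤ q * (d * b + 1) := fun q b => by nlinarith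
    exact aux _ _

theorem mulZ_iter_tab {d : ℕ} {N : List (List ℤ)} (m : ℕ) :
    ∃ f : ℕ → ℕ → ℤ, (mulZ d N)^[m] (tabZ d fun i j => if i = j then 1 else 0) = tabZ d f := by
  cases m with
  | zero => exact ⟨_, rfl⟩
  | succ m =>
    rw [Function.iterate_succ_apply']
    exact ⟨_, rfl⟩

theorem sz_mulZ_iter {d : ℕ} {N : List (List ℤ)} (m : ℕ) :
    sz ((mulZ d N)^[m] (tabZ d fun i j => if i = j then 1 else 0))
      ≤ d * (2 * (d * (2 * (3 + (m * (d + (sz N + 3) + 2) + 1)) + 1)) + 1) := by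
  obtain ⟨f, hf⟩ := mulZ_iter_tab (d := d) (N := N) m
  have hb := mulZ_entry_bound (d := d) (N := N) m
  rw [hf] at hb ⊢
  refine sz_tabZ_le fun i hi j hj => ?_
  have h := hb i hi j hj
  rw [entZ_tab _ hi hj] at h
  refine sz_int_le ?_
  refine lt_of_le_of_lt h ?_
  refine lt_of_lt_of_le (Nat.lt_size_self _) ?_
  refine Nat.pow_le_pow_right (by norm_num) ?_
  refine (Arith.size_pow_le _ _).trans ?_
  have h5 : (d * 2 ^ (sz N + 3) + 1).size ≤ d + (sz N + 3) + 2 := by
    rw [Nat.size_le]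
    have h6 : d < 2 ^ d := Nat.lt_two_pow_self
    have h7 : 0 < 2 ^ (sz N + 3) := by positivity
    have e : 2 ^ (d + (sz N + 3) + 2) = 2 ^ d * 2 ^ (sz N + 3) * 4 := by
      rw [pow_add, pow_add]; norm_num
    rw [e]
    have h8 : d * 2 ^ (sz N + 3) ≤ 2 ^ d * 2 ^ (sz N + 3) := Nat.mul_le_mul_right _ h6.le
    have h9 : 0 < 2 ^ d * 2 ^ (sz N + 3) := by positivity
    omega
  have := Nat.mul_le_mul_left m h5
  omega

theorem ptf_matW {D m : γ → ℕ} {idx : γ → List (List ℕ)} {u : γ → List ℚ} (hD : PTU D) (hm : PTU m)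
    (hi : PTF idx) (hu : PTF u) : PTF (fun c => matW (D c) (m c) (idx c) (u c)) := by
  unfold matW
  have hN := ptf_matB hD hi hu
  have hd : PTU (fun c => (idx c).length) := PTU.length hi
  refine PTF.iterate' (f := fun c A => mulZ (idx c).length (matB (D c) (idx c) (u c)) A)
    (a := fun c => tabZ (idx c).length fun i j => if i = j then 1 else 0) hm ?_ ?_
    (B := fun c => (idx c).length * (2 * ((idx c).length * (2 * (3 + (m c * ((idx c).length
      + (sz (matB (D c) (idx c) (u c)) + 3) + 2) + 1)) + 1)) + 1)) ?_ ?_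
  · exact ptf_mulZ (PTU.comp (n := fun c => (idx c).length) hd PTF.fst) (PTF.comp hN PTF.fst) PTF.snd
  · refine ptf_tabZ (f := fun _ i j => if i = j then (1 : ℤ) else 0) hd ?_
    exact PTF.ite (PTPred.natEq (by fun_prop) (by fun_prop)) (PTF.const _) (PTF.const _)
  · have h1 := hd.pb
    have h2 := hm.pb
    have h3 := hN.sz
    fun_prop
  · intro c i hi
    refine (sz_mulZ_iter i).trans ?_
    have h1 : i * ((idx c).length + (sz (matB (D c) (idx c) (u c)) + 3) + 2)
      ≤ m c * ((idx c).length + (sz (matB (D c) (idx c) (u c)) + 3) + 2) := Nat.mul_le_mul_right _ hi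
    gcongr

/-! ### the oracle -/

theorem ptf_rowP {W : γ → List (List ℤ)} {K : γ → ℕ} {idx : γ → List (List ℕ)} (hW : PTF W)
    (hK : PTU K) (hi : PTF idx) : PTF (fun c => rowP (W c) (K c) (idx c)) := by
  unfold rowP
  refine PTF.tabulate (f := fun c k => ∑ i ∈ range (idx c).length, ∑ j ∈ range (idx c).length,
    if idxf (idx c) i j = k then entZ (W c) i j else 0) hK ?_
  have hd : PTU (fun c => (idx c).length) := PTU.length hi
  refine PTF.intSumRange (n := fun p : γ × ℕ => (idx p.1).length) (f := fun (p : γ × ℕ) (i : ℕ) =>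
    ∑ j ∈ range (idx p.1).length, if idxf (idx p.1) i j = p.2 then entZ (W p.1) i j else 0)
    (PTU.comp (n := fun c => (idx c).length) hd PTF.fst) ?_
  have h11 : PTF (fun p : (γ × ℕ) × ℕ => p.1.1) := by fun_prop
  refine PTF.intSumRange (n := fun p : (γ × ℕ) × ℕ => (idx p.1.1).length)
    (f := fun (p : (γ × ℕ) × ℕ) (j : ℕ) => if idxf (idx p.1.1) p.2 j = p.1.2
      then entZ (W p.1.1) p.2 j else 0)
    (PTU.comp (n := fun c => (idx c).length) hd h11) ?_
  have g11 : PTF (fun p : ((γ × ℕ) × ℕ) × ℕ => p.1.1.1) := by fun_prop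
  have g12 : PTF (fun p : ((γ × ℕ) × ℕ) × ℕ => p.1.1.2) := by fun_prop
  have g1 : PTF (fun p : ((γ × ℕ) × ℕ) × ℕ => p.1.2) := by fun_prop
  have g2 : PTF (fun p : ((γ × ℕ) × ℕ) × ℕ => p.2) := by fun_prop
  exact PTF.ite (PTPred.natEq (ptf_idxf (PTF.comp hi g11) g1 g2) g12)
    (ptf_entZ (PTF.comp hW g11) g1 g2) (PTF.const _)

theorem ptf_valS {D K : γ → ℕ} {P : γ → List ℤ} {u : γ → List ℚ} (hD : PTU D) (hK : PTU K)
    (hP : PTF P) (hu : PTF u) : PTF (fun c => valS (D c) (K c) (P c) (u c)) := by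
  unfold valS
  refine PTF.intSumRange (f := fun c k => (P c).getD k 0 * ⌊(u c).getD k 0 * 2 ^ D c⌋) hK ?_
  exact PTF.intMul (ptf_getDB PTF.snd (PTF.comp hP PTF.fst) (PTF.const _))
    (ptf_gridFloor (PTU.comp hD PTF.fst) (ptf_getDB PTF.snd (PTF.comp hu PTF.fst) (PTF.const _)))

theorem ptf_nrmP {K : γ → ℕ} {P : γ → List ℤ} (hK : PTU K)
    (hP : PTF P) : PTF (fun c => nrmP (K c) (P c)) := by
  unfold nrmP
  refine PTF.intSumRange (f := fun c k => (P c).getD k 0 * (P c).getD k 0) hK ?_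
  exact PTF.intMul (ptf_getDB PTF.snd (PTF.comp hP PTF.fst) (PTF.const _))
    (ptf_getDB PTF.snd (PTF.comp hP PTF.fst) (PTF.const _))

theorem ptf_psdOrc {D m K L : γ → ℕ} {idx : γ → List (List ℕ)} {u : γ → List ℚ} (hD : PTU D)
    (hm : PTU m) (hK : PTU K) (hL : PTF L) (hi : PTF idx) (hu : PTF u) :
    PTF (fun c => psdOrc (D c) (m c) (K c) (L c) (idx c) (u c)) := by
  unfold psdOrc
  have hP := ptf_rowP (ptf_matW hD hm hi hu) hK hi
  have hV := ptf_valS hD hK hP hu
  have hN := ptf_nrmP hK hP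
  refine PTF.ite (PTPred.and (PTPred.intLt hV (PTF.const _)) (PTPred.intLe
    (PTF.intMul (PTF.intPow (f := fun _ => (4 : ℤ)) (PTF.const _) hD) hN)
    (PTF.intMul (PTF.intNatCast hL) (PTF.intMul hV hV)))) ?_ (PTF.const _)
  exact PTF.optSome (PTF.map hP (PTF.ratIntCast PTF.snd))

/-! ### the steps -/

theorem ptf_dotQ {a b : γ → List ℚ} (ha : PTF a) (hb : PTF b) : PTF (fun c => dotQ (a c) (b c)) := by
  unfold dotQ
  exact PTF.ratListSum (PTF.zipWith ha hb (PTF.ratMul (by fun_prop) (by fun_prop)))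

theorem ptf_residQ {u : γ → List ℚ} {c : γ → PCon} (hu : PTF u) (hc : PTF c) :
    PTF (fun a => residQ (u a) (c a)) := by
  unfold residQ
  exact PTF.ratSub (ptf_dotQ (by fun_prop) hu) (by fun_prop)

theorem ptf_clipQ {M : γ → ℕ} {x : γ → ℚ} (hM : PTF M) (hx : PTF x) :
    PTF (fun c => clipQ (M c) (x c)) := by
  unfold clipQ
  have hM' : PTF (fun c => ((M c : ℕ) : ℚ)) := PTF.ratNatCast hM
  exact PTF.ratMax (PTF.ratNeg hM') (PTF.ratMin hM' hx)

theorem ptf_rndQ {D : γ → ℕ} {x : γ → ℚ} (hD : PTU D) (hx : PTF x) :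
    PTF (fun c => rndQ (D c) (x c)) := by
  unfold rndQ
  exact PTF.ratDiv (PTF.ratIntCast (ptf_gridFloor hD hx))
    (PTF.ratPow (f := fun _ => (2 : ℚ)) (PTF.const _) hD)

theorem ptf_updQ {D M : γ → ℕ} {u : γ → List ℚ} {c : γ → PCon} (hD : PTU D) (hM : PTF M)
    (hu : PTF u) (hc : PTF c) : PTF (fun a => updQ (D a) (M a) (u a) (c a)) := by
  unfold updQ
  have hr : PTF (fun a => residQ (u a) (c a) / dotQ (c a).1 (c a).1) :=
    PTF.ratDiv (ptf_residQ hu hc) (ptf_dotQ (by fun_prop) (by fun_prop))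
  refine PTF.zipWith (f := fun a x r => rndQ (D a) (clipQ (M a) (x - r * (residQ (u a) (c a) /
    dotQ (c a).1 (c a).1)))) hu (by fun_prop) ?_
  exact ptf_rndQ (PTU.comp hD PTF.fst) (ptf_clipQ (PTF.comp hM PTF.fst)
    (PTF.ratSub (by fun_prop) (PTF.ratMul (by fun_prop) (PTF.comp hr PTF.fst))))

/-- the violation test -/
theorem ptf_find {cons : γ → List PCon} {u : γ → List ℚ} (hc : PTF cons) (hu : PTF u) :
    PTF (fun a => (cons a).find? (fun c => decide (3 * c.2.2 < |residQ (u a) c|))) := by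
  refine PTF.find? hc ?_
  have h1 : PTF (fun p : γ × PCon => 3 * p.2.2.2) := PTF.ratMul (PTF.const _) (by fun_prop)
  have h2 : PTF (fun p : γ × PCon => |residQ (u p.1) p.2|) :=
    PTF.ratAbs (ptf_residQ (PTF.comp hu PTF.fst) PTF.snd)
  exact (PTPred.ratLt h1 h2).toPTF

theorem ptf_ostepQ {D M : γ → ℕ} {cons : γ → List PCon} {orc : γ → List ℚ → Option (List ℚ)}
    {u : γ → List ℚ} (hD : PTU D) (hM : PTF M) (hc : PTF cons) (ho : PTF₂ orc) (hu : PTF u) :
    PTF (fun a => ostepQ (D a) (M a) (cons a) (orc a) (u a)) := by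
  have h1 : PTF (fun a => (orc a) (u a)) := PTF.comp₂ ho PTF.id hu
  have h2 : PTF (fun a => match orc a (u a) with
      | none => u a
      | some P => updQ (D a) (M a) (u a) (P, 0, 0)) := by
    have := PTF.optionCasesOn (s := fun a => orc a (u a)) (f := fun a => u a)
      (g := fun a P => updQ (D a) (M a) (u a) (P, 0, 0)) h1 hu
      (ptf_updQ (PTU.comp hD PTF.fst) (PTF.comp hM PTF.fst) (PTF.comp hu PTF.fst)
        (PTF.prodMk PTF.snd (PTF.const _)))
    refine PTF.of_eq this (fun a => ?_)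
    cases orc a (u a) <;> rfl
  have h3 := PTF.optionCasesOn (s := fun a => (cons a).find? (fun c => decide (3 * c.2.2 < |residQ (u a) c|)))
    (g := fun a c => updQ (D a) (M a) (u a) c) (ptf_find hc hu) h2
      (ptf_updQ (PTU.comp hD PTF.fst) (PTF.comp hM PTF.fst) (PTF.comp hu PTF.fst) PTF.snd)
  refine PTF.of_eq h3 (fun a => ?_)
  unfold ostepQ
  cases (cons a).find? (fun c => decide (3 * c.2.2 < |residQ (u a) c|)) <;> rfl

/-! ### size of the states -/

/-- invariant of the states used for the size bound -/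
def SInv (D M K : ℕ) (v : List ℚ) : Prop :=
  v.length ≤ K ∧ ∀ x ∈ v, |x| ≤ M ∧ ∃ z : ℤ, x = z / 2 ^ D

theorem SInv.zero (D M K : ℕ) : SInv D M K (List.replicate K 0) := by
  refine ⟨by simp, fun x hx => ?_⟩
  rw [List.eq_of_mem_replicate hx]
  exact ⟨by simp, 0, by simp⟩

theorem SInv.updQ {D M K : ℕ} {v : List ℚ} (hv : SInv D M K v) (c : PCon) :
    SInv D M K (updQ D M v c) := by
  refine ⟨?_, fun x hx => ?_⟩
  · unfold R300.updQ
    rw [List.length_zipWith]
    exact (min_le_left _ _).trans hv.1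
  · unfold R300.updQ at hx
    obtain ⟨i, hi, rfl⟩ := List.mem_iff_getElem.1 hx
    rw [List.getElem_zipWith]
    exact ⟨rndQ_abs_le (clipQ_abs_le _ _), _, rfl⟩

theorem SInv.ostepQ {D M K : ℕ} {v : List ℚ} (hv : SInv D M K v) (cons : List PCon)
    (orc : List ℚ → Option (List ℚ)) : SInv D M K (ostepQ D M cons orc v) := by
  unfold R300.ostepQ
  split
  · split
    · exact hv
    · exact hv.updQ _
  · exact hv.updQ _

theorem SInv.iter {D M K : ℕ} {v : List ℚ} (hv : SInv D M K v) (cons : List PCon)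
    (orc : List ℚ → Option (List ℚ)) (T : ℕ) : SInv D M K ((R300.ostepQ D M cons orc)^[T] v) := by
  induction T with
  | zero => exact hv
  | succ T ih =>
    rw [Function.iterate_succ_apply']
    exact ih.ostepQ cons orc

theorem sz_grid_le {D M : ℕ} {x : ℚ} (hx : |x| ≤ M) (hz : ∃ z : ℤ, x = z / 2 ^ D) :
    sz x ≤ 2 * (3 + (M + D)) + 1 + (D + 1) := by
  obtain ⟨z, hz⟩ := hz
  have hden : x.den ∣ 2 ^ D := by
    have h := Rat.den_dvd z (2 ^ D)
    have e : Rat.divInt z (2 ^ D) = x := by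
      rw [hz, Rat.divInt_eq_div]; push_cast; rfl
    rw [e] at h
    exact_mod_cast h
  have hden2 : x.den ≤ 2 ^ D := Nat.le_of_dvd (by positivity) hden
  have hnum : x.num.natAbs < 2 ^ (M + D) := by
    have h1 : (x.num.natAbs : ℚ) = |x| * x.den := by
      have h2 : |x| = |(x.num : ℚ)| / x.den := by
        conv_lhs => rw [← Rat.num_div_den x]
        rw [abs_div, Nat.abs_cast]
      have h3 : (x.den : ℚ) ≠ 0 := by exact_mod_cast x.den_nz
      rw [h2, div_mul_cancel₀ _ h3]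
      rw [Nat.cast_natAbs]
      push_cast
      rfl
    have h4 : (x.num.natAbs : ℚ) ≤ M * 2 ^ D := by
      rw [h1]
      apply mul_le_mul hx _ (by positivity) (by positivity)
      exact_mod_cast hden2
    have h5 : x.num.natAbs ≤ M * 2 ^ D := by exact_mod_cast h4
    have h6 : M < 2 ^ M := Nat.lt_two_pow_self
    have h7 : 0 < 2 ^ D := by positivity
    rw [pow_add]
    nlinarith
  rw [sz_rat]
  have h8 : x.num.natAbs.size ≤ M + D := Nat.size_le.2 hnum
  have h9 : x.den.size ≤ D + 1 := by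
    rw [Nat.size_le]
    have : 2 ^ D < 2 ^ (D + 1) := Nat.pow_lt_pow_right (by norm_num) (by omega)
    omega
  omega

theorem SInv.sz_le {D M K : ℕ} {v : List ℚ} (hv : SInv D M K v) :
    sz v ≤ K * (2 * (2 * (3 + (M + D)) + 1 + (D + 1)) + 1) := by
  refine (sz_list_le (m := 2 * (3 + (M + D)) + 1 + (D + 1)) fun x hx =>
    sz_grid_le (hv.2 x hx).1 (hv.2 x hx).2).trans ?_
  exact Nat.mul_le_mul_right _ hv.1

theorem ptf_osolveQ {T D M K : γ → ℕ} {cons : γ → List PCon} {orc : γ → List ℚ → Option (List ℚ)}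
    (hT : PTU T) (hD : PTU D) (hM : PTU M) (hK : PTU K) (hc : PTF cons) (ho : PTF₂ orc) :
    PTF (fun a => osolveQ (T a) (D a) (M a) (K a) (cons a) (orc a)) := by
  unfold osolveQ
  refine PTF.iterate' (f := fun a u => ostepQ (D a) (M a) (cons a) (orc a) u)
    (a := fun a => List.replicate (K a) 0) hT ?_ (PTF.replicate hK (PTF.const _))
    (B := fun a => K a * (2 * (2 * (3 + (M a + D a)) + 1 + (D a + 1)) + 1)) ?_ ?_
  · refine ptf_ostepQ (orc := fun (p : γ × List ℚ) v => orc p.1 v) (PTU.comp hD PTF.fst)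
      (PTF.comp (PTU.toPTF hM) PTF.fst) (PTF.comp hc PTF.fst) ?_ PTF.snd
    exact PTF.comp₂ ho (by fun_prop) PTF.snd
  · have h1 := hD.pb
    have h2 := hM.pb
    have h3 := hK.pb
    fun_prop
  · intro c i _
    exact ((SInv.zero _ _ _).iter _ _ i).sz_le

/-- **The solver is a polynomial-time function** (all numeric parameters but the entries in
unary). -/
theorem PTF.sdpRun {G K : γ → ℕ} {idx : γ → List (List ℕ)} {cons : γ → List PCon} (hG : PTU G)
    (hK : PTU K) (hidx : PTF idx) (hcons : PTF cons) :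
    PTF (fun a => sdpRun (G a) (K a) (idx a) (cons a)) := by
  unfold R300.sdpRun
  have hT : PTU (fun a => 8 * G a ^ 5 * (G a + 1) ^ 2 + 1) :=
    PTU.add (PTU.mul (PTU.mul (PTU.const 8) (PTU.pow hG 5)) (PTU.pow (PTU.add hG (PTU.const 1)) 2))
      (PTU.const 1)
  have hD : PTU (fun a => 10 * G a + 10) := PTU.add (PTU.mul (PTU.const 10) hG) (PTU.const 10)
  have hm : PTU (fun a => 2 * (G a * G a * (3 * G a + 1))) :=
    PTU.mul (PTU.const 2) (PTU.mul (PTU.mul hG hG) (PTU.add (PTU.mul (PTU.const 3) hG) (PTU.const 1)))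
  have hL : PTU (fun a => (2 * G a * G a * (G a + 1)) ^ 2) :=
    PTU.pow (PTU.mul (PTU.mul (PTU.mul (PTU.const 2) hG) hG) (PTU.add hG (PTU.const 1))) 2
  refine ptf_osolveQ (M := fun _ => 1) (orc := fun a u => psdOrc (10 * G a + 10)
    (2 * (G a * G a * (3 * G a + 1))) (K a) ((2 * G a * G a * (G a + 1)) ^ 2) (idx a) u)
    hT hD (PTU.const 1) hK hcons ?_
  exact ptf_psdOrc (PTU.comp (n := fun a => 10 * G a + 10) hD PTF.fst)
    (PTU.comp (n := fun a => 2 * (G a * G a * (3 * G a + 1))) hm PTF.fst) (PTU.comp hK PTF.fst)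
    (PTF.comp (PTU.toPTF hL) PTF.fst) (PTF.comp hidx PTF.fst) PTF.snd

end basic

end Crest.Agent.R300
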