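import Mathlib

/-!
# Row 300: the separating functional of a non-PSD matrix

For a real symmetric matrix `Y` with eigenvalues `≤ c` and smallest eigenvalue `< -ε`, the matrix
`W = (c - Y) ^ m`, `m` even, is PSD and satisfies `tr (Y W) ≤ -(ε / (2 (d + 1))) * ‖W‖_F` as soon as
`d c ^ (m + 1) ≤ (ε / 2) (c + ε) ^ m`.
-/

set_option autoImplicit false

namespace Crest.Agent.R300

open Finset Matrix

/-- scalar inequality behind the cut -/
theorem cut_scalar {d : ℕ} (b : Fin d → ℝ) (hb : ∀ i, 0 ≤ b i) {c ε : ℝ} (hc : 0 ≤ c) (hε : 0 < ε)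
    (m : ℕ) (hex : ∃ i, c + ε < b i) (hm : d * c ^ (m + 1) ≤ ε / 2 * (c + ε) ^ m) :
    ∑ i, (c - b i) * b i ^ m ≤ -(ε / (2 * (d + 1))) * ∑ i, b i ^ m := by
  classical
  set I : Finset (Fin d) := univ.filter fun i => c + ε < b i with hI
  set Z : ℝ := ∑ i ∈ I, b i ^ m with hZ
  have hcε : 0 < c + ε := by linarith
  obtain ⟨i₀, hi₀⟩ := hex
  have hi₀I : i₀ ∈ I := by simp [hI, hi₀]
  have hZ1 : (c + ε) ^ m ≤ Z := by
    calc (c + ε) ^ m ≤ b i₀ ^ m := pow_le_pow_left₀ hcε.le hi₀.le m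
      _ ≤ Z := Finset.single_le_sum (f := fun i => b i ^ m) (fun i _ => pow_nonneg (hb i) m) hi₀I
  have hZ0 : 0 < Z := (pow_pos hcε m).trans_le hZ1
  -- the sum of all powers
  have hS : ∑ i, b i ^ m ≤ (d + 1) * Z := by
    have h1 : ∑ i, b i ^ m = Z + ∑ i ∈ univ.filter (fun i => ¬ (c + ε < b i)), b i ^ m :=
      (Finset.sum_filter_add_sum_filter_not _ _ _).symm
    have h2 : ∑ i ∈ univ.filter (fun i => ¬ (c + ε < b i)), b i ^ m ≤ d * (c + ε) ^ m := by
      calc ∑ i ∈ univ.filter (fun i => ¬ (c + ε < b i)), b i ^ m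
          ≤ ∑ i ∈ univ.filter (fun i => ¬ (c + ε < b i)), (c + ε) ^ m := by
            refine Finset.sum_le_sum fun i hi => ?_
            rw [Finset.mem_filter] at hi
            exact pow_le_pow_left₀ (hb i) (not_lt.1 hi.2) m
        _ = ((univ.filter (fun i => ¬ (c + ε < b i))).card : ℝ) * (c + ε) ^ m := by
            rw [Finset.sum_const, nsmul_eq_mul]
        _ ≤ d * (c + ε) ^ m := by
            refine mul_le_mul_of_nonneg_right ?_ (pow_pos hcε m).le
            have : (univ.filter (fun i => ¬ (c + ε < b i))).card ≤ Fintype.card (Fin d) :=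
              Finset.card_le_univ _
            rw [Fintype.card_fin] at this
            exact_mod_cast this
    have h3 : (d : ℝ) * (c + ε) ^ m ≤ d * Z := mul_le_mul_of_nonneg_left hZ1 (Nat.cast_nonneg d)
    rw [h1]; linarith
  have hT : ∑ i, (c - b i) * b i ^ m ≤ -ε * Z + d * c ^ (m + 1) := by
    have h1 : ∑ i, (c - b i) * b i ^ m = ∑ i ∈ I, (c - b i) * b i ^ m
        + ∑ i ∈ univ.filter (fun i => ¬ (c + ε < b i)), (c - b i) * b i ^ m :=
      (Finset.sum_filter_add_sum_filter_not _ _ _).symm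
    have h2 : ∑ i ∈ I, (c - b i) * b i ^ m ≤ -ε * Z := by
      rw [hZ, Finset.mul_sum]
      refine Finset.sum_le_sum fun i hi => ?_
      rw [hI, Finset.mem_filter] at hi
      exact mul_le_mul_of_nonneg_right (by linarith [hi.2]) (pow_nonneg (hb i) m)
    have h3 : ∑ i ∈ univ.filter (fun i => ¬ (c + ε < b i)), (c - b i) * b i ^ m
        ≤ d * c ^ (m + 1) := by
      calc ∑ i ∈ univ.filter (fun i => ¬ (c + ε < b i)), (c - b i) * b i ^ m
          ≤ ∑ i ∈ univ.filter (fun i => ¬ (c + ε < b i)), c ^ (m + 1) := by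
            refine Finset.sum_le_sum fun i _ => ?_
            rcases le_total (b i) c with h | h
            · calc (c - b i) * b i ^ m ≤ c * c ^ m :=
                    mul_le_mul (by linarith [hb i]) (pow_le_pow_left₀ (hb i) h m)
                      (pow_nonneg (hb i) m) hc
                _ = c ^ (m + 1) := by ring
            · have : (c - b i) * b i ^ m ≤ 0 :=
                mul_nonpos_of_nonpos_of_nonneg (by linarith) (pow_nonneg (hb i) m)
              have h' : 0 ≤ c ^ (m + 1) := by positivity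
              linarith
        _ = ((univ.filter (fun i => ¬ (c + ε < b i))).card : ℝ) * c ^ (m + 1) := by
            rw [Finset.sum_const, nsmul_eq_mul]
        _ ≤ d * c ^ (m + 1) := by
            refine mul_le_mul_of_nonneg_right ?_ (by positivity)
            have : (univ.filter (fun i => ¬ (c + ε < b i))).card ≤ Fintype.card (Fin d) :=
              Finset.card_le_univ _
            rw [Fintype.card_fin] at this
            exact_mod_cast this
    rw [h1]; linarith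
  have h5 : d * c ^ (m + 1) ≤ ε / 2 * Z := hm.trans (mul_le_mul_of_nonneg_left hZ1 (by positivity))
  have h6 : ε / (2 * (d + 1)) * ∑ i, b i ^ m ≤ ε / 2 * Z := by
    have hd : (0 : ℝ) < d + 1 := by positivity
    calc ε / (2 * (d + 1)) * ∑ i, b i ^ m ≤ ε / (2 * (d + 1)) * ((d + 1) * Z) :=
          mul_le_mul_of_nonneg_left hS (by positivity)
      _ = ε / 2 * Z := by field_simp
  linarith

/-- real orthogonal diagonalisation, packaged -/
theorem exists_diag {d : ℕ} {Y : Matrix (Fin d) (Fin d) ℝ} (hY : Yᵀ = Y) :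
    ∃ (U : Matrix (Fin d) (Fin d) ℝ) (l : Fin d → ℝ), Uᵀ * U = 1 ∧ U * Uᵀ = 1 ∧
      Y = U * diagonal l * Uᵀ := by
  have hH : Y.IsHermitian := by
    rw [Matrix.IsHermitian, Matrix.conjTranspose_eq_transpose_of_trivial, hY]
  refine ⟨(hH.eigenvectorUnitary : Matrix (Fin d) (Fin d) ℝ), hH.eigenvalues, ?_, ?_, ?_⟩
  · have := (Matrix.mem_unitaryGroup_iff'.1 hH.eigenvectorUnitary.2)
    rwa [Matrix.star_eq_conjTranspose, Matrix.conjTranspose_eq_transpose_of_trivial] at this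
  · have := (Matrix.mem_unitaryGroup_iff.1 hH.eigenvectorUnitary.2)
    rwa [Matrix.star_eq_conjTranspose, Matrix.conjTranspose_eq_transpose_of_trivial] at this
  · have := hH.spectral_theorem
    rw [Unitary.conjStarAlgAut_apply] at this
    rw [← Matrix.conjTranspose_eq_transpose_of_trivial, ← Matrix.star_eq_conjTranspose]
    exact this

/-- the functional calculus of `c - Y` -/
theorem pow_diag {d : ℕ} {Y U : Matrix (Fin d) (Fin d) ℝ} {l : Fin d → ℝ} (h1 : Uᵀ * U = 1)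
    (h2 : U * Uᵀ = 1) (hY : Y = U * diagonal l * Uᵀ) (c : ℝ) (m : ℕ) :
    (c • (1 : Matrix (Fin d) (Fin d) ℝ) - Y) ^ m = U * diagonal (fun i => (c - l i) ^ m) * Uᵀ := by
  have hB : c • (1 : Matrix (Fin d) (Fin d) ℝ) - Y = U * diagonal (fun i => c - l i) * Uᵀ := by
    have : diagonal (fun i => c - l i) = c • (1 : Matrix (Fin d) (Fin d) ℝ) - diagonal l := by
      ext i j
      by_cases h : i = j
      · subst h; simp
      · simp [h]
    rw [this, Matrix.mul_sub, Matrix.sub_mul, hY, Matrix.mul_smul, Matrix.smul_mul, Matrix.mul_one, h2]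
  induction m with
  | zero => simp [h2]
  | succ m ih =>
    rw [pow_succ, ih, hB]
    calc U * diagonal (fun i => (c - l i) ^ m) * Uᵀ * (U * diagonal (fun i => c - l i) * Uᵀ)
        = U * diagonal (fun i => (c - l i) ^ m) * (Uᵀ * U) * diagonal (fun i => c - l i) * Uᵀ := by
          simp only [Matrix.mul_assoc]
      _ = U * (diagonal (fun i => (c - l i) ^ m) * diagonal (fun i => c - l i)) * Uᵀ := by
          rw [h1, Matrix.mul_one, Matrix.mul_assoc U]
      _ = _ := by rw [Matrix.diagonal_mul_diagonal]; simp only [pow_succ]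

theorem trace_conj {d : ℕ} {U : Matrix (Fin d) (Fin d) ℝ} (h1 : Uᵀ * U = 1) (f : Fin d → ℝ) :
    trace (U * diagonal f * Uᵀ) = ∑ i, f i := by
  rw [Matrix.trace_mul_comm, ← Matrix.mul_assoc, h1, Matrix.one_mul, Matrix.trace_diagonal]

/-- quadratic forms in the eigenbasis -/
theorem quad_conj {d : ℕ} {U : Matrix (Fin d) (Fin d) ℝ} (f : Fin d → ℝ) (w : Fin d → ℝ) :
    w ⬝ᵥ ((U * diagonal f * Uᵀ) *ᵥ w) = ∑ i, f i * (Uᵀ *ᵥ w) i ^ 2 := by
  rw [← Matrix.mulVec_mulVec, ← Matrix.mulVec_mulVec, Matrix.dotProduct_mulVec,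
    ← Matrix.mulVec_transpose, dotProduct]
  refine Finset.sum_congr rfl fun i _ => ?_
  rw [Matrix.mulVec_diagonal]
  ring

theorem norm_conj {d : ℕ} {U : Matrix (Fin d) (Fin d) ℝ} (h2 : U * Uᵀ = 1) (w : Fin d → ℝ) :
    w ⬝ᵥ w = ∑ i, (Uᵀ *ᵥ w) i ^ 2 := by
  have h := quad_conj (U := U) (fun _ => (1 : ℝ)) w
  have e : diagonal (fun _ : Fin d => (1 : ℝ)) = 1 := Matrix.diagonal_one
  rw [e, Matrix.mul_one, h2, Matrix.one_mulVec] at h
  rw [h]
  exact Finset.sum_congr rfl fun i _ => one_mul _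

/-- **the cut**: separating functional of a symmetric matrix with an eigenvalue `< -ε` -/
theorem psd_cut {d : ℕ} {Y : Matrix (Fin d) (Fin d) ℝ} (hY : Yᵀ = Y) {c ε : ℝ} (hc : 0 ≤ c)
    (hε : 0 < ε) (hle : ∀ w : Fin d → ℝ, w ⬝ᵥ (Y *ᵥ w) ≤ c * (w ⬝ᵥ w)) (m : ℕ)
    (hm : d * c ^ (m + 1) ≤ ε / 2 * (c + ε) ^ m)
    (hneg : ∃ w : Fin d → ℝ, w ⬝ᵥ (Y *ᵥ w) < -ε * (w ⬝ᵥ w)) :
    trace (Y * (c • (1 : Matrix (Fin d) (Fin d) ℝ) - Y) ^ m)
        ≤ -(ε / (2 * (d + 1))) * trace ((c • (1 : Matrix (Fin d) (Fin d) ℝ) - Y) ^ m) ∧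
      0 < trace ((c • (1 : Matrix (Fin d) (Fin d) ℝ) - Y) ^ m) ∧
      ∑ i, ∑ j, ((c • (1 : Matrix (Fin d) (Fin d) ℝ) - Y) ^ m) i j ^ 2
        ≤ trace ((c • (1 : Matrix (Fin d) (Fin d) ℝ) - Y) ^ m) ^ 2 := by
  obtain ⟨U, l, h1, h2, hd⟩ := exists_diag hY
  have hl : ∀ i, l i ≤ c := by
    intro i
    have h := hle (U *ᵥ Pi.single i 1)
    have e1 : Uᵀ *ᵥ (U *ᵥ Pi.single i (1 : ℝ)) = Pi.single i 1 := by
      rw [Matrix.mulVec_mulVec, h1, Matrix.one_mulVec]
    rw [norm_conj h2, e1] at h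
    rw [hd, quad_conj, e1] at h
    simpa [Pi.single_apply] using h
  have hb : ∀ i, 0 ≤ c - l i := fun i => sub_nonneg.2 (hl i)
  have hex : ∃ i, c + ε < c - l i := by
    by_contra hcon
    push Not at hcon
    obtain ⟨w, hw⟩ := hneg
    rw [norm_conj h2, hd, quad_conj, Finset.mul_sum] at hw
    have : ∑ i, -ε * (Uᵀ *ᵥ w) i ^ 2 ≤ ∑ i, l i * (Uᵀ *ᵥ w) i ^ 2 :=
      Finset.sum_le_sum fun i _ =>
        mul_le_mul_of_nonneg_right (by linarith [hcon i]) (sq_nonneg _)
    linarith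
  have hpow := fun k => pow_diag h1 h2 hd c k
  have hmul : Y * (c • (1 : Matrix (Fin d) (Fin d) ℝ) - Y) ^ m
      = U * diagonal (fun i => l i * (c - l i) ^ m) * Uᵀ := by
    rw [hpow m]
    calc Y * (U * diagonal (fun i => (c - l i) ^ m) * Uᵀ)
        = U * diagonal l * (Uᵀ * U) * diagonal (fun i => (c - l i) ^ m) * Uᵀ := by
          conv_lhs => rw [hd]
          simp only [Matrix.mul_assoc]
      _ = U * (diagonal l * diagonal (fun i => (c - l i) ^ m)) * Uᵀ := by
          rw [h1, Matrix.mul_one, Matrix.mul_assoc U]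
      _ = _ := by rw [Matrix.diagonal_mul_diagonal]
  have hscal := cut_scalar (fun i => c - l i) hb hc hε m hex hm
  have ht : trace ((c • (1 : Matrix (Fin d) (Fin d) ℝ) - Y) ^ m) = ∑ i, (c - l i) ^ m := by
    rw [hpow m, trace_conj h1]
  refine ⟨?_, ?_, ?_⟩
  · rw [hmul, trace_conj h1, ht]
    refine le_trans (le_of_eq ?_) hscal
    exact Finset.sum_congr rfl fun i _ => by ring
  · rw [ht]
    obtain ⟨i, hi⟩ := hex
    have hpos : 0 < (c - l i) ^ m := pow_pos (by linarith) m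
    exact hpos.trans_le (Finset.single_le_sum (f := fun i => (c - l i) ^ m)
      (fun i _ => pow_nonneg (hb i) m) (Finset.mem_univ i))
  · have hsymm : ((c • (1 : Matrix (Fin d) (Fin d) ℝ) - Y) ^ m)ᵀ
        = (c • (1 : Matrix (Fin d) (Fin d) ℝ) - Y) ^ m := by
      rw [Matrix.transpose_pow, Matrix.transpose_sub, Matrix.transpose_smul,
        Matrix.transpose_one, hY]
    have hF : ∑ i, ∑ j, ((c • (1 : Matrix (Fin d) (Fin d) ℝ) - Y) ^ m) i j ^ 2
        = trace ((c • (1 : Matrix (Fin d) (Fin d) ℝ) - Y) ^ (m + m)) := by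
      rw [pow_add]
      simp only [Matrix.trace, Matrix.diag_apply, Matrix.mul_apply]
      refine Finset.sum_congr rfl fun i _ => Finset.sum_congr rfl fun j _ => ?_
      have : ((c • (1 : Matrix (Fin d) (Fin d) ℝ) - Y) ^ m) j i
          = ((c • (1 : Matrix (Fin d) (Fin d) ℝ) - Y) ^ m) i j := by
        conv_lhs => rw [← hsymm]
        rfl
      rw [this]; ring
    rw [hF, hpow (m + m), trace_conj h1, ht]
    calc ∑ i, (c - l i) ^ (m + m) = ∑ i, ((c - l i) ^ m) ^ 2 :=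
          Finset.sum_congr rfl fun i _ => by ring
      _ ≤ (∑ i, (c - l i) ^ m) ^ 2 :=
          Finset.sum_sq_le_sq_sum_of_nonneg fun i _ => pow_nonneg (hb i) m

/-- even powers are positive functionals on PSD matrices -/
theorem trace_mul_even_pow_nonneg {d : ℕ} {Y B : Matrix (Fin d) (Fin d) ℝ}
    (hB : Bᵀ = B) (hY : ∀ w : Fin d → ℝ, 0 ≤ w ⬝ᵥ (Y *ᵥ w)) (k : ℕ) :
    0 ≤ trace (Y * B ^ (2 * k)) := by
  have hV : (B ^ k)ᵀ = B ^ k := by rw [Matrix.transpose_pow, hB]
  set V := B ^ k with hVdef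
  have e : trace (Y * B ^ (2 * k)) = ∑ i, V i ⬝ᵥ (Y *ᵥ V i) := by
    rw [two_mul, pow_add, ← hVdef, ← Matrix.mul_assoc, Matrix.trace_mul_comm, ← Matrix.mul_assoc]
    simp only [Matrix.trace, Matrix.diag_apply]
    refine Finset.sum_congr rfl fun i _ => ?_
    rw [Matrix.mul_apply, Matrix.dotProduct_mulVec, dotProduct]
    refine Finset.sum_congr rfl fun j _ => ?_
    have h1 : (V * Y) i j = (V i ᵥ* Y) j := by
      rw [Matrix.mul_apply, Matrix.vecMul, dotProduct]
    have h2 : V j i = V i j := by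
      conv_lhs => rw [← hV]
      rfl
    rw [h1, h2]
  rw [e]
  exact Finset.sum_nonneg fun i _ => hY _

end Crest.Agent.R300
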