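import Crest.Agent.R300.SdpSolve
import Crest.Agent.R300.SdpCut

/-!
# Row 300: feasibility solver with a PSD block (integer arithmetic for the cut)
-/

set_option autoImplicit false

namespace Crest.Agent.R300

open Finset Matrix

/-! ### programs -/

/-- entry of the index table -/
def idxf (idx : List (List ℕ)) (i j : ℕ) : ℕ := (idx.getD i []).getD j 0

/-- entry of an integer matrix given by rows -/
def entZ (A : List (List ℤ)) (i j : ℕ) : ℤ := (A.getD i []).getD j 0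

/-- tabulated integer matrix -/
def tabZ (d : ℕ) (f : ℕ → ℕ → ℤ) : List (List ℤ) :=
  (List.range d).map fun i => (List.range d).map fun j => f i j

/-- `2 ^ D * (d - Y(u))` -/
def matB (D : ℕ) (idx : List (List ℕ)) (u : List ℚ) : List (List ℤ) :=
  tabZ idx.length fun i j => (if i = j then (idx.length : ℤ) * 2 ^ D else 0)
    - ⌊u.getD (idxf idx i j) 0 * 2 ^ D⌋

/-- multiplication on the right by `N` -/
def mulZ (d : ℕ) (N A : List (List ℤ)) : List (List ℤ) :=
  tabZ d fun i j => ∑ l ∈ range d, entZ A i l * entZ N l j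

/-- `m`-th power of `matB` -/
def matW (D m : ℕ) (idx : List (List ℕ)) (u : List ℚ) : List (List ℤ) :=
  (mulZ idx.length (matB D idx u))^[m] (tabZ idx.length fun i j => if i = j then 1 else 0)

/-- functional `u ↦ ∑ W i j * u (idx i j)` as a row -/
def rowP (W : List (List ℤ)) (K : ℕ) (idx : List (List ℕ)) : List ℤ :=
  (List.range K).map fun k => ∑ i ∈ range idx.length, ∑ j ∈ range idx.length,
    if idxf idx i j = k then entZ W i j else 0

/-- value of the functional at the state (times `2 ^ D`) -/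
def valS (D K : ℕ) (P : List ℤ) (u : List ℚ) : ℤ :=
  ∑ k ∈ range K, P.getD k 0 * ⌊u.getD k 0 * 2 ^ D⌋

/-- squared norm of the functional -/
def nrmP (K : ℕ) (P : List ℤ) : ℤ := ∑ k ∈ range K, P.getD k 0 * P.getD k 0

/-- the oracle -/
def psdOrc (D m K L : ℕ) (idx : List (List ℕ)) (u : List ℚ) : Option (List ℚ) :=
  if valS D K (rowP (matW D m idx u) K idx) u < 0 ∧
      4 ^ D * nrmP K (rowP (matW D m idx u) K idx)
        ≤ L * (valS D K (rowP (matW D m idx u) K idx) u * valS D K (rowP (matW D m idx u) K idx) u) then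
    some ((rowP (matW D m idx u) K idx).map (fun z : ℤ => (z : ℚ)))
  else none

/-- the solver -/
def sdpRun (G K : ℕ) (idx : List (List ℕ)) (cons : List PCon) : List ℚ :=
  osolveQ (8 * G ^ 5 * (G + 1) ^ 2 + 1) (10 * G + 10) 1 K cons
    (psdOrc (10 * G + 10) (2 * (G * G * (3 * G + 1))) K ((2 * G * G * (G + 1)) ^ 2) idx)

/-! ### entries -/

theorem getD_map_range {α : Type*} (f : ℕ → α) (d i : ℕ) (a : α) (hi : i < d) :
    ((List.range d).map f).getD i a = f i := by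
  rw [List.getD_eq_getElem _ _ (by simpa using hi)]
  simp

theorem entZ_tab {d : ℕ} (f : ℕ → ℕ → ℤ) {i j : ℕ} (hi : i < d) (hj : j < d) :
    entZ (tabZ d f) i j = f i j := by
  unfold entZ tabZ
  rw [getD_map_range _ _ _ _ hi, getD_map_range _ _ _ _ hj]

/-- the real matrix of a state -/
noncomputable def matY (idx : List (List ℕ)) (u : ℕ → ℝ) : Matrix (Fin idx.length) (Fin idx.length) ℝ :=
  fun i j => u (idxf idx i j)

theorem matY_apply (idx : List (List ℕ)) (u : ℕ → ℝ) (i j : Fin idx.length) :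
    matY idx u i j = u (idxf idx i j) := rfl

/-- the real function of a state -/
noncomputable def stf (v : List ℚ) : ℕ → ℝ := fun k => ((v.getD k 0 : ℚ) : ℝ)

theorem floor_grid {D M K : ℕ} {v : List ℚ} (hv : PInv D M K v) (k : ℕ) :
    ((⌊v.getD k 0 * 2 ^ D⌋ : ℤ) : ℝ) = 2 ^ D * stf v k := by
  have h : ∃ z : ℤ, v.getD k 0 = z / 2 ^ D := by
    rcases lt_or_ge k v.length with h | h
    · rw [List.getD_eq_getElem _ _ h]
      exact hv.grid _ (List.getElem_mem h)
    · rw [List.getD_eq_default _ _ h]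
      exact ⟨0, by simp⟩
  obtain ⟨z, hz⟩ := h
  unfold stf
  have h2 : (2 : ℚ) ^ D ≠ 0 := by positivity
  have h3 : (2 : ℝ) ^ D ≠ 0 := by positivity
  rw [hz, div_mul_cancel₀ _ h2, Int.floor_intCast]
  push_cast
  field_simp

theorem matB_entry {D M K : ℕ} {v : List ℚ} (hv : PInv D M K v) (idx : List (List ℕ))
    (i j : Fin idx.length) :
    ((entZ (matB D idx v) i j : ℤ) : ℝ)
      = (2 ^ D : ℝ) * (((idx.length : ℝ) • (1 : Matrix (Fin idx.length) (Fin idx.length) ℝ)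
          - matY idx (stf v)) i j) := by
  unfold matB
  rw [entZ_tab _ i.2 j.2]
  push_cast
  rw [floor_grid hv, Matrix.sub_apply, Matrix.smul_apply, smul_eq_mul, mul_sub]
  congr 1
  by_cases h : i = j
  · subst h
    simp
    ring
  · have h' : (i : ℕ) ≠ j := fun e => h (Fin.ext e)
    simp [h, h']

theorem matW_entry {D M K : ℕ} {v : List ℚ} (hv : PInv D M K v) (idx : List (List ℕ)) (m : ℕ)
    (i j : Fin idx.length) :
    ((entZ (matW D m idx v) i j : ℤ) : ℝ)
      = (2 ^ D : ℝ) ^ m * ((((idx.length : ℝ) • (1 : Matrix (Fin idx.length) (Fin idx.length) ℝ)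
          - matY idx (stf v)) ^ m) i j) := by
  induction m generalizing i j with
  | zero =>
    unfold matW
    rw [Function.iterate_zero, id_eq, entZ_tab _ i.2 j.2]
    by_cases h : i = j
    · subst h; simp
    · have h' : (i : ℕ) ≠ j := fun e => h (Fin.ext e)
      simp [h, h']
  | succ m ih =>
    have e : matW D (m + 1) idx v = mulZ idx.length (matB D idx v) (matW D m idx v) := by
      unfold matW
      rw [Function.iterate_succ_apply']
    rw [e]
    unfold mulZ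
    rw [entZ_tab _ i.2 j.2, pow_succ, pow_succ, Matrix.mul_apply, Finset.mul_sum]
    push_cast
    rw [← Fin.sum_univ_eq_sum_range
      (fun l => ((entZ (matW D m idx v) i l : ℤ) : ℝ) * ((entZ (matB D idx v) l j : ℤ) : ℝ))]
    refine Finset.sum_congr rfl fun l _ => ?_
    rw [ih i l, matB_entry hv idx l j]
    ring

/-- a double sum over the table -/
theorem sum_rowP {K : ℕ} {idx : List (List ℕ)}
    (hidx : ∀ i < idx.length, ∀ j < idx.length, idxf idx i j < K) (W : List (List ℤ))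
    (g : ℕ → ℝ) :
    ∑ k ∈ range K, (((rowP W K idx).getD k 0 : ℤ) : ℝ) * g k
      = ∑ i ∈ range idx.length, ∑ j ∈ range idx.length, ((entZ W i j : ℤ) : ℝ) * g (idxf idx i j) := by
  have h1 : ∀ k ∈ range K, (((rowP W K idx).getD k 0 : ℤ) : ℝ) * g k
      = ∑ i ∈ range idx.length, ∑ j ∈ range idx.length,
        if idxf idx i j = k then ((entZ W i j : ℤ) : ℝ) * g k else 0 := by
    intro k hk
    unfold rowP
    rw [getD_map_range _ _ _ _ (Finset.mem_range.1 hk)]
    push_cast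
    rw [Finset.sum_mul]
    refine Finset.sum_congr rfl fun i _ => ?_
    rw [Finset.sum_mul]
    refine Finset.sum_congr rfl fun j _ => ?_
    split_ifs <;> simp
  rw [Finset.sum_congr rfl h1, Finset.sum_comm]
  refine Finset.sum_congr rfl fun i hi => ?_
  rw [Finset.sum_comm]
  refine Finset.sum_congr rfl fun j hj => ?_
  rw [Finset.sum_ite_eq]
  rw [if_pos (Finset.mem_range.2 (hidx i (Finset.mem_range.1 hi) j (Finset.mem_range.1 hj)))]

/-! ### real versions -/

/-- the real power matrix -/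
noncomputable def powY (idx : List (List ℕ)) (m : ℕ) (u : ℕ → ℝ) :
    Matrix (Fin idx.length) (Fin idx.length) ℝ :=
  ((idx.length : ℝ) • (1 : Matrix (Fin idx.length) (Fin idx.length) ℝ) - matY idx u) ^ m

theorem matY_symm {K : ℕ} {idx : List (List ℕ)}
    (hidx : ∀ i < idx.length, ∀ j < idx.length, idxf idx i j < K ∧ idxf idx i j = idxf idx j i)
    (u : ℕ → ℝ) : (matY idx u)ᵀ = matY idx u := by
  ext i j
  rw [Matrix.transpose_apply, matY_apply, matY_apply, (hidx j j.2 i i.2).2]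

theorem base_symm {K : ℕ} {idx : List (List ℕ)}
    (hidx : ∀ i < idx.length, ∀ j < idx.length, idxf idx i j < K ∧ idxf idx i j = idxf idx j i)
    (u : ℕ → ℝ) :
    ((idx.length : ℝ) • (1 : Matrix (Fin idx.length) (Fin idx.length) ℝ) - matY idx u)ᵀ
      = (idx.length : ℝ) • (1 : Matrix (Fin idx.length) (Fin idx.length) ℝ) - matY idx u := by
  rw [Matrix.transpose_sub, Matrix.transpose_smul, Matrix.transpose_one, matY_symm hidx]

theorem powY_symm {K : ℕ} {idx : List (List ℕ)}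
    (hidx : ∀ i < idx.length, ∀ j < idx.length, idxf idx i j < K ∧ idxf idx i j = idxf idx j i)
    (m : ℕ) (u : ℕ → ℝ) (i j : Fin idx.length) : powY idx m u i j = powY idx m u j i := by
  have h : (powY idx m u)ᵀ = powY idx m u := by
    unfold powY
    rw [Matrix.transpose_pow, base_symm hidx]
  conv_lhs => rw [← h]
  rfl

/-- the functional of the row is a trace -/
theorem sum_rowP_eq_trace {D M K : ℕ} {v : List ℚ} (hv : PInv D M K v) {idx : List (List ℕ)}
    (hidx : ∀ i < idx.length, ∀ j < idx.length, idxf idx i j < K ∧ idxf idx i j = idxf idx j i)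
    (m : ℕ) (g : ℕ → ℝ) :
    ∑ k ∈ range K, (((rowP (matW D m idx v) K idx).getD k 0 : ℤ) : ℝ) * g k
      = (2 ^ D : ℝ) ^ m * trace (matY idx g * powY idx m (stf v)) := by
  rw [sum_rowP (fun i hi j hj => (hidx i hi j hj).1)]
  rw [← Fin.sum_univ_eq_sum_range (fun i => ∑ j ∈ range idx.length,
    ((entZ (matW D m idx v) i j : ℤ) : ℝ) * g (idxf idx i j))]
  unfold Matrix.trace
  rw [Finset.mul_sum]
  refine Finset.sum_congr rfl fun i _ => ?_
  rw [← Fin.sum_univ_eq_sum_range (fun j => ((entZ (matW D m idx v) i j : ℤ) : ℝ) * g (idxf idx i j)),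
    Matrix.diag_apply, Matrix.mul_apply, Finset.mul_sum]
  refine Finset.sum_congr rfl fun j _ => ?_
  rw [matW_entry hv idx m i j]
  have := powY_symm hidx m (stf v) i j
  change (2 ^ D : ℝ) ^ m * powY idx m (stf v) i j * g (idxf idx i j) = _
  rw [this, matY_apply]
  ring

/-- norm of the row -/
theorem sum_rowP_sq_le {D M K : ℕ} {v : List ℚ} (hv : PInv D M K v) {idx : List (List ℕ)}
    (hidx : ∀ i < idx.length, ∀ j < idx.length, idxf idx i j < K ∧ idxf idx i j = idxf idx j i)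
    (m : ℕ) :
    ∑ k ∈ range K, (((rowP (matW D m idx v) K idx).getD k 0 : ℤ) : ℝ) ^ 2
      ≤ (idx.length : ℝ) ^ 2 * (((2 ^ D : ℝ) ^ m) ^ 2 * ∑ i, ∑ j, powY idx m (stf v) i j ^ 2) := by
  set P : ℕ → ℝ := fun k => (((rowP (matW D m idx v) K idx).getD k 0 : ℤ) : ℝ) with hP
  set S := ∑ k ∈ range K, P k ^ 2 with hS
  set d := idx.length with hd
  set w : ℕ → ℕ → ℝ := fun i j => ((entZ (matW D m idx v) i j : ℤ) : ℝ) with hw
  have hS0 : 0 ≤ S := Finset.sum_nonneg fun k _ => sq_nonneg _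
  have h1 : S = ∑ i ∈ range d, ∑ j ∈ range d, w i j * P (idxf idx i j) := by
    have := sum_rowP (fun i hi j hj => (hidx i hi j hj).1) (matW D m idx v) P
    rw [← this, hS]
    exact Finset.sum_congr rfl fun k _ => by rw [hP]; ring
  have hW : ∑ i ∈ range d, ∑ j ∈ range d, w i j ^ 2
      = ((2 ^ D : ℝ) ^ m) ^ 2 * ∑ i, ∑ j, powY idx m (stf v) i j ^ 2 := by
    rw [← Fin.sum_univ_eq_sum_range (fun i => ∑ j ∈ range d, w i j ^ 2), Finset.mul_sum]
    refine Finset.sum_congr rfl fun i _ => ?_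
    rw [← Fin.sum_univ_eq_sum_range (fun j => w i j ^ 2), Finset.mul_sum]
    refine Finset.sum_congr rfl fun j _ => ?_
    rw [hw]
    simp only
    rw [matW_entry hv idx m i j]
    unfold powY
    ring
  rw [← hW]
  set Q := ∑ i ∈ range d, ∑ j ∈ range d, w i j ^ 2 with hQ
  have hcs : S ^ 2 ≤ Q * (∑ i ∈ range d, ∑ j ∈ range d, P (idxf idx i j) ^ 2) := by
    rw [h1, hQ]
    simp only [← Finset.sum_product']
    exact Finset.sum_mul_sq_le_sq_mul_sq _ _ _
  have hQ0 : 0 ≤ Q := Finset.sum_nonneg fun i _ => Finset.sum_nonneg fun j _ => sq_nonneg _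
  have h2 : ∑ i ∈ range d, ∑ j ∈ range d, P (idxf idx i j) ^ 2 ≤ (d : ℝ) ^ 2 * S := by
    calc ∑ i ∈ range d, ∑ j ∈ range d, P (idxf idx i j) ^ 2
        ≤ ∑ i ∈ range d, ∑ j ∈ range d, S := by
          refine Finset.sum_le_sum fun i hi => Finset.sum_le_sum fun j hj => ?_
          exact Finset.single_le_sum (f := fun k => P k ^ 2) (fun k _ => sq_nonneg _)
            (Finset.mem_range.2 (hidx i (Finset.mem_range.1 hi) j (Finset.mem_range.1 hj)).1)
      _ = (d : ℝ) ^ 2 * S := by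
          simp only [Finset.sum_const, Finset.card_range, nsmul_eq_mul]; ring
  have h3 : S ^ 2 ≤ Q * ((d : ℝ) ^ 2 * S) := hcs.trans (mul_le_mul_of_nonneg_left h2 hQ0)
  rcases hS0.lt_or_eq with hpos | hzero
  · have : S * S ≤ ((d : ℝ) ^ 2 * Q) * S := by nlinarith
    exact le_of_mul_le_mul_right this hpos
  · rw [← hzero]
    exact mul_nonneg (sq_nonneg _) hQ0

theorem valS_eq {D M K : ℕ} {v : List ℚ} (hv : PInv D M K v) (P : List ℤ) :
    ((valS D K P v : ℤ) : ℝ) = 2 ^ D * ∑ k ∈ range K, ((P.getD k 0 : ℤ) : ℝ) * stf v k := by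
  unfold valS
  push_cast
  rw [Finset.mul_sum]
  refine Finset.sum_congr rfl fun k _ => ?_
  rw [floor_grid hv]
  ring

theorem nrmP_eq (K : ℕ) (P : List ℤ) :
    ((nrmP K P : ℤ) : ℝ) = ∑ k ∈ range K, ((P.getD k 0 : ℤ) : ℝ) ^ 2 := by
  unfold nrmP
  push_cast
  exact Finset.sum_congr rfl fun k _ => by ring

theorem getD_map_cast (P : List ℤ) (k : ℕ) :
    (((P.map (fun z : ℤ => (z : ℚ))).getD k 0 : ℚ) : ℝ) = ((P.getD k 0 : ℤ) : ℝ) := by
  rcases lt_or_ge k P.length with h | h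
  · rw [List.getD_eq_getElem _ _ (by simpa using h), List.getD_eq_getElem _ _ h, List.getElem_map]
    push_cast
    rfl
  · rw [List.getD_eq_default _ _ (by simpa using h), List.getD_eq_default _ _ h]
    simp

theorem rowP_length (W : List (List ℤ)) (K : ℕ) (idx : List (List ℕ)) : (rowP W K idx).length = K := by
  simp [rowP]

/-- quadratic form of `matY` -/
theorem quad_matY (idx : List (List ℕ)) (u : ℕ → ℝ) (w : ℕ → ℝ) :
    (fun i : Fin idx.length => w i) ⬝ᵥ (matY idx u *ᵥ fun i => w i)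
      = ∑ i ∈ range idx.length, ∑ j ∈ range idx.length, w i * w j * u (idxf idx i j) := by
  rw [← Fin.sum_univ_eq_sum_range (fun i => ∑ j ∈ range idx.length, w i * w j * u (idxf idx i j)),
    dotProduct]
  refine Finset.sum_congr rfl fun i _ => ?_
  rw [← Fin.sum_univ_eq_sum_range (fun j => w i * w j * u (idxf idx i j)), Matrix.mulVec, dotProduct,
    Finset.mul_sum]
  refine Finset.sum_congr rfl fun j _ => ?_
  unfold matY
  ring

/-- extension of a vector by zero -/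
theorem exists_ext {d : ℕ} (w : Fin d → ℝ) : ∃ w' : ℕ → ℝ, (fun i : Fin d => w' i) = w := by
  refine ⟨fun k => if h : k < d then w ⟨k, h⟩ else 0, ?_⟩
  funext i
  simp

/-- **soundness of the oracle** -/
theorem psdOrc_ok {D K k L : ℕ} {idx : List (List ℕ)}
    (hidx : ∀ i < idx.length, ∀ j < idx.length, idxf idx i j < K ∧ idxf idx i j = idxf idx j i)
    {u : ℕ → ℝ} (hpsd : ∀ w : ℕ → ℝ, 0 ≤ ∑ i ∈ range idx.length, ∑ j ∈ range idx.length,
      w i * w j * u (idxf idx i j)) {v : List ℚ} (hv : PInv D 1 K v) {P : List ℚ}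
    (hP : psdOrc D (2 * k) K L idx v = some P) : OrcOK D 1 K L u v P := by
  unfold psdOrc at hP
  split_ifs at hP with hcond
  simp only [Option.some.injEq] at hP
  subst hP
  set R := rowP (matW D (2 * k) idx v) K idx with hR
  have hcast : ∀ g : ℕ → ℝ, ∑ i ∈ range K, (((R.map (fun z : ℤ => (z : ℚ))).getD i 0 : ℚ) : ℝ) * g i
      = ∑ i ∈ range K, ((R.getD i 0 : ℤ) : ℝ) * g i := fun g =>
    Finset.sum_congr rfl fun i _ => by rw [getD_map_cast]
  have hneg' : ∑ i ∈ range K, ((R.getD i 0 : ℤ) : ℝ) * stf v i < 0 := by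
    have h1 : ((valS D K R v : ℤ) : ℝ) < 0 := by exact_mod_cast hcond.1
    rw [valS_eq hv] at h1
    have h2 : (0 : ℝ) < 2 ^ D := by positivity
    by_contra hcon
    push Not at hcon
    have := mul_nonneg h2.le hcon
    linarith
  refine ⟨?_, ?_, ?_, ?_⟩
  · rw [List.length_map, hR, rowP_length]
  · rw [hcast, hR, sum_rowP_eq_trace hv hidx]
    refine mul_nonneg (by positivity) ?_
    refine trace_mul_even_pow_nonneg (base_symm hidx _) ?_ k
    intro w
    obtain ⟨w', rfl⟩ := exists_ext w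
    rw [quad_matY]
    exact hpsd w'
  · have := hcast (stf v)
    unfold stf at this
    rw [this]
    exact hneg'
  · have h3 : (4 : ℝ) ^ D * ((nrmP K R : ℤ) : ℝ) ≤ L * (((valS D K R v : ℤ) : ℝ) * ((valS D K R v : ℤ) : ℝ)) := by
      exact_mod_cast hcond.2
    rw [nrmP_eq, valS_eq hv] at h3
    have e4 : (4 : ℝ) ^ D = 2 ^ D * 2 ^ D := by
      rw [← mul_pow]; norm_num
    have h5 : (0 : ℝ) < 2 ^ D * 2 ^ D := by positivity
    have h6 := hcast (stf v)
    unfold stf at h6 h3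
    rw [h6]
    have e7 : ∑ i ∈ range K, (((R.map (fun z : ℤ => (z : ℚ))).getD i 0 : ℚ) : ℝ) ^ 2
        = ∑ i ∈ range K, ((R.getD i 0 : ℤ) : ℝ) ^ 2 :=
      Finset.sum_congr rfl fun i _ => by rw [getD_map_cast]
    rw [e7]
    rw [e4] at h3
    refine le_of_mul_le_mul_left (h3.trans (le_of_eq ?_)) h5
    ring

theorem quad_le {d : ℕ} (Y : Matrix (Fin d) (Fin d) ℝ) (hY : ∀ i j, |Y i j| ≤ 1) (w : Fin d → ℝ) :
    w ⬝ᵥ (Y *ᵥ w) ≤ d * (w ⬝ᵥ w) := by
  have h1 : w ⬝ᵥ (Y *ᵥ w) ≤ (∑ i, |w i|) ^ 2 := by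
    rw [sq, Finset.sum_mul_sum, dotProduct]
    refine Finset.sum_le_sum fun i _ => ?_
    rw [Matrix.mulVec, dotProduct, Finset.mul_sum]
    refine Finset.sum_le_sum fun j _ => ?_
    calc w i * (Y i j * w j) ≤ |w i * (Y i j * w j)| := le_abs_self _
      _ = |w i| * |w j| * |Y i j| := by rw [abs_mul, abs_mul]; ring
      _ ≤ |w i| * |w j| * 1 := mul_le_mul_of_nonneg_left (hY i j) (by positivity)
      _ = |w i| * |w j| := mul_one _
  have h2 : (∑ i, |w i|) ^ 2 ≤ d * ∑ i, |w i| ^ 2 := by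
    have := sq_sum_le_card_mul_sum_sq (s := (univ : Finset (Fin d))) (f := fun i => |w i|)
    simpa using this
  have h3 : ∑ i, |w i| ^ 2 = w ⬝ᵥ w := by
    rw [dotProduct]
    exact Finset.sum_congr rfl fun i _ => by rw [sq_abs]; ring
  rw [h3] at h2
  exact h1.trans h2

/-- **completeness of the oracle** -/
theorem psdOrc_none {D K k L : ℕ} {idx : List (List ℕ)}
    (hidx : ∀ i < idx.length, ∀ j < idx.length, idxf idx i j < K ∧ idxf idx i j = idxf idx j i)
    {v : List ℚ} (hv : PInv D 1 K v) {ε : ℝ} (hε : 0 < ε)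
    (hm : (idx.length : ℝ) * (idx.length : ℝ) ^ (2 * k + 1)
      ≤ ε / 2 * ((idx.length : ℝ) + ε) ^ (2 * k))
    (hL : (2 * idx.length * (idx.length + 1)) ^ 2 ≤ (L : ℝ) * ε ^ 2)
    (hnone : psdOrc D (2 * k) K L idx v = none) (w : ℕ → ℝ) :
    -ε * ∑ i ∈ range idx.length, w i ^ 2
      ≤ ∑ i ∈ range idx.length, ∑ j ∈ range idx.length, w i * w j * stf v (idxf idx i j) := by
  by_contra hcon
  push Not at hcon
  set d := idx.length with hd
  have hw1 : (fun i : Fin d => w i) ⬝ᵥ (fun i : Fin d => w i) = ∑ i ∈ range d, w i ^ 2 := by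
    rw [dotProduct, ← Fin.sum_univ_eq_sum_range (fun i => w i ^ 2)]
    exact Finset.sum_congr rfl fun i _ => by ring
  have hneg : ∃ w : Fin d → ℝ, w ⬝ᵥ (matY idx (stf v) *ᵥ w) < -ε * (w ⬝ᵥ w) := by
    refine ⟨fun i => w i, ?_⟩
    rw [quad_matY, hw1]
    exact hcon
  have hYb : ∀ i j, |matY idx (stf v) i j| ≤ 1 := by
    intro i j
    unfold matY stf
    have hk : idxf idx i j < v.length := by rw [hv.len]; exact (hidx i i.2 j j.2).1
    rw [List.getD_eq_getElem _ _ hk]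
    have := hv.bd _ (List.getElem_mem hk)
    exact_mod_cast this
  have hcut := psd_cut (matY_symm hidx (stf v)) (c := (d : ℝ)) (Nat.cast_nonneg d) hε
    (quad_le _ hYb) (2 * k) hm hneg
  obtain ⟨c1, c2, c3⟩ := hcut
  change trace (matY idx (stf v) * powY idx (2 * k) (stf v)) ≤
    -(ε / (2 * (d + 1))) * trace (powY idx (2 * k) (stf v)) at c1
  change 0 < trace (powY idx (2 * k) (stf v)) at c2
  change ∑ i, ∑ j, (powY idx (2 * k) (stf v)) i j ^ 2 ≤ trace (powY idx (2 * k) (stf v)) ^ 2 at c3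
  set t := trace (powY idx (2 * k) (stf v)) with ht
  set R := rowP (matW D (2 * k) idx v) K idx with hR
  have hS := sum_rowP_eq_trace hv hidx (2 * k) (stf v)
  rw [← hR] at hS
  set s := ∑ i ∈ range K, ((R.getD i 0 : ℤ) : ℝ) * stf v i with hs
  set q : ℝ := (2 ^ D : ℝ) ^ (2 * k) with hq
  have hq0 : 0 < q := by positivity
  have hδ : 0 < ε / (2 * ((d : ℝ) + 1)) := by positivity
  have hs1 : s ≤ -(q * (ε / (2 * (d + 1)) * t)) := by
    rw [hS]
    calc q * trace (matY idx (stf v) * powY idx (2 * k) (stf v))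
        ≤ q * (-(ε / (2 * (d + 1))) * t) := mul_le_mul_of_nonneg_left c1 hq0.le
      _ = _ := by ring
  have hpos : 0 < q * (ε / (2 * (d + 1)) * t) := by positivity
  have hs0 : s < 0 := by linarith
  have hn := sum_rowP_sq_le hv hidx (2 * k)
  rw [← hR] at hn
  have h2D : (0 : ℝ) < 2 ^ D := by positivity
  have hval : valS D K R v < 0 := by
    have : ((valS D K R v : ℤ) : ℝ) < 0 := by
      rw [valS_eq hv]; exact mul_neg_of_pos_of_neg h2D hs0
    exact_mod_cast this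
  have hbig : 4 ^ D * nrmP K R ≤ L * (valS D K R v * valS D K R v) := by
    have : (4 : ℝ) ^ D * ((nrmP K R : ℤ) : ℝ) ≤ L * (((valS D K R v : ℤ) : ℝ) * ((valS D K R v : ℤ) : ℝ)) := by
      rw [nrmP_eq, valS_eq hv]
      have e4 : (4 : ℝ) ^ D = 2 ^ D * 2 ^ D := by
        rw [← mul_pow]; norm_num
      have h5 : (0 : ℝ) < 2 ^ D * 2 ^ D := by positivity
      have h6 : ∑ i ∈ range K, ((R.getD i 0 : ℤ) : ℝ) ^ 2 ≤ L * s ^ 2 := by
        refine hn.trans ?_
        have h7 : (q * (ε / (2 * (d + 1)) * t)) ^ 2 ≤ s ^ 2 := by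
          nlinarith
        calc (d : ℝ) ^ 2 * (q ^ 2 * ∑ i, ∑ j, powY idx (2 * k) (stf v) i j ^ 2)
            ≤ (d : ℝ) ^ 2 * (q ^ 2 * t ^ 2) := by
              refine mul_le_mul_of_nonneg_left ?_ (sq_nonneg _)
              exact mul_le_mul_of_nonneg_left c3 (sq_nonneg _)
          _ ≤ L * (q * (ε / (2 * (d + 1)) * t)) ^ 2 := by
              have e8 : (L : ℝ) * (q * (ε / (2 * (d + 1)) * t)) ^ 2
                  = ((L : ℝ) * ε ^ 2) * ((q * t) ^ 2 / (2 * (d + 1)) ^ 2) := by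
                field_simp
              have e9 : (d : ℝ) ^ 2 * (q ^ 2 * t ^ 2)
                  = (2 * d * (d + 1)) ^ 2 * ((q * t) ^ 2 / (2 * (d + 1)) ^ 2) := by
                field_simp
              rw [e8, e9]
              exact mul_le_mul_of_nonneg_right hL (by positivity)
          _ ≤ L * s ^ 2 := mul_le_mul_of_nonneg_left h7 (Nat.cast_nonneg L)
      rw [e4]
      calc 2 ^ D * 2 ^ D * ∑ i ∈ range K, ((R.getD i 0 : ℤ) : ℝ) ^ 2
          ≤ 2 ^ D * 2 ^ D * (L * s ^ 2) := mul_le_mul_of_nonneg_left h6 h5.le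
        _ = _ := by ring
    exact_mod_cast this
  unfold psdOrc at hnone
  rw [if_pos ⟨hval, hbig⟩] at hnone
  exact absurd hnone (by simp)

theorem sdp_num1 {G d : ℕ} (hG : 1 ≤ G) (hd : d ≤ G) :
    (d : ℝ) * (d : ℝ) ^ (2 * (G * G * (3 * G + 1)) + 1)
      ≤ 1 / (G : ℝ) / 2 * ((d : ℝ) + 1 / (G : ℝ)) ^ (2 * (G * G * (3 * G + 1))) := by
  have hG0 : (0 : ℝ) < G := by exact_mod_cast hG
  rcases Nat.eq_zero_or_pos d with h0 | hpos
  · subst h0
    simp only [CharP.cast_eq_zero, zero_mul]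
    positivity
  have hd0 : (1 : ℝ) ≤ d := by exact_mod_cast hpos
  have hdG : (d : ℝ) ≤ G := by exact_mod_cast hd
  set k := G * G * (3 * G + 1) with hk
  have h1 : (d : ℝ) * (1 + 1 / (G : ℝ) ^ 2) ≤ d + 1 / G := by
    have : (d : ℝ) * (1 / (G : ℝ) ^ 2) ≤ 1 / G := by
      rw [mul_one_div, div_le_div_iff₀ (by positivity) hG0]
      nlinarith
    linarith
  have h2 : (2 : ℝ) ≤ (1 + 1 / (G : ℝ) ^ 2) ^ (G * G) := by
    have := one_add_mul_le_pow (a := 1 / (G : ℝ) ^ 2) (by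
      have : (0 : ℝ) ≤ 1 / (G : ℝ) ^ 2 := by positivity
      linarith) (G * G)
    refine le_trans (le_of_eq ?_) this
    push_cast
    field_simp
    norm_num
  have h3 : (2 : ℝ) * G ^ 3 ≤ (1 + 1 / (G : ℝ) ^ 2) ^ (2 * k) := by
    have e : 2 * k = (G * G) * (2 * (3 * G + 1)) := by rw [hk]; ring
    rw [e, pow_mul]
    have hbase : (0 : ℝ) ≤ 2 := by norm_num
    refine le_trans ?_ (pow_le_pow_left₀ hbase h2 (2 * (3 * G + 1)))
    have h4 : (G : ℝ) ≤ 2 ^ G := by exact_mod_cast (Nat.lt_two_pow_self (n := G)).le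
    have h5 : (1 : ℝ) ≤ 2 ^ G := one_le_pow₀ (by norm_num)
    have e2 : (2 : ℝ) ^ (2 * (3 * G + 1)) = 4 * ((2 ^ G) ^ 3 * (2 ^ G) ^ 3) := by
      rw [← pow_mul, ← pow_add]
      have : 2 * (3 * G + 1) = 2 + (G * 3 + G * 3) := by ring
      rw [this, pow_add]
      norm_num
    rw [e2]
    have h6 : (G : ℝ) ^ 3 ≤ (2 ^ G) ^ 3 := pow_le_pow_left₀ hG0.le h4 3
    have h7 : (1 : ℝ) ≤ (2 ^ G) ^ 3 := one_le_pow₀ h5
    have h8 : (G : ℝ) ^ 3 ≤ (2 ^ G) ^ 3 * (2 ^ G) ^ 3 := by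
      calc (G : ℝ) ^ 3 ≤ (2 ^ G) ^ 3 * 1 := by rw [mul_one]; exact h6
        _ ≤ _ := mul_le_mul_of_nonneg_left h7 (by positivity)
    have h9 : (0 : ℝ) ≤ (2 ^ G) ^ 3 * (2 ^ G) ^ 3 := by positivity
    linarith
  calc (d : ℝ) * (d : ℝ) ^ (2 * k + 1) = (d : ℝ) ^ (2 * k) * (d * d) := by ring
    _ ≤ (d : ℝ) ^ (2 * k) * (G * G) := by
        refine mul_le_mul_of_nonneg_left ?_ (by positivity)
        nlinarith
    _ = 1 / (G : ℝ) / 2 * ((d : ℝ) ^ (2 * k) * (2 * G ^ 3)) := by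
        field_simp
    _ ≤ 1 / (G : ℝ) / 2 * ((d : ℝ) ^ (2 * k) * (1 + 1 / (G : ℝ) ^ 2) ^ (2 * k)) := by
        refine mul_le_mul_of_nonneg_left ?_ (by positivity)
        exact mul_le_mul_of_nonneg_left h3 (by positivity)
    _ = 1 / (G : ℝ) / 2 * ((d : ℝ) * (1 + 1 / (G : ℝ) ^ 2)) ^ (2 * k) := by rw [mul_pow]
    _ ≤ _ := by
        refine mul_le_mul_of_nonneg_left ?_ (by positivity)
        exact pow_le_pow_left₀ (by positivity) h1 _

theorem sdp_num2 {G K : ℕ} (hG : 1 ≤ G) (hK : K ≤ G) :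
    (K : ℝ) * (4 * ((1 : ℕ) : ℝ) / 2 ^ (10 * G + 10) + (1 / 2 ^ (10 * G + 10)) ^ 2)
      ≤ 1 / (8 * (G : ℝ) ^ 4 * (G + 1) ^ 2) := by
  have hG0 : (1 : ℝ) ≤ G := by exact_mod_cast hG
  have hKG : (K : ℝ) ≤ G := by exact_mod_cast hK
  have hK0 : (0 : ℝ) ≤ K := Nat.cast_nonneg K
  set δ : ℝ := 1 / 2 ^ (10 * G + 10) with hδ
  have hδ0 : 0 < δ := by positivity
  have hδ1 : δ ≤ 1 := by
    rw [hδ, div_le_one (by positivity)]
    exact one_le_pow₀ (by norm_num)
  have h1 : 4 * ((1 : ℕ) : ℝ) / 2 ^ (10 * G + 10) + δ ^ 2 ≤ 5 * δ := by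
    have e : 4 * ((1 : ℕ) : ℝ) / 2 ^ (10 * G + 10) = 4 * δ := by rw [hδ]; push_cast; ring
    rw [e]
    nlinarith
  have h2 : (K : ℝ) * (4 * ((1 : ℕ) : ℝ) / 2 ^ (10 * G + 10) + δ ^ 2) ≤ G * (5 * δ) := by
    calc _ ≤ (K : ℝ) * (5 * δ) := mul_le_mul_of_nonneg_left h1 hK0
      _ ≤ _ := mul_le_mul_of_nonneg_right hKG (by positivity)
  refine h2.trans ?_
  rw [le_div_iff₀ (by positivity), hδ]
  have h3 : (G : ℝ) + 1 ≤ 2 ^ G := by exact_mod_cast (Nat.lt_two_pow_self (n := G))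
  have h4 : (G : ℝ) ^ 5 * (G + 1) ^ 2 ≤ (2 ^ G) ^ 10 := by
    calc (G : ℝ) ^ 5 * (G + 1) ^ 2 ≤ (2 ^ G) ^ 5 * (2 ^ G) ^ 2 := by
          apply mul_le_mul
          · exact pow_le_pow_left₀ (by positivity) (by linarith) 5
          · exact pow_le_pow_left₀ (by positivity) h3 2
          · positivity
          · positivity
      _ = (2 ^ G) ^ 7 := by ring
      _ ≤ (2 ^ G) ^ 10 := pow_le_pow_right₀ (one_le_pow₀ (by norm_num)) (by norm_num)
  have e5 : (2 : ℝ) ^ (10 * G + 10) = (2 ^ G) ^ 10 * 1024 := by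
    rw [pow_add, mul_comm 10 G, pow_mul]; norm_num
  rw [e5]
  have h6 : (0 : ℝ) < (2 ^ G) ^ 10 * 1024 := by positivity
  rw [show (G : ℝ) * (5 * (1 / ((2 ^ G) ^ 10 * 1024))) * (8 * G ^ 4 * (G + 1) ^ 2)
    = (40 * (G ^ 5 * (G + 1) ^ 2)) / ((2 ^ G) ^ 10 * 1024) by field_simp; ring]
  rw [div_le_one h6]
  nlinarith

/-- **Specification of the solver.** -/
theorem sdpRun_spec {G K : ℕ} {idx : List (List ℕ)} {cons : List PCon} (hG : 1 ≤ G) (hK : K ≤ G)
    (hd : idx.length ≤ G) (hlen : ∀ c ∈ cons, c.1.length = K)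
    (hN : ∀ c ∈ cons, dotQ c.1 c.1 ≤ G) (htol : ∀ c ∈ cons, 1 / (G : ℚ) ≤ c.2.2)
    (hidx : ∀ i < idx.length, ∀ j < idx.length, idxf idx i j < K ∧ idxf idx i j = idxf idx j i)
    {u : ℕ → ℝ} (hu : ∀ k < K, |u k| ≤ 1)
    (hsol : ∀ c ∈ cons, |∑ k ∈ range K, (c.1.getD k 0 : ℝ) * u k - c.2.1| ≤ c.2.2)
    (hpsd : ∀ w : ℕ → ℝ, 0 ≤ ∑ i ∈ range idx.length, ∑ j ∈ range idx.length,
      w i * w j * u (idxf idx i j)) :
    (sdpRun G K idx cons).length = K ∧
    (∀ k < K, |((sdpRun G K idx cons).getD k 0 : ℝ)| ≤ 1) ∧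
    (∀ c ∈ cons, |residQ (sdpRun G K idx cons) c| ≤ 3 * c.2.2) ∧
    ∀ w : ℕ → ℝ, -(1 / (G : ℝ)) * ∑ i ∈ range idx.length, w i ^ 2
      ≤ ∑ i ∈ range idx.length, ∑ j ∈ range idx.length,
        w i * w j * ((sdpRun G K idx cons).getD (idxf idx i j) 0 : ℝ) := by
  have hG0 : (0 : ℝ) < G := by exact_mod_cast hG
  have hG1 : (1 : ℝ) ≤ G := by exact_mod_cast hG
  have hdG : (idx.length : ℝ) ≤ G := by exact_mod_cast hd
  have hdn : (0 : ℝ) ≤ idx.length := Nat.cast_nonneg _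
  have hr := sdp_num2 hG hK
  set γ : ℝ := 1 / (8 * (G : ℝ) ^ 4 * (G + 1) ^ 2) with hγ
  have hγ0 : 0 < γ := by positivity
  have hLr : (((2 * G * G * (G + 1)) ^ 2 : ℕ) : ℝ) = 4 * (G : ℝ) ^ 4 * (G + 1) ^ 2 := by
    push_cast; ring
  have e2γ : γ + γ = 1 / (((2 * G * G * (G + 1)) ^ 2 : ℕ) : ℝ) := by
    rw [hLr, hγ]; field_simp; norm_num
  obtain ⟨r1, r2, r3⟩ := osolveQ_spec (T := 8 * G ^ 5 * (G + 1) ^ 2 + 1) (D := 10 * G + 10) (M := 1)
    (K := K) (cons := cons) (orc := psdOrc (10 * G + 10) (2 * (G * G * (3 * G + 1))) K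
      ((2 * G * G * (G + 1)) ^ 2) idx) hlen (u := u) (β := 1 / G) (N := G)
    (L := (((2 * G * G * (G + 1)) ^ 2 : ℕ) : ℝ)) (γ := γ) (by positivity) (by
      rw [hLr]; positivity)
    (fun c hc => by
      have := (Rat.cast_le (K := ℝ)).2 (htol c hc)
      push_cast at this
      exact this)
    (fun c hc => by
      have := (Rat.cast_le (K := ℝ)).2 (hN c hc)
      push_cast at this
      exact this)
    (fun k hk => by simpa using hu k hk) hsol
    (fun v hv P hP => psdOrc_ok hidx hpsd hv hP)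
    (by
      have h1 : γ + γ ≤ 3 * (1 / (G : ℝ)) ^ 2 / G := by
        rw [hγ]
        have e : 1 / (8 * (G : ℝ) ^ 4 * (G + 1) ^ 2) + 1 / (8 * (G : ℝ) ^ 4 * (G + 1) ^ 2)
            = 1 / (4 * (G : ℝ) ^ 4 * (G + 1) ^ 2) := by field_simp; norm_num
        have e2 : 3 * (1 / (G : ℝ)) ^ 2 / G = 3 / (G : ℝ) ^ 3 := by field_simp
        rw [e, e2, div_le_div_iff₀ (by positivity) (by positivity)]
        have h5 : (G : ℝ) ^ 3 ≤ G ^ 4 := pow_le_pow_right₀ hG1 (by norm_num)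
        have h6 : (1 : ℝ) ≤ (G + 1) ^ 2 := one_le_pow₀ (by linarith)
        have h7 : (G : ℝ) ^ 4 ≤ G ^ 4 * (G + 1) ^ 2 := le_mul_of_one_le_right (by positivity) h6
        have h8 : (0 : ℝ) < G ^ 4 := by positivity
        linarith
      linarith)
    (by linarith)
    (by
      have hKG : (K : ℝ) ≤ G := by exact_mod_cast hK
      have e : ((8 * G ^ 5 * (G + 1) ^ 2 + 1 : ℕ) : ℝ) * γ = G + γ := by
        rw [hγ]; push_cast; field_simp
      rw [e]
      push_cast
      linarith)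
  refine ⟨r1.len, ?_, r2, ?_⟩
  · intro k hk
    have hk' : k < (sdpRun G K idx cons).length := by
      unfold sdpRun; rw [r1.len]; exact hk
    rw [List.getD_eq_getElem _ _ hk']
    have := r1.bd _ (List.getElem_mem hk')
    exact_mod_cast this
  · intro w
    exact psdOrc_none hidx r1 (ε := 1 / G) (by positivity) (sdp_num1 hG hd) (by
      rw [hLr]
      have h1 : 2 * (idx.length : ℝ) * (idx.length + 1) ≤ 2 * G * (G + 1) := by
        apply mul_le_mul
        · linarith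
        · linarith
        · positivity
        · positivity
      calc (2 * (idx.length : ℝ) * (idx.length + 1)) ^ 2 ≤ (2 * G * (G + 1)) ^ 2 :=
            pow_le_pow_left₀ (by positivity) h1 2
        _ = 4 * (G : ℝ) ^ 4 * (G + 1) ^ 2 * (1 / G) ^ 2 := by field_simp; ring) r3 w

end Crest.Agent.R300
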