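import Crest.Agent.R300.LBBaseV

/-!
# Row 300, lower bounds, base pair: assembly of `BaseStatement` from the slip lemma.
-/

set_option autoImplicit false

namespace Crest.Agent.R300LB.BaseDom

open Finset

noncomputable section

/-- P-SLIP0 (piece L10, helper358) -/
def BaseSlipStatement : Prop :=
  ∃ C : ℝ, 0 < C ∧ ∀ q : ℝ, 0 < q → q ≤ 1 / 16 → ∀ m : ℕ, C / q ^ 4 ≤ (m : ℝ) →
    ∃ (R : ℕ) (s : MA BW),
      Slip (D q [false, true] ^ m * D q [false] * D q [false, true] ^ (m + 1)) R s ∧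
      (R : ℝ) + 1 ≤ m ∧ Real.exp (-(C / q ^ 3)) ≤ mass s

theorem exp_ge_of {c x : ℝ} {k : ℕ} (hk : c ≤ 2 ^ k) (hx : (k : ℝ) ≤ x) : c ≤ Real.exp x := by
  have h2 : (2:ℝ) ≤ Real.exp 1 := by
    have := Real.add_one_le_exp (1:ℝ); linarith
  calc c ≤ 2 ^ k := hk
    _ ≤ (Real.exp 1) ^ k := pow_le_pow_left₀ (by norm_num) h2 k
    _ = Real.exp k := by rw [← Real.exp_nat_mul]; simp
    _ ≤ Real.exp x := Real.exp_le_exp.mpr hx

theorem base_of_slip (hs : BaseSlipStatement) : BaseStatement := by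
  obtain ⟨C1, hC1, hslip⟩ := hs
  refine ⟨200 * C1 + 100, by positivity, ?_⟩
  intro q hq0 hq1 L hL
  -- sizes
  set t : ℝ := 1 / q ^ 3 with ht
  have hq3 : 0 < q ^ 3 := by positivity
  have ht0 : 4096 ≤ t := by
    rw [ht, le_div_iff₀ hq3]
    have : q ^ 3 ≤ (1 / 16) ^ 3 := pow_le_pow_left₀ hq0.le hq1 3
    norm_num at this; linarith
  have hLt : (200 * C1 + 100) * t ≤ L := by
    rw [ht]; rw [mul_one_div]; exact hL
  have hCt : 0 < C1 * t := by positivity
  have hL1 : C1 * t ≤ L / 200 := by nlinarith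
  have hL2 : t ≤ L / 100 := by nlinarith
  have hL3 : 409600 ≤ L := by nlinarith
  have hL0 : 0 < L := by linarith
  have hC1t : C1 ≤ C1 * t := by nlinarith
  -- q^{-2} ≤ e^{L/100}
  have hqinv : 1 / q ^ 2 ≤ Real.exp (L / 100) := by
    have h1 : 1 / q ^ 2 ≤ t := by
      rw [ht]
      apply one_div_le_one_div_of_le hq3
      calc q ^ 3 = q ^ 2 * q := by ring
        _ ≤ q ^ 2 * 1 := mul_le_mul_of_nonneg_left (by linarith) (by positivity)
        _ = q ^ 2 := mul_one _
    have h2 : t ≤ Real.exp t := by have := Real.add_one_le_exp t; linarith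
    exact le_trans h1 (le_trans h2 (Real.exp_le_exp.mpr hL2))
  -- the number of blocks
  set M : ℝ := Real.exp (L - 2 * (C1 * t)) / 8 with hM
  have hMbig : Real.exp (L * (97 / 100)) ≤ M := by
    rw [hM, le_div_iff₀ (by norm_num)]
    have h8 : (8:ℝ) ≤ Real.exp (L / 100) := exp_ge_of (k := 3) (by norm_num) (by push_cast; linarith)
    calc Real.exp (L * (97 / 100)) * 8 ≤ Real.exp (L * (97 / 100)) * Real.exp (L / 100) :=
          mul_le_mul_of_nonneg_left h8 (Real.exp_pos _).le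
      _ = Real.exp (L * (97 / 100) + L / 100) := by rw [← Real.exp_add]
      _ ≤ Real.exp (L - 2 * (C1 * t)) := Real.exp_le_exp.mpr (by linarith)
  have hM2 : 2 ≤ M := le_trans (exp_ge_of (k := 1) (by norm_num) (by push_cast; linarith)) hMbig
  set m : ℕ := ⌊M⌋₊ with hm
  have hmle : (m : ℝ) ≤ M := Nat.floor_le (by linarith)
  have hmge : M / 2 ≤ (m : ℝ) := by
    have := Nat.lt_floor_add_one M
    rw [← hm] at this
    linarith
  have hm1r : (1:ℝ) ≤ m := by linarith
  have hm1 : 1 ≤ m := by exact_mod_cast hm1r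
  -- slip
  have hexpM : 8 * M = Real.exp (L - 2 * (C1 * t)) := by rw [hM]; ring
  have hmC : C1 / q ^ 4 ≤ (m : ℝ) := by
    have h1 : C1 / q ^ 4 ≤ Real.exp (L * (3 / 100)) := by
      have e1 : C1 / q ^ 4 = C1 * (1 / q ^ 2) * (1 / q ^ 2) := by field_simp
      have e2 : C1 ≤ Real.exp (L / 100) := by
        have := Real.add_one_le_exp C1
        have h3 : Real.exp C1 ≤ Real.exp (L / 100) := Real.exp_le_exp.mpr (by linarith)
        linarith
      rw [e1]
      have hp : 0 < 1 / q ^ 2 := by positivity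
      calc C1 * (1 / q ^ 2) * (1 / q ^ 2) ≤ Real.exp (L / 100) * Real.exp (L / 100) * Real.exp (L / 100) := by
            gcongr
        _ = Real.exp (L * (3 / 100)) := by rw [← Real.exp_add, ← Real.exp_add]; congr 1; ring
    have h2 : 2 * Real.exp (L * (3 / 100)) ≤ Real.exp (L * (97 / 100)) := by
      have h3 : (2:ℝ) ≤ Real.exp (L * (94 / 100)) := exp_ge_of (k := 1) (by norm_num) (by push_cast; linarith)
      calc 2 * Real.exp (L * (3 / 100)) ≤ Real.exp (L * (94 / 100)) * Real.exp (L * (3 / 100)) :=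
            mul_le_mul_of_nonneg_right h3 (Real.exp_pos _).le
        _ = Real.exp (L * (97 / 100)) := by rw [← Real.exp_add]; congr 1; ring
    linarith
  obtain ⟨R, s, hS, hR, hmass⟩ := hslip q hq0 hq1 m hmC
  have hDx : D q [false, true] ^ m * D q [false] * D q [false, true] ^ (m + 1) = D q (xw m) := by
    rw [D_xw q hq0, g_eq q hq0]
    congr 2
    unfold D letter c0 al; simp
  rw [hDx] at hS
  -- fourth root
  set κ : ℝ := q ^ 2 with hκ
  have hκ0 : 0 < κ := by positivity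
  have hκm0 : 0 < κ * m := by positivity
  set z : ℝ := Real.sqrt (Real.sqrt (κ * m)) with hz
  have hz2 : z ^ 2 = Real.sqrt (κ * m) := Real.sq_sqrt (Real.sqrt_nonneg _)
  have hz4 : z ^ 4 = κ * m := by
    calc z ^ 4 = (z ^ 2) ^ 2 := by ring
      _ = κ * m := by rw [hz2, Real.sq_sqrt hκm0.le]
  have hz0 : 0 ≤ z := Real.sqrt_nonneg _
  have hzbig : Real.exp (L * (191 / 800)) ≤ z := by
    have h4 : Real.exp (L * (191 / 800)) ^ 4 ≤ z ^ 4 := by
      rw [hz4, ← Real.exp_nat_mul]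
      have e1 : Real.exp (L * (97 / 100)) / 2 ≤ (m : ℝ) := by linarith
      have e2 : 1 ≤ Real.exp (L / 100) * κ := by
        have : 1 / κ ≤ Real.exp (L / 100) := hqinv
        rwa [div_le_iff₀ hκ0] at this
      have h2 : (2:ℝ) ≤ Real.exp (L / 200) := exp_ge_of (k := 1) (by norm_num) (by push_cast; linarith)
      have hE0 : 0 < Real.exp (((4:ℕ):ℝ) * (L * (191 / 800))) := Real.exp_pos _
      have e3 : Real.exp (((4:ℕ):ℝ) * (L * (191 / 800))) * Real.exp (L / 200) * Real.exp (L / 100) =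
          Real.exp (L * (97 / 100)) := by
        rw [← Real.exp_add, ← Real.exp_add]; congr 1; push_cast; ring
      have e4 : Real.exp (((4:ℕ):ℝ) * (L * (191 / 800))) * 2 * Real.exp (L / 100) ≤ 2 * m := by
        calc Real.exp (((4:ℕ):ℝ) * (L * (191 / 800))) * 2 * Real.exp (L / 100) ≤
              Real.exp (((4:ℕ):ℝ) * (L * (191 / 800))) * Real.exp (L / 200) * Real.exp (L / 100) := by
              gcongr
          _ = Real.exp (L * (97 / 100)) := e3
          _ ≤ 2 * m := by linarith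
      have e5 : Real.exp (((4:ℕ):ℝ) * (L * (191 / 800))) * Real.exp (L / 100) ≤ m := by linarith
      calc Real.exp (((4:ℕ):ℝ) * (L * (191 / 800)))
          ≤ Real.exp (((4:ℕ):ℝ) * (L * (191 / 800))) * (Real.exp (L / 100) * κ) :=
            le_mul_of_one_le_right hE0.le e2
        _ = κ * (Real.exp (((4:ℕ):ℝ) * (L * (191 / 800))) * Real.exp (L / 100)) := by ring
        _ ≤ κ * m := mul_le_mul_of_nonneg_left e5 hκ0.le
    exact le_of_pow_le_pow_left₀ (by norm_num) hz0 h4
  have hz64 : (64:ℝ) ≤ z :=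
    le_trans (exp_ge_of (k := 6) (by norm_num) (by push_cast; linarith)) hzbig
  have hzpos : 0 < z := by linarith
  have hw1 : (1:ℝ) ≤ z ^ 3 := one_le_pow₀ (by linarith)
  have hw2 : (2:ℝ) ≤ z ^ 3 := by
    calc (2:ℝ) ≤ z := by linarith
      _ = z ^ 1 := (pow_one z).symm
      _ ≤ z ^ 3 := pow_le_pow_right₀ (by linarith) (by norm_num)
  have hw : z ^ 3 ≤ κ * m / 2 := by
    rw [← hz4]
    have : z ^ 3 * 2 ≤ z ^ 3 * z := mul_le_mul_of_nonneg_left (by linarith) (by positivity)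
    have e : z ^ 4 = z ^ 3 * z := by ring
    rw [e]; linarith
  set a := D q (xw m) with ha
  set b := D q (xw m) - Dl q m (z ^ 3) with hb
  have hab : a - b = Dl q m (z ^ 3) := by rw [ha, hb]; abel
  have hq1' : q ≤ 1 := by linarith
  have hpa : Prob a := by
    have h := prob_b hq0 hq1' m (-1)
    have h0 : Dl q m (-1) = 0 := by
      unfold Dl S
      rw [Finset.sum_eq_zero, smul_zero]
      intro i _
      refine Finset.sum_eq_zero (fun j _ => ?_)
      unfold lamI
      rw [if_neg, zero_smul]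
      intro h'
      have h1 := h'.1.2
      have h2 := abs_nonneg ((m : ℝ) - i - q ^ 2 * m)
      linarith
    rw [h0, sub_zero] at h
    exact h
  refine ⟨xw m, yw m, a, b, ?_⟩
  refine ⟨by rw [xw_length, yw_length], xw_ne m, ?_, hpa, prob_b hq0 hq1' m (z ^ 3), ?_, ?_, ?_, ?_, ?_⟩
  · -- length
    rw [xw_length]
    push_cast
    have h1 : Real.exp (L - 2 * (C1 * t)) ≤ Real.exp L := Real.exp_le_exp.mpr (by linarith)
    linarith
  · -- ta
    intro f _
    rw [sub_self, ev_zero, abs_zero]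
    exact (Real.exp_pos _).le
  · -- tb
    intro f hf
    refine le_trans (tv_b hq0 hq1' hm1 hw1 hw f hf) ?_
    have h8 : (8:ℝ) ≤ Real.exp 3 := exp_ge_of (k := 3) (by norm_num) (by norm_num)
    have hexp : Real.exp (L / 4) + 3 ≤ (z ^ 3 - 1) ^ 2 / (4 * (κ * (m + 1))) := by
      have hden : 0 < 4 * (κ * ((m:ℝ) + 1)) := by positivity
      rw [le_div_iff₀ hden]
      have hd2 : 4 * (κ * ((m:ℝ) + 1)) ≤ 8 * z ^ 4 := by
        rw [hz4]; nlinarith
      have hnum : z ^ 6 / 4 ≤ (z ^ 3 - 1) ^ 2 := by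
        have h1 : z ^ 3 / 2 ≤ z ^ 3 - 1 := by linarith
        calc z ^ 6 / 4 = (z ^ 3 / 2) ^ 2 := by ring
          _ ≤ (z ^ 3 - 1) ^ 2 := pow_le_pow_left₀ (by positivity) h1 2
      have hz2big : 64 * Real.exp (L / 4) ≤ z ^ 2 := by
        have h64 : (64:ℝ) ≤ Real.exp (L * (91 / 400)) :=
          exp_ge_of (k := 6) (by norm_num) (by push_cast; linarith)
        calc 64 * Real.exp (L / 4) ≤ Real.exp (L * (91 / 400)) * Real.exp (L / 4) :=
              mul_le_mul_of_nonneg_right h64 (Real.exp_pos _).le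
          _ = Real.exp (L * (191 / 800)) ^ 2 := by
              rw [← Real.exp_add, ← Real.exp_nat_mul]; congr 1; push_cast; ring
          _ ≤ z ^ 2 := pow_le_pow_left₀ (Real.exp_pos _).le hzbig 2
      have h3 : 3 ≤ Real.exp (L / 4) := by
        have := exp_ge_of (c := 3) (k := 2) (x := L / 4) (by norm_num) (by push_cast; linarith)
        exact this
      have hX : Real.exp (L / 4) + 3 ≤ z ^ 2 / 32 := by linarith
      have hE0 : 0 ≤ Real.exp (L / 4) + 3 := by positivity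
      calc (Real.exp (L / 4) + 3) * (4 * (κ * ((m:ℝ) + 1))) ≤ (z ^ 2 / 32) * (8 * z ^ 4) :=
            mul_le_mul hX hd2 hden.le (by positivity)
        _ = z ^ 6 / 4 := by ring
        _ ≤ (z ^ 3 - 1) ^ 2 := hnum
    calc 8 * Real.exp (-((z ^ 3 - 1) ^ 2 / (4 * (q ^ 2 * (m + 1)))))
        ≤ Real.exp 3 * Real.exp (-(Real.exp (L / 4) + 3)) := by
          apply mul_le_mul h8 _ (Real.exp_pos _).le (Real.exp_pos _).le
          apply Real.exp_le_exp.mpr
          linarith
      _ = Real.exp (-Real.exp (L / 4)) := by rw [← Real.exp_add]; congr 1; ring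
  · -- bd
    rw [hab]
    intro f hf
    refine le_trans (bd_Dl hq0 hq1' hm1 (by positivity) hw f hf) ?_
    apply mul_le_mul_of_nonneg_right _ (hpa.pos f hf)
    rw [← hκ, ← hz4, show 4 * z ^ 3 / z ^ 4 = 4 / z by field_simp, div_le_iff₀ hzpos]
    have h4 : (4:ℝ) ≤ Real.exp (L * (151 / 800)) := exp_ge_of (k := 2) (by norm_num) (by push_cast; linarith)
    calc (4:ℝ) ≤ Real.exp (L * (151 / 800)) := h4
      _ = Real.exp (-(L / 20)) * Real.exp (L * (191 / 800)) := by
          rw [← Real.exp_add]; congr 1; ring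
      _ ≤ Real.exp (-(L / 20)) * z := mul_le_mul_of_nonneg_left hzbig (Real.exp_pos _).le
  · -- dom
    rw [hab]
    refine (dom_Dl hq0 hq1 hm1 hw).mono ?_ hpa.pos
    rw [← hκ, ← hz2, ← hz4]
    have hz6 : Real.exp (L * (191 / 800)) ^ 6 ≤ z ^ 6 := pow_le_pow_left₀ (Real.exp_pos _).le hzbig 6
    have h5 : (5120:ℝ) ≤ Real.exp (L / 100) := exp_ge_of (k := 13) (by norm_num) (by push_cast; linarith)
    have hden : 0 < κ * (z ^ 4 * z ^ 2) := by positivity
    rw [div_le_iff₀ hden]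
    have e2 : 1 ≤ Real.exp (L / 100) * κ := by
      have : 1 / κ ≤ Real.exp (L / 100) := hqinv
      rwa [div_le_iff₀ hκ0] at this
    have e6 : Real.exp (L / 100) * Real.exp (L / 100) ≤
        Real.exp (-(7 / 5 * L)) * Real.exp (L * (191 / 800)) ^ 6 := by
      rw [← Real.exp_nat_mul, ← Real.exp_add, ← Real.exp_add]
      apply Real.exp_le_exp.mpr
      push_cast
      linarith
    have hE := Real.exp_pos (-(7 / 5 * L))
    have hF := Real.exp_pos (L / 100)
    have e7 : 5120 * Real.exp (L / 100) ≤ Real.exp (-(7 / 5 * L)) * z ^ 6 := by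
      calc 5120 * Real.exp (L / 100) ≤ Real.exp (L / 100) * Real.exp (L / 100) :=
            mul_le_mul_of_nonneg_right h5 hF.le
        _ ≤ Real.exp (-(7 / 5 * L)) * Real.exp (L * (191 / 800)) ^ 6 := e6
        _ ≤ Real.exp (-(7 / 5 * L)) * z ^ 6 := mul_le_mul_of_nonneg_left hz6 hE.le
    calc (5120:ℝ) ≤ 5120 * (Real.exp (L / 100) * κ) := by linarith
      _ = (5120 * Real.exp (L / 100)) * κ := by ring
      _ ≤ (Real.exp (-(7 / 5 * L)) * z ^ 6) * κ := mul_le_mul_of_nonneg_right e7 hκ0.le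
      _ = Real.exp (-(7 / 5 * L)) * (κ * (z ^ 4 * z ^ 2)) := by ring
  · -- slip
    refine ⟨R, s, hS, ?_⟩
    have hCt' : C1 / q ^ 3 = C1 * t := by rw [ht]; ring
    rw [hCt'] at hmass
    have h1 : Real.exp (-(C1 * t)) ^ 2 ≤ mass s ^ 2 := pow_le_pow_left₀ (Real.exp_pos _).le hmass 2
    calc (R : ℝ) + 1 ≤ m := hR
      _ ≤ Real.exp (L - 2 * (C1 * t)) := by linarith
      _ = Real.exp L * Real.exp (-(C1 * t)) ^ 2 := by
          rw [← Real.exp_nat_mul, ← Real.exp_add]; congr 1; push_cast; ring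
      _ ≤ Real.exp L * mass s ^ 2 := mul_le_mul_of_nonneg_left h1 (Real.exp_pos _).le

end

end Crest.Agent.R300LB.BaseDom
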