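import Mathlib

/-!
# Row 300, lower bounds, base pair (L9): binomial weights
`bn κ m i` = probability that exactly `i` of `m` blocks are nonempty, each block being empty with
probability `κ`.
-/

set_option autoImplicit false

namespace Crest.Agent.R300LB.BaseDom

open Finset

noncomputable section

/-- binomial weights -/
def bn (κ : ℝ) (m i : ℕ) : ℝ := (m.choose i : ℝ) * (1 - κ) ^ i * κ ^ (m - i)

theorem bn_nonneg {κ : ℝ} (h0 : 0 ≤ κ) (h1 : κ ≤ 1) (m i : ℕ) : 0 ≤ bn κ m i := by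
  unfold bn
  have : 0 ≤ 1 - κ := by linarith
  positivity

theorem bn_of_lt {κ : ℝ} {m i : ℕ} (h : m < i) : bn κ m i = 0 := by
  unfold bn
  rw [Nat.choose_eq_zero_of_lt h]; simp

theorem sum_bn (κ : ℝ) (m : ℕ) : ∑ i ∈ range (m + 1), bn κ m i = 1 := by
  have h := add_pow (1 - κ) κ m
  have h2 : (1 - κ + κ) ^ m = 1 := by simp
  rw [h2] at h
  rw [h]
  refine Finset.sum_congr rfl (fun i _ => ?_)
  unfold bn; ring

theorem bn_succ (κ : ℝ) (m i : ℕ) :
    bn κ (m + 1) i * ((m : ℝ) + 1 - i) = bn κ m i * (κ * (m + 1)) := by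
  rcases lt_trichotomy i (m + 1) with h | h | h
  · have hi : i ≤ m := Nat.lt_succ_iff.mp h
    unfold bn
    have h1 : (m.choose i : ℝ) * (m + 1) = ((m + 1).choose i : ℝ) * ((m : ℝ) + 1 - i) := by
      have := Nat.choose_mul_succ_eq m i
      have h2 : ((m + 1 - i : ℕ) : ℝ) = (m : ℝ) + 1 - i := by
        rw [Nat.cast_sub (by omega)]; push_cast; ring
      rw [← h2]
      exact_mod_cast this
    have h3 : κ ^ (m + 1 - i) = κ * κ ^ (m - i) := by
      rw [show m + 1 - i = (m - i) + 1 by omega, pow_succ]; ring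
    rw [h3]
    calc ((m + 1).choose i : ℝ) * (1 - κ) ^ i * (κ * κ ^ (m - i)) * ((m : ℝ) + 1 - i)
        = (((m + 1).choose i : ℝ) * ((m : ℝ) + 1 - i)) * ((1 - κ) ^ i * (κ * κ ^ (m - i))) := by ring
      _ = ((m.choose i : ℝ) * (m + 1)) * ((1 - κ) ^ i * (κ * κ ^ (m - i))) := by rw [h1]
      _ = _ := by ring
  · subst h
    rw [bn_of_lt (Nat.lt_succ_self m)]
    push_cast
    ring
  · rw [bn_of_lt (by omega : m + 1 < i), bn_of_lt (by omega : m < i)]; ring

theorem var_bn (κ : ℝ) (m : ℕ) :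
    ∑ i ∈ range (m + 1), bn κ m i * ((i : ℝ) - m * (1 - κ)) ^ 2 = m * κ * (1 - κ) := by
  have h := congrArg (Polynomial.eval (1 - κ)) (bernsteinPolynomial.variance ℝ m)
  rw [Polynomial.eval_finsetSum] at h
  simp only [bernsteinPolynomial, Polynomial.eval_mul, Polynomial.eval_pow, Polynomial.eval_sub,
    Polynomial.eval_X, Polynomial.eval_natCast, Polynomial.eval_one,
    nsmul_eq_mul] at h
  rw [show (1:ℝ) - (1 - κ) = κ by ring] at h
  calc ∑ i ∈ range (m + 1), bn κ m i * ((i : ℝ) - m * (1 - κ)) ^ 2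
      = ∑ i ∈ range (m + 1), ((m:ℝ) * (1 - κ) - i) ^ 2 * ((m.choose i : ℝ) * (1 - κ) ^ i * κ ^ (m - i)) := by
        refine Finset.sum_congr rfl (fun i _ => ?_)
        unfold bn; ring
    _ = m * κ * (1 - κ) := by rw [h]; ring

theorem var2_bn {κ : ℝ} (h0 : 0 ≤ κ) (h1 : κ ≤ 1) (m : ℕ) :
    ∑ i ∈ range (m + 1), ∑ j ∈ range (m + 1), bn κ m i * bn κ m j * ((i : ℝ) - j) ^ 2
      ≤ 4 * (κ * m) := by
  have hv := var_bn κ m
  have hs := sum_bn κ m
  have key : ∀ i ∈ range (m + 1), ∀ j ∈ range (m + 1),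
      bn κ m i * bn κ m j * ((i : ℝ) - j) ^ 2 ≤
      2 * (bn κ m i * ((i : ℝ) - m * (1 - κ)) ^ 2) * bn κ m j +
      2 * bn κ m i * (bn κ m j * ((j : ℝ) - m * (1 - κ)) ^ 2) := by
    intro i _ j _
    have hb := mul_nonneg (bn_nonneg h0 h1 m i) (bn_nonneg h0 h1 m j)
    have : ((i : ℝ) - j) ^ 2 ≤ 2 * ((i : ℝ) - m * (1 - κ)) ^ 2 + 2 * ((j : ℝ) - m * (1 - κ)) ^ 2 := by
      nlinarith [sq_nonneg (((i : ℝ) - m * (1 - κ)) + ((j : ℝ) - m * (1 - κ)))]
    nlinarith [mul_le_mul_of_nonneg_left this hb]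
  calc ∑ i ∈ range (m + 1), ∑ j ∈ range (m + 1), bn κ m i * bn κ m j * ((i : ℝ) - j) ^ 2
      ≤ ∑ i ∈ range (m + 1), ∑ j ∈ range (m + 1),
        (2 * (bn κ m i * ((i : ℝ) - m * (1 - κ)) ^ 2) * bn κ m j +
      2 * bn κ m i * (bn κ m j * ((j : ℝ) - m * (1 - κ)) ^ 2)) :=
        Finset.sum_le_sum (fun i hi => Finset.sum_le_sum (fun j hj => key i hi j hj))
    _ = 4 * (m * κ * (1 - κ)) := by
        simp_rw [Finset.sum_add_distrib, ← Finset.mul_sum, hs, hv, mul_one]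
        rw [← Finset.mul_sum, hv, ← Finset.sum_mul, ← Finset.mul_sum, hs]; ring
    _ ≤ 4 * (κ * m) := by
        have : 0 ≤ κ * m := by positivity
        nlinarith

/-! ### central binomial bounds -/

theorem cb_upper (n : ℕ) : (Nat.centralBinom n) ^ 2 * (2 * n + 1) ≤ 16 ^ n := by
  induction n with
  | zero => simp
  | succ n ih =>
    have h := Nat.succ_mul_centralBinom_succ n
    have h2 : ((n + 1) * (n + 1).centralBinom) ^ 2 * (2 * (n + 1) + 1) =
        4 * (2 * n + 1) * (2 * n + 3) * ((n.centralBinom) ^ 2 * (2 * n + 1)) := by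
      rw [h]; ring
    have h3 : (n + 1) ^ 2 * ((n + 1).centralBinom ^ 2 * (2 * (n + 1) + 1)) ≤
        (n + 1) ^ 2 * 16 ^ (n + 1) := by
      calc (n + 1) ^ 2 * ((n + 1).centralBinom ^ 2 * (2 * (n + 1) + 1))
          = ((n + 1) * (n + 1).centralBinom) ^ 2 * (2 * (n + 1) + 1) := by ring
        _ = 4 * (2 * n + 1) * (2 * n + 3) * ((n.centralBinom) ^ 2 * (2 * n + 1)) := h2
        _ ≤ 4 * (2 * n + 1) * (2 * n + 3) * 16 ^ n := Nat.mul_le_mul_left _ ih
        _ ≤ (16 * (n + 1) ^ 2) * 16 ^ n := by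
            apply Nat.mul_le_mul_right
            nlinarith
        _ = (n + 1) ^ 2 * 16 ^ (n + 1) := by ring
    exact Nat.le_of_mul_le_mul_left h3 (by positivity)

theorem choose_sq (n k : ℕ) : (n.choose k) ^ 2 * (n + 1) ≤ 4 ^ n := by
  rcases Nat.even_or_odd' n with ⟨r, hr | hr⟩
  · subst hr
    have h1 := Nat.choose_le_centralBinom k r
    calc ((2 * r).choose k) ^ 2 * (2 * r + 1) ≤ (r.centralBinom) ^ 2 * (2 * r + 1) :=
          Nat.mul_le_mul_right _ (Nat.pow_le_pow_left h1 2)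
      _ ≤ 16 ^ r := cb_upper r
      _ = 4 ^ (2 * r) := by rw [pow_mul]; norm_num
  · subst hr
    have h1 := Nat.choose_le_middle k (2 * r + 1)
    have h2 : (2 * r + 1) / 2 = r := by omega
    rw [h2] at h1
    have h3 : 2 * (2 * r + 1).choose r = (r + 1).centralBinom := by
      rw [Nat.centralBinom_eq_two_mul_choose]
      have e1 : (2 * (r + 1)).choose (r + 1) = (2 * r + 1).choose r + (2 * r + 1).choose (r + 1) := by
        rw [show 2 * (r + 1) = (2 * r + 1) + 1 by ring, Nat.choose_succ_succ]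
      have e2 : (2 * r + 1).choose (r + 1) = (2 * r + 1).choose r := by
        apply Nat.choose_symm_of_eq_add; ring
      rw [e1, e2]; ring
    have h4 := cb_upper (r + 1)
    rw [← h3] at h4
    have h5 : ((2 * r + 1).choose r) ^ 2 * (2 * r + 1 + 1) * 4 ≤ 4 ^ (2 * r + 1) * 4 := by
      calc ((2 * r + 1).choose r) ^ 2 * (2 * r + 1 + 1) * 4
          ≤ (2 * (2 * r + 1).choose r) ^ 2 * (2 * (r + 1) + 1) := by nlinarith [Nat.zero_le (((2 * r + 1).choose r) ^ 2)]
        _ ≤ 16 ^ (r + 1) := h4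
        _ = 4 ^ (2 * r + 1) * 4 := by
            rw [← pow_succ, show 2 * r + 1 + 1 = 2 * (r + 1) by ring, pow_mul]; norm_num
    calc ((2 * r + 1).choose k) ^ 2 * (2 * r + 1 + 1)
        ≤ ((2 * r + 1).choose r) ^ 2 * (2 * r + 1 + 1) :=
          Nat.mul_le_mul_right _ (Nat.pow_le_pow_left h1 2)
      _ ≤ 4 ^ (2 * r + 1) := by omega

theorem cb_lower (n : ℕ) (hn : 1 ≤ n) : 16 ^ n ≤ (Nat.centralBinom n) ^ 2 * (4 * n) := by
  induction n, hn using Nat.le_induction with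
  | base => simp [Nat.centralBinom]
  | succ n hn ih =>
    have h := Nat.succ_mul_centralBinom_succ n
    have h3 : (n + 1) ^ 2 * 16 ^ (n + 1) ≤ (n + 1) ^ 2 * ((n + 1).centralBinom ^ 2 * (4 * (n + 1))) := by
      calc (n + 1) ^ 2 * 16 ^ (n + 1) = (16 * (n + 1) ^ 2) * 16 ^ n := by ring
        _ ≤ (16 * (n + 1) ^ 2) * ((Nat.centralBinom n) ^ 2 * (4 * n)) := Nat.mul_le_mul_left _ ih
        _ = (16 * n * (n + 1)) * ((Nat.centralBinom n) ^ 2 * (4 * (n + 1))) := by ring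
        _ ≤ (4 * (2 * n + 1) ^ 2) * ((Nat.centralBinom n) ^ 2 * (4 * (n + 1))) := by
            apply Nat.mul_le_mul_right; nlinarith
        _ = (2 * (2 * n + 1) * n.centralBinom) ^ 2 * (4 * (n + 1)) := by ring
        _ = ((n + 1) * (n + 1).centralBinom) ^ 2 * (4 * (n + 1)) := by rw [h]
        _ = _ := by ring
    exact Nat.le_of_mul_le_mul_left h3 (by positivity)

theorem choose_identity {m i j : ℕ} (hi : i ≤ m) (hj : j ≤ m) :
    m.choose i * m.choose j * m.centralBinom =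
      (2 * m).choose (i + j) * (i + j).choose i * (2 * m - i - j).choose (m - j) := by
  rw [Nat.centralBinom_eq_two_mul_choose]
  have h1 : (2 * m).choose m * m.choose i = (2 * m).choose i * (2 * m - i).choose (m - i) :=
    Nat.choose_mul hi
  have h2 : (2 * m - i).choose (m - i) = (2 * m - i).choose m := by
    apply Nat.choose_symm_of_eq_add; omega
  have h3 : (2 * m - i).choose m * m.choose j = (2 * m - i).choose j * (2 * m - i - j).choose (m - j) :=
    Nat.choose_mul hj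
  have h4 : (2 * m).choose (i + j) * (i + j).choose i = (2 * m).choose i * (2 * m - i).choose (i + j - i) :=
    Nat.choose_mul (Nat.le_add_right i j)
  rw [Nat.add_sub_cancel_left] at h4
  calc m.choose i * m.choose j * (2 * m).choose m
      = ((2 * m).choose m * m.choose i) * m.choose j := by ring
    _ = ((2 * m).choose i * (2 * m - i).choose m) * m.choose j := by rw [h1, h2]
    _ = (2 * m).choose i * ((2 * m - i).choose m * m.choose j) := by ring
    _ = (2 * m).choose i * ((2 * m - i).choose j * (2 * m - i - j).choose (m - j)) := by rw [h3]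
    _ = ((2 * m).choose i * (2 * m - i).choose j) * (2 * m - i - j).choose (m - j) := by ring
    _ = _ := by rw [h4]

/-- hypergeometric weights are at most `2/√(D+1)` -/
theorem hyper {m i j : ℕ} (hm : 1 ≤ m) (hi : i ≤ m) (hj : j ≤ m) (hij : m ≤ i + j + 1) :
    (m.choose i * m.choose j) ^ 2 * (2 * m - i - j + 1) ≤ 4 * ((2 * m).choose (i + j)) ^ 2 := by
  have e := choose_identity hi hj
  set X := m.choose i * m.choose j with hX
  set cb := m.centralBinom with hcb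
  set Y := (2 * m).choose (i + j) with hY
  set P := (i + j).choose i
  set Q := (2 * m - i - j).choose (m - j)
  set Dd := 2 * m - i - j with hD
  have hP : P ^ 2 * (i + j + 1) ≤ 4 ^ (i + j) := choose_sq _ _
  have hQ : Q ^ 2 * (Dd + 1) ≤ 4 ^ Dd := choose_sq _ _
  have hc : 16 ^ m ≤ cb ^ 2 * (4 * m) := cb_lower m hm
  have hcpos : 0 < cb := Nat.centralBinom_pos m
  have hpow : 4 ^ (i + j) * 4 ^ Dd = 16 ^ m := by
    rw [← pow_add, show i + j + Dd = 2 * m by omega, pow_mul]; norm_num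
  have h1 : cb ^ 2 * ((X ^ 2 * (Dd + 1)) * (i + j + 1)) ≤ cb ^ 2 * ((4 * m) * Y ^ 2) := by
    calc cb ^ 2 * ((X ^ 2 * (Dd + 1)) * (i + j + 1)) = (X * cb) ^ 2 * (Dd + 1) * (i + j + 1) := by ring
      _ = (Y * P * Q) ^ 2 * (Dd + 1) * (i + j + 1) := by rw [e]
      _ = Y ^ 2 * ((P ^ 2 * (i + j + 1)) * (Q ^ 2 * (Dd + 1))) := by ring
      _ ≤ Y ^ 2 * (4 ^ (i + j) * 4 ^ Dd) := Nat.mul_le_mul_left _ (Nat.mul_le_mul hP hQ)
      _ = Y ^ 2 * 16 ^ m := by rw [hpow]
      _ ≤ Y ^ 2 * (cb ^ 2 * (4 * m)) := Nat.mul_le_mul_left _ hc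
      _ = cb ^ 2 * ((4 * m) * Y ^ 2) := by ring
  have h2 : (X ^ 2 * (Dd + 1)) * (i + j + 1) ≤ (4 * m) * Y ^ 2 :=
    Nat.le_of_mul_le_mul_left h1 (by positivity)
  have h3 : m * (X ^ 2 * (Dd + 1)) ≤ m * (4 * Y ^ 2) := by
    calc m * (X ^ 2 * (Dd + 1)) ≤ (i + j + 1) * (X ^ 2 * (Dd + 1)) := Nat.mul_le_mul_right _ hij
      _ = (X ^ 2 * (Dd + 1)) * (i + j + 1) := by ring
      _ ≤ (4 * m) * Y ^ 2 := h2
      _ = m * (4 * Y ^ 2) := by ring
  exact Nat.le_of_mul_le_mul_left h3 (by omega)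

theorem bn_mul_le {κ : ℝ} (h0 : 0 ≤ κ) (h1 : κ ≤ 1 / 2) {m i j : ℕ} (hm : 1 ≤ m) (hi : i ≤ m)
    (hj : j ≤ m) (hij : m ≤ i + j + 1) :
    bn κ m i * bn κ m j * Real.sqrt (2 * m - i - j + 1) ≤ 4 * bn κ (2 * m + 1) (i + j + 1) := by
  have h := hyper hm hi hj hij
  have hκ : 0 ≤ 1 - κ := by linarith
  have hDr : ((2 * m - i - j + 1 : ℕ) : ℝ) = 2 * (m:ℝ) - i - j + 1 := by
    have : i + j ≤ 2 * m := by omega
    rw [Nat.cast_add, Nat.sub_sub, Nat.cast_sub this]; push_cast; ring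
  have hR : ((m.choose i : ℝ) * m.choose j) ^ 2 * (2 * (m:ℝ) - i - j + 1) ≤
      4 * ((2 * m).choose (i + j) : ℝ) ^ 2 := by
    rw [← hDr]; exact_mod_cast h
  have hDnn : 0 ≤ 2 * (m:ℝ) - i - j + 1 := by rw [← hDr]; positivity
  have hs : (m.choose i : ℝ) * m.choose j * Real.sqrt (2 * m - i - j + 1) ≤
      2 * ((2 * m).choose (i + j) : ℝ) := by
    refine le_of_abs_le (abs_le_of_sq_le_sq ?_ (by positivity))
    rw [mul_pow, Real.sq_sqrt hDnn]
    calc _ ≤ 4 * ((2 * m).choose (i + j) : ℝ) ^ 2 := hR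
      _ = _ := by ring
  have hch : ((2 * m).choose (i + j) : ℝ) ≤ ((2 * m + 1).choose (i + j + 1) : ℝ) := by
    rw [Nat.choose_succ_succ]; push_cast
    have : (0:ℝ) ≤ ((2 * m).choose (i + j + 1) : ℝ) := by positivity
    linarith
  have hpowκ : κ ^ (m - i) * κ ^ (m - j) = κ ^ (2 * m + 1 - (i + j + 1)) := by
    rw [← pow_add]; congr 1; omega
  have hpow1 : (1 - κ) ^ i * (1 - κ) ^ j * (1 / 2) ≤ (1 - κ) ^ (i + j + 1) := by
    rw [pow_succ, pow_add]
    apply mul_le_mul_of_nonneg_left _ (by positivity)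
    linarith
  calc bn κ m i * bn κ m j * Real.sqrt (2 * m - i - j + 1)
      = ((m.choose i : ℝ) * m.choose j * Real.sqrt (2 * m - i - j + 1)) *
        ((1 - κ) ^ i * (1 - κ) ^ j) * (κ ^ (m - i) * κ ^ (m - j)) := by unfold bn; ring
    _ ≤ (2 * ((2 * m + 1).choose (i + j + 1) : ℝ)) * ((1 - κ) ^ i * (1 - κ) ^ j) *
        (κ ^ (m - i) * κ ^ (m - j)) := by
        have : (m.choose i : ℝ) * m.choose j * Real.sqrt (2 * m - i - j + 1) ≤
          2 * ((2 * m + 1).choose (i + j + 1) : ℝ) := le_trans hs (by linarith)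
        gcongr
    _ = (4 * ((2 * m + 1).choose (i + j + 1) : ℝ)) * ((1 - κ) ^ i * (1 - κ) ^ j * (1 / 2)) *
        (κ ^ (m - i) * κ ^ (m - j)) := by ring
    _ ≤ (4 * ((2 * m + 1).choose (i + j + 1) : ℝ)) * ((1 - κ) ^ (i + j + 1)) *
        (κ ^ (m - i) * κ ^ (m - j)) := by gcongr
    _ = 4 * bn κ (2 * m + 1) (i + j + 1) := by rw [hpowκ]; unfold bn; ring

/-! ### Chernoff tails -/

theorem mgf (κ l : ℝ) (m : ℕ) :
    ∑ i ∈ range (m + 1), bn κ m i * Real.exp (l * ((m : ℝ) - i)) =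
      (1 - κ + κ * Real.exp l) ^ m := by
  rw [add_pow]
  refine Finset.sum_congr rfl (fun i hi => ?_)
  have hi' : i ≤ m := Nat.lt_succ_iff.mp (Finset.mem_range.mp hi)
  have : Real.exp (l * ((m : ℝ) - i)) = Real.exp l ^ (m - i) := by
    rw [← Real.exp_nat_mul, Nat.cast_sub hi']; congr 1; ring
  rw [this, mul_pow]; unfold bn; ring

theorem mgf_le {κ : ℝ} (h0 : 0 ≤ κ) (h1 : κ ≤ 1) {l : ℝ} (hl : |l| ≤ 1) (m : ℕ) :
    ∑ i ∈ range (m + 1), bn κ m i * Real.exp (l * ((m : ℝ) - i - κ * m)) ≤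
      Real.exp (κ * m * l ^ 2) := by
  have e : ∀ i : ℕ, bn κ m i * Real.exp (l * ((m : ℝ) - i - κ * m)) =
      (bn κ m i * Real.exp (l * ((m : ℝ) - i))) * Real.exp (-(l * (κ * m))) := by
    intro i
    rw [mul_assoc, ← Real.exp_add]; congr 2; ring
  simp_rw [e]
  rw [← Finset.sum_mul, mgf]
  have hx : Real.exp l ≤ 1 + l + l ^ 2 := by
    have := Real.abs_exp_sub_one_sub_id_le hl
    linarith [le_abs_self (Real.exp l - 1 - l)]
  have h2 : 1 - κ + κ * Real.exp l ≤ Real.exp (κ * (l + l ^ 2)) := by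
    have := Real.add_one_le_exp (κ * (l + l ^ 2))
    nlinarith [mul_le_mul_of_nonneg_left hx h0]
  have h3 : 0 ≤ 1 - κ + κ * Real.exp l := by
    have := Real.exp_pos l
    have : 0 ≤ κ * Real.exp l := by positivity
    linarith
  calc (1 - κ + κ * Real.exp l) ^ m * Real.exp (-(l * (κ * m)))
      ≤ (Real.exp (κ * (l + l ^ 2))) ^ m * Real.exp (-(l * (κ * m))) := by
        gcongr
    _ = Real.exp (κ * m * l ^ 2) := by
        rw [← Real.exp_nat_mul, ← Real.exp_add]; congr 1; ring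

theorem tail {κ : ℝ} (h0 : 0 < κ) (h1 : κ ≤ 1) {m : ℕ} (hm : 1 ≤ m) {w : ℝ} (hw : 0 ≤ w)
    (hw2 : w ≤ 2 * (κ * m)) :
    ∑ i ∈ (range (m + 1)).filter (fun i : ℕ => w < |(m : ℝ) - i - κ * m|), bn κ m i ≤
      2 * Real.exp (-(w ^ 2 / (4 * (κ * m)))) := by
  have hκm : 0 < κ * m := by positivity
  set l : ℝ := w / (2 * (κ * m)) with hl
  have hl0 : 0 ≤ l := by positivity
  have hl1 : l ≤ 1 := by rw [hl, div_le_one (by positivity)]; exact hw2
  have hexp : κ * m * l ^ 2 - l * w = -(w ^ 2 / (4 * (κ * m))) := by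
    rw [hl]; field_simp; ring
  have a1 := mgf_le h0.le h1 (l := l) (by rw [abs_of_nonneg hl0]; exact hl1) m
  have a2 := mgf_le h0.le h1 (l := -l) (by rw [abs_neg, abs_of_nonneg hl0]; exact hl1) m
  have key : ∀ i : ℕ, w < |(m : ℝ) - i - κ * m| →
      1 ≤ Real.exp (-(l * w)) * (Real.exp (l * ((m : ℝ) - i - κ * m)) +
        Real.exp (-l * ((m : ℝ) - i - κ * m))) := by
    intro i hi
    rw [mul_add, ← Real.exp_add, ← Real.exp_add]
    rcases lt_abs.mp hi with h | h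
    · have : (1:ℝ) ≤ Real.exp (-(l * w) + l * ((m : ℝ) - i - κ * m)) := by
        apply Real.one_le_exp
        nlinarith [mul_le_mul_of_nonneg_left h.le hl0]
      have := Real.exp_pos (-(l * w) + -l * ((m : ℝ) - i - κ * m))
      linarith
    · have : (1:ℝ) ≤ Real.exp (-(l * w) + -l * ((m : ℝ) - i - κ * m)) := by
        apply Real.one_le_exp
        nlinarith [mul_le_mul_of_nonneg_left h.le hl0]
      have := Real.exp_pos (-(l * w) + l * ((m : ℝ) - i - κ * m))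
      linarith
  calc ∑ i ∈ (range (m + 1)).filter (fun i : ℕ => w < |(m : ℝ) - i - κ * m|), bn κ m i
      ≤ ∑ i ∈ (range (m + 1)).filter (fun i : ℕ => w < |(m : ℝ) - i - κ * m|), bn κ m i *
          (Real.exp (-(l * w)) * (Real.exp (l * ((m : ℝ) - i - κ * m)) +
        Real.exp (-l * ((m : ℝ) - i - κ * m)))) := by
        apply Finset.sum_le_sum
        intro i hi
        have := key i (Finset.mem_filter.mp hi).2
        nlinarith [mul_le_mul_of_nonneg_left this (bn_nonneg h0.le h1 m i)]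
    _ ≤ ∑ i ∈ range (m + 1), bn κ m i *
          (Real.exp (-(l * w)) * (Real.exp (l * ((m : ℝ) - i - κ * m)) +
        Real.exp (-l * ((m : ℝ) - i - κ * m)))) := by
        apply Finset.sum_le_sum_of_subset_of_nonneg (Finset.filter_subset _ _)
        intro i _ _
        have := bn_nonneg h0.le h1 m i
        positivity
    _ = Real.exp (-(l * w)) * (∑ i ∈ range (m + 1), bn κ m i * Real.exp (l * ((m : ℝ) - i - κ * m)) +
          ∑ i ∈ range (m + 1), bn κ m i * Real.exp (-l * ((m : ℝ) - i - κ * m))) := by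
        rw [← Finset.sum_add_distrib, Finset.mul_sum]
        exact Finset.sum_congr rfl (fun i _ => by ring)
    _ ≤ Real.exp (-(l * w)) * (Real.exp (κ * m * l ^ 2) + Real.exp (κ * m * (-l) ^ 2)) := by
        gcongr
    _ = 2 * Real.exp (-(w ^ 2 / (4 * (κ * m)))) := by
        rw [neg_sq, ← hexp, ← two_mul, mul_left_comm, ← Real.exp_add]
        congr 2; ring

end

end Crest.Agent.R300LB.BaseDom
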