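import Crest.Agent.R300.LBInterface
import Crest.Agent.R300.LBBaseBin

/-!
# Row 300, lower bounds, base pair (piece L9)

`x = (01)^m 0 (01)^(m+1)`, `y = (01)^(m+1) 0 (01)^m`, `a = D q x`; a probability measure `b`
super-exponentially close to `D q y` with `|a-b| ≤ u a` and `‖a-b‖²_a ≤ V`.
-/

set_option autoImplicit false

namespace Crest.Agent.R300LB.BaseDom

open Finset

noncomputable section

/-! ### first-mark orthogonality (coefficient version) -/

theorem orth {G : Type*} [Monoid G] {a Δ : MA G} (ha : Prob a) {V : ℝ} (hV : 0 ≤ V)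
    (hΔ : mass Δ = 0) (hD : Dom V a Δ) (n : ℕ) (c : ℕ → ℝ) :
    Dom (V * ∑ i ∈ range n, c i ^ 2) (a ^ n) (∑ i ∈ range n, c i • (a ^ i * Δ * a ^ (n - 1 - i))) ∧
    mass (∑ i ∈ range n, c i • (a ^ i * Δ * a ^ (n - 1 - i))) = 0 := by
  refine ⟨?_, ?_⟩
  swap
  · unfold mass
    rw [ev_sum]
    refine Finset.sum_eq_zero (fun i _ => ?_)
    rw [ev_smul]
    have : ev (a ^ i * Δ * a ^ (n - 1 - i)) (fun _ => 1) = mass (a ^ i * Δ * a ^ (n - 1 - i)) := rfl
    rw [this, mass_mul, mass_mul, hΔ]; ring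
  · induction n generalizing c with
    | zero => intro f; simp [ev_zero]
    | succ n ih =>
      intro f
      set S' : ℝ := ∑ i ∈ range n, c (i + 1) ^ 2 with hS'
      have hS'0 : 0 ≤ S' := Finset.sum_nonneg (fun i _ => sq_nonneg _)
      set X : MA G := ∑ i ∈ range n, c (i + 1) • (a ^ i * Δ * a ^ (n - 1 - i)) with hX
      have hXm : mass X = 0 := by
        unfold mass
        rw [hX, ev_sum]
        refine Finset.sum_eq_zero (fun i _ => ?_)
        rw [ev_smul]
        have : ev (a ^ i * Δ * a ^ (n - 1 - i)) (fun _ => 1) = mass (a ^ i * Δ * a ^ (n - 1 - i)) := rfl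
        rw [this, mass_mul, mass_mul, hΔ]; ring
      have hdec : ∑ i ∈ range (n + 1), c i • (a ^ i * Δ * a ^ (n + 1 - 1 - i)) =
          a * X + c 0 • (Δ * a ^ n) := by
        rw [Finset.sum_range_succ', hX, Finset.mul_sum]
        congr 1
        · refine Finset.sum_congr rfl (fun i hi => ?_)
          rw [mul_smul_comm, ← mul_assoc, ← mul_assoc, ← pow_succ']
          congr 3
          omega
        · simp
      rw [hdec, Finset.sum_range_succ', ← hS']
      have hX2 : Dom (V * S') (a ^ n) X := ih (fun i => c (i + 1))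
      set fb : G → ℝ := fun u => ev (a ^ n) (fun v => f (u * v)) with hfb
      have hpn : Prob (a ^ n) := ha.pow n
      -- value of the first part
      have eA : ev (c 0 • (Δ * a ^ n)) f = c 0 * ev Δ fb := by
        rw [ev_smul, ev_mul]
      have eB : ev (a * X) f = ev a (fun u => ev X (fun v => f (u * v))) := ev_mul _ _ _
      have eT : ev (a ^ (n + 1)) (fun w => f w ^ 2) =
          ev a (fun u => ev (a ^ n) (fun v => f (u * v) ^ 2)) := by
        rw [pow_succ', ev_mul]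
      set P : ℝ := ev a (fun u => fb u ^ 2) with hP
      set T : ℝ := ev a (fun u => ev (a ^ n) (fun v => f (u * v) ^ 2)) with hT
      have hP0 : 0 ≤ P := ha.pos _ (fun w => sq_nonneg _)
      have hA : (ev Δ fb) ^ 2 ≤ V * P := hD fb
      have hvar : ∀ u, (ev X (fun v => f (u * v))) ^ 2 ≤
          V * S' * (ev (a ^ n) (fun v => f (u * v) ^ 2) - fb u ^ 2) := by
        intro u
        have e1 : ev X (fun v => f (u * v)) = ev X (fun v => f (u * v) - fb u) := by
          rw [ev_sub_fun]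
          have : ev X (fun _ => fb u) = 0 := by
            have h1 : (fun _ : G => fb u) = fun w : G => fb u * 1 := by funext w; ring
            rw [h1, ev_mul_fun]
            unfold mass at hXm
            rw [hXm, mul_zero]
          rw [this, sub_zero]
        have e2 : ev (a ^ n) (fun v => (f (u * v) - fb u) ^ 2) =
            ev (a ^ n) (fun v => f (u * v) ^ 2) - fb u ^ 2 := by
          have e3 : ∀ v, (f (u * v) - fb u) ^ 2 =
            f (u * v) ^ 2 - (2 * fb u * f (u * v) - fb u ^ 2) := by intro v; ring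
          rw [ev_congr _ e3, ev_sub_fun, ev_sub_fun, ev_mul_fun, ev_const hpn]
          have : ev (a ^ n) (fun v => f (u * v)) = fb u := rfl
          rw [this]; ring
        rw [e1]
        refine le_trans (hX2 _) ?_
        rw [e2]
      have hB : (ev (a * X) f) ^ 2 ≤ V * S' * (T - P) := by
        rw [eB]
        have h1 := ha.pos.cauchy (fun _ => 1) (fun u => ev X (fun v => f (u * v)))
        simp only [one_mul, one_pow] at h1
        rw [ev_const ha, one_mul] at h1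
        refine le_trans h1 ?_
        have h2 : ev a (fun u => (ev X (fun v => f (u * v))) ^ 2) ≤
            ev a (fun u => V * S' * (ev (a ^ n) (fun v => f (u * v) ^ 2) - fb u ^ 2)) :=
          ha.pos.mono hvar
        rw [ev_mul_fun, ev_sub_fun] at h2
        exact h2
      have hTP : 0 ≤ T - P := by
        have h2 : 0 ≤ ev a (fun u => (ev (a ^ n) (fun v => f (u * v) ^ 2) - fb u ^ 2)) := by
          apply ha.pos
          intro u
          have h3 := hpn.pos.cauchy (fun _ => 1) (fun v => f (u * v))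
          simp only [one_mul, one_pow] at h3
          rw [ev_const hpn, one_mul] at h3
          have : ev (a ^ n) (fun v => f (u * v)) = fb u := rfl
          rw [this] at h3
          linarith
        rw [ev_sub_fun] at h2
        exact h2
      rw [ev_add, eA, eT]
      set A := ev Δ fb
      set B := ev (a * X) f
      -- (B + c0 A)^2 ≤ V (S' + c0^2) ((T-P) + P)
      have hT' : T = (T - P) + P := by ring
      have goal : (B + c 0 * A) ^ 2 ≤ V * (S' + c 0 ^ 2) * ((T - P) + P) := by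
        have hAB : (c 0 * A * B) ^ 2 ≤ (c 0 ^ 2 * (V * P)) * (V * S' * (T - P)) := by
          have e : (c 0 * A * B) ^ 2 = (c 0 ^ 2 * A ^ 2) * B ^ 2 := by ring
          rw [e]
          apply mul_le_mul _ hB (sq_nonneg _) (by positivity)
          exact mul_le_mul_of_nonneg_left hA (sq_nonneg _)
        set p1 := V * (c 0 ^ 2 * (T - P)) with hp1
        set p2 := V * (S' * P) with hp2
        have hp10 : 0 ≤ p1 := by positivity
        have hp20 : 0 ≤ p2 := by positivity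
        have hprod : p1 * p2 = (c 0 ^ 2 * (V * P)) * (V * S' * (T - P)) := by
          simp only [hp1, hp2]; ring
        have h4 : (2 * (c 0 * A * B)) ^ 2 ≤ (p1 + p2) ^ 2 := by
          nlinarith [sq_nonneg (p1 - p2)]
        have h5 := (abs_le_of_sq_le_sq' h4 (by positivity)).2
        have h6 : c 0 ^ 2 * A ^ 2 ≤ c 0 ^ 2 * (V * P) := mul_le_mul_of_nonneg_left hA (sq_nonneg _)
        nlinarith
      rw [← hT'] at goal
      exact goal

/-- finite mixture rule -/
theorem mixsum {G ι : Type*} [Monoid G] (s : Finset ι) {V w : ι → ℝ} {π ν : ι → MA G} {C : ℝ}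
    (h : ∀ i ∈ s, Dom (V i) (π i) (ν i)) (hw : ∀ i ∈ s, 0 < w i) (hV : ∀ i ∈ s, 0 ≤ V i)
    (hπ : ∀ i ∈ s, Pos (π i)) (hC : ∑ i ∈ s, V i / w i ≤ C) {ρ : MA G}
    (hρ : Le (∑ i ∈ s, w i • π i) ρ) : Dom C ρ (∑ i ∈ s, ν i) := by
  intro f
  rw [ev_sum]
  have hX : ∀ i ∈ s, 0 ≤ ev (π i) (fun u => f u ^ 2) := fun i hi => hπ i hi _ (fun w => sq_nonneg _)
  have h1 : ∀ i ∈ s, |ev (ν i) f| ≤
      Real.sqrt (V i / w i) * Real.sqrt (w i * ev (π i) (fun u => f u ^ 2)) := by
    intro i hi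
    rw [← Real.sqrt_mul (div_nonneg (hV i hi) (hw i hi).le)]
    apply Real.abs_le_sqrt
    refine le_trans (h i hi f) (le_of_eq ?_)
    have := (hw i hi).ne'
    field_simp
  have h2 : (∑ i ∈ s, ev (ν i) f) ^ 2 ≤
      (∑ i ∈ s, Real.sqrt (V i / w i) * Real.sqrt (w i * ev (π i) (fun u => f u ^ 2))) ^ 2 := by
    rw [← sq_abs]
    apply pow_le_pow_left₀ (abs_nonneg _)
    exact le_trans (Finset.abs_sum_le_sum_abs _ _) (Finset.sum_le_sum h1)
  refine le_trans h2 (le_trans (Finset.sum_mul_sq_le_sq_mul_sq _ _ _) ?_)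
  have e1 : ∑ i ∈ s, Real.sqrt (V i / w i) ^ 2 = ∑ i ∈ s, V i / w i :=
    Finset.sum_congr rfl (fun i hi => Real.sq_sqrt (div_nonneg (hV i hi) (hw i hi).le))
  have e2 : ∑ i ∈ s, Real.sqrt (w i * ev (π i) (fun u => f u ^ 2)) ^ 2 =
      ∑ i ∈ s, w i * ev (π i) (fun u => f u ^ 2) :=
    Finset.sum_congr rfl (fun i hi => Real.sq_sqrt (mul_nonneg (hw i hi).le (hX i hi)))
  rw [e1, e2]
  have e3 : ∑ i ∈ s, w i * ev (π i) (fun u => f u ^ 2) = ev (∑ i ∈ s, w i • π i) (fun u => f u ^ 2) := by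
    rw [ev_sum]; exact Finset.sum_congr rfl (fun i _ => by rw [ev_smul])
  rw [e3]
  have hsum0 : 0 ≤ ev (∑ i ∈ s, w i • π i) (fun u => f u ^ 2) := by
    rw [← e3]; exact Finset.sum_nonneg (fun i hi => mul_nonneg (hw i hi).le (hX i hi))
  have hC0 : 0 ≤ C := le_trans (Finset.sum_nonneg (fun i hi => div_nonneg (hV i hi) (hw i hi).le)) hC
  exact mul_le_mul hC (hρ.ev_le (fun w => sq_nonneg _)) hsum0 hC0

/-! ### diagonal regrouping -/

theorem sum_diag {M : Type*} [AddCommMonoid M] (n : ℕ) (F : ℕ → ℕ → M)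
    (hF : ∀ i j, n ≤ i ∨ n ≤ j → F i j = 0) :
    ∑ i ∈ range n, ∑ j ∈ range n, F i j =
      ∑ t ∈ range (2 * n), ∑ i ∈ range (t + 1), F i (t - i) := by
  classical
  rw [← Finset.sum_product' (range n) (range n) F]
  rw [← Finset.sum_fiberwise_of_maps_to (s := range n ×ˢ range n) (t := range (2 * n))
    (g := fun p : ℕ × ℕ => p.1 + p.2)]
  · refine Finset.sum_congr rfl (fun t _ => ?_)
    rw [← Finset.Nat.sum_antidiagonal_eq_sum_range_succ (fun i j => F i j) t]
    apply Finset.sum_subset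
    · intro p hp
      rw [Finset.mem_filter] at hp
      rw [Finset.HasAntidiagonal.mem_antidiagonal]; exact hp.2
    · intro p hp hnp
      rw [Finset.HasAntidiagonal.mem_antidiagonal] at hp
      apply hF
      by_contra hcon
      push Not at hcon
      apply hnp
      rw [Finset.mem_filter, Finset.mem_product, Finset.mem_range, Finset.mem_range]
      exact ⟨⟨hcon.1, hcon.2⟩, hp⟩
  · intro p hp
    rw [Finset.mem_product, Finset.mem_range, Finset.mem_range] at hp
    rw [Finset.mem_range]; omega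

/-! ### the block laws -/

def al : MA BW := MonoidAlgebra.single (FreeMonoid.of false) 1
def be : MA BW := MonoidAlgebra.single (FreeMonoid.of true) 1
def de : MA BW := MonoidAlgebra.single (FreeMonoid.of false * FreeMonoid.of true) 1

def gm (q : ℝ) : MA BW := (q / (1 + q)) • al + (q / (1 + q)) • be + ((1 - q) / (1 + q)) • de

def g (q : ℝ) : MA BW := (q ^ 2) • (1 : MA BW) + (1 - q ^ 2) • gm q

theorem al_mul_be : al * be = de := by
  unfold al be de
  rw [MonoidAlgebra.single_mul_single]; simp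

theorem prob_al : Prob al := by
  refine ⟨fun f hf => ?_, ?_⟩
  · unfold al; rw [ev_single]; simpa using hf _
  · unfold mass al; rw [ev_single]; simp

theorem ev_gm (q : ℝ) (f : BW → ℝ) : ev (gm q) f = q / (1 + q) * f (FreeMonoid.of false) +
    q / (1 + q) * f (FreeMonoid.of true) +
    (1 - q) / (1 + q) * f (FreeMonoid.of false * FreeMonoid.of true) := by
  unfold gm al be de
  rw [ev_add, ev_add, ev_smul, ev_smul, ev_smul, ev_single, ev_single, ev_single]; ring

theorem prob_gm {q : ℝ} (h0 : 0 < q) (h1 : q ≤ 1) : Prob (gm q) := by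
  refine ⟨fun f hf => ?_, ?_⟩
  · rw [ev_gm]
    have := hf (FreeMonoid.of false)
    have := hf (FreeMonoid.of true)
    have := hf (FreeMonoid.of false * FreeMonoid.of true)
    have h2 : 0 ≤ 1 - q := by linarith
    positivity
  · unfold mass; rw [ev_gm]
    field_simp; ring

theorem g_eq (q : ℝ) (h0 : 0 < q) : D q [false, true] = g q := by
  unfold D g gm letter
  simp only [List.map_cons, List.map_nil, List.prod_cons, List.prod_nil, mul_one]
  have e1 : (MonoidAlgebra.single (FreeMonoid.of false) 1 : MA BW) = al := rfl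
  have e2 : (MonoidAlgebra.single (FreeMonoid.of true) 1 : MA BW) = be := rfl
  rw [e1, e2, add_mul, mul_add, mul_add, smul_mul_smul_comm, smul_mul_smul_comm,
    smul_mul_smul_comm, smul_mul_smul_comm, one_mul, one_mul, mul_one, al_mul_be,
    smul_add, smul_add, smul_smul, smul_smul, smul_smul]
  have hq : 1 + q ≠ 0 := by positivity
  have c1 : (1 - q ^ 2) * (q / (1 + q)) = q * (1 - q) := by field_simp; ring
  have c2 : (1 - q ^ 2) * ((1 - q) / (1 + q)) = (1 - q) * (1 - q) := by field_simp; ring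
  rw [c1, c2, show q * q = q ^ 2 by ring, show (1 - q) * q = q * (1 - q) by ring]
  abel

theorem D_append (q : ℝ) (u v : List Bool) : D q (u ++ v) = D q u * D q v := by
  unfold D; rw [List.map_append, List.prod_append]

def blk (m : ℕ) : List Bool := (List.replicate m [false, true]).flatten

theorem D_blk (q : ℝ) (h0 : 0 < q) (m : ℕ) : D q (blk m) = g q ^ m := by
  induction m with
  | zero => simp [blk, D]
  | succ m ih =>
    have : blk (m + 1) = [false, true] ++ blk m := by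
      unfold blk; rw [List.replicate_succ, List.flatten_cons]
    rw [this, D_append, ih, g_eq q h0, pow_succ']

def xw (m : ℕ) : List Bool := blk m ++ ([false] ++ blk (m + 1))
def yw (m : ℕ) : List Bool := blk (m + 1) ++ ([false] ++ blk m)

theorem blk_length (m : ℕ) : (blk m).length = 2 * m := by
  induction m with
  | zero => simp [blk]
  | succ m ih =>
    have : blk (m + 1) = [false, true] ++ blk m := by
      unfold blk; rw [List.replicate_succ, List.flatten_cons]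
    rw [this, List.length_append, ih]; simp; ring

theorem xw_length (m : ℕ) : (xw m).length = 4 * m + 3 := by
  unfold xw; rw [List.length_append, List.length_append, blk_length, blk_length]; simp; ring

theorem yw_length (m : ℕ) : (yw m).length = 4 * m + 3 := by
  unfold yw; rw [List.length_append, List.length_append, blk_length, blk_length]; simp; ring

theorem xw_ne (m : ℕ) : xw m ≠ yw m := by
  intro h
  have e1 : blk (m + 1) = blk m ++ [false, true] := by
    unfold blk; rw [List.replicate_succ', List.flatten_append]; simp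
  have e2 : blk (m + 1) = [false, true] ++ blk m := by
    unfold blk; rw [List.replicate_succ, List.flatten_cons]
  have h' : blk m ++ ([false] ++ ([false, true] ++ blk m)) =
      blk m ++ ([false, true] ++ ([false] ++ blk m)) := by
    have : xw m = yw m := h
    unfold xw yw at this
    rw [← e2, ← List.append_assoc (blk m) [false, true], ← e1]
    exact this
  have h2 := List.append_cancel_left h'
  simp at h2

def c0 (q : ℝ) : MA BW := q • (1 : MA BW) + (1 - q) • al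

theorem D_xw (q : ℝ) (h0 : 0 < q) (m : ℕ) : D q (xw m) = g q ^ m * c0 q * g q ^ (m + 1) := by
  unfold xw
  rw [D_append, D_append, D_blk q h0, D_blk q h0, mul_assoc]
  congr 2
  unfold D letter c0 al; simp

theorem D_yw (q : ℝ) (h0 : 0 < q) (m : ℕ) : D q (yw m) = g q ^ (m + 1) * c0 q * g q ^ m := by
  unfold yw
  rw [D_append, D_append, D_blk q h0, D_blk q h0, mul_assoc]
  congr 2
  unfold D letter c0 al; simp

/-! ### expansion in the number of nonempty blocks -/

theorem g_pow (q : ℝ) (m n : ℕ) (hn : m < n) :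
    g q ^ m = ∑ i ∈ range n, bn (q ^ 2) m i • gm q ^ i := by
  have h1 : g q ^ m = ∑ i ∈ range (m + 1), bn (q ^ 2) m i • gm q ^ i := by
    unfold g
    rw [add_comm]
    have hc : Commute ((1 - q ^ 2) • gm q) ((q ^ 2) • (1 : MA BW)) :=
      (Commute.one_right _).smul_right _
    rw [hc.add_pow]
    refine Finset.sum_congr rfl (fun i _ => ?_)
    rw [smul_pow, smul_pow, one_pow, smul_mul_smul_comm, mul_one]
    rw [← nsmul_eq_mul', ← Nat.cast_smul_eq_nsmul ℝ, smul_smul]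
    congr 1
    unfold bn; ring
  rw [h1]
  apply Finset.sum_subset
  · intro i hi
    rw [Finset.mem_range] at hi ⊢
    omega
  · intro i _ hi
    rw [Finset.mem_range] at hi
    rw [bn_of_lt (by omega), zero_smul]

/-- `S q n c = ∑_{i,j<n} c i j γ^i α γ^j` -/
def S (q : ℝ) (n : ℕ) (c : ℕ → ℕ → ℝ) : MA BW :=
  ∑ i ∈ range n, ∑ j ∈ range n, c i j • (gm q ^ i * al * gm q ^ j)

theorem ev_S (q : ℝ) (n : ℕ) (c : ℕ → ℕ → ℝ) (f : BW → ℝ) :
    ev (S q n c) f = ∑ i ∈ range n, ∑ j ∈ range n, c i j * ev (gm q ^ i * al * gm q ^ j) f := by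
  unfold S
  rw [ev_sum]
  refine Finset.sum_congr rfl (fun i _ => ?_)
  rw [ev_sum]
  exact Finset.sum_congr rfl (fun j _ => by rw [ev_smul])

theorem mul_al_mul (q : ℝ) (m k n : ℕ) (hm : m < n) (hk : k < n) :
    g q ^ m * al * g q ^ k = S q n (fun i j => bn (q ^ 2) m i * bn (q ^ 2) k j) := by
  rw [g_pow q m n hm, g_pow q k n hk, Finset.sum_mul, Finset.sum_mul]
  unfold S
  refine Finset.sum_congr rfl (fun i _ => ?_)
  rw [Finset.mul_sum]
  refine Finset.sum_congr rfl (fun j _ => ?_)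
  rw [smul_mul_assoc, smul_mul_smul_comm]

/-! ### the signed coefficients -/

/-- coefficients of `D x - D y` -/
def lam (κ : ℝ) (m i j : ℕ) : ℝ := bn κ m i * bn κ (m + 1) j - bn κ (m + 1) i * bn κ m j

/-- typical number of nonempty blocks -/
def typ (κ : ℝ) (m : ℕ) (w : ℝ) (i : ℕ) : Prop := i ≤ m ∧ |(m : ℝ) - i - κ * m| ≤ w

open Classical in
def lamI (κ : ℝ) (m : ℕ) (w : ℝ) (i j : ℕ) : ℝ :=
  if typ κ m w i ∧ typ κ m w j then lam κ m i j else 0

theorem lam_anti (κ : ℝ) (m i j : ℕ) : lam κ m j i = - lam κ m i j := by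
  unfold lam; ring

theorem lamI_anti (κ : ℝ) (m : ℕ) (w : ℝ) (i j : ℕ) : lamI κ m w j i = - lamI κ m w i j := by
  unfold lamI
  by_cases h : typ κ m w i ∧ typ κ m w j
  · rw [if_pos h, if_pos ⟨h.2, h.1⟩, lam_anti]
  · rw [if_neg h, if_neg (fun h' => h ⟨h'.2, h'.1⟩), neg_zero]

theorem lam_mul (κ : ℝ) (m i j : ℕ) : lam κ m i j * ((m : ℝ) + 1 - i) =
    bn κ m i * bn κ (m + 1) j * ((j : ℝ) - i) := by
  have hi := bn_succ κ m i
  have hj := bn_succ κ m j
  unfold lam
  calc (bn κ m i * bn κ (m + 1) j - bn κ (m + 1) i * bn κ m j) * ((m : ℝ) + 1 - i)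
      = bn κ m i * bn κ (m + 1) j * ((m : ℝ) + 1 - i) -
        (bn κ (m + 1) i * ((m : ℝ) + 1 - i)) * bn κ m j := by ring
    _ = bn κ m i * bn κ (m + 1) j * ((m : ℝ) + 1 - i) -
        bn κ m i * (bn κ m j * (κ * (m + 1))) := by rw [hi]; ring
    _ = _ := by rw [← hj]; ring

theorem lam_mul2 (κ : ℝ) (m i j : ℕ) : lam κ m i j * (((m : ℝ) + 1 - i) * ((m : ℝ) + 1 - j)) =
    bn κ m i * bn κ m j * (κ * (m + 1)) * ((j : ℝ) - i) := by
  have hj := bn_succ κ m j
  calc lam κ m i j * (((m : ℝ) + 1 - i) * ((m : ℝ) + 1 - j))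
      = (lam κ m i j * ((m : ℝ) + 1 - i)) * ((m : ℝ) + 1 - j) := by ring
    _ = bn κ m i * (bn κ (m + 1) j * ((m : ℝ) + 1 - j)) * ((j : ℝ) - i) := by rw [lam_mul]; ring
    _ = _ := by rw [hj]; ring

theorem typ_ge {κ : ℝ} {m : ℕ} {w : ℝ} (hw : w ≤ κ * m / 2) {i : ℕ} (h : typ κ m w i) :
    κ * m / 2 ≤ (m : ℝ) - i := by
  have := (abs_le.mp h.2).1
  linarith

theorem typ_sub {κ : ℝ} {m : ℕ} {w : ℝ} {i j : ℕ} (hi : typ κ m w i) (hj : typ κ m w j) :
    |(j : ℝ) - i| ≤ 2 * w := by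
  have h1 := abs_le.mp hi.2
  have h2 := abs_le.mp hj.2
  rw [abs_le]
  constructor <;> linarith [h1.1, h1.2, h2.1, h2.2]

theorem lam_le {κ : ℝ} (h0 : 0 < κ) (h1 : κ ≤ 1) {m : ℕ} (hm : 1 ≤ m) {w : ℝ}
    (hw : w ≤ κ * m / 2) {i j : ℕ} (hi : typ κ m w i) (hj : typ κ m w j) :
    |lam κ m i j| ≤ (4 * w / (κ * m)) * (bn κ m i * bn κ (m + 1) j) := by
  have hκm : 0 < κ * m := by positivity
  have hg : κ * m / 2 ≤ (m : ℝ) + 1 - i := by linarith [typ_ge hw hi]
  have hpos : 0 < (m : ℝ) + 1 - i := by linarith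
  have hB : 0 ≤ bn κ m i * bn κ (m + 1) j := mul_nonneg (bn_nonneg h0.le h1 _ _) (bn_nonneg h0.le h1 _ _)
  have h := lam_mul κ m i j
  have h2 : |lam κ m i j| * ((m : ℝ) + 1 - i) ≤ (bn κ m i * bn κ (m + 1) j) * (2 * w) := by
    calc |lam κ m i j| * ((m : ℝ) + 1 - i) = |lam κ m i j * ((m : ℝ) + 1 - i)| := by
          rw [abs_mul, abs_of_pos hpos]
      _ = (bn κ m i * bn κ (m + 1) j) * |(j : ℝ) - i| := by rw [h, abs_mul, abs_of_nonneg hB]
      _ ≤ _ := mul_le_mul_of_nonneg_left (typ_sub hi hj) hB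
  have h3 : |lam κ m i j| * (κ * m / 2) ≤ (bn κ m i * bn κ (m + 1) j) * (2 * w) :=
    le_trans (mul_le_mul_of_nonneg_left hg (abs_nonneg _)) h2
  rw [div_mul_eq_mul_div, le_div_iff₀ hκm]
  nlinarith

theorem lam_sq_le {κ : ℝ} (h0 : 0 < κ) (h1 : κ ≤ 1 / 2) {m : ℕ} (hm : 1 ≤ m) (hκ : κ ≤ 1 / 16) {w : ℝ}
    (hw : w ≤ κ * m / 2) {i j : ℕ} (hi : typ κ m w i) (hj : typ κ m w j) :
    (lam κ m i j) ^ 2 ≤ (256 / ((κ * m) ^ 2 * Real.sqrt (κ * m))) *
      (bn κ m i * bn κ m j * ((i : ℝ) - j) ^ 2) * bn κ (2 * m + 1) (i + j + 1) := by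
  have hκm : 0 < κ * m := by positivity
  have hgi : κ * m / 2 ≤ (m : ℝ) - i := typ_ge hw hi
  have hgj : κ * m / 2 ≤ (m : ℝ) - j := typ_ge hw hj
  have hmr : (1:ℝ) ≤ m := by exact_mod_cast hm
  have hBB : 0 ≤ bn κ m i * bn κ m j :=
    mul_nonneg (bn_nonneg h0.le (by linarith) _ _) (bn_nonneg h0.le (by linarith) _ _)
  have hij : m ≤ i + j + 1 := by
    have e1 := (abs_le.mp hi.2).2
    have e2 := (abs_le.mp hj.2).2
    have hw2 : w ≤ m / 16 := by
      have : κ * m ≤ m / 16 := by nlinarith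
      linarith
    have hk2 : κ * m ≤ m / 16 := by nlinarith
    have : (m : ℝ) ≤ (i : ℝ) + j + 1 := by linarith
    exact_mod_cast this
  have hb := bn_mul_le h0.le h1 hm hi.1 hj.1 hij
  set s := Real.sqrt (κ * m) with hs
  have hs0 : 0 < s := Real.sqrt_pos.mpr hκm
  have hsD : s ≤ Real.sqrt (2 * m - i - j + 1) := Real.sqrt_le_sqrt (by linarith)
  have hb2 : bn κ m i * bn κ m j * s ≤ 4 * bn κ (2 * m + 1) (i + j + 1) :=
    le_trans (mul_le_mul_of_nonneg_left hsD hBB) hb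
  have h := lam_mul2 κ m i j
  set P : ℝ := ((m : ℝ) + 1 - i) * ((m : ℝ) + 1 - j) with hP
  have hPge : (κ * m) ^ 2 / 4 ≤ P := by
    have e1 : κ * m / 2 ≤ (m : ℝ) + 1 - i := by linarith
    have e2 : κ * m / 2 ≤ (m : ℝ) + 1 - j := by linarith
    calc (κ * m) ^ 2 / 4 = (κ * m / 2) * (κ * m / 2) := by ring
      _ ≤ P := mul_le_mul e1 e2 (by positivity) (by linarith)
  set BB := bn κ m i * bn κ m j with hBBd
  set d2 : ℝ := ((i : ℝ) - j) ^ 2 with hd2
  have hd20 : 0 ≤ d2 := sq_nonneg _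
  have h2 : (lam κ m i j) ^ 2 * P ^ 2 = BB ^ 2 * (κ * (m + 1)) ^ 2 * d2 := by
    calc (lam κ m i j) ^ 2 * P ^ 2 = (lam κ m i j * P) ^ 2 := by ring
      _ = (BB * (κ * (m + 1)) * ((j : ℝ) - i)) ^ 2 := by rw [h]
      _ = _ := by rw [hd2]; ring
  have h3 : (lam κ m i j) ^ 2 * ((κ * m) ^ 2 / 4) ^ 2 ≤ BB ^ 2 * (2 * (κ * m)) ^ 2 * d2 := by
    have e1 : ((κ * m) ^ 2 / 4) ^ 2 ≤ P ^ 2 := pow_le_pow_left₀ (by positivity) hPge 2
    have e2 : (κ * ((m:ℝ) + 1)) ^ 2 ≤ (2 * (κ * m)) ^ 2 := by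
      apply pow_le_pow_left₀ (by positivity)
      nlinarith
    calc (lam κ m i j) ^ 2 * ((κ * m) ^ 2 / 4) ^ 2 ≤ (lam κ m i j) ^ 2 * P ^ 2 :=
          mul_le_mul_of_nonneg_left e1 (sq_nonneg _)
      _ = BB ^ 2 * (κ * (m + 1)) ^ 2 * d2 := h2
      _ ≤ _ := by gcongr
  have h4 : (lam κ m i j) ^ 2 * (κ * m) ^ 2 ≤ 64 * BB ^ 2 * d2 := by
    have hk : 0 < (κ * m) ^ 2 := by positivity
    have : (κ * m) ^ 2 * ((lam κ m i j) ^ 2 * (κ * m) ^ 2) ≤ (κ * m) ^ 2 * (64 * BB ^ 2 * d2) := by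
      nlinarith
    exact le_of_mul_le_mul_left this hk
  have h5 : (lam κ m i j) ^ 2 * ((κ * m) ^ 2 * s) ≤ 256 * (BB * d2) * bn κ (2 * m + 1) (i + j + 1) := by
    calc (lam κ m i j) ^ 2 * ((κ * m) ^ 2 * s) = ((lam κ m i j) ^ 2 * (κ * m) ^ 2) * s := by ring
      _ ≤ (64 * BB ^ 2 * d2) * s := mul_le_mul_of_nonneg_right h4 hs0.le
      _ = (64 * BB * d2) * (BB * s) := by ring
      _ ≤ (64 * BB * d2) * (4 * bn κ (2 * m + 1) (i + j + 1)) :=
          mul_le_mul_of_nonneg_left hb2 (by positivity)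
      _ = _ := by ring
  have hden : 0 < (κ * m) ^ 2 * s := by positivity
  calc (lam κ m i j) ^ 2 ≤ 256 * (BB * d2) * bn κ (2 * m + 1) (i + j + 1) / ((κ * m) ^ 2 * s) := by
        rw [le_div_iff₀ hden]; exact h5
    _ = _ := by ring

/-! ### the modified second measure -/

/-- `Δ = D x - b` -/
def Dl (q : ℝ) (m : ℕ) (w : ℝ) : MA BW := (1 - q) • S q (m + 2) (lamI (q ^ 2) m w)

theorem mass_term (q : ℝ) (h0 : 0 < q) (h1 : q ≤ 1) (i j : ℕ) :
    ev (gm q ^ i * al * gm q ^ j) (fun _ => 1) = 1 := by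
  have : mass (gm q ^ i * al * gm q ^ j) = 1 :=
    ((((prob_gm h0 h1).pow i).mul prob_al).mul ((prob_gm h0 h1).pow j)).one
  exact this

theorem pos_term (q : ℝ) (h0 : 0 < q) (h1 : q ≤ 1) (i j : ℕ) :
    Pos (gm q ^ i * al * gm q ^ j) :=
  ((((prob_gm h0 h1).pow i).mul prob_al).mul ((prob_gm h0 h1).pow j)).pos

theorem D_xw' (q : ℝ) (h0 : 0 < q) (m : ℕ) :
    D q (xw m) = q • g q ^ (2 * m + 1) +
      (1 - q) • S q (m + 2) (fun i j => bn (q ^ 2) m i * bn (q ^ 2) (m + 1) j) := by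
  rw [D_xw q h0, ← mul_al_mul q m (m + 1) (m + 2) (by omega) (by omega)]
  unfold c0
  rw [mul_add, add_mul, mul_smul_comm, smul_mul_assoc, mul_one, ← pow_add, mul_smul_comm,
    smul_mul_assoc]
  congr 3
  ring

theorem D_yw' (q : ℝ) (h0 : 0 < q) (m : ℕ) :
    D q (yw m) = q • g q ^ (2 * m + 1) +
      (1 - q) • S q (m + 2) (fun i j => bn (q ^ 2) (m + 1) i * bn (q ^ 2) m j) := by
  rw [D_yw q h0, ← mul_al_mul q (m + 1) m (m + 2) (by omega) (by omega)]
  unfold c0
  rw [mul_add, add_mul, mul_smul_comm, smul_mul_assoc, mul_one, ← pow_add, mul_smul_comm,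
    smul_mul_assoc]
  congr 3
  ring

theorem mass_Dl (q : ℝ) (h0 : 0 < q) (h1 : q ≤ 1) (m : ℕ) (w : ℝ) : mass (Dl q m w) = 0 := by
  unfold Dl
  rw [mass_smul]
  unfold mass
  rw [ev_S]
  simp_rw [mass_term q h0 h1, mul_one]
  have h : ∑ i ∈ range (m + 2), ∑ j ∈ range (m + 2), lamI (q ^ 2) m w i j =
      - ∑ i ∈ range (m + 2), ∑ j ∈ range (m + 2), lamI (q ^ 2) m w i j := by
    conv_lhs => rw [Finset.sum_comm]
    rw [← Finset.sum_neg_distrib]
    refine Finset.sum_congr rfl (fun i _ => ?_)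
    rw [← Finset.sum_neg_distrib]
    exact Finset.sum_congr rfl (fun j _ => lamI_anti _ _ _ _ _)
  have : ∑ i ∈ range (m + 2), ∑ j ∈ range (m + 2), lamI (q ^ 2) m w i j = 0 := by linarith
  rw [this, mul_zero]

theorem abs_lamI_le {κ : ℝ} (h0 : 0 < κ) (h1 : κ ≤ 1) {m : ℕ} (hm : 1 ≤ m) {w : ℝ} (hw0 : 0 ≤ w)
    (hw : w ≤ κ * m / 2) (i j : ℕ) :
    |lamI κ m w i j| ≤ (4 * w / (κ * m)) * (bn κ m i * bn κ (m + 1) j) := by
  unfold lamI
  by_cases h : typ κ m w i ∧ typ κ m w j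
  · rw [if_pos h]; exact lam_le h0 h1 hm hw h.1 h.2
  · rw [if_neg h, abs_zero]
    have hB : 0 ≤ bn κ m i * bn κ (m + 1) j := mul_nonneg (bn_nonneg h0.le h1 _ _) (bn_nonneg h0.le h1 _ _)
    have : 0 < κ * m := by positivity
    positivity

theorem lamI_le {κ : ℝ} (h0 : 0 < κ) (h1 : κ ≤ 1) {m : ℕ} {w : ℝ} (i j : ℕ) :
    lamI κ m w i j ≤ bn κ m i * bn κ (m + 1) j := by
  have hB : 0 ≤ bn κ m i * bn κ (m + 1) j := mul_nonneg (bn_nonneg h0.le h1 _ _) (bn_nonneg h0.le h1 _ _)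
  have hB2 : 0 ≤ bn κ (m + 1) i * bn κ m j := mul_nonneg (bn_nonneg h0.le h1 _ _) (bn_nonneg h0.le h1 _ _)
  unfold lamI
  by_cases h : typ κ m w i ∧ typ κ m w j
  · rw [if_pos h]; unfold lam; linarith
  · rw [if_neg h]; exact hB

theorem prob_b {q : ℝ} (h0 : 0 < q) (h1 : q ≤ 1) (m : ℕ) (w : ℝ) :
    Prob (D q (xw m) - Dl q m w) := by
  have hκ0 : 0 < q ^ 2 := by positivity
  have hκ1 : q ^ 2 ≤ 1 := by nlinarith
  have hg : Prob (g q) := by
    unfold g
    have hp := prob_gm h0 h1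
    refine ⟨(Pos.one.smul hκ0.le).add (hp.pos.smul (by linarith)), ?_⟩
    rw [mass_add, mass_smul, mass_smul, mass_one, hp.one]; ring
  refine ⟨fun f hf => ?_, ?_⟩
  · rw [ev_sub, D_xw' q h0, ev_add, ev_smul, ev_smul, ev_S]
    unfold Dl
    rw [ev_smul, ev_S]
    have e1 : 0 ≤ ev (g q ^ (2 * m + 1)) f := (hg.pow _).pos f hf
    have e2 : ∑ i ∈ range (m + 2), ∑ j ∈ range (m + 2),
        lamI (q ^ 2) m w i j * ev (gm q ^ i * al * gm q ^ j) f ≤
        ∑ i ∈ range (m + 2), ∑ j ∈ range (m + 2),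
        bn (q ^ 2) m i * bn (q ^ 2) (m + 1) j * ev (gm q ^ i * al * gm q ^ j) f :=
      Finset.sum_le_sum (fun i _ => Finset.sum_le_sum (fun j _ =>
        mul_le_mul_of_nonneg_right (lamI_le hκ0 hκ1 i j) (pos_term q h0 h1 i j f hf)))
    have hq1 : 0 ≤ 1 - q := by linarith
    nlinarith [mul_le_mul_of_nonneg_left e2 hq1, mul_nonneg h0.le e1]
  · rw [mass_sub, mass_Dl q h0 h1, D_xw q h0, mass_mul, mass_mul, mass_pow, mass_pow, hg.one]
    unfold c0
    rw [mass_add, mass_smul, mass_smul, mass_one, prob_al.one]; ring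

theorem bd_Dl {q : ℝ} (h0 : 0 < q) (h1 : q ≤ 1) {m : ℕ} (hm : 1 ≤ m) {w : ℝ} (hw0 : 0 ≤ w)
    (hw : w ≤ q ^ 2 * m / 2) : Bd (4 * w / (q ^ 2 * m)) (D q (xw m)) (Dl q m w) := by
  have hκ0 : 0 < q ^ 2 := by positivity
  have hκ1 : q ^ 2 ≤ 1 := by nlinarith
  have hg : Prob (g q) := by
    unfold g
    have hp := prob_gm h0 h1
    refine ⟨(Pos.one.smul hκ0.le).add (hp.pos.smul (by linarith)), ?_⟩
    rw [mass_add, mass_smul, mass_smul, mass_one, hp.one]; ring
  intro f hf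
  have hq1 : 0 ≤ 1 - q := by linarith
  unfold Dl
  rw [D_xw' q h0, ev_add, ev_smul, ev_smul, ev_smul, ev_S, ev_S, abs_mul, abs_of_nonneg hq1]
  have e1 : 0 ≤ ev (g q ^ (2 * m + 1)) f := (hg.pow _).pos f hf
  set u := 4 * w / (q ^ 2 * m) with hu
  have hu0 : 0 ≤ u := by positivity
  have e2 : |∑ i ∈ range (m + 2), ∑ j ∈ range (m + 2),
        lamI (q ^ 2) m w i j * ev (gm q ^ i * al * gm q ^ j) f| ≤
        u * ∑ i ∈ range (m + 2), ∑ j ∈ range (m + 2),
        bn (q ^ 2) m i * bn (q ^ 2) (m + 1) j * ev (gm q ^ i * al * gm q ^ j) f := by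
    refine le_trans (Finset.abs_sum_le_sum_abs _ _) ?_
    rw [Finset.mul_sum]
    refine Finset.sum_le_sum (fun i _ => ?_)
    refine le_trans (Finset.abs_sum_le_sum_abs _ _) ?_
    rw [Finset.mul_sum]
    refine Finset.sum_le_sum (fun j _ => ?_)
    have hE := pos_term q h0 h1 i j f hf
    rw [abs_mul, abs_of_nonneg hE, ← mul_assoc]
    exact mul_le_mul_of_nonneg_right (abs_lamI_le hκ0 hκ1 hm hw0 hw i j) hE
  have e3 := mul_le_mul_of_nonneg_left e2 hq1
  nlinarith [mul_nonneg hu0 (mul_nonneg h0.le e1)]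

end

end Crest.Agent.R300LB.BaseDom
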