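import Crest.Agent.R300.LBBaseDom

/-!
# Row 300, lower bounds, base pair (piece L9), part 2: tail and Dom estimates.
-/

set_option autoImplicit false

namespace Crest.Agent.R300LB.BaseDom

open Finset

noncomputable section

/-! ### total variation of the atypical part -/

open Classical in
theorem tail_typ {κ : ℝ} (h0 : 0 < κ) (h1 : κ ≤ 1) {m : ℕ} (hm : 1 ≤ m) {w : ℝ} (hw0 : 1 ≤ w)
    (hw : w ≤ κ * m / 2) :
    (∑ i ∈ (range (m + 2)).filter (fun i => ¬ typ κ m w i), bn κ m i ≤
      2 * Real.exp (-((w - 1) ^ 2 / (4 * (κ * (m + 1)))))) ∧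
    (∑ i ∈ (range (m + 2)).filter (fun i => ¬ typ κ m w i), bn κ (m + 1) i ≤
      2 * Real.exp (-((w - 1) ^ 2 / (4 * (κ * (m + 1)))))) := by
  have hκm : 0 < κ * m := by positivity
  constructor
  · have h := tail h0 h1 hm (w := w) (by linarith) (by linarith)
    refine le_trans ?_ (le_trans h ?_)
    · have hsub : ∑ i ∈ (range (m + 2)).filter (fun i => ¬ typ κ m w i), bn κ m i ≤
          ∑ i ∈ (range (m + 2)).filter (fun i => ¬ typ κ m w i),
            (if i ≤ m then bn κ m i else 0) := by
        apply Finset.sum_le_sum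
        intro i _
        by_cases hi : i ≤ m
        · rw [if_pos hi]
        · rw [if_neg hi, bn_of_lt (by omega)]
      refine le_trans hsub ?_
      rw [← Finset.sum_filter]
      apply Finset.sum_le_sum_of_subset_of_nonneg
      · intro i hi
        rw [Finset.mem_filter, Finset.mem_filter, Finset.mem_range] at hi
        rw [Finset.mem_filter, Finset.mem_range]
        refine ⟨by omega, ?_⟩
        by_contra hcon
        exact hi.1.2 ⟨hi.2, not_lt.mp hcon⟩
      · intro i _ _; exact bn_nonneg h0.le h1 _ _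
    · have : (w - 1) ^ 2 / (4 * (κ * (m + 1))) ≤ w ^ 2 / (4 * (κ * m)) := by
        apply div_le_div₀ (by positivity) _ (by positivity) _
        · nlinarith
        · nlinarith
      have := Real.exp_le_exp.mpr (neg_le_neg this)
      linarith
  · have h := tail h0 h1 (m := m + 1) (by omega) (w := w - 1) (by linarith)
      (by push_cast; nlinarith)
    have e : κ * ((m + 1 : ℕ) : ℝ) = κ * (m + 1) := by push_cast; ring
    rw [e] at h
    refine le_trans ?_ h
    apply Finset.sum_le_sum_of_subset_of_nonneg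
    · intro i hi
      rw [Finset.mem_filter, Finset.mem_range] at hi
      rw [Finset.mem_filter, Finset.mem_range]
      refine ⟨by omega, ?_⟩
      by_contra hcon
      apply hi.2
      rw [not_lt] at hcon
      have hc := abs_le.mp hcon
      push_cast at hc
      have hile : i ≤ m := by
        by_contra hcon2
        have hi' : i = m + 1 := by omega
        rw [hi'] at hc
        push_cast at hc
        nlinarith [hc.1]
      refine ⟨hile, ?_⟩
      rw [abs_le]
      constructor
      · nlinarith [hc.1]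
      · nlinarith [hc.2]
    · intro i _ _; exact bn_nonneg h0.le h1 _ _

theorem tv_b {q : ℝ} (h0 : 0 < q) (h1 : q ≤ 1) {m : ℕ} (hm : 1 ≤ m) {w : ℝ} (hw0 : 1 ≤ w)
    (hw : w ≤ q ^ 2 * m / 2) :
    TVle (8 * Real.exp (-((w - 1) ^ 2 / (4 * (q ^ 2 * (m + 1))))))
      (D q (xw m) - Dl q m w - D q (yw m)) := by
  classical
  have hκ0 : 0 < q ^ 2 := by positivity
  have hκ1 : q ^ 2 ≤ 1 := by nlinarith
  obtain ⟨t1, t2⟩ := tail_typ hκ0 hκ1 hm hw0 hw
  set τ := Real.exp (-((w - 1) ^ 2 / (4 * (q ^ 2 * ((m:ℝ) + 1))))) with hτ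
  intro f hf
  set κ := q ^ 2 with hκ
  have hE : ∀ i j, |ev (gm q ^ i * al * gm q ^ j) f| ≤ 1 := by
    intro i j
    have hp := pos_term q h0 h1 i j
    have u1 := hp.mono (f := f) (g := fun _ => 1) (fun w => (abs_le.mp (hf w)).2)
    have u2 := hp.mono (f := fun _ => -1) (g := f) (fun w => (abs_le.mp (hf w)).1)
    rw [mass_term q h0 h1] at u1
    have u3 : ev (gm q ^ i * al * gm q ^ j) (fun _ => (-1:ℝ)) = -1 := by
      have : (fun _ : BW => (-1:ℝ)) = fun w : BW => (-1:ℝ) * (fun _ : BW => (1:ℝ)) w := by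
        funext w; ring
      rw [this, ev_mul_fun, mass_term q h0 h1]; ring
    rw [u3] at u2
    exact abs_le.mpr ⟨u2, u1⟩
  have hdiff : ev (D q (xw m) - Dl q m w - D q (yw m)) f =
      (1 - q) * ∑ i ∈ range (m + 2), ∑ j ∈ range (m + 2),
        (lam κ m i j - lamI κ m w i j) * ev (gm q ^ i * al * gm q ^ j) f := by
    rw [ev_sub, ev_sub, D_xw' q h0, D_yw' q h0, ev_add, ev_add, ev_smul, ev_smul, ev_smul, ev_S, ev_S]
    unfold Dl
    rw [ev_smul, ev_S]
    simp_rw [sub_mul, Finset.sum_sub_distrib]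
    unfold lam
    simp_rw [sub_mul, Finset.sum_sub_distrib]
    ring
  rw [hdiff, abs_mul, abs_of_nonneg (by linarith : 0 ≤ 1 - q)]
  have hb0 : ∀ n i, 0 ≤ bn κ n i := fun n i => bn_nonneg hκ0.le hκ1 n i
  have hterm : ∀ i j, |(lam κ m i j - lamI κ m w i j) * ev (gm q ^ i * al * gm q ^ j) f| ≤
      ((if ¬ typ κ m w i then bn κ m i * bn κ (m + 1) j else 0) +
       (if ¬ typ κ m w i then bn κ (m + 1) i * bn κ m j else 0)) +
      ((if ¬ typ κ m w j then bn κ m i * bn κ (m + 1) j else 0) +
       (if ¬ typ κ m w j then bn κ (m + 1) i * bn κ m j else 0)) := by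
    intro i j
    have p1 : 0 ≤ bn κ m i * bn κ (m + 1) j := mul_nonneg (hb0 _ _) (hb0 _ _)
    have p2 : 0 ≤ bn κ (m + 1) i * bn κ m j := mul_nonneg (hb0 _ _) (hb0 _ _)
    have hl : |lam κ m i j| ≤ bn κ m i * bn κ (m + 1) j + bn κ (m + 1) i * bn κ m j := by
      unfold lam
      rw [abs_le]; constructor <;> linarith
    rw [abs_mul]
    by_cases ti : typ κ m w i <;> by_cases tj : typ κ m w j
    · have : lamI κ m w i j = lam κ m i j := by unfold lamI; rw [if_pos ⟨ti, tj⟩]
      rw [this, sub_self, abs_zero, zero_mul]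
      simp [ti, tj]
    all_goals
      have : lamI κ m w i j = 0 := by
        unfold lamI; rw [if_neg (fun h => by first | exact tj h.2 | exact ti h.1)]
      rw [this, sub_zero]
      have hle : |lam κ m i j| * |ev (gm q ^ i * al * gm q ^ j) f| ≤
          bn κ m i * bn κ (m + 1) j + bn κ (m + 1) i * bn κ m j := by
        calc |lam κ m i j| * |ev (gm q ^ i * al * gm q ^ j) f| ≤ |lam κ m i j| * 1 :=
              mul_le_mul_of_nonneg_left (hE i j) (abs_nonneg _)
          _ ≤ _ := by rw [mul_one]; exact hl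
      simp only [ti, tj, not_true_eq_false, not_false_eq_true, if_true, if_false]
      linarith
  have s1 : ∑ j ∈ range (m + 2), bn κ (m + 1) j = 1 := sum_bn κ (m + 1)
  have s0 : ∑ j ∈ range (m + 2), bn κ m j = 1 := by
    rw [show m + 2 = (m + 1) + 1 by ring, Finset.sum_range_succ, sum_bn, bn_of_lt (Nat.lt_succ_self m),
      add_zero]
  rw [Finset.sum_filter] at t1 t2
  have hsum : |∑ i ∈ range (m + 2), ∑ j ∈ range (m + 2),
        (lam κ m i j - lamI κ m w i j) * ev (gm q ^ i * al * gm q ^ j) f| ≤ 8 * τ := by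
    refine le_trans (Finset.abs_sum_le_sum_abs _ _) ?_
    refine le_trans (Finset.sum_le_sum (fun i _ => Finset.abs_sum_le_sum_abs _ _)) ?_
    refine le_trans (Finset.sum_le_sum (fun i _ => Finset.sum_le_sum (fun j _ => hterm i j))) ?_
    simp_rw [Finset.sum_add_distrib]
    have c1 : ∑ i ∈ range (m + 2), ∑ j ∈ range (m + 2),
        (if ¬ typ κ m w i then bn κ m i * bn κ (m + 1) j else 0) =
        ∑ i ∈ range (m + 2), (if ¬ typ κ m w i then bn κ m i else 0) := by
      refine Finset.sum_congr rfl (fun i _ => ?_)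
      by_cases ti : typ κ m w i
      · simp [ti]
      · simp only [ti, not_false_eq_true, if_true]; rw [← Finset.mul_sum, s1, mul_one]
    have c2 : ∑ i ∈ range (m + 2), ∑ j ∈ range (m + 2),
        (if ¬ typ κ m w i then bn κ (m + 1) i * bn κ m j else 0) =
        ∑ i ∈ range (m + 2), (if ¬ typ κ m w i then bn κ (m + 1) i else 0) := by
      refine Finset.sum_congr rfl (fun i _ => ?_)
      by_cases ti : typ κ m w i
      · simp [ti]
      · simp only [ti, not_false_eq_true, if_true]; rw [← Finset.mul_sum, s0, mul_one]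
    have c3 : ∑ i ∈ range (m + 2), ∑ j ∈ range (m + 2),
        (if ¬ typ κ m w j then bn κ m i * bn κ (m + 1) j else 0) =
        ∑ j ∈ range (m + 2), (if ¬ typ κ m w j then bn κ (m + 1) j else 0) := by
      rw [Finset.sum_comm]
      refine Finset.sum_congr rfl (fun j _ => ?_)
      by_cases tj : typ κ m w j
      · simp [tj]
      · simp only [tj, not_false_eq_true, if_true]; rw [← Finset.sum_mul, s0, one_mul]
    have c4 : ∑ i ∈ range (m + 2), ∑ j ∈ range (m + 2),
        (if ¬ typ κ m w j then bn κ (m + 1) i * bn κ m j else 0) =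
        ∑ j ∈ range (m + 2), (if ¬ typ κ m w j then bn κ m j else 0) := by
      rw [Finset.sum_comm]
      refine Finset.sum_congr rfl (fun j _ => ?_)
      by_cases tj : typ κ m w j
      · simp [tj]
      · simp only [tj, not_false_eq_true, if_true]; rw [← Finset.sum_mul, s1, one_mul]
    rw [c1, c2, c3, c4]
    linarith
  have hτ0 : 0 < τ := Real.exp_pos _
  calc (1 - q) * |∑ i ∈ range (m + 2), ∑ j ∈ range (m + 2),
        (lam κ m i j - lamI κ m w i j) * ev (gm q ^ i * al * gm q ^ j) f| ≤ (1 - q) * (8 * τ) :=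
        mul_le_mul_of_nonneg_left hsum (by linarith)
    _ ≤ 8 * τ := by nlinarith

end

end Crest.Agent.R300LB.BaseDom
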