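import Crest.Agent.R300.LBBaseTv

/-!
# Row 300, lower bounds, base pair (piece L9), part 3: the `L²` estimate.
-/

set_option autoImplicit false

namespace Crest.Agent.R300LB.BaseDom

open Finset

noncomputable section

theorem dom_alg {q : ℝ} (h0 : 0 < q) (h1 : q ≤ 1 / 16) : Dom (5 / q) (gm q) (al - gm q) := by
  intro f
  have hp := prob_gm h0 (by linarith : q ≤ 1)
  set X := ev (gm q) (fun w => f w ^ 2) with hX
  have hX0 : 0 ≤ X := hp.pos _ (fun w => sq_nonneg _)
  have hc := hp.pos.cauchy (fun _ => 1) f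
  simp only [one_mul, one_pow] at hc
  rw [ev_const hp, one_mul] at hc
  have e1 : ev al f = f (FreeMonoid.of false) := by
    unfold al; rw [ev_single]; ring
  rw [ev_sub, e1]
  have hq : 0 < 1 + q := by linarith
  have h2 : q / (1 + q) * f (FreeMonoid.of false) ^ 2 ≤ X := by
    rw [hX, ev_gm]
    have : 0 ≤ 1 - q := by linarith
    have a1 : 0 ≤ q / (1 + q) * f (FreeMonoid.of true) ^ 2 := by positivity
    have a2 : 0 ≤ (1 - q) / (1 + q) * f (FreeMonoid.of false * FreeMonoid.of true) ^ 2 := by positivity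
    linarith
  have h3 : q * f (FreeMonoid.of false) ^ 2 ≤ (1 + q) * X := by
    have := mul_le_mul_of_nonneg_left h2 hq.le
    have e : (1 + q) * (q / (1 + q) * f (FreeMonoid.of false) ^ 2) = q * f (FreeMonoid.of false) ^ 2 := by
      field_simp
    linarith
  set a := f (FreeMonoid.of false)
  set b := ev (gm q) f
  rw [div_mul_eq_mul_div, le_div_iff₀ h0]
  have h4 : (a - b) ^ 2 ≤ 2 * a ^ 2 + 2 * b ^ 2 := by nlinarith [sq_nonneg (a + b)]
  nlinarith

theorem Ut_eq (q : ℝ) (m : ℕ) (w : ℝ) (t : ℕ) :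
    ∑ i ∈ range (t + 1), lamI (q ^ 2) m w i (t - i) • (gm q ^ i * al * gm q ^ (t - i)) =
    ∑ i ∈ range (t + 1), lamI (q ^ 2) m w i (t - i) • (gm q ^ i * (al - gm q) * gm q ^ (t + 1 - 1 - i)) := by
  have hz : ∑ i ∈ range (t + 1), lamI (q ^ 2) m w i (t - i) = 0 := by
    have h := Finset.sum_range_reflect (fun i => lamI (q ^ 2) m w i (t - i)) (t + 1)
    have h2 : ∑ j ∈ range (t + 1), (fun i => lamI (q ^ 2) m w i (t - i)) (t + 1 - 1 - j) =
        - ∑ i ∈ range (t + 1), lamI (q ^ 2) m w i (t - i) := by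
      rw [← Finset.sum_neg_distrib]
      refine Finset.sum_congr rfl (fun j hj => ?_)
      rw [Finset.mem_range] at hj
      have e1 : t + 1 - 1 - j = t - j := by omega
      have e2 : t - (t - j) = j := by omega
      simp only [e1, e2]
      exact lamI_anti _ _ _ _ _
    rw [h2] at h
    linarith
  have h : ∀ i ∈ range (t + 1), lamI (q ^ 2) m w i (t - i) • (gm q ^ i * (al - gm q) * gm q ^ (t + 1 - 1 - i)) =
      lamI (q ^ 2) m w i (t - i) • (gm q ^ i * al * gm q ^ (t - i)) -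
      lamI (q ^ 2) m w i (t - i) • gm q ^ (t + 1) := by
    intro i hi
    rw [Finset.mem_range] at hi
    rw [mul_sub, sub_mul, smul_sub]
    congr 1
    rw [← pow_succ, ← pow_add]
    congr 2
    omega
  rw [Finset.sum_congr rfl h, Finset.sum_sub_distrib, ← Finset.sum_smul, hz, zero_smul, sub_zero]

theorem Dl_eq (q : ℝ) (m : ℕ) (w : ℝ) :
    Dl q m w = ∑ t ∈ range (2 * m + 1), (1 - q) •
      ∑ i ∈ range (t + 1), lamI (q ^ 2) m w i (t - i) • (gm q ^ i * (al - gm q) * gm q ^ (t + 1 - 1 - i)) := by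
  have hz : ∀ i j, (m < i ∨ m < j) → lamI (q ^ 2) m w i j = 0 := by
    intro i j h
    unfold lamI
    rw [if_neg]
    intro h'
    rcases h with h | h
    · exact absurd h'.1.1 (by omega)
    · exact absurd h'.2.1 (by omega)
  unfold Dl S
  rw [sum_diag (m + 2) (fun i j => lamI (q ^ 2) m w i j • (gm q ^ i * al * gm q ^ j))]
  · rw [Finset.smul_sum]
    symm
    have hsub : range (2 * m + 1) ⊆ range (2 * (m + 2)) := by
      intro i hi; rw [Finset.mem_range] at hi ⊢; omega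
    rw [← Finset.sum_subset hsub]
    · refine Finset.sum_congr rfl (fun t _ => ?_)
      rw [← Ut_eq]
    · intro t _ ht
      rw [Finset.mem_range] at ht
      rw [Finset.sum_eq_zero, smul_zero]
      intro i hi
      rw [Finset.mem_range] at hi
      rw [hz i (t - i) (by omega), zero_smul]
  · intro i j h
    show lamI (q ^ 2) m w i j • (gm q ^ i * al * gm q ^ j) = 0
    rw [hz i j (by omega), zero_smul]

theorem ref_le {q : ℝ} (h0 : 0 < q) (h1 : q ≤ 1) (m : ℕ) :
    Le (∑ t ∈ range (2 * m + 1), (q * bn (q ^ 2) (2 * m + 1) (t + 1)) • gm q ^ (t + 1)) (D q (xw m)) := by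
  have hκ0 : 0 < q ^ 2 := by positivity
  have hκ1 : q ^ 2 ≤ 1 := by nlinarith
  intro f hf
  have hq1 : 0 ≤ 1 - q := by linarith
  rw [ev_sub, D_xw' q h0, g_pow q (2 * m + 1) (2 * m + 2) (by omega), ev_add, ev_smul, ev_smul,
    Finset.sum_range_succ', ev_add, ev_sum, ev_sum]
  have e1 : ∑ t ∈ range (2 * m + 1), ev ((q * bn (q ^ 2) (2 * m + 1) (t + 1)) • gm q ^ (t + 1)) f =
      q * ∑ t ∈ range (2 * m + 1), ev (bn (q ^ 2) (2 * m + 1) (t + 1) • gm q ^ (t + 1)) f := by
    rw [Finset.mul_sum]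
    refine Finset.sum_congr rfl (fun t _ => ?_)
    rw [ev_smul, ev_smul]; ring
  rw [e1]
  have e2 : 0 ≤ ev (bn (q ^ 2) (2 * m + 1) 0 • gm q ^ 0) f := by
    rw [ev_smul]
    exact mul_nonneg (bn_nonneg hκ0.le hκ1 _ _) (((prob_gm h0 h1).pow 0).pos f hf)
  have e3 : 0 ≤ ev (S q (m + 2) (fun i j => bn (q ^ 2) m i * bn (q ^ 2) (m + 1) j)) f := by
    rw [ev_S]
    exact Finset.sum_nonneg (fun i _ => Finset.sum_nonneg (fun j _ =>
      mul_nonneg (mul_nonneg (bn_nonneg hκ0.le hκ1 _ _) (bn_nonneg hκ0.le hκ1 _ _))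
        (pos_term q h0 h1 i j f hf)))
  nlinarith [mul_nonneg h0.le e2, mul_nonneg hq1 e3]

theorem bn_pos {κ : ℝ} (h0 : 0 < κ) (h1 : κ < 1) {m i : ℕ} (hi : i ≤ m) : 0 < bn κ m i := by
  unfold bn
  have h2 : 0 < 1 - κ := by linarith
  have h3 : (0:ℝ) < m.choose i := by exact_mod_cast Nat.choose_pos hi
  positivity

theorem dom_Dl {q : ℝ} (h0 : 0 < q) (h1 : q ≤ 1 / 16) {m : ℕ} (hm : 1 ≤ m) {w : ℝ}
    (hw : w ≤ q ^ 2 * m / 2) :
    Dom (5120 / (q ^ 2 * ((q ^ 2 * m) * Real.sqrt (q ^ 2 * m)))) (D q (xw m)) (Dl q m w) := by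
  have hκ0 : 0 < q ^ 2 := by positivity
  have hκ1 : q ^ 2 ≤ 1 / 16 := by nlinarith
  have hmr : (0:ℝ) < m := by exact_mod_cast hm
  have hκm : 0 < q ^ 2 * m := by positivity
  set κ := q ^ 2 with hκ
  set K : ℝ := 256 / ((κ * m) ^ 2 * Real.sqrt (κ * m)) with hK
  have hsq : 0 < Real.sqrt (κ * m) := Real.sqrt_pos.mpr hκm
  have hK0 : 0 < K := by rw [hK]; positivity
  have hq1 : 0 ≤ 1 - q := by linarith
  -- the pieces
  set V : ℕ → ℝ := fun t => (1 - q) ^ 2 * (5 / q * ∑ i ∈ range (t + 1), lamI κ m w i (t - i) ^ 2) with hV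
  set W : ℕ → ℝ := fun t => q * bn κ (2 * m + 1) (t + 1) with hW
  have hdom : ∀ t ∈ range (2 * m + 1), Dom (V t) (gm q ^ (t + 1)) ((1 - q) •
      ∑ i ∈ range (t + 1), lamI κ m w i (t - i) • (gm q ^ i * (al - gm q) * gm q ^ (t + 1 - 1 - i))) := by
    intro t _
    apply Dom.smul
    exact (orth (prob_gm h0 (by linarith)) (by positivity)
      (by rw [mass_sub, prob_al.one, (prob_gm h0 (by linarith)).one, sub_self])
      (dom_alg h0 h1) (t + 1) (fun i => lamI κ m w i (t - i))).1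
  have hWpos : ∀ t ∈ range (2 * m + 1), 0 < W t := by
    intro t ht
    rw [Finset.mem_range] at ht
    exact mul_pos h0 (bn_pos hκ0 (by linarith) (by omega))
  have hVnn : ∀ t ∈ range (2 * m + 1), 0 ≤ V t := by
    intro t _
    have : 0 ≤ ∑ i ∈ range (t + 1), lamI κ m w i (t - i) ^ 2 :=
      Finset.sum_nonneg (fun i _ => sq_nonneg _)
    show 0 ≤ (1 - q) ^ 2 * (5 / q * ∑ i ∈ range (t + 1), lamI κ m w i (t - i) ^ 2)
    positivity
  -- key estimate on coefficients
  have hb0 : ∀ n i, 0 ≤ bn κ n i := fun n i => bn_nonneg hκ0.le (by linarith) n i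
  have hcoef : ∀ i j, lamI κ m w i j ^ 2 ≤
      K * (bn κ m i * bn κ m j * ((i : ℝ) - j) ^ 2) * bn κ (2 * m + 1) (i + j + 1) := by
    intro i j
    unfold lamI
    by_cases h : typ κ m w i ∧ typ κ m w j
    · rw [if_pos h]; exact lam_sq_le hκ0 (by linarith) hm hκ1 hw h.1 h.2
    · rw [if_neg h, show (0:ℝ) ^ 2 = 0 by norm_num]
      have := hb0 m i
      have := hb0 m j
      have := hb0 (2 * m + 1) (i + j + 1)
      positivity
  have hratio : ∀ t ∈ range (2 * m + 1), V t / W t ≤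
      5 / q ^ 2 * (K * ∑ i ∈ range (t + 1), bn κ m i * bn κ m (t - i) * ((i : ℝ) - (t - i : ℕ)) ^ 2) := by
    intro t ht
    have hWt := hWpos t ht
    rw [div_le_iff₀ hWt]
    have hs : ∑ i ∈ range (t + 1), lamI κ m w i (t - i) ^ 2 ≤
        (K * ∑ i ∈ range (t + 1), bn κ m i * bn κ m (t - i) * ((i : ℝ) - (t - i : ℕ)) ^ 2) *
          bn κ (2 * m + 1) (t + 1) := by
      rw [Finset.mul_sum, Finset.sum_mul]
      refine Finset.sum_le_sum (fun i hi => ?_)
      rw [Finset.mem_range] at hi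
      have := hcoef i (t - i)
      rwa [show i + (t - i) + 1 = t + 1 by omega] at this
    set s1 := ∑ i ∈ range (t + 1), lamI κ m w i (t - i) ^ 2
    set s2 := K * ∑ i ∈ range (t + 1), bn κ m i * bn κ m (t - i) * ((i : ℝ) - (t - i : ℕ)) ^ 2
    have hs1 : 0 ≤ s1 := Finset.sum_nonneg (fun i _ => sq_nonneg _)
    have hc1 : (1 - q) ^ 2 ≤ 1 := by nlinarith
    calc V t = (1 - q) ^ 2 * (5 / q * s1) := rfl
      _ ≤ 1 * (5 / q * s1) := mul_le_mul_of_nonneg_right hc1 (by positivity)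
      _ ≤ 1 * (5 / q * (s2 * bn κ (2 * m + 1) (t + 1))) := by
          have : 0 ≤ 5 / q := by positivity
          nlinarith [mul_le_mul_of_nonneg_left hs this]
      _ = 5 / q ^ 2 * s2 * W t := by
          simp only [hW]; field_simp
  have htot : ∑ t ∈ range (2 * m + 1), V t / W t ≤ 5120 / (κ * ((κ * m) * Real.sqrt (κ * m))) := by
    refine le_trans (Finset.sum_le_sum hratio) ?_
    rw [← Finset.mul_sum, ← Finset.mul_sum]
    have hle : ∑ t ∈ range (2 * m + 1), ∑ i ∈ range (t + 1),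
        bn κ m i * bn κ m (t - i) * ((i : ℝ) - (t - i : ℕ)) ^ 2 ≤ 4 * (κ * m) := by
      refine le_trans ?_ (var2_bn hκ0.le (by linarith) m)
      rw [sum_diag (m + 1) (fun i j => bn κ m i * bn κ m j * ((i : ℝ) - j) ^ 2)]
      · apply Finset.sum_le_sum_of_subset_of_nonneg
        · intro i hi; rw [Finset.mem_range] at hi ⊢; omega
        · intro t _ _
          refine Finset.sum_nonneg (fun i _ => ?_)
          exact mul_nonneg (mul_nonneg (hb0 _ _) (hb0 _ _)) (sq_nonneg _)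
      · intro i j h
        rcases h with h | h
        · rw [bn_of_lt (by omega : m < i)]; ring
        · rw [bn_of_lt (by omega : m < j)]; ring
    calc 5 / q ^ 2 * (K * ∑ t ∈ range (2 * m + 1), ∑ i ∈ range (t + 1),
          bn κ m i * bn κ m (t - i) * ((i : ℝ) - (t - i : ℕ)) ^ 2)
        ≤ 5 / q ^ 2 * (K * (4 * (κ * m))) := by
          have : 0 ≤ 5 / q ^ 2 := by positivity
          gcongr
      _ = 5120 / (κ * ((κ * m) * Real.sqrt (κ * m))) := by
          rw [hK, ← hκ]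
          field_simp
          norm_num
  rw [Dl_eq]
  exact mixsum (range (2 * m + 1)) hdom hWpos hVnn
    (fun t _ => ((prob_gm h0 (by linarith)).pow (t + 1)).pos) htot (ref_le h0 (by linarith) m)

end

end Crest.Agent.R300LB.BaseDom
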