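import Crest.Agent.R300.LBPlan
import Crest.Agent.R300.LBOrth

/-!
# Row 300, lower bounds: E1 (Bessel families, shift-Bessel calculus, block and tensor statements)
-/

set_option autoImplicit false
set_option linter.unusedSectionVars false

namespace Crest.Agent.R300LB

open Finset

noncomputable section

variable {G : Type*} [Monoid G] {ι κ : Type*}

/-! ### calculus of `Bes` -/

theorem Bes.mono {S : Finset ι} {p p' : ℝ} {π : MA G} {U : ι → MA G} (h : Bes S p π U)
    (hp : p ≤ p') (hπ : Pos π) : Bes S p' π U := fun f =>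
  (h f).trans (mul_le_mul_of_nonneg_right hp (hπ.ev_sq f))

theorem Bes.subset {S S' : Finset ι} {p : ℝ} {π : MA G} {U : ι → MA G} (h : Bes S p π U)
    (hS : S' ⊆ S) : Bes S' p π U := fun f =>
  (Finset.sum_le_sum_of_subset_of_nonneg hS fun _ _ _ => sq_nonneg _).trans (h f)

theorem Bes.congr {S : Finset ι} {p : ℝ} {π : MA G} {U U' : ι → MA G} (h : Bes S p π U)
    (hU : ∀ i ∈ S, U i = U' i) : Bes S p π U' := fun f => by
  refine le_trans (le_of_eq (Finset.sum_congr rfl fun i hi => ?_)) (h f)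
  rw [hU i hi]

theorem Bes.congr_ref {S : Finset ι} {p : ℝ} {π π' : MA G} {U : ι → MA G} (h : Bes S p π U)
    (e : π = π') : Bes S p π' U := e ▸ h

theorem Bes.zero {S : Finset ι} {p : ℝ} {π : MA G} (hp : 0 ≤ p) (hπ : Pos π) :
    Bes S p π (fun _ : ι => (0 : MA G)) := fun f => by
  simp only [ev_zero]
  simpa using mul_nonneg hp (hπ.ev_sq f)

theorem Bes.empty {p : ℝ} {π : MA G} {U : ι → MA G} (hp : 0 ≤ p) (hπ : Pos π) :
    Bes (∅ : Finset ι) p π U := fun f => by
  simpa using mul_nonneg hp (hπ.ev_sq f)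

theorem Bes.smul {S : Finset ι} {p : ℝ} {π : MA G} {U : ι → MA G} (h : Bes S p π U) (c : ℝ) :
    Bes S (c ^ 2 * p) π (fun i => c • U i) := fun f => by
  simp only [ev_smul, mul_pow]
  rw [← Finset.mul_sum, mul_assoc]
  exact mul_le_mul_of_nonneg_left (h f) (sq_nonneg c)

theorem Bes.neg {S : Finset ι} {p : ℝ} {π : MA G} {U : ι → MA G} (h : Bes S p π U) :
    Bes S p π (fun i => - U i) := fun f => by
  simp only [ev_neg, neg_sq]
  exact h f

/-- weights of absolute value at most one -/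
theorem Bes.weight {S : Finset ι} {p : ℝ} {π : MA G} {U : ι → MA G} (h : Bes S p π U)
    {c : ι → ℝ} (hc : ∀ i ∈ S, |c i| ≤ 1) : Bes S p π (fun i => c i • U i) := fun f => by
  refine le_trans (Finset.sum_le_sum fun i hi => ?_) (h f)
  rw [ev_smul, mul_pow]
  have h1 : c i ^ 2 ≤ 1 := by
    have := hc i hi
    rw [← sq_abs]
    exact pow_le_one₀ (abs_nonneg _) this
  nlinarith [sq_nonneg (ev (U i) f)]

/-- Minkowski for `√p` -/
theorem Bes.add {S : Finset ι} {x y : ℝ} {π : MA G} {U W : ι → MA G} (h1 : Bes S (x ^ 2) π U)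
    (h2 : Bes S (y ^ 2) π W) (hx : 0 ≤ x) (hy : 0 ≤ y) (hπ : Pos π) :
    Bes S ((x + y) ^ 2) π (fun i => U i + W i) := fun f => by
  have p := hπ.ev_sq f
  have a1 := h1 f
  have a2 := h2 f
  set X := ev π (fun w => f w ^ 2)
  obtain ⟨r, hr0, hr⟩ : ∃ r, 0 ≤ r ∧ r ^ 2 = X := ⟨Real.sqrt X, Real.sqrt_nonneg _, Real.sq_sqrt p⟩
  rw [← hr] at a1 a2 ⊢
  simp only [ev_add]
  set A : ι → ℝ := fun i => ev (U i) f
  set B : ι → ℝ := fun i => ev (W i) f
  have hA : ∑ i ∈ S, A i ^ 2 ≤ (x * r) ^ 2 := by rw [mul_pow]; exact a1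
  have hB : ∑ i ∈ S, B i ^ 2 ≤ (y * r) ^ 2 := by rw [mul_pow]; exact a2
  have hcs : (∑ i ∈ S, A i * B i) ^ 2 ≤ (∑ i ∈ S, A i ^ 2) * (∑ i ∈ S, B i ^ 2) :=
    Finset.sum_mul_sq_le_sq_mul_sq S A B
  have hAB : ∑ i ∈ S, A i * B i ≤ (x * r) * (y * r) := by
    refine le_of_abs_le (abs_le_of_sq_le_sq ?_ (by positivity))
    calc (∑ i ∈ S, A i * B i) ^ 2 ≤ (∑ i ∈ S, A i ^ 2) * (∑ i ∈ S, B i ^ 2) := hcs
      _ ≤ (x * r) ^ 2 * (y * r) ^ 2 :=
          mul_le_mul hA hB (Finset.sum_nonneg fun _ _ => sq_nonneg _) (sq_nonneg _)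
      _ = ((x * r) * (y * r)) ^ 2 := by ring
  have e : ∑ i ∈ S, (A i + B i) ^ 2
      = ∑ i ∈ S, A i ^ 2 + 2 * ∑ i ∈ S, A i * B i + ∑ i ∈ S, B i ^ 2 := by
    rw [Finset.mul_sum, ← Finset.sum_add_distrib, ← Finset.sum_add_distrib]
    exact Finset.sum_congr rfl fun i _ => by ring
  show ∑ i ∈ S, (A i + B i) ^ 2 ≤ _
  rw [e]
  nlinarith

theorem Bes.sub {S : Finset ι} {x y : ℝ} {π : MA G} {U W : ι → MA G} (h1 : Bes S (x ^ 2) π U)
    (h2 : Bes S (y ^ 2) π W) (hx : 0 ≤ x) (hy : 0 ≤ y) (hπ : Pos π) :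
    Bes S ((x + y) ^ 2) π (fun i => U i - W i) := by
  simp only [sub_eq_add_neg]
  exact h1.add h2.neg hx hy hπ

theorem Bes.sum {S : Finset ι} {K : Finset κ} {x : κ → ℝ} {π : MA G} {U : κ → ι → MA G}
    (h : ∀ j ∈ K, Bes S (x j ^ 2) π (U j)) (hx : ∀ j ∈ K, 0 ≤ x j) (hπ : Pos π) :
    Bes S ((∑ j ∈ K, x j) ^ 2) π (fun i => ∑ j ∈ K, U j i) := by
  classical
  induction K using Finset.induction_on with
  | empty => simpa using Bes.zero (S := S) (le_refl (0:ℝ)) hπ
  | insert j K hj ih =>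
    simp only [Finset.sum_insert hj]
    exact (h j (Finset.mem_insert_self _ _)).add
      (ih (fun i hi => h i (Finset.mem_insert_of_mem hi))
        (fun i hi => hx i (Finset.mem_insert_of_mem hi))) (hx j (Finset.mem_insert_self _ _))
      (Finset.sum_nonneg fun i hi => hx i (Finset.mem_insert_of_mem hi)) hπ

/-- one member -/
theorem Bes.dom {S : Finset ι} {p : ℝ} {π : MA G} {U : ι → MA G} (h : Bes S p π U) {i : ι}
    (hi : i ∈ S) : Dom p π (U i) := fun f =>
  (Finset.single_le_sum (f := fun i => (ev (U i) f) ^ 2) (fun _ _ => sq_nonneg _) hi).trans (h f)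

/-- linear combinations: `Bes → Dom` -/
theorem Bes.dom_sum {S : Finset ι} {p : ℝ} {π : MA G} {U : ι → MA G} (h : Bes S p π U)
    (c : ι → ℝ) : Dom (p * ∑ i ∈ S, c i ^ 2) π (∑ i ∈ S, c i • U i) := fun f => by
  rw [ev_sum]
  simp only [ev_smul]
  calc (∑ i ∈ S, c i * ev (U i) f) ^ 2
      ≤ (∑ i ∈ S, c i ^ 2) * (∑ i ∈ S, (ev (U i) f) ^ 2) :=
        Finset.sum_mul_sq_le_sq_mul_sq S c fun i => ev (U i) f
    _ ≤ (∑ i ∈ S, c i ^ 2) * (p * ev π fun w => f w ^ 2) :=
        mul_le_mul_of_nonneg_left (h f) (Finset.sum_nonneg fun _ _ => sq_nonneg _)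
    _ = _ := by ring

/-- linear combinations: `Dom → Bes` -/
theorem Bes.of_dom {S : Finset ι} {p : ℝ} {π : MA G} {U : ι → MA G} (hp : 0 ≤ p) (hπ : Pos π)
    (h : ∀ c : ι → ℝ, Dom (p * ∑ i ∈ S, c i ^ 2) π (∑ i ∈ S, c i • U i)) : Bes S p π U := fun f => by
  have h1 := h (fun i => ev (U i) f) f
  rw [ev_sum] at h1
  simp only [ev_smul] at h1
  set s := ∑ i ∈ S, (ev (U i) f) ^ 2 with hs
  have hs0 : 0 ≤ s := Finset.sum_nonneg fun _ _ => sq_nonneg _
  have e : ∑ i ∈ S, ev (U i) f * ev (U i) f = s :=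
    Finset.sum_congr rfl fun i _ => by rw [sq]
  rw [e] at h1
  have hX : 0 ≤ p * ev π fun w => f w ^ 2 := mul_nonneg hp (hπ.ev_sq f)
  by_contra hlt
  push Not at hlt
  have hspos : 0 < s := lt_of_le_of_lt hX hlt
  have : s ^ 2 ≤ s * (p * ev π fun w => f w ^ 2) := by
    calc s ^ 2 ≤ p * s * ev π (fun w => f w ^ 2) := h1
      _ = _ := by ring
  nlinarith

theorem bes_iff_dom {S : Finset ι} {p : ℝ} {π : MA G} {U : ι → MA G} (hp : 0 ≤ p) (hπ : Pos π) :
    Bes S p π U ↔ ∀ c : ι → ℝ, Dom (p * ∑ i ∈ S, c i ^ 2) π (∑ i ∈ S, c i • U i) :=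
  ⟨fun h c => h.dom_sum c, fun h => Bes.of_dom hp hπ h⟩

/-- a single measure -/
theorem Dom.bes {p : ℝ} {π ν : MA G} (h : Dom p π ν) (i : ι) : Bes ({i} : Finset ι) p π (fun _ => ν) :=
  fun f => by simpa using h f

/-- trivial Bessel inequality: constants add -/
theorem Bes.of_dom_sum {S : Finset ι} {p : ι → ℝ} {π : MA G} {U : ι → MA G}
    (h : ∀ i ∈ S, Dom (p i) π (U i)) : Bes S (∑ i ∈ S, p i) π U := fun f => by
  rw [Finset.sum_mul]
  exact Finset.sum_le_sum fun i hi => h i hi f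

/-- trivial Bessel inequality: `card * p` -/
theorem Bes.of_dom_card {S : Finset ι} {p : ℝ} {π : MA G} {U : ι → MA G}
    (h : ∀ i ∈ S, Dom p π (U i)) : Bes S (S.card * p) π U := by
  have := Bes.of_dom_sum (p := fun _ => p) h
  rwa [Finset.sum_const, nsmul_eq_mul] at this

/-- disjoint union (or any cover) -/
theorem Bes.union [DecidableEq ι] {S T : Finset ι} {p q : ℝ} {π : MA G} {U : ι → MA G}
    (h1 : Bes S p π U) (h2 : Bes T q π U) : Bes (S ∪ T) (p + q) π U := fun f => by
  have : ∑ i ∈ S ∪ T, (ev (U i) f) ^ 2 ≤ ∑ i ∈ S, (ev (U i) f) ^ 2 + ∑ i ∈ T, (ev (U i) f) ^ 2 := by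
    have h := Finset.sum_union_inter (s₁ := S) (s₂ := T) (f := fun i => (ev (U i) f) ^ 2)
    have h0 : 0 ≤ ∑ i ∈ S ∩ T, (ev (U i) f) ^ 2 := Finset.sum_nonneg fun _ _ => sq_nonneg _
    linarith
  rw [add_mul]
  linarith [h1 f, h2 f]

/-- union of many families -/
theorem Bes.biUnion [DecidableEq ι] {K : Finset κ} {S : κ → Finset ι} {p : κ → ℝ} {π : MA G}
    {U : ι → MA G} (h : ∀ j ∈ K, Bes (S j) (p j) π U) :
    Bes (K.biUnion S) (∑ j ∈ K, p j) π U := by
  classical
  induction K using Finset.induction_on with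
  | empty => intro f; simp
  | insert j K hj ih =>
    rw [Finset.biUnion_insert, Finset.sum_insert hj]
    exact (h j (Finset.mem_insert_self _ _)).union (ih fun i hi => h i (Finset.mem_insert_of_mem hi))

/-- pull back along an injective map of index sets -/
theorem Bes.comap {S : Finset ι} {T : Finset κ} {p : ℝ} {π : MA G} {U : ι → MA G}
    (h : Bes S p π U) (φ : κ → ι) (hφ : ∀ j ∈ T, φ j ∈ S)
    (hinj : ∀ j ∈ T, ∀ j' ∈ T, φ j = φ j' → j = j') : Bes T p π (fun j => U (φ j)) := fun f => by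
  classical
  refine le_trans (le_of_eq ?_) ((h.subset (S' := T.image φ) ?_) f)
  · rw [Finset.sum_image]
    intro j hj j' hj' e
    exact hinj j hj j' hj' e
  · intro i hi
    obtain ⟨j, hj, rfl⟩ := Finset.mem_image.1 hi
    exact hφ j hj

/-- push forward: every member of the family `U` on `T` occurs in the family `W` on `S`,
different members at different places -/
theorem Bes.of_comap {S : Finset ι} {T : Finset κ} {p : ℝ} {π : MA G} {U : ι → MA G}
    {W : κ → MA G} (h : Bes S p π U) (φ : κ → ι) (hφ : ∀ j ∈ T, φ j ∈ S)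
    (hinj : ∀ j ∈ T, ∀ j' ∈ T, φ j = φ j' → j = j') (hW : ∀ j ∈ T, W j = U (φ j)) :
    Bes T p π W :=
  (h.comap φ hφ hinj).congr fun j hj => (hW j hj).symm

/-! ### products -/

/-- Bessel is preserved under multiplication by `Pos` measures (the mass is lost) -/
theorem Bes.mulLeft_pos {S : Finset ι} {p : ℝ} {s π : MA G} {U : ι → MA G} (h : Bes S p π U)
    (hs : Pos s) : Bes S (mass s * p) (s * π) (fun i => s * U i) := fun f => by
  have h1 : ∀ i ∈ S, (ev (s * U i) f) ^ 2
      ≤ mass s * ev s (fun u => (ev (U i) fun v => f (u * v)) ^ 2) := fun i _ => by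
    rw [ev_mul]
    exact (Dom.self hs) fun u => ev (U i) fun v => f (u * v)
  refine (Finset.sum_le_sum h1).trans ?_
  rw [← Finset.mul_sum, ← ev_sum_fun, mul_assoc]
  refine mul_le_mul_of_nonneg_left ?_ hs.mass_nonneg
  rw [ev_mul, ← ev_mul_fun]
  exact hs.mono fun u => h fun v => f (u * v)

theorem Bes.mulLeft {S : Finset ι} {p : ℝ} {a π : MA G} {U : ι → MA G} (h : Bes S p π U)
    (ha : Prob a) : Bes S p (a * π) (fun i => a * U i) := by
  have := h.mulLeft_pos ha.pos
  rwa [ha.mass, one_mul] at this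

theorem ev_mul' (μ ν : MA G) (f : G → ℝ) :
    ev (μ * ν) f = ev ν (fun v => ev μ (fun u => f (u * v))) := by
  rw [ev_mul, ev_swap]

theorem Bes.mulRight_pos {S : Finset ι} {p : ℝ} {s π : MA G} {U : ι → MA G} (h : Bes S p π U)
    (hs : Pos s) : Bes S (p * mass s) (π * s) (fun i => U i * s) := fun f => by
  have h1 : ∀ i ∈ S, (ev (U i * s) f) ^ 2
      ≤ mass s * ev s (fun v => (ev (U i) fun u => f (u * v)) ^ 2) := fun i _ => by
    rw [ev_mul']
    exact (Dom.self hs) fun v => ev (U i) fun u => f (u * v)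
  refine (Finset.sum_le_sum h1).trans ?_
  rw [← Finset.mul_sum, ← ev_sum_fun, mul_comm p, mul_assoc]
  refine mul_le_mul_of_nonneg_left ?_ hs.mass_nonneg
  rw [ev_mul', ← ev_mul_fun]
  exact hs.mono fun v => h fun u => f (u * v)

theorem Bes.mulRight {S : Finset ι} {p : ℝ} {a π : MA G} {U : ι → MA G} (h : Bes S p π U)
    (ha : Prob a) : Bes S p (π * a) (fun i => U i * a) := by
  have := h.mulRight_pos ha.pos
  rwa [ha.mass, mul_one] at this

/-- product with a fixed `Dom` measure on the right -/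
theorem Bes.mulRight_dom {S : Finset ι} {p q : ℝ} {π π' H : MA G} {U : ι → MA G} (h : Bes S p π U)
    (hH : Dom q π' H) (hp : 0 ≤ p) (hπ : Pos π) :
    Bes S (p * q) (π * π') (fun i => U i * H) := fun f => by
  have h1 : ∑ i ∈ S, (ev (U i * H) f) ^ 2
      ≤ p * ev π (fun u => (ev H fun v => f (u * v)) ^ 2) := by
    have := h fun u => ev H fun v => f (u * v)
    simpa only [← ev_mul] using this
  refine h1.trans ?_
  rw [mul_assoc]
  refine mul_le_mul_of_nonneg_left ?_ hp
  rw [ev_mul, ← ev_mul_fun]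
  exact hπ.mono fun u => hH fun v => f (u * v)

/-- product with a fixed `Dom` measure on the left -/
theorem Bes.mulLeft_dom {S : Finset ι} {p q : ℝ} {π π' H : MA G} {U : ι → MA G} (h : Bes S p π U)
    (hH : Dom q π' H) (hp : 0 ≤ p) (hπ : Pos π) :
    Bes S (q * p) (π' * π) (fun i => H * U i) := fun f => by
  have h1 : ∑ i ∈ S, (ev (H * U i) f) ^ 2
      ≤ p * ev π (fun v => (ev H fun u => f (u * v)) ^ 2) := by
    have := h fun v => ev H fun u => f (u * v)
    simpa only [← ev_mul'] using this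
  refine h1.trans ?_
  rw [mul_comm q, mul_assoc]
  refine mul_le_mul_of_nonneg_left ?_ hp
  rw [ev_mul', ← ev_mul_fun]
  exact hπ.mono fun v => hH fun u => f (u * v)

/-- tensor product of two families -/
theorem Bes.prod {S : Finset ι} {T : Finset κ} {p q : ℝ} {π π' : MA G} {U : ι → MA G}
    {W : κ → MA G} (h1 : Bes S p π U) (h2 : Bes T q π' W) (hp : 0 ≤ p) (hπ : Pos π) :
    Bes (S ×ˢ T) (p * q) (π * π') (fun x => U x.1 * W x.2) := fun f => by
  rw [Finset.sum_product_right]
  have h3 : ∀ j ∈ T, ∑ i ∈ S, (ev (U i * W j) f) ^ 2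
      ≤ p * ev π (fun u => (ev (W j) fun v => f (u * v)) ^ 2) := fun j _ => by
    have := h1 fun u => ev (W j) fun v => f (u * v)
    simpa only [← ev_mul] using this
  refine (Finset.sum_le_sum h3).trans ?_
  rw [← Finset.mul_sum, ← ev_sum_fun, mul_assoc]
  refine mul_le_mul_of_nonneg_left ?_ hp
  rw [ev_mul, ← ev_mul_fun]
  exact hπ.mono fun u => h2 fun v => f (u * v)

/-- diagonal tensor product -/
theorem Bes.diag {S : Finset ι} {p q : ℝ} {π π' : MA G} {U W : ι → MA G}
    (h1 : Bes S p π U) (h2 : Bes S q π' W) (hp : 0 ≤ p) (hπ : Pos π) :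
    Bes S (p * q) (π * π') (fun x => U x * W x) :=
  (h1.prod h2 hp hπ).comap (fun i => (i, i)) (fun _ hi => Finset.mem_product.2 ⟨hi, hi⟩)
    fun _ _ _ _ e => (Prod.mk.inj e).1

/-! ### orthogonality of two slots -/

/-- variance form of Bessel for mean zero measures -/
theorem Bes.var {S : Finset ι} {p : ℝ} {a : MA G} {U : ι → MA G} (h : Bes S p a U) (ha : Prob a)
    (hU : ∀ i ∈ S, mass (U i) = 0) (f : G → ℝ) :
    ∑ i ∈ S, (ev (U i) f) ^ 2 ≤ p * (ev a (fun w => f w ^ 2) - (ev a f) ^ 2) := by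
  have := h (fun w => f w - ev a f)
  rw [ha.var] at this
  refine le_trans (le_of_eq (Finset.sum_congr rfl fun i hi => ?_)) this
  rw [ev_sub_const (hU i hi)]

/-- two slots: `U i` (mean zero) in the first slot, `W j` in the second one -/
theorem bes_two_slots {S : Finset ι} {T : Finset κ} {p : ℝ} {π π' : MA G} {U : ι → MA G}
    {W : κ → MA G} (h1 : Bes S p π U) (h2 : Bes T p π' W) (hπ : Prob π)
    (hπ' : Prob π') (hU : ∀ i ∈ S, mass (U i) = 0) (f : G → ℝ) :
    ∑ i ∈ S, (ev (U i * π') f) ^ 2 + ∑ j ∈ T, (ev (π * W j) f) ^ 2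
      ≤ p * ev (π * π') (fun w => f w ^ 2) := by
  have A : ∑ i ∈ S, (ev (U i * π') f) ^ 2
      ≤ p * ev π' (fun v => ev π (fun u => f (u * v) ^ 2) - (ev π fun u => f (u * v)) ^ 2) := by
    have e : ∀ i ∈ S, (ev (U i * π') f) ^ 2 ≤ ev π' (fun v => (ev (U i) fun u => f (u * v)) ^ 2) :=
      fun i _ => by
        rw [ev_mul']
        have := (Dom.self_prob hπ') fun v => ev (U i) fun u => f (u * v)
        rwa [one_mul] at this
    refine (Finset.sum_le_sum e).trans ?_
    rw [← ev_sum_fun, ← ev_mul_fun]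
    exact hπ'.pos.mono fun v => h1.var hπ hU fun u => f (u * v)
  have B : ∑ j ∈ T, (ev (π * W j) f) ^ 2
      ≤ p * ev π' (fun v => (ev π fun u => f (u * v)) ^ 2) := by
    have := h2 fun v => ev π fun u => f (u * v)
    simpa only [← ev_mul'] using this
  have e : ev (π * π') (fun w => f w ^ 2) = ev π' fun v => ev π fun u => f (u * v) ^ 2 := by
    rw [ev_mul']
  rw [ev_sub_fun] at A
  rw [e]
  linarith

/-! ### E1a -/

/-- disjoint blocks with spacing `c` -/
theorem bes_slots {S : Finset ι} {p : ℝ} {a : MA G} {B : ι → MA G} {b c : ℕ} (ha : Prob a)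
    (hB : Bes S p (a ^ b) B) (hm : ∀ i ∈ S, mass (B i) = 0) (hp : 0 ≤ p) (hbc : b ≤ c) (n : ℕ) :
    ∀ N : ℕ, (∀ t < n, c * t + b ≤ N) → ∀ f : G → ℝ,
      ∑ t ∈ range n, ∑ i ∈ S, (ev (a ^ (c * t) * B i * a ^ (N - (c * t + b))) f) ^ 2
        ≤ p * ev (a ^ N) (fun w => f w ^ 2) := by
  induction n with
  | zero => intro N _ f; simpa using mul_nonneg hp ((ha.pow N).pos.ev_sq f)
  | succ n ih =>
    intro N hN f
    rcases Nat.eq_zero_or_pos n with h0 | hpos
    · subst h0
      have h1 := hN 0 Nat.one_pos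
      have h2 := (hB.mulRight (ha.pow (N - b))) f
      have e : b + (N - b) = N := by omega
      rw [← pow_add, e] at h2
      simpa using h2
    · have h1 := hN n (Nat.lt_succ_self n)
      have hcN : c ≤ N := by
        have : c * 1 ≤ c * n := Nat.mul_le_mul_left c hpos
        omega
      rw [Finset.sum_range_succ']
      have ih' := ih (N - c) (fun t ht => by
        have := hN (t + 1) (Nat.succ_lt_succ ht)
        rw [Nat.mul_succ] at this
        omega)
      have h2 : Bes (range n ×ˢ S) p (a ^ (N - c))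
          (fun x => a ^ (c * x.1) * B x.2 * a ^ (N - c - (c * x.1 + b))) := fun g => by
        rw [Finset.sum_product]
        exact ih' g
      have h3 := bes_two_slots (hB.mulRight (ha.pow (c - b))) h2 ((ha.pow b).mul (ha.pow (c - b)))
        (ha.pow _) (fun i hi => by rw [mass_mul, hm i hi, zero_mul]) f
      have e1 : b + (c - b) = c := by omega
      have e2 : c + (N - c) = N := by omega
      rw [← pow_add, e1, ← pow_add, e2, Finset.sum_product] at h3
      refine le_trans (le_of_eq ?_) h3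
      rw [add_comm]
      congr 1
      · refine Finset.sum_congr rfl fun i _ => ?_
        rw [mul_zero, pow_zero, one_mul, zero_add, mul_assoc, ← pow_add]
        have : c - b + (N - c) = N - b := by omega
        rw [this]
      · refine Finset.sum_congr rfl fun t ht => Finset.sum_congr rfl fun i _ => ?_
        have hle := hN (t + 1) (Nat.succ_lt_succ (Finset.mem_range.1 ht))
        have : N - (c * (t + 1) + b) = N - c - (c * t + b) := by
          rw [Nat.mul_succ]; omega
        rw [this, ← mul_assoc, ← mul_assoc, ← pow_add]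
        have e : c * (t + 1) = c + c * t := by rw [Nat.mul_succ]; omega
        rw [e]

theorem block : BlockStatement := by
  intro G _ a Z z l l0 l1 C p ha hZ hp hl hl1 hC hB T
  rcases Nat.eq_zero_or_pos C with h0 | hCpos
  · -- degenerate case
    subst h0
    have hz : z = 0 := by omega
    have h00 : l0 = 0 := by omega
    have h11 : l1 = 0 := by omega
    subst hz; subst h00; subst h11
    have hev : ∀ f : G → ℝ, ev Z f = 0 := by
      intro f
      have h := hB (fun w => f w - f 1)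
      simp only [Nat.add_zero, pow_zero, ev_one, sub_self, zero_pow two_ne_zero, mul_zero] at h
      have h2 := (Finset.single_le_sum (f := fun x => (ev (a ^ (0 + x) * Z * a ^ (0 - x))
        fun w => f w - f 1) ^ 2) (fun _ _ => sq_nonneg _) (Finset.mem_range.2 hl)).trans h
      simp only [Nat.add_zero, Nat.sub_zero, pow_zero, one_mul, mul_one] at h2
      rw [ev_sub_const hZ] at h2
      exact pow_eq_zero_iff two_ne_zero |>.1 (le_antisymm h2 (sq_nonneg _))
    intro f
    have e : ∀ x : ℕ, ev (a ^ x * Z * a ^ (T - x)) f = 0 := fun x => by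
      rw [mul_assoc, ev_mul]
      have : ∀ u, ev (Z * a ^ (T - x)) (fun v => f (u * v)) = 0 := fun u => by
        rw [ev_mul]; exact hev _
      simp only [this]
      have h := ev_mul_fun (a ^ x) 0 (fun _ => 0)
      simpa using h
    simp only [e]
    simp
  -- main case
  have hc : 0 < C * l := Nat.mul_pos hCpos hl
  set b := l0 + l1 + z with hb
  -- one residue class
  have hclass : ∀ ρ ∈ range C, Bes ((Finset.Icc (l0 + l1) (T - (l0 + l1))).filter
      (fun x => (x - l0) / l % C = ρ)) p (a ^ (T + z)) (fun x => a ^ x * Z * a ^ (T - x)) := by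
    intro ρ _
    rcases ((Finset.Icc (l0 + l1) (T - (l0 + l1))).filter
      (fun x => (x - l0) / l % C = ρ)).eq_empty_or_nonempty with he | ⟨x0, hx0⟩
    · rw [he]; exact Bes.empty hp (ha.pow _).pos
    -- arithmetic of a member of the class
    have arith : ∀ x ∈ (Finset.Icc (l0 + l1) (T - (l0 + l1))).filter
        (fun x => (x - l0) / l % C = ρ),
        l0 + l1 ≤ x ∧ x + (l0 + l1) ≤ T ∧
          ρ * l + C * l * ((x - l0) / l / C) + (x - l0) % l + l0 = x := by
      intro x hx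
      rw [Finset.mem_filter, Finset.mem_Icc] at hx
      obtain ⟨⟨hx1, hx2⟩, hx3⟩ := hx
      refine ⟨hx1, ?_, ?_⟩
      · by_cases hT : l0 + l1 ≤ T
        · omega
        · have : T - (l0 + l1) = 0 := by omega
          omega
      · have e1 := Nat.div_add_mod (x - l0) l
        have e2 := Nat.div_add_mod ((x - l0) / l) C
        rw [hx3] at e2
        have e3 : l * ((x - l0) / l) = ρ * l + C * l * ((x - l0) / l / C) := by
          calc l * ((x - l0) / l) = l * (C * ((x - l0) / l / C) + ρ) := by rw [e2]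
            _ = _ := by ring
        omega
    obtain ⟨hx01, hx02, hx03⟩ := arith x0 hx0
    set N := T + z - ρ * l with hN
    set n := (N - b) / (C * l) + 1 with hn
    have hbN : b ≤ N := by omega
    have hfit : ∀ t < n, C * l * t + b ≤ N := by
      intro t ht
      have h1 : t ≤ (N - b) / (C * l) := Nat.lt_succ_iff.1 ht
      have h2 : C * l * t ≤ C * l * ((N - b) / (C * l)) := Nat.mul_le_mul_left _ h1
      have h3 := Nat.mul_div_le (N - b) (C * l)
      omega
    have hmain : Bes (range n ×ˢ range l) p (a ^ N)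
        (fun x => a ^ (C * l * x.1) * (a ^ (l0 + x.2) * Z * a ^ (l1 - x.2))
          * a ^ (N - (C * l * x.1 + b))) := fun g => by
      rw [Finset.sum_product]
      exact bes_slots ha hB (fun i _ => by rw [mass_mul, mass_mul, hZ]; ring) hp hC n N hfit g
    have hmain2 := (hmain.mulLeft (ha.pow (ρ * l))).congr_ref (π' := a ^ (T + z)) (by
      rw [← pow_add]; congr 1; omega)
    refine hmain2.of_comap (fun x => ((x - l0) / l / C, (x - l0) % l)) ?_ ?_ ?_
    · intro x hx
      obtain ⟨h1, h2, h3⟩ := arith x hx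
      rw [Finset.mem_product, Finset.mem_range, Finset.mem_range]
      refine ⟨?_, Nat.mod_lt _ hl⟩
      rw [hn, Nat.lt_succ_iff, Nat.le_div_iff_mul_le hc]
      have : (x - l0) / l / C * (C * l) = C * l * ((x - l0) / l / C) := Nat.mul_comm _ _
      show (x - l0) / l / C * (C * l) ≤ N - b
      omega
    · intro x hx x' hx' e
      obtain ⟨_, _, h3⟩ := arith x hx
      obtain ⟨_, _, h3'⟩ := arith x' hx'
      obtain ⟨e1, e2⟩ := Prod.mk.inj e
      rw [e1, e2] at h3
      omega
    · intro x hx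
      obtain ⟨h1, h2, h3⟩ := arith x hx
      have hlt : (x - l0) % l < l := Nat.mod_lt _ hl
      have hfit' : C * l * ((x - l0) / l / C) + b ≤ N := by omega
      show a ^ x * Z * a ^ (T - x) = a ^ (ρ * l) * (a ^ (C * l * ((x - l0) / l / C))
        * (a ^ (l0 + (x - l0) % l) * Z * a ^ (l1 - (x - l0) % l))
        * a ^ (N - (C * l * ((x - l0) / l / C) + b)))
      have e1 : a ^ x = a ^ (ρ * l) * a ^ (C * l * ((x - l0) / l / C)) * a ^ (l0 + (x - l0) % l) := by
        rw [← pow_add, ← pow_add]; congr 1; omega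
      have e2 : a ^ (T - x) = a ^ (l1 - (x - l0) % l)
          * a ^ (N - (C * l * ((x - l0) / l / C) + b)) := by
        rw [← pow_add]; congr 1; omega
      rw [e1, e2]
      simp only [mul_assoc]
  -- sum over the classes
  intro f
  have hsum := Finset.sum_fiberwise_of_maps_to (s := Finset.Icc (l0 + l1) (T - (l0 + l1)))
    (t := range C) (g := fun x => (x - l0) / l % C)
    (fun x _ => Finset.mem_range.2 (Nat.mod_lt _ hCpos))
    (fun x => (ev (a ^ x * Z * a ^ (T - x)) f) ^ 2)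
  rw [← hsum]
  refine (Finset.sum_le_sum fun ρ hρ => hclass ρ hρ f).trans ?_
  rw [Finset.sum_const, Finset.card_range, nsmul_eq_mul, mul_assoc]

theorem domSB : DomSBStatement := by
  intro G _ a Z z V ha hZ hV hz hd
  have h := block G a Z z 1 0 0 z V ha hZ hV le_rfl (by omega) (by omega) (fun f => by
    simpa using hd f)
  simpa using h

theorem tensor : TensorStatement := by
  intro G _ a W w Pd D p ha hW hp hD hPd hw h
  have hl : 1 ≤ D - 2 * Pd := by omega
  have hbase : Bes (range (D - 2 * Pd)) p (a ^ (D + w))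
      (fun x => a ^ (Pd + x) * W * a ^ (D - (Pd + x))) :=
    (h D).comap (fun x => Pd + x) (fun x hx => by
      have := Finset.mem_range.1 hx
      exact Finset.mem_Icc.2 ⟨by omega, by omega⟩) (fun x _ y _ e => by
      have : Pd + x = Pd + y := e
      omega)
  have h2 := hbase.diag hbase hp (ha.pow _).pos
  have h3 := block G a (W * a ^ D * W) (2 * w + D) (D - 2 * Pd) Pd (D - Pd) 5 (p ^ 2) ha
    (by rw [mass_mul, hW, mul_zero]) (sq_nonneg p) hl (by omega) (by omega) (fun f => by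
      have e : a ^ (Pd + (D - Pd) + (2 * w + D)) = a ^ (D + w) * a ^ (D + w) := by
        rw [← pow_add]; congr 1; omega
      have h4 := h2 f
      rw [e, sq p]
      refine le_trans (le_of_eq (Finset.sum_congr rfl fun x hx => ?_)) h4
      have hx' := Finset.mem_range.1 hx
      have e1 : a ^ D = a ^ (D - (Pd + x)) * a ^ (Pd + x) := by
        rw [← pow_add]; congr 1; omega
      have e2 : D - Pd - x = D - (Pd + x) := by omega
      beta_reduce
      rw [e1, e2]
      simp only [mul_assoc])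
  have e5 : Pd + (D - Pd) = D := by omega
  rw [e5] at h3
  simpa using h3

/-! ### calculus of `SB` -/

theorem SB.mono {p p' : ℝ} {a Z : MA G} {z Pd Pd' : ℕ} (h : SB p a Z z Pd) (ha : Pos a)
    (hp : p ≤ p') (hPd : Pd ≤ Pd') : SB p' a Z z Pd' := fun T =>
  ((h T).mono hp (ha.pow _)).subset fun x hx => by
    rw [Finset.mem_Icc] at hx ⊢
    omega

theorem SB.zero {p : ℝ} {a : MA G} {z Pd : ℕ} (hp : 0 ≤ p) (ha : Pos a) : SB p a 0 z Pd :=
  fun T => by
    have := Bes.zero (S := Finset.Icc Pd (T - Pd)) hp (ha.pow (T + z))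
    simpa using this

theorem SB.smul {p : ℝ} {a Z : MA G} {z Pd : ℕ} (h : SB p a Z z Pd) (c : ℝ) :
    SB (c ^ 2 * p) a (c • Z) z Pd := fun T =>
  ((h T).smul c).congr fun x _ => by
    rw [mul_smul_comm, smul_mul_assoc]

theorem SB.neg {p : ℝ} {a Z : MA G} {z Pd : ℕ} (h : SB p a Z z Pd) : SB p a (-Z) z Pd := fun T =>
  (h T).neg.congr fun x _ => by rw [mul_neg, neg_mul]

theorem SB.add {x y : ℝ} {a Z Y : MA G} {z Pd : ℕ} (h1 : SB (x ^ 2) a Z z Pd)
    (h2 : SB (y ^ 2) a Y z Pd) (hx : 0 ≤ x) (hy : 0 ≤ y) (ha : Pos a) :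
    SB ((x + y) ^ 2) a (Z + Y) z Pd := fun T =>
  ((h1 T).add (h2 T) hx hy (ha.pow _)).congr fun i _ => by rw [mul_add, add_mul]

theorem SB.sub {x y : ℝ} {a Z Y : MA G} {z Pd : ℕ} (h1 : SB (x ^ 2) a Z z Pd)
    (h2 : SB (y ^ 2) a Y z Pd) (hx : 0 ≤ x) (hy : 0 ≤ y) (ha : Pos a) :
    SB ((x + y) ^ 2) a (Z - Y) z Pd := by
  rw [sub_eq_add_neg]; exact h1.add h2.neg hx hy ha

theorem SB.sum {K : Finset κ} {x : κ → ℝ} {a : MA G} {Z : κ → MA G} {z Pd : ℕ}
    (h : ∀ j ∈ K, SB (x j ^ 2) a (Z j) z Pd) (hx : ∀ j ∈ K, 0 ≤ x j) (ha : Pos a) :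
    SB ((∑ j ∈ K, x j) ^ 2) a (∑ j ∈ K, Z j) z Pd := fun T =>
  (Bes.sum (fun j hj => h j hj T) hx (ha.pow _)).congr fun i _ => by
    rw [Finset.mul_sum, Finset.sum_mul]

/-- shift: `a ^ i * Z * a ^ j` -/
theorem SB.shift {p : ℝ} {a Z : MA G} {z Pd : ℕ} (h : SB p a Z z Pd) (i j : ℕ) :
    SB p a (a ^ i * Z * a ^ j) (i + z + j) Pd := fun T => by
  have e : T + i + j + z = T + (i + z + j) := by omega
  refine ((h (T + i + j)).congr_ref (by rw [e])).of_comap (fun x => x + i) ?_ ?_ ?_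
  · intro x hx
    rw [Finset.mem_Icc] at hx ⊢
    omega
  · intro x _ y _ e
    have : x + i = y + i := e
    omega
  · intro x hx
    rw [Finset.mem_Icc] at hx
    have e1 : a ^ (x + i) = a ^ x * a ^ i := pow_add _ _ _
    have e2 : a ^ (T + i + j - (x + i)) = a ^ j * a ^ (T - x) := by
      rw [← pow_add]; congr 1; omega
    show _ = a ^ (x + i) * Z * a ^ (T + i + j - (x + i))
    rw [e1, e2]
    simp only [mul_assoc]

theorem SB.congr {p : ℝ} {a Z Z' : MA G} {z z' Pd : ℕ} (h : SB p a Z z Pd) (e : Z = Z')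
    (e' : z = z') : SB p a Z' z' Pd := by
  subst e; subst e'; exact h

/-- one position -/
theorem SB.dom {p : ℝ} {a Z : MA G} {z Pd : ℕ} (h : SB p a Z z Pd) {x y : ℕ} (hx : Pd ≤ x)
    (hy : Pd ≤ y) : Dom p (a ^ (x + z + y)) (a ^ x * Z * a ^ y) := by
  have h1 := (h (x + y)).dom (i := x) (Finset.mem_Icc.2 ⟨hx, by omega⟩)
  have e1 : x + y + z = x + z + y := by omega
  have e2 : x + y - x = y := by omega
  rwa [e1, e2] at h1

/-- multiplication by a fixed `Dom` measure on the right -/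
theorem Dom.sb {V : ℝ} {a Z : MA G} {z : ℕ} (ha : Prob a) (hZ : mass Z = 0) (hV : 0 ≤ V)
    (hz : 1 ≤ z) (h : Dom V (a ^ z) Z) (Pd : ℕ) : SB (z * V) a Z z Pd := by
  intro T
  -- the statement is over an arbitrary universe: repeat the proof of `domSB`
  have hcl : ∀ ρ ∈ range z, Bes ((Finset.Icc Pd (T - Pd)).filter (fun x => x % z = ρ)) V
      (a ^ (T + z)) (fun x => a ^ x * Z * a ^ (T - x)) := by
    intro ρ _
    rcases ((Finset.Icc Pd (T - Pd)).filter (fun x => x % z = ρ)).eq_empty_or_nonempty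
      with he | ⟨x0, hx0⟩
    · rw [he]; exact Bes.empty hV (ha.pow _).pos
    have arith : ∀ x ∈ (Finset.Icc Pd (T - Pd)).filter (fun x => x % z = ρ),
        x ≤ T ∧ ρ + z * (x / z) = x := by
      intro x hx
      rw [Finset.mem_filter, Finset.mem_Icc] at hx
      obtain ⟨⟨hx1, hx2⟩, hx3⟩ := hx
      have := Nat.div_add_mod x z
      rw [hx3] at this
      omega
    obtain ⟨hx01, hx02⟩ := arith x0 hx0
    have hB : Bes ({()} : Finset Unit) V (a ^ z) (fun _ => Z) := h.bes ()
    set N := T + z - ρ with hN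
    have hfit : ∀ t < (N - z) / z + 1, z * t + z ≤ N := by
      intro t ht
      have h1 : t ≤ (N - z) / z := Nat.lt_succ_iff.1 ht
      have h2 : z * t ≤ z * ((N - z) / z) := Nat.mul_le_mul_left _ h1
      have h3 := Nat.mul_div_le (N - z) z
      have h4 : z ≤ N := by omega
      omega
    have hmain : Bes (range ((N - z) / z + 1) ×ˢ ({()} : Finset Unit)) V (a ^ N)
        (fun x => a ^ (z * x.1) * Z * a ^ (N - (z * x.1 + z))) := fun g => by
      rw [Finset.sum_product]
      exact bes_slots ha hB (fun i _ => hZ) hV le_rfl _ N hfit g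
    have hmain2 := (hmain.mulLeft (ha.pow ρ)).congr_ref (π' := a ^ (T + z)) (by
      rw [← pow_add]; congr 1; omega)
    refine hmain2.of_comap (fun x => (x / z, ())) ?_ ?_ ?_
    · intro x hx
      obtain ⟨h1, h2⟩ := arith x hx
      rw [Finset.mem_product, Finset.mem_range]
      refine ⟨?_, Finset.mem_singleton.2 rfl⟩
      rw [Nat.lt_succ_iff, Nat.le_div_iff_mul_le hz]
      have : x / z * z = z * (x / z) := Nat.mul_comm _ _
      show x / z * z ≤ N - z
      omega
    · intro x hx x' hx' e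
      obtain ⟨_, h3⟩ := arith x hx
      obtain ⟨_, h3'⟩ := arith x' hx'
      have e1 := (Prod.mk.inj e).1
      rw [e1] at h3
      omega
    · intro x hx
      obtain ⟨h1, h3⟩ := arith x hx
      show a ^ x * Z * a ^ (T - x) = a ^ ρ * (a ^ (z * (x / z)) * Z * a ^ (N - (z * (x / z) + z)))
      have e1 : a ^ x = a ^ ρ * a ^ (z * (x / z)) := by
        rw [← pow_add]; congr 1; omega
      have e2 : T - x = N - (z * (x / z) + z) := by omega
      rw [e1, e2]
      simp only [mul_assoc]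
  intro f
  have hsum := Finset.sum_fiberwise_of_maps_to (s := Finset.Icc Pd (T - Pd))
    (t := range z) (g := fun x => x % z) (fun x _ => Finset.mem_range.2 (Nat.mod_lt _ hz))
    (fun x => (ev (a ^ x * Z * a ^ (T - x)) f) ^ 2)
  rw [← hsum]
  refine (Finset.sum_le_sum fun ρ hρ => hcl ρ hρ f).trans ?_
  rw [Finset.sum_const, Finset.card_range, nsmul_eq_mul, mul_assoc]

end

end Crest.Agent.R300LB
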