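import Crest.Agent.R300.LBDefs

/-!
# Row 300, lower bounds, piece L4: one level of the hierarchy

First-mark orthogonality, product rule for `χ²`, Thue–Morse words, the decomposition
`T⁺ - T⁻ = lin + quad`, pointwise bounds.
-/

set_option autoImplicit false

namespace Crest.Agent.R300LB

open Finset

noncomputable section

variable {G : Type*} [Monoid G]

/-! ## centered form and first-mark orthogonality -/

theorem Dom.olCentered {V : ℝ} {a Δ : MA G} (ha : Prob a) (h0 : mass Δ = 0) (h : Dom V a Δ)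
    (f : G → ℝ) : (ev Δ f) ^ 2 ≤ V * (ev a (fun w => f w ^ 2) - (ev a f) ^ 2) := by
  set c := ev a f with hc
  have h1 := h (fun w => f w - c)
  have e1 : ev Δ (fun w => f w - c) = ev Δ f := by
    rw [ev_sub_fun]
    have : ev Δ (fun _ => c) = c * mass Δ := by
      unfold mass
      rw [← ev_mul_fun]
      exact ev_congr _ (fun w => by ring)
    rw [this, h0]; ring
  have e2 : ev a (fun w => (f w - c) ^ 2) = ev a (fun w => f w ^ 2) - c ^ 2 := by
    have e : ∀ w, (f w - c) ^ 2 = (f w ^ 2 - (2 * c) * f w) + c ^ 2 := by intro w; ring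
    rw [ev_congr a e, ev_add_fun, ev_sub_fun, ev_mul_fun, ev_const ha, ← hc]
    ring
  rw [e1, e2] at h1
  exact h1

/-- elementary: `A² ≤ pX`, `B² ≤ qY` gives `(A+B)² ≤ (p+q)(X+Y)` -/
theorem ol_sq_add_le {A B p q X Y : ℝ} (hp : 0 ≤ p) (hq : 0 ≤ q) (hX : 0 ≤ X) (hY : 0 ≤ Y)
    (hA : A ^ 2 ≤ p * X) (hB : B ^ 2 ≤ q * Y) : (A + B) ^ 2 ≤ (p + q) * (X + Y) := by
  have hab : (A * B) ^ 2 ≤ (p * Y) * (q * X) := by
    rw [mul_pow]
    calc A ^ 2 * B ^ 2 ≤ (p * X) * (q * Y) :=
          mul_le_mul hA hB (sq_nonneg _) (mul_nonneg hp hX)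
      _ = (p * Y) * (q * X) := by ring
  have hP : 0 ≤ p * Y := mul_nonneg hp hY
  have hQ : 0 ≤ q * X := mul_nonneg hq hX
  have h4 : (2 * (A * B)) ^ 2 ≤ (p * Y + q * X) ^ 2 := by
    nlinarith [sq_nonneg (p * Y - q * X)]
  have := (abs_le_of_sq_le_sq' h4 (by positivity)).2
  nlinarith

/-- one step of the first-mark orthogonality -/
theorem Dom.olMarkStep {V h s : ℝ} {a Δ π H S : MA G} (ha : Prob a) (h0 : mass Δ = 0)
    (hΔ : Dom V a Δ) (hV : 0 ≤ V) (hh : 0 ≤ h) (hs : 0 ≤ s) (hπ : Pos π)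
    (hH : Dom h π H) (hS : Dom (V * s) π S) :
    Dom (V * (h + s)) (a * π) (Δ * H + a * S) := fun f => by
  rw [ev_add, ev_mul Δ H, ev_swap Δ H, ev_mul a S, ev_swap a S, ev_mul a π, ev_swap a π]
  have hA : (ev H (fun v => ev Δ (fun u => f (u * v)))) ^ 2 ≤
      (V * h) * (ev π (fun v => ev a (fun u => f (u * v) ^ 2)) -
        ev π (fun v => (ev a (fun u => f (u * v))) ^ 2)) := by
    refine le_trans (hH _) ?_
    have : ev π (fun v => (ev Δ (fun u => f (u * v))) ^ 2) ≤
        V * (ev π (fun v => ev a (fun u => f (u * v) ^ 2)) -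
          ev π (fun v => (ev a (fun u => f (u * v))) ^ 2)) := by
      rw [← ev_sub_fun, ← ev_mul_fun]
      exact hπ.mono (fun v => hΔ.olCentered ha h0 _)
    calc h * ev π (fun v => (ev Δ (fun u => f (u * v))) ^ 2) ≤ h * (V * _) :=
          mul_le_mul_of_nonneg_left this hh
      _ = _ := by ring
  have hB : (ev S (fun v => ev a (fun u => f (u * v)))) ^ 2 ≤
      (V * s) * ev π (fun v => (ev a (fun u => f (u * v))) ^ 2) := hS _
  have hX : 0 ≤ ev π (fun v => ev a (fun u => f (u * v) ^ 2)) -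
        ev π (fun v => (ev a (fun u => f (u * v))) ^ 2) := by
    rw [← ev_sub_fun]
    refine hπ _ (fun v => ?_)
    have h1 := ha.pos.cauchy (fun _ => 1) (fun u => f (u * v))
    simp only [one_mul, one_pow] at h1
    rw [ev_const ha] at h1
    linarith
  have hY : 0 ≤ ev π (fun v => (ev a (fun u => f (u * v))) ^ 2) := hπ _ (fun v => sq_nonneg _)
  have := ol_sq_add_le (mul_nonneg hV hh) (mul_nonneg hV hs) hX hY hA hB
  calc _ ≤ _ := this
    _ = _ := by ring

/-- (N6) first-mark orthogonality -/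
theorem Dom.olFirstMark {V : ℝ} {a Δ : MA G} (ha : Prob a) (h0 : mass Δ = 0) (hΔ : Dom V a Δ)
    (hV : 0 ≤ V) : ∀ (n : ℕ) (H : ℕ → MA G) (h : ℕ → ℝ), (∀ p < n, 0 ≤ h p) →
    (∀ p < n, Dom (h p) (a ^ (n - 1 - p)) (H p)) →
    Dom (V * ∑ p ∈ range n, h p) (a ^ n) (∑ p ∈ range n, a ^ p * Δ * H p) := by
  intro n
  induction n with
  | zero =>
    intro H h _ _
    simp only [range_zero, sum_empty, pow_zero, mul_zero]
    exact Dom.zero _ Pos.one le_rfl
  | succ n ih =>
    intro H h hh hH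
    have e : ∑ p ∈ range (n + 1), a ^ p * Δ * H p =
        Δ * H 0 + a * ∑ p ∈ range n, a ^ p * Δ * H (p + 1) := by
      rw [sum_range_succ', mul_sum, pow_zero, one_mul, add_comm]
      congr 1
      refine sum_congr rfl (fun p _ => ?_)
      rw [pow_succ']
      simp only [mul_assoc]
    have e2 : ∑ p ∈ range (n + 1), h p = h 0 + ∑ p ∈ range n, h (p + 1) := by
      rw [sum_range_succ', add_comm]
    rw [e, e2, pow_succ']
    refine Dom.olMarkStep ha h0 hΔ hV (hh 0 (Nat.succ_pos n))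
      (sum_nonneg (fun p hp => hh _ (by have := mem_range.mp hp; omega))) (ha.pos.pow n) ?_ ?_
    · have := hH 0 (Nat.succ_pos n)
      simpa using this
    · refine ih (fun p => H (p + 1)) (fun p => h (p + 1)) (fun p hp => hh _ (by omega))
        (fun p hp => ?_)
      have := hH (p + 1) (by omega)
      have e3 : n + 1 - 1 - (p + 1) = n - 1 - p := by omega
      rwa [e3] at this

/-! ## `χ²` of products -/

/-- if `‖c - a‖² ≤ V` then `‖c‖² ≤ 1 + V` (probability measures) -/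
theorem Dom.olProbOfSub {V : ℝ} {a c : MA G} (ha : Prob a) (hc : Prob c) (hV : 0 ≤ V)
    (h : Dom V a (c - a)) : Dom (1 + V) a c := fun f => by
  have h0 : mass (c - a) = 0 := by rw [mass_sub, hc.one, ha.one]; ring
  have h1 := h.olCentered ha h0 f
  rw [ev_sub] at h1
  set p := ev c f
  set m := ev a f
  set X := ev a (fun w => f w ^ 2)
  have hX : 0 ≤ X - m ^ 2 := by
    have h1 := ha.pos.cauchy (fun _ => 1) f
    simp only [one_mul, one_pow] at h1
    rw [ev_const ha] at h1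
    linarith
  rcases eq_or_lt_of_le hV with hV0 | hV0
  · rw [← hV0] at h1 ⊢
    have : (p - m) ^ 2 ≤ 0 := by linarith
    have : p = m := by nlinarith
    rw [this]; linarith
  · -- (m + δ)² ≤ (1+V)(m² + δ²/V)
    have h2 : (p - m) ^ 2 / V ≤ X - m ^ 2 := by
      rw [div_le_iff₀ hV0]; linarith
    have h3 : p ^ 2 ≤ (1 + V) * (m ^ 2 + (p - m) ^ 2 / V) := by
      have e : (1 + V) * (m ^ 2 + (p - m) ^ 2 / V) - p ^ 2 = (V * m - (p - m)) ^ 2 / V := by
        field_simp
        ring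
      have : 0 ≤ (V * m - (p - m)) ^ 2 / V := by positivity
      linarith
    calc p ^ 2 ≤ (1 + V) * (m ^ 2 + (p - m) ^ 2 / V) := h3
      _ ≤ (1 + V) * X := by
        refine mul_le_mul_of_nonneg_left (by linarith) (by linarith)

/-- if `‖c‖² ≤ 1 + V` then `‖c - a‖² ≤ V` (probability measures) -/
theorem Dom.olSubOfProb {V : ℝ} {a c : MA G} (ha : Prob a) (hc : Prob c) (hV : 0 ≤ V)
    (h : Dom (1 + V) a c) : Dom V a (c - a) := fun f => by
  rw [ev_sub]
  set m := ev a f with hm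
  set X := ev a (fun w => f w ^ 2) with hXd
  set δ := ev c f - m with hδ
  -- (t + δ)² ≤ (1+V)(t² + v)
  have key : ∀ t : ℝ, (t + δ) ^ 2 ≤ (1 + V) * (t ^ 2 + (X - m ^ 2)) := by
    intro t
    have h1 := h (fun w => f w + (t - m))
    have e1 : ev c (fun w => f w + (t - m)) = t + δ := by
      rw [ev_add_fun, ev_const hc, hδ]; ring
    have e2 : ev a (fun w => (f w + (t - m)) ^ 2) = t ^ 2 + (X - m ^ 2) := by
      have e : ∀ w, (f w + (t - m)) ^ 2 = (f w ^ 2 + (2 * (t - m)) * f w) + (t - m) ^ 2 := by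
        intro w; ring
      rw [ev_congr a e, ev_add_fun, ev_add_fun, ev_mul_fun, ev_const ha, ← hm, ← hXd]
      ring
    rw [e1, e2] at h1
    exact h1
  have hX : 0 ≤ X - m ^ 2 := by
    have h1 := ha.pos.cauchy (fun _ => 1) f
    simp only [one_mul, one_pow] at h1
    rw [ev_const ha] at h1
    linarith
  rcases eq_or_lt_of_le hV with hV0 | hV0
  · rw [← hV0] at key ⊢
    -- (t+δ)² ≤ t² + v for all t forces δ = 0
    have hδ0 : δ = 0 := by
      by_contra hne
      have hpos : 0 < δ ^ 2 := by positivity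
      have h1 := key (((X - m ^ 2) + 1) * δ / δ ^ 2)
      have e : ((X - m ^ 2) + 1) * δ / δ ^ 2 * δ = (X - m ^ 2) + 1 := by
        field_simp
      nlinarith
    rw [hδ0]; simp
  · have h1 := key (δ / V)
    have e : (δ / V + δ) ^ 2 = (1 + V) ^ 2 * (δ ^ 2 / V ^ 2) := by
      field_simp
    have e' : (δ / V) ^ 2 = δ ^ 2 / V ^ 2 := by rw [div_pow]
    rw [e, e'] at h1
    have h2 : (1 + V) * (δ ^ 2 / V ^ 2) ≤ δ ^ 2 / V ^ 2 + (X - m ^ 2) := by
      have hpos : 0 < 1 + V := by linarith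
      have : (1 + V) * ((1 + V) * (δ ^ 2 / V ^ 2)) ≤ (1 + V) * (δ ^ 2 / V ^ 2 + (X - m ^ 2)) := by
        calc _ = (1 + V) ^ 2 * (δ ^ 2 / V ^ 2) := by ring
          _ ≤ _ := h1
      exact le_of_mul_le_mul_left this hpos
    have h3 : V * (δ ^ 2 / V ^ 2) ≤ X - m ^ 2 := by linarith
    have e3 : V * (δ ^ 2 / V ^ 2) = δ ^ 2 / V := by field_simp
    rw [e3, div_le_iff₀ hV0] at h3
    have h4 : (X - m ^ 2) * V ≤ V * X := by nlinarith [sq_nonneg m]
    linarith

/-- product rule -/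
theorem Dom.olSubMul {V₁ V₂ : ℝ} {a₁ a₂ c₁ c₂ : MA G} (ha₁ : Prob a₁) (ha₂ : Prob a₂)
    (hc₁ : Prob c₁) (hc₂ : Prob c₂) (hV₁ : 0 ≤ V₁) (hV₂ : 0 ≤ V₂)
    (h₁ : Dom V₁ a₁ (c₁ - a₁)) (h₂ : Dom V₂ a₂ (c₂ - a₂)) :
    Dom ((1 + V₁) * (1 + V₂) - 1) (a₁ * a₂) (c₁ * c₂ - a₁ * a₂) := by
  refine Dom.olSubOfProb (ha₁.mul ha₂) (hc₁.mul hc₂) (by nlinarith [mul_nonneg hV₁ hV₂]) ?_
  have e : 1 + ((1 + V₁) * (1 + V₂) - 1) = (1 + V₁) * (1 + V₂) := by ring
  rw [e]
  exact Dom.mul (Dom.olProbOfSub ha₁ hc₁ hV₁ h₁) (Dom.olProbOfSub ha₂ hc₂ hV₂ h₂)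
    (by linarith) ha₁.pos

theorem Dom.olSubPow {V : ℝ} {a c : MA G} (ha : Prob a) (hc : Prob c) (hV : 0 ≤ V)
    (h : Dom V a (c - a)) (n : ℕ) : Dom ((1 + V) ^ n - 1) (a ^ n) (c ^ n - a ^ n) := by
  induction n with
  | zero => simpa using Dom.zero (1 : MA G) Pos.one (le_refl (0:ℝ))
  | succ n ih =>
    have hVn : 0 ≤ (1 + V) ^ n - 1 := by
      have := one_le_pow₀ (n := n) (by linarith : (1:ℝ) ≤ 1 + V)
      linarith
    have := Dom.olSubMul (ha.pow n) ha (hc.pow n) hc hVn hV ih h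
    rw [pow_succ a, pow_succ c, pow_succ (1 + V)]
    have e : (1 + ((1 + V) ^ n - 1)) * (1 + V) - 1 = (1 + V) ^ n * (1 + V) - 1 := by ring
    rwa [e] at this


/-! ## words in two measures -/

/-- product of `a`s and `b`s along a 0-1 word (`true ↦ b`) -/
def Wd (a b : MA G) (γ : List Bool) : MA G := (γ.map (fun t => if t then b else a)).prod

theorem Wd_nil (a b : MA G) : Wd a b [] = 1 := rfl

theorem Wd_cons (a b : MA G) (t : Bool) (γ : List Bool) :
    Wd a b (t :: γ) = (if t then b else a) * Wd a b γ := by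
  simp [Wd]

theorem Wd_append (a b : MA G) (γ δ : List Bool) :
    Wd a b (γ ++ δ) = Wd a b γ * Wd a b δ := by
  simp [Wd]

theorem Wd_prob {a b : MA G} (ha : Prob a) (hb : Prob b) (γ : List Bool) : Prob (Wd a b γ) := by
  induction γ with
  | nil => exact Prob.one'
  | cons t γ ih =>
    rw [Wd_cons]
    cases t
    · simpa using ha.mul ih
    · simpa using hb.mul ih

/-- `χ²` of a word against the pure power -/
theorem Wd_dom {V : ℝ} {a b : MA G} (ha : Prob a) (hb : Prob b) (hV : 0 ≤ V)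
    (h : Dom V a (a - b)) (γ : List Bool) :
    Dom ((1 + V) ^ γ.length - 1) (a ^ γ.length) (Wd a b γ - a ^ γ.length) := by
  have h' : Dom V a (b - a) := by
    have := h.neg
    rwa [neg_sub] at this
  induction γ with
  | nil => simpa [Wd_nil] using Dom.zero (1 : MA G) Pos.one (le_refl (0:ℝ))
  | cons t γ ih =>
    have hVn : 0 ≤ (1 + V) ^ γ.length - 1 := by
      have := one_le_pow₀ (n := γ.length) (by linarith : (1:ℝ) ≤ 1 + V)
      linarith
    rw [Wd_cons, List.length_cons, pow_succ' a, pow_succ' (1 + V)]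
    have e : (1 + V) * (1 + V) ^ γ.length - 1 = (1 + V) * (1 + ((1 + V) ^ γ.length - 1)) - 1 := by
      ring
    rw [e]
    cases t
    · refine Dom.olSubMul ha (ha.pow _) ha (Wd_prob ha hb γ) hV hVn ?_ ih
      simp only [Bool.false_eq_true, if_false, sub_self]
      exact Dom.zero _ ha.pos hV
    · simp only [if_true]
      exact Dom.olSubMul ha (ha.pow _) hb (Wd_prob ha hb γ) hV hVn h' ih

/-- first-mark decomposition of a word -/
theorem Wd_firstMark (a b : MA G) (γ : List Bool) :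
    Wd a b γ = a ^ γ.length - ∑ j ∈ range γ.length,
      a ^ j * (a - b) * (if γ.getD j false then Wd a b (γ.drop (j + 1)) else 0) := by
  induction γ with
  | nil => simp [Wd_nil]
  | cons t γ ih =>
    rw [Wd_cons, List.length_cons, sum_range_succ']
    simp only [List.getD_cons_succ, List.getD_cons_zero, List.drop_succ_cons, List.drop_zero,
      pow_zero, one_mul]
    have e : ∑ j ∈ range γ.length, a ^ (j + 1) * (a - b) *
        (if γ.getD j false = true then Wd a b (γ.drop (j + 1)) else 0) =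
        a * (a ^ γ.length - Wd a b γ) := by
      rw [ih]
      rw [sub_sub_cancel, mul_sum]
      refine sum_congr rfl (fun j _ => ?_)
      rw [pow_succ']
      simp only [mul_assoc]
    rw [e]
    cases t
    · simp only [Bool.false_eq_true, if_false, mul_zero, add_zero]
      rw [pow_succ']
      noncomm_ring
    · simp only [if_true]
      rw [pow_succ']
      noncomm_ring

/-! ## Thue–Morse words -/

/-- Thue–Morse word of length `2^r` -/
def tm : ℕ → List Bool
  | 0 => [false]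
  | (r + 1) => tm r ++ (tm r).map not

theorem tm_length (r : ℕ) : (tm r).length = 2 ^ r := by
  induction r with
  | zero => rfl
  | succ r ih => rw [tm, List.length_append, List.length_map, ih, pow_succ]; ring

/-- sign of position `j`: `+1` if `tm r` has `false` there and `-1` otherwise -/
def tsg (r j : ℕ) : ℝ := if (tm r).getD j false then -1 else 1

theorem tsg_sq (r j : ℕ) : tsg r j ^ 2 = 1 := by
  unfold tsg; split <;> norm_num

theorem tsg_succ_left (r j : ℕ) (hj : j < 2 ^ r) : tsg (r + 1) j = tsg r j := by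
  unfold tsg
  rw [tm, List.getD_append _ _ _ _ (by rw [tm_length]; exact hj)]

theorem tsg_succ_right (r j : ℕ) (hj : j < 2 ^ r) : tsg (r + 1) (2 ^ r + j) = - tsg r j := by
  unfold tsg
  rw [tm, List.getD_append_right _ _ _ _ (by rw [tm_length]; omega), tm_length,
    Nat.add_sub_cancel_left]
  have h1 : j < (tm r).length := by rw [tm_length]; exact hj
  have h2 : j < ((tm r).map not).length := by rw [List.length_map]; exact h1
  rw [List.getD_eq_getElem _ _ h1, List.getD_eq_getElem _ _ h2, List.getElem_map]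
  cases (tm r)[j] <;> simp

/-- linear part -/
def lin (a : MA G) (r : ℕ) (X : MA G) : MA G :=
  ∑ j ∈ range (2 ^ r), tsg r j • (a ^ j * X * a ^ (2 ^ r - 1 - j))

/-- commutator with `a` -/
def Dif (a X : MA G) : MA G := a * X - X * a

/-- `∑_{i<n} a^i X a^{n-1-i}` -/
def geo (a : MA G) (n : ℕ) (X : MA G) : MA G := ∑ i ∈ range n, a ^ i * X * a ^ (n - 1 - i)

theorem geo_Dif (a : MA G) (n : ℕ) (X : MA G) : geo a n (Dif a X) = Dif a (geo a n X) := by
  unfold geo Dif
  rw [mul_sum, sum_mul, ← sum_sub_distrib]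
  refine sum_congr rfl (fun i _ => ?_)
  have h1 : a * a ^ i = a ^ i * a := (Commute.refl a).pow_right i
  have h2 : a * a ^ (n - 1 - i) = a ^ (n - 1 - i) * a := (Commute.refl a).pow_right _
  calc a ^ i * (a * X - X * a) * a ^ (n - 1 - i)
      = (a ^ i * a) * X * a ^ (n - 1 - i) - a ^ i * X * (a * a ^ (n - 1 - i)) := by noncomm_ring
    _ = (a * a ^ i) * X * a ^ (n - 1 - i) - a ^ i * X * (a ^ (n - 1 - i) * a) := by rw [h1, h2]
    _ = _ := by simp only [mul_assoc]

theorem geo_Dif_iter (a : MA G) (n k : ℕ) (X : MA G) :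
    geo a n ((Dif a)^[k] X) = (Dif a)^[k] (geo a n X) := by
  induction k generalizing X with
  | zero => rfl
  | succ k ih => rw [Function.iterate_succ_apply, ih, geo_Dif, ← Function.iterate_succ_apply]

/-- `geo` telescopes -/
theorem geo_Dif_tel (a : MA G) (n : ℕ) (X : MA G) :
    geo a n (Dif a X) = a ^ n * X - X * a ^ n := by
  induction n with
  | zero => simp [geo]
  | succ n ih =>
    have e : geo a (n + 1) (Dif a X) = Dif a X * a ^ n + a * geo a n (Dif a X) := by
      unfold geo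
      rw [sum_range_succ', mul_sum, pow_zero, one_mul, add_comm]
      congr 1
      refine sum_congr rfl (fun i hi => ?_)
      have := mem_range.mp hi
      have e1 : n + 1 - 1 - (i + 1) = n - 1 - i := by omega
      rw [e1, pow_succ']
      simp only [mul_assoc]
    rw [e, ih, pow_succ', Dif]
    have h1 : a * a ^ n = a ^ n * a := (Commute.refl a).pow_right n
    calc (a * X - X * a) * a ^ n + a * (a ^ n * X - X * a ^ n)
        = a * a ^ n * X - X * (a * a ^ n) := by noncomm_ring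
      _ = _ := by rfl

theorem lin_succ (a : MA G) (r : ℕ) (X : MA G) :
    lin a (r + 1) X = lin a r X * a ^ (2 ^ r) - a ^ (2 ^ r) * lin a r X := by
  unfold lin
  have h2 : 2 ^ (r + 1) = 2 ^ r + 2 ^ r := by rw [pow_succ]; ring
  rw [h2, sum_range_add, sum_mul, mul_sum, sub_eq_add_neg, ← sum_neg_distrib]
  congr 1
  · refine sum_congr rfl (fun j hj => ?_)
    have hj := mem_range.mp hj
    rw [tsg_succ_left r j hj, smul_mul_assoc, mul_assoc _ (a ^ _) (a ^ _), ← pow_add]
    have e1 : 2 ^ r + 2 ^ r - 1 - j = 2 ^ r - 1 - j + 2 ^ r := by omega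
    rw [e1]
  · refine sum_congr rfl (fun j hj => ?_)
    have hj := mem_range.mp hj
    rw [tsg_succ_right r j hj, mul_smul_comm, neg_smul]
    have e1 : 2 ^ r + 2 ^ r - 1 - (2 ^ r + j) = 2 ^ r - 1 - j := by omega
    rw [e1, pow_add]
    simp only [mul_assoc]

/-- iterated geometric sums -/
def GG (a : MA G) : ℕ → MA G → MA G
  | 0, X => X
  | (r + 1), X => geo a (2 ^ r) (GG a r X)

/-- the linear part is an `r`-fold commutator -/
theorem lin_eq (a : MA G) (r : ℕ) (X : MA G) :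
    lin a r X = (-1 : ℝ) ^ r • (Dif a)^[r] (GG a r X) := by
  induction r with
  | zero =>
    simp [lin, GG, tsg, tm]
  | succ r ih =>
    rw [lin_succ, ih, GG]
    rw [Function.iterate_succ_apply', ← geo_Dif_iter, ← geo_Dif, geo_Dif_tel, pow_succ]
    rw [smul_mul_assoc, mul_smul_comm, mul_neg_one, neg_smul, smul_sub]
    abel

theorem geo_dom {x : ℝ} {a X : MA G} (ha : Prob a) (hx : 0 ≤ x) (k n : ℕ) (hn : 1 ≤ n)
    (h : Dom (x ^ 2) (a ^ k) X) : Dom ((n * x) ^ 2) (a ^ (k + n - 1)) (geo a n X) := by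
  have := Dom.sum (π := a ^ (k + n - 1)) (range n) (x := fun _ => x)
    (ν := fun i => a ^ i * X * a ^ (n - 1 - i)) (fun i hi => ?_) (fun _ _ => hx) (ha.pos.pow _)
  · rw [sum_const, card_range, nsmul_eq_mul] at this
    exact this
  · have hi := mem_range.mp hi
    have h1 := Dom.mul (Dom.mul (Dom.self_prob (ha.pow i)) h zero_le_one (ha.pos.pow i))
      (Dom.self_prob (ha.pow (n - 1 - i))) (by positivity) ((ha.pos.pow i).mul (ha.pos.pow k))
    rw [one_mul, mul_one, ← pow_add, ← pow_add] at h1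
    have e1 : i + k + (n - 1 - i) = k + n - 1 := by omega
    rwa [e1] at h1

theorem GG_dom {x : ℝ} {a X : MA G} (ha : Prob a) (hx : 0 ≤ x) (h : Dom (x ^ 2) a X) (r : ℕ) :
    Dom (((2 : ℝ) ^ (r * (r - 1) / 2) * x) ^ 2) (a ^ (2 ^ r - r)) (GG a r X) := by
  induction r with
  | zero => simpa [GG] using h
  | succ r ih =>
    have h1 := geo_dom ha (by positivity) (2 ^ r - r) (2 ^ r) Nat.one_le_two_pow ih
    have hr : r < 2 ^ r := Nat.lt_two_pow_self
    have e1 : 2 ^ r - r + 2 ^ r - 1 = 2 ^ (r + 1) - (r + 1) := by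
      rw [pow_succ]; omega
    rw [e1] at h1
    rw [GG]
    have e2 : ((2 ^ r : ℕ) : ℝ) * ((2 : ℝ) ^ (r * (r - 1) / 2) * x) =
        (2 : ℝ) ^ ((r + 1) * (r + 1 - 1) / 2) * x := by
      rw [← mul_assoc]
      push_cast
      rw [← pow_add]
      congr 2
      have h3 : (r + 1) * r = r * (r - 1) + r * 2 := by
        cases r with
        | zero => rfl
        | succ r => simp only [Nat.add_sub_cancel]; ring
      rw [h3, Nat.add_mul_div_right _ _ (by norm_num : 0 < 2)]
      ring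
    rwa [e2] at h1

/-! ## `T⁺ - T⁻ = lin + quad` -/

/-- right context of the first mark at position `j` in the quadratic part -/
def Hq (a b : MA G) (r j : ℕ) : MA G :=
  if (tm r).getD j false then
    -(Wd a b ((tm r).drop (j + 1)) - a ^ (2 ^ r - 1 - j))
  else Wd a b (((tm r).map not).drop (j + 1)) - a ^ (2 ^ r - 1 - j)

theorem tm_diff (a b : MA G) (r : ℕ) :
    Wd a b (tm r) - Wd a b ((tm r).map not) =
      lin a r (a - b) + ∑ j ∈ range (2 ^ r), a ^ j * (a - b) * Hq a b r j := by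
  rw [Wd_firstMark a b (tm r), Wd_firstMark a b ((tm r).map not), List.length_map, tm_length,
    sub_sub_sub_cancel_left, lin, ← sum_sub_distrib, ← sum_add_distrib]
  refine sum_congr rfl (fun j hj => ?_)
  have hj := mem_range.mp hj
  have h1 : j < (tm r).length := by rw [tm_length]; exact hj
  have h2 : j < ((tm r).map not).length := by rw [List.length_map]; exact h1
  rw [List.getD_eq_getElem _ _ h2, List.getElem_map]
  unfold Hq tsg
  rw [List.getD_eq_getElem _ _ h1]
  cases (tm r)[j]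
  · simp only [Bool.not_false, if_true, Bool.false_eq_true, if_false, one_smul, mul_sub, mul_zero,
      sub_zero]
    abel
  · simp only [Bool.not_true, Bool.false_eq_true, if_false, if_true, neg_smul, one_smul, mul_sub,
      mul_neg, mul_zero]
    abel

theorem Hq_dom {V : ℝ} {a b : MA G} (ha : Prob a) (hb : Prob b) (hV : 0 ≤ V)
    (h : Dom V a (a - b)) (r j : ℕ) (hj : j < 2 ^ r) :
    Dom ((1 + V) ^ (2 ^ r - 1 - j) - 1) (a ^ (2 ^ r - 1 - j)) (Hq a b r j) := by
  have e1 : ((tm r).drop (j + 1)).length = 2 ^ r - 1 - j := by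
    rw [List.length_drop, tm_length]; omega
  have e2 : (((tm r).map not).drop (j + 1)).length = 2 ^ r - 1 - j := by
    rw [List.length_drop, List.length_map, tm_length]; omega
  unfold Hq
  split
  · have := Wd_dom ha hb hV h ((tm r).drop (j + 1))
    rw [e1] at this
    exact this.neg
  · have := Wd_dom ha hb hV h (((tm r).map not).drop (j + 1))
    rwa [e2] at this

/-- `(1+V)^n - 1 ≤ 2 n V` when `n V ≤ 1` -/
theorem one_add_pow_sub_le {V : ℝ} (hV : 0 ≤ V) (n : ℕ) (h : n * V ≤ 1) :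
    (1 + V) ^ n - 1 ≤ 2 * (n * V) := by
  have h1 : (1 + V) ^ n ≤ Real.exp (n * V) := by
    rw [mul_comm, Real.exp_mul, Real.rpow_natCast]
    exact pow_le_pow_left₀ (by linarith) (by linarith [Real.add_one_le_exp V]) n
  have h0 : 0 ≤ n * V := by positivity
  have h2 := Real.abs_exp_sub_one_le (x := n * V) (by rw [abs_of_nonneg h0]; exact h)
  rw [abs_of_nonneg h0] at h2
  have := (abs_le.mp h2).2
  linarith

theorem Hq_dom' {V : ℝ} {a b : MA G} (ha : Prob a) (hb : Prob b) (hV : 0 ≤ V)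
    (h : Dom V a (a - b)) (r j : ℕ) (hj : j < 2 ^ r) (hn : 2 ^ r * V ≤ 1) :
    Dom (2 * (2 ^ r * V)) (a ^ (2 ^ r - 1 - j)) (Hq a b r j) := by
  refine (Hq_dom ha hb hV h r j hj).mono ?_ (ha.pos.pow _)
  have hle : ((2 ^ r - 1 - j : ℕ) : ℝ) ≤ 2 ^ r := by
    have : 2 ^ r - 1 - j ≤ 2 ^ r := by omega
    exact_mod_cast this
  have h1 : ((2 ^ r - 1 - j : ℕ) : ℝ) * V ≤ 2 ^ r * V := mul_le_mul_of_nonneg_right hle hV
  have := one_add_pow_sub_le hV (2 ^ r - 1 - j) (by linarith)
  linarith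

/-- the quadratic part -/
theorem quad_dom {V : ℝ} {a b : MA G} (ha : Prob a) (hb : Prob b) (hV : 0 ≤ V)
    (h : Dom V a (a - b)) (r : ℕ) (hn : 2 ^ r * V ≤ 1) :
    Dom (2 * (2 ^ r * V) ^ 2) (a ^ (2 ^ r))
      (∑ j ∈ range (2 ^ r), a ^ j * (a - b) * Hq a b r j) := by
  have h0 : mass (a - b) = 0 := by rw [mass_sub, ha.one, hb.one]; ring
  have := Dom.olFirstMark ha h0 h hV (2 ^ r) (Hq a b r) (fun _ => 2 * (2 ^ r * V))
    (fun _ _ => by positivity) (fun p hp => Hq_dom' ha hb hV h r p hp hn)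
  rw [sum_const, card_range, nsmul_eq_mul] at this
  have e : V * (((2 ^ r : ℕ) : ℝ) * (2 * (2 ^ r * V))) = 2 * (2 ^ r * V) ^ 2 := by
    push_cast; ring
  rwa [e] at this

/-- **one level, `L²` bound against the pure power.** `β` is the gain of the `r`-fold commutator
inside `a^m · a^m` (Lemma B). -/
theorem oneLevel_dom {V β : ℝ} {a b : MA G} (ha : Prob a) (hb : Prob b) (hV : 0 ≤ V)
    (h : Dom V a (a - b)) (r m : ℕ) (hn : 2 ^ r * V ≤ 1) (hβ : 0 ≤ β)
    (hB : ∀ (X : ℝ) (Y : MA G), 0 ≤ X → Dom X (a ^ (2 ^ r - r)) Y →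
      Dom (X * β) (a ^ (2 ^ r + 2 * m)) (a ^ m * (Dif a)^[r] Y * a ^ m)) :
    Dom ((2 * (2 ^ r * V) + (2 : ℝ) ^ (r * (r - 1) / 2) * Real.sqrt (V * β)) ^ 2)
      (a ^ (2 ^ r + 2 * m))
      (a ^ m * (Wd a b (tm r) - Wd a b ((tm r).map not)) * a ^ m) := by
  rw [tm_diff, lin_eq, add_comm ((-1 : ℝ) ^ r • _), mul_add, add_mul]
  refine Dom.add ?_ ?_ (by positivity) (by positivity) (ha.pos.pow _)
  · have h1 := Dom.mul (Dom.mul (Dom.self_prob (ha.pow m)) (quad_dom ha hb hV h r hn) zero_le_one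
      (ha.pos.pow m)) (Dom.self_prob (ha.pow m)) (by positivity)
      ((ha.pos.pow m).mul (ha.pos.pow _))
    rw [one_mul, mul_one, ← pow_add, ← pow_add] at h1
    have e : m + 2 ^ r + m = 2 ^ r + 2 * m := by ring
    rw [e] at h1
    refine h1.mono ?_ (ha.pos.pow _)
    have : 0 ≤ (2 ^ r * V) ^ 2 := sq_nonneg _
    nlinarith
  · rw [mul_smul_comm, smul_mul_assoc]
    have h2 : Dom ((Real.sqrt V) ^ 2) a (a - b) := by rwa [Real.sq_sqrt hV]
    have h3 := hB _ _ (sq_nonneg _) (GG_dom ha (Real.sqrt_nonneg V) h2 r)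
    have h4 := h3.smul ((-1 : ℝ) ^ r)
    have e : ((-1 : ℝ) ^ r) ^ 2 * (((2 : ℝ) ^ (r * (r - 1) / 2) * Real.sqrt V) ^ 2 * β) =
        ((2 : ℝ) ^ (r * (r - 1) / 2) * Real.sqrt (V * β)) ^ 2 := by
      rw [← pow_mul, mul_comm r 2, pow_mul, neg_one_sq, one_pow, one_mul, mul_pow, mul_pow,
        Real.sq_sqrt hV, Real.sq_sqrt (mul_nonneg hV hβ)]
      ring
    rwa [e] at h4

end

end Crest.Agent.R300LB
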