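import Crest.Agent.R300.LBOrth
import Crest.Agent.R300.LBOneLevel

/-!
# Row 300, lower bounds: common part of two measures, reversal, counting version of the χ² of words
-/

set_option autoImplicit false
set_option linter.unusedSectionVars false

namespace Crest.Agent.R300LB

open Finset

noncomputable section

variable {G : Type*} [Monoid G]

/-! ### coefficients -/

theorem ev_of_subset {ν : MA G} {S : Finset G} (h : ν.coeff.support ⊆ S) (f : G → ℝ) :
    ev ν f = ∑ w ∈ S, ν.coeff w * f w :=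
  Finsupp.sum_of_support_subset _ h _ (fun _ _ => zero_mul _)

theorem coeff_eq_ev [DecidableEq G] (ν : MA G) (w : G) :
    ev ν (fun v => if v = w then 1 else 0) = ν.coeff w := by
  induction ν using MonoidAlgebra.induction_linear with
  | zero => rw [ev_zero]; rfl
  | add x y hx hy => rw [ev_add, hx, hy]; rfl
  | single u c =>
    rw [ev_single, MonoidAlgebra.coeff_single, Finsupp.single_apply]
    split_ifs <;> simp

theorem ext_of_ev {μ ν : MA G} (h : ∀ f : G → ℝ, ev μ f = ev ν f) : μ = ν := by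
  classical
  refine MonoidAlgebra.ext (Finsupp.ext fun w => ?_)
  rw [← coeff_eq_ev, ← coeff_eq_ev, h]

theorem pos_iff_coeff {ν : MA G} : Pos ν ↔ ∀ w, 0 ≤ ν.coeff w := by
  classical
  constructor
  · intro h w
    rw [← coeff_eq_ev]
    exact h _ fun v => by split_ifs <;> norm_num
  · intro h f hf
    exact Finset.sum_nonneg fun w _ => mul_nonneg (h w) (hf w)

/-! ### the common part of two measures -/

/-- pointwise minimum of two measures -/
def cmn (μ ν : MA G) : MA G :=
  MonoidAlgebra.ofCoeff (Finsupp.zipWith min (min_self 0) μ.coeff ν.coeff)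

theorem cmn_coeff (μ ν : MA G) (w : G) : (cmn μ ν).coeff w = min (μ.coeff w) (ν.coeff w) := by
  unfold cmn
  rw [MonoidAlgebra.coeff_ofCoeff, Finsupp.zipWith_apply]

theorem cmn_pos {μ ν : MA G} (hμ : Pos μ) (hν : Pos ν) : Pos (cmn μ ν) := by
  rw [pos_iff_coeff] at *
  intro w
  rw [cmn_coeff]
  exact le_min (hμ w) (hν w)

theorem cmn_le_left (μ ν : MA G) : Le (cmn μ ν) μ := by
  unfold Le
  rw [pos_iff_coeff]
  intro w
  rw [sub_eq_add_neg, MonoidAlgebra.coeff_add, MonoidAlgebra.coeff_neg, Finsupp.add_apply,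
    Finsupp.neg_apply, cmn_coeff]
  linarith [min_le_left (μ.coeff w) (ν.coeff w)]

theorem cmn_le_right (μ ν : MA G) : Le (cmn μ ν) ν := by
  unfold Le
  rw [pos_iff_coeff]
  intro w
  rw [sub_eq_add_neg, MonoidAlgebra.coeff_add, MonoidAlgebra.coeff_neg, Finsupp.add_apply,
    Finsupp.neg_apply, cmn_coeff]
  linarith [min_le_right (μ.coeff w) (ν.coeff w)]

/-- mass of the common part -/
theorem cmn_mass {μ ν : MA G} {τ : ℝ} (h : TVle τ (μ - ν)) :
    (mass μ + mass ν - τ) / 2 ≤ mass (cmn μ ν) := by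
  classical
  set S := μ.coeff.support ∪ ν.coeff.support with hS
  have hμ : μ.coeff.support ⊆ S := Finset.subset_union_left
  have hν : ν.coeff.support ⊆ S := Finset.subset_union_right
  have hc : (cmn μ ν).coeff.support ⊆ S := by
    unfold cmn
    rw [MonoidAlgebra.coeff_ofCoeff]
    exact Finsupp.support_zipWith
  have h1 := h (fun w => if 0 ≤ μ.coeff w - ν.coeff w then 1 else -1) (fun w => by
    split_ifs <;> simp)
  rw [ev_sub, ev_of_subset hμ, ev_of_subset hν, ← Finset.sum_sub_distrib] at h1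
  have h2 := (abs_le.mp h1).2
  unfold mass
  rw [ev_of_subset hμ, ev_of_subset hν, ev_of_subset hc]
  have key : ∀ w ∈ S, (μ.coeff w * 1 + ν.coeff w * 1 -
      (μ.coeff w * (if 0 ≤ μ.coeff w - ν.coeff w then 1 else -1) -
        ν.coeff w * (if 0 ≤ μ.coeff w - ν.coeff w then 1 else -1))) / 2 ≤
      (cmn μ ν).coeff w * 1 := by
    intro w _
    rw [cmn_coeff]
    split_ifs with h0
    · rw [min_eq_right (by linarith)]; linarith
    · rw [min_eq_left (by linarith)]; linarith
  have := Finset.sum_le_sum key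
  rw [← Finset.sum_div, Finset.sum_sub_distrib, Finset.sum_add_distrib] at this
  linarith

/-- slip property from total variation closeness of consecutive powers -/
theorem Slip.of_tv {c : MA G} (hc : Prob c) {R : ℕ} {τ : ℝ} (h : TVle τ (c ^ R - c ^ (R + 1)))
    (hτ : τ < 2) : Slip c R (cmn (c ^ R) (c ^ (R + 1))) ∧
      1 - τ / 2 ≤ mass (cmn (c ^ R) (c ^ (R + 1))) := by
  have h1 := cmn_mass h
  rw [(hc.pow R).one, (hc.pow (R + 1)).one] at h1
  refine ⟨⟨cmn_pos (hc.pow R).pos (hc.pow (R + 1)).pos, cmn_le_left _ _, cmn_le_right _ _,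
    by linarith⟩, by linarith⟩

/-! ### reversal -/

open MulOpposite

/-- reversal: the linear anti-isomorphism `MA G → MA Gᵐᵒᵖ` -/
def rv (ν : MA G) : MA Gᵐᵒᵖ := MonoidAlgebra.ofCoeff (ν.coeff.mapDomain op)

theorem ev_rv (ν : MA G) (f : Gᵐᵒᵖ → ℝ) : ev (rv ν) f = ev ν (fun w => f (op w)) := by
  unfold ev rv
  rw [MonoidAlgebra.coeff_ofCoeff, Finsupp.sum_mapDomain_index]
  · intro _; simp
  · intro _ _ _; ring

theorem ev_rv' (ν : MA G) (f : G → ℝ) : ev (rv ν) (fun w => f (unop w)) = ev ν f := by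
  rw [ev_rv]; rfl

theorem rv_zero : rv (0 : MA G) = 0 := ext_of_ev fun f => by rw [ev_rv, ev_zero, ev_zero]

theorem rv_one : rv (1 : MA G) = 1 := ext_of_ev fun f => by rw [ev_rv, ev_one, ev_one]; rfl

theorem rv_add (μ ν : MA G) : rv (μ + ν) = rv μ + rv ν := ext_of_ev fun f => by
  rw [ev_rv, ev_add, ev_add, ev_rv, ev_rv]

theorem rv_sub (μ ν : MA G) : rv (μ - ν) = rv μ - rv ν := ext_of_ev fun f => by
  rw [ev_rv, ev_sub, ev_sub, ev_rv, ev_rv]

theorem rv_neg (ν : MA G) : rv (-ν) = - rv ν := ext_of_ev fun f => by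
  rw [ev_rv, ev_neg, ev_neg, ev_rv]

theorem rv_smul (c : ℝ) (ν : MA G) : rv (c • ν) = c • rv ν := ext_of_ev fun f => by
  rw [ev_rv, ev_smul, ev_smul, ev_rv]

theorem rv_mul (μ ν : MA G) : rv (μ * ν) = rv ν * rv μ := ext_of_ev fun f => by
  rw [ev_rv, ev_mul, ev_mul, ev_rv]
  simp_rw [ev_rv]
  rw [ev_swap]
  rfl

theorem rv_pow (ν : MA G) (n : ℕ) : rv (ν ^ n) = rv ν ^ n := by
  induction n with
  | zero => rw [pow_zero, pow_zero, rv_one]
  | succ n ih => rw [pow_succ, rv_mul, ih, pow_succ']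

theorem rv_sum {ι : Type*} (s : Finset ι) (ν : ι → MA G) :
    rv (∑ i ∈ s, ν i) = ∑ i ∈ s, rv (ν i) := ext_of_ev fun f => by
  rw [ev_rv, ev_sum, ev_sum]
  exact Finset.sum_congr rfl fun i _ => (ev_rv _ _).symm

theorem mass_rv (ν : MA G) : mass (rv ν) = mass ν := ev_rv _ _

theorem Pos.rv {ν : MA G} (h : Pos ν) : Pos (rv ν) := fun f hf => by
  rw [ev_rv]; exact h _ fun w => hf _

theorem Prob.rv {a : MA G} (h : Prob a) : Prob (rv a) := ⟨h.pos.rv, by rw [mass_rv, h.one]⟩

theorem Le.rv {μ ν : MA G} (h : Le μ ν) : Le (rv μ) (rv ν) := by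
  unfold Le at *
  rw [← rv_sub]; exact Pos.rv h

theorem Dom.rv {V : ℝ} {π ν : MA G} (h : Dom V π ν) : Dom V (rv π) (rv ν) := fun f => by
  rw [ev_rv, ev_rv]; exact h _

theorem Dom.of_rv {V : ℝ} {π ν : MA G} (h : Dom V (R300LB.rv π) (R300LB.rv ν)) : Dom V π ν :=
  fun f => by
    have := h (fun w => f (unop w))
    rw [ev_rv', ev_rv] at this
    exact this

theorem Slip.rv {a s : MA G} {R : ℕ} (h : Slip a R s) : Slip (rv a) R (rv s) where
  pos := h.pos.rv
  le0 := by have := h.le0.rv; rwa [rv_pow] at this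
  le1 := by have := h.le1.rv; rwa [rv_pow] at this
  mpos := by rw [mass_rv]; exact h.mpos

theorem rv_Wd (a b : MA G) (γ : List Bool) : rv (Wd a b γ) = Wd (rv a) (rv b) γ.reverse := by
  induction γ with
  | nil => rw [Wd_nil, rv_one, List.reverse_nil, Wd_nil]
  | cons t γ ih =>
    rw [Wd_cons, rv_mul, ih, List.reverse_cons, Wd_append, Wd_cons, Wd_nil, mul_one]
    cases t <;> rfl

/-! ### the χ² of a word, counting only the marks -/

theorem Wd_replicate_false (a b : MA G) (n : ℕ) : Wd a b (List.replicate n false) = a ^ n := by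
  unfold Wd
  rw [List.map_replicate, List.prod_replicate]
  rfl

theorem Wd_dom_count {V : ℝ} {a b : MA G} (ha : Prob a) (hb : Prob b) (hV : 0 ≤ V)
    (h : Dom V a (a - b)) (γ : List Bool) :
    Dom ((1 + V) ^ (γ.count true) - 1) (a ^ γ.length) (Wd a b γ - a ^ γ.length) := by
  have h' : Dom V a (b - a) := by
    have := h.neg
    rwa [neg_sub] at this
  induction γ with
  | nil => simpa [Wd_nil] using Dom.zero (1 : MA G) Pos.one (le_refl (0:ℝ))
  | cons t γ ih =>
    have hVn : 0 ≤ (1 + V) ^ (γ.count true) - 1 := by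
      have := one_le_pow₀ (n := γ.count true) (by linarith : (1:ℝ) ≤ 1 + V)
      linarith
    rw [Wd_cons, List.length_cons, pow_succ' a]
    cases t
    · simp only [Bool.false_eq_true, if_false, List.count_cons]
      have := ih.mulLeft ha
      rw [mul_sub] at this
      simpa using this
    · simp only [if_true, List.count_cons]
      have e : (1 + V) ^ (γ.count true + 1) - 1 =
          (1 + V) * (1 + ((1 + V) ^ (γ.count true) - 1)) - 1 := by
        rw [pow_succ]; ring
      have e2 : γ.count true + (if (true == true) = true then 1 else 0) = γ.count true + 1 := by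
        simp
      rw [e2, e]
      exact Dom.olSubMul ha (ha.pow _) hb (Wd_prob ha hb γ) hV hVn h' ih

theorem Wd_dom_count' {V : ℝ} {a b : MA G} (ha : Prob a) (hb : Prob b) (hV : 0 ≤ V)
    (h : Dom V a (a - b)) (γ : List Bool) :
    Dom ((1 + V) ^ (γ.count true)) (a ^ γ.length) (Wd a b γ) := by
  have hVn : 0 ≤ (1 + V) ^ (γ.count true) - 1 := by
    have := one_le_pow₀ (n := γ.count true) (by linarith : (1:ℝ) ≤ 1 + V)
    linarith
  have := Dom.olProbOfSub (ha.pow γ.length) (Wd_prob ha hb γ) hVn (Wd_dom_count ha hb hV h γ)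
  have e : 1 + ((1 + V) ^ (γ.count true) - 1) = (1 + V) ^ (γ.count true) := by ring
  rwa [e] at this

end

end Crest.Agent.R300LB
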