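import Crest.Agent.R300.LBOrth
import Crest.Agent.R300.LBOneLevel

/-!
# Row 300, lower bounds, piece L5: change of reference measure by moment bounds

`Mom k C π ν` : dual form of `∑ ν^(k+1)/π^k ≤ C` (`ν, π ≥ 0`).  It is multiplicative.
`Dom.toPure`: tiny terms with respect to `P` are tiny with respect to `π`, if `P` has a third moment
with respect to `π`.  `Dom.toRef`: main terms with respect to `π` are (almost as) small with respect
to `P`, if `π` has a high moment with respect to `P`.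
-/

set_option autoImplicit false

namespace Crest.Agent.R300LB

open Finset

noncomputable section

variable {G : Type*} [Monoid G]

/-! ### Hölder -/

theorem cv_holder {ι : Type*} (s : Finset ι) (k : ℕ) (A B C : ι → ℝ)
    (hA : ∀ i ∈ s, 0 ≤ A i) (hB : ∀ i ∈ s, 0 ≤ B i) (hC : ∀ i ∈ s, 0 ≤ C i)
    (h : ∀ i ∈ s, A i ^ (k + 2) ≤ B i ^ (k + 1) * C i) :
    (∑ i ∈ s, A i) ^ (k + 2) ≤ (∑ i ∈ s, B i) ^ (k + 1) * ∑ i ∈ s, C i := by
  have hAB : ∀ i ∈ s, B i = 0 → A i = 0 := by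
    intro i hi h0
    have := h i hi
    rw [h0, zero_pow (by omega), zero_mul] at this
    have h2 : A i ^ (k + 2) = 0 := le_antisymm this (pow_nonneg (hA i hi) _)
    exact pow_eq_zero_iff (by omega) |>.mp h2
  rcases eq_or_lt_of_le (Finset.sum_nonneg hB) with h0 | hpos
  · have hz : ∀ i ∈ s, A i = 0 := by
      intro i hi
      exact hAB i hi ((Finset.sum_eq_zero_iff_of_nonneg hB).mp h0.symm i hi)
    rw [Finset.sum_eq_zero hz, ← h0, zero_pow (by omega), zero_pow (by omega), zero_mul]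
  · set T := ∑ i ∈ s, B i with hT
    have h1 := Real.pow_arith_mean_le_arith_mean_pow s (fun i => B i / T) (fun i => A i / B i)
      (fun i hi => div_nonneg (hB i hi) hpos.le)
      (by rw [← Finset.sum_div, ← hT, div_self hpos.ne'])
      (fun i hi => div_nonneg (hA i hi) (hB i hi)) (k + 2)
    have e1 : ∑ i ∈ s, B i / T * (A i / B i) = (∑ i ∈ s, A i) / T := by
      rw [Finset.sum_div]
      refine Finset.sum_congr rfl (fun i hi => ?_)
      by_cases hb : B i = 0
      · rw [hb, hAB i hi hb]; simp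
      · field_simp
    have e2 : ∑ i ∈ s, B i / T * (A i / B i) ^ (k + 2) ≤ (∑ i ∈ s, C i) / T := by
      rw [Finset.sum_div]
      refine Finset.sum_le_sum (fun i hi => ?_)
      by_cases hb : B i = 0
      · rw [hb, hAB i hi hb]
        simp only [zero_div, zero_mul]
        exact div_nonneg (hC i hi) hpos.le
      · have hb' : 0 < B i := lt_of_le_of_ne (hB i hi) (Ne.symm hb)
        rw [div_pow, div_mul_div_comm, mul_comm (B i), div_le_div_iff₀ (by positivity) hpos]
        have := h i hi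
        have h3 : A i ^ (k + 2) * B i * T ≤ (B i ^ (k + 1) * C i) * B i * T := by
          gcongr
        calc A i ^ (k + 2) * B i * T ≤ (B i ^ (k + 1) * C i) * B i * T := h3
          _ = C i * (T * B i ^ (k + 2)) := by ring
    rw [e1, div_pow] at h1
    have h2 := le_trans h1 e2
    rw [div_le_div_iff₀ (by positivity) hpos] at h2
    have h3 : (∑ i ∈ s, A i) ^ (k + 2) * T ≤ (T ^ (k + 1) * ∑ i ∈ s, C i) * T := by
      calc (∑ i ∈ s, A i) ^ (k + 2) * T ≤ (∑ i ∈ s, C i) * T ^ (k + 2) := h2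
        _ = (T ^ (k + 1) * ∑ i ∈ s, C i) * T := by ring
    exact le_of_mul_le_mul_right h3 hpos

/-! ### coefficient descriptions -/

theorem cv_ev_eq {ν : MA G} {S : Finset G} (hS : ν.coeff.support ⊆ S) (f : G → ℝ) :
    ev ν f = ∑ w ∈ S, ν.coeff w * f w := by
  unfold ev
  exact Finsupp.sum_of_support_subset _ hS _ (by simp)

theorem cv_coeff_nonneg {ν : MA G} (h : Pos ν) (w : G) : 0 ≤ ν.coeff w := by
  classical
  have := h (fun v => if v = w then 1 else 0) (fun v => by split_ifs <;> norm_num)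
  rw [cv_ev_eq (S := insert w ν.coeff.support) (Finset.subset_insert _ _)] at this
  simpa using this

/-- primal form of `Dom` -/
theorem cv_dom_primal {V : ℝ} {π ν : MA G} (hπ : Pos π) (hV : 0 ≤ V) (h : Dom V π ν) :
    (∀ w, π.coeff w = 0 → ν.coeff w = 0) ∧
      ∑ w ∈ ν.coeff.support, ν.coeff w ^ 2 / π.coeff w ≤ V := by
  classical
  have h0 : ∀ w, π.coeff w = 0 → ν.coeff w = 0 := by
    intro w hw
    have := h (fun v => if v = w then 1 else 0)
    rw [cv_ev_eq (S := insert w ν.coeff.support) (Finset.subset_insert _ _),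
      cv_ev_eq (S := insert w π.coeff.support) (Finset.subset_insert _ _)] at this
    simp [hw] at this
    exact this
  refine ⟨h0, ?_⟩
  set T := ∑ w ∈ ν.coeff.support, ν.coeff w ^ 2 / π.coeff w with hT
  have h1 := h (fun w => ν.coeff w / π.coeff w)
  have e1 : ev ν (fun w => ν.coeff w / π.coeff w) = T := by
    rw [cv_ev_eq (Finset.Subset.refl _), hT]
    exact Finset.sum_congr rfl (fun w _ => by ring)
  have e2 : ev π (fun w => (ν.coeff w / π.coeff w) ^ 2) = T := by
    have hsub : ν.coeff.support ⊆ π.coeff.support := by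
      intro w hw
      rw [Finsupp.mem_support_iff] at hw ⊢
      exact fun hh => hw (h0 w hh)
    rw [cv_ev_eq (Finset.Subset.refl _), hT]
    symm
    rw [Finset.sum_subset hsub]
    · refine Finset.sum_congr rfl (fun w hw => ?_)
      rw [Finsupp.mem_support_iff] at hw
      field_simp
    · intro w _ hw
      rw [Finsupp.notMem_support_iff] at hw
      rw [hw]; simp
  rw [e1, e2] at h1
  have hT0 : 0 ≤ T := Finset.sum_nonneg (fun w _ => div_nonneg (sq_nonneg _) (cv_coeff_nonneg hπ w))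
  rcases eq_or_lt_of_le hT0 with h2 | h2
  · rw [← h2]; exact hV
  · nlinarith

theorem cv_dom_of_primal {V : ℝ} {π ν : MA G} (hπ : Pos π)
    (h0 : ∀ w, π.coeff w = 0 → ν.coeff w = 0)
    (h : ∑ w ∈ ν.coeff.support, ν.coeff w ^ 2 / π.coeff w ≤ V) : Dom V π ν := by
  intro f
  have hsub : ν.coeff.support ⊆ π.coeff.support := by
    intro w hw
    rw [Finsupp.mem_support_iff] at hw ⊢
    exact fun hh => hw (h0 w hh)
  rw [cv_ev_eq (Finset.Subset.refl _)]
  have h1 : (∑ w ∈ ν.coeff.support, ν.coeff w * f w) ^ 2 ≤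
      (∑ w ∈ ν.coeff.support, ν.coeff w ^ 2 / π.coeff w) *
        ∑ w ∈ ν.coeff.support, π.coeff w * f w ^ 2 := by
    refine Finset.sum_sq_le_sum_mul_sum_of_sq_le_mul _
      (fun w _ => div_nonneg (sq_nonneg _) (cv_coeff_nonneg hπ w))
      (fun w _ => mul_nonneg (cv_coeff_nonneg hπ w) (sq_nonneg _)) (fun w hw => le_of_eq ?_)
    have := hsub hw
    rw [Finsupp.mem_support_iff] at this
    field_simp
  have h2 : ∑ w ∈ ν.coeff.support, π.coeff w * f w ^ 2 ≤ ev π (fun w => f w ^ 2) := by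
    rw [cv_ev_eq (Finset.Subset.refl _)]
    exact Finset.sum_le_sum_of_subset_of_nonneg hsub
      (fun w _ _ => mul_nonneg (cv_coeff_nonneg hπ w) (sq_nonneg _))
  have h3 : 0 ≤ ∑ w ∈ ν.coeff.support, π.coeff w * f w ^ 2 :=
    Finset.sum_nonneg (fun w _ => mul_nonneg (cv_coeff_nonneg hπ w) (sq_nonneg _))
  have h4 : 0 ≤ ∑ w ∈ ν.coeff.support, ν.coeff w ^ 2 / π.coeff w :=
    Finset.sum_nonneg (fun w _ => div_nonneg (sq_nonneg _) (cv_coeff_nonneg hπ w))
  calc _ ≤ _ := h1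
    _ ≤ V * ev π (fun w => f w ^ 2) := mul_le_mul h h2 h3 (le_trans h4 h)

theorem cv_bd_coeff {u : ℝ} {a Δ : MA G} (h : Bd u a Δ) (w : G) :
    |Δ.coeff w| ≤ u * a.coeff w := by
  classical
  have := h (fun v => if v = w then 1 else 0) (fun v => by split_ifs <;> norm_num)
  rw [cv_ev_eq (S := insert w Δ.coeff.support) (Finset.subset_insert _ _),
    cv_ev_eq (S := insert w a.coeff.support) (Finset.subset_insert _ _)] at this
  simpa using this

/-! ### moments -/

/-- dual form of `∑ ν^(k+1)/π^k ≤ C` -/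
def Mom (k : ℕ) (C : ℝ) (π ν : MA G) : Prop :=
  ∀ h : G → ℝ, (∀ w, 0 ≤ h w) →
    (ev ν (fun w => h w ^ k)) ^ (k + 1) ≤ C * (ev π (fun w => h w ^ (k + 1))) ^ k

theorem Mom.mono {k : ℕ} {C C' : ℝ} {π ν : MA G} (h : Mom k C π ν) (hπ : Pos π) (hC : C ≤ C') :
    Mom k C' π ν := fun f hf =>
  le_trans (h f hf) (mul_le_mul_of_nonneg_right hC
    (pow_nonneg (hπ _ (fun w => pow_nonneg (hf w) _)) _))

/-- `Mom` from the primal form -/
theorem cv_mom_of_primal {k : ℕ} (hk : 1 ≤ k) {C : ℝ} {π ν : MA G} (hπ : Pos π) (hν : Pos ν)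
    (h0 : ∀ w, π.coeff w = 0 → ν.coeff w = 0)
    (h : ∑ w ∈ ν.coeff.support, ν.coeff w ^ (k + 1) / π.coeff w ^ k ≤ C) : Mom k C π ν := by
  intro f hf
  obtain ⟨j, rfl⟩ : ∃ j, k = j + 1 := ⟨k - 1, by omega⟩
  have hsub : ν.coeff.support ⊆ π.coeff.support := by
    intro w hw
    rw [Finsupp.mem_support_iff] at hw ⊢
    exact fun hh => hw (h0 w hh)
  rw [cv_ev_eq (Finset.Subset.refl _)]
  have hn := cv_coeff_nonneg hν
  have hp := cv_coeff_nonneg hπ
  have h1 := cv_holder ν.coeff.support j (fun w => ν.coeff w * f w ^ (j + 1))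
    (fun w => π.coeff w * f w ^ (j + 2)) (fun w => ν.coeff w ^ (j + 2) / π.coeff w ^ (j + 1))
    (fun w _ => mul_nonneg (hn w) (pow_nonneg (hf w) _))
    (fun w _ => mul_nonneg (hp w) (pow_nonneg (hf w) _))
    (fun w _ => div_nonneg (pow_nonneg (hn w) _) (pow_nonneg (hp w) _))
    (fun w hw => by
      have := hsub hw
      rw [Finsupp.mem_support_iff] at this
      have h3 : π.coeff w ^ (j + 1) ≠ 0 := pow_ne_zero _ this
      refine le_of_eq ?_
      rw [mul_pow, mul_pow, ← pow_mul, ← pow_mul]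
      field_simp
      ring)
  have h2 : ∑ w ∈ ν.coeff.support, π.coeff w * f w ^ (j + 2) ≤ ev π (fun w => f w ^ (j + 2)) := by
    rw [cv_ev_eq (Finset.Subset.refl _)]
    exact Finset.sum_le_sum_of_subset_of_nonneg hsub
      (fun w _ _ => mul_nonneg (hp w) (pow_nonneg (hf w) _))
  have h3 : 0 ≤ ∑ w ∈ ν.coeff.support, π.coeff w * f w ^ (j + 2) :=
    Finset.sum_nonneg (fun w _ => mul_nonneg (hp w) (pow_nonneg (hf w) _))
  have h4 : 0 ≤ ∑ w ∈ ν.coeff.support, ν.coeff w ^ (j + 2) / π.coeff w ^ (j + 1) :=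
    Finset.sum_nonneg (fun w _ => div_nonneg (pow_nonneg (hn w) _) (pow_nonneg (hp w) _))
  refine le_trans h1 ?_
  rw [mul_comm]
  exact mul_le_mul h (pow_le_pow_left₀ h3 h2 _) (pow_nonneg h3 _) (le_trans h4 h)

/-- primal form of `Mom` -/
theorem cv_mom_primal {k : ℕ} (hk : 1 ≤ k) {C : ℝ} {π ν : MA G} (hπ : Pos π) (hν : Pos ν)
    (hC : 0 ≤ C) (h : Mom k C π ν) :
    (∀ w, π.coeff w = 0 → ν.coeff w = 0) ∧
      ∑ w ∈ ν.coeff.support, ν.coeff w ^ (k + 1) / π.coeff w ^ k ≤ C := by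
  classical
  have hn := cv_coeff_nonneg hν
  have hp := cv_coeff_nonneg hπ
  have h0 : ∀ w, π.coeff w = 0 → ν.coeff w = 0 := by
    intro w hw
    have h1 := h (fun v => if v = w then 1 else 0) (fun v => by split_ifs <;> norm_num)
    rw [cv_ev_eq (S := insert w ν.coeff.support) (Finset.subset_insert _ _),
      cv_ev_eq (S := insert w π.coeff.support) (Finset.subset_insert _ _)] at h1
    simp [hw, ite_pow, zero_pow (show k ≠ 0 by omega)] at h1
    have h2 : ν.coeff w ^ (k + 1) = 0 := le_antisymm h1 (pow_nonneg (hn w) _)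
    exact pow_eq_zero_iff (by omega) |>.mp h2
  refine ⟨h0, ?_⟩
  set T := ∑ w ∈ ν.coeff.support, ν.coeff w ^ (k + 1) / π.coeff w ^ k with hT
  have h1 := h (fun w => ν.coeff w / π.coeff w) (fun w => div_nonneg (hn w) (hp w))
  have hsub : ν.coeff.support ⊆ π.coeff.support := by
    intro w hw
    rw [Finsupp.mem_support_iff] at hw ⊢
    exact fun hh => hw (h0 w hh)
  have e1 : ev ν (fun w => (ν.coeff w / π.coeff w) ^ k) = T := by
    rw [cv_ev_eq (Finset.Subset.refl _), hT]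
    exact Finset.sum_congr rfl (fun w _ => by rw [div_pow, pow_succ]; ring)
  have e2 : ev π (fun w => (ν.coeff w / π.coeff w) ^ (k + 1)) = T := by
    rw [cv_ev_eq (Finset.Subset.refl _), hT]
    symm
    rw [Finset.sum_subset hsub]
    · refine Finset.sum_congr rfl (fun w hw => ?_)
      rw [Finsupp.mem_support_iff] at hw
      rw [div_pow, pow_succ (π.coeff w)]
      field_simp
    · intro w _ hw
      rw [Finsupp.notMem_support_iff] at hw
      rw [hw]; simp
  rw [e1, e2] at h1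
  have hT0 : 0 ≤ T := Finset.sum_nonneg (fun w _ => div_nonneg (pow_nonneg (hn w) _)
    (pow_nonneg (hp w) _))
  rcases eq_or_lt_of_le hT0 with h2 | h2
  · rw [← h2]; exact hC
  · rw [pow_succ', mul_comm, mul_comm C] at h1
    exact le_of_mul_le_mul_left h1 (pow_pos h2 k)

theorem Mom.mul {k : ℕ} (hk : 1 ≤ k) {C1 C2 : ℝ} {π1 π2 ν1 ν2 : MA G}
    (hC2 : 0 ≤ C2) (hν1 : Pos ν1) (hν2 : Pos ν2) (hπ2 : Pos π2)
    (h1 : Mom k C1 π1 ν1) (h2 : Mom k C2 π2 ν2) : Mom k (C1 * C2) (π1 * π2) (ν1 * ν2) := by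
  intro f hf
  rw [ev_mul, ev_mul]
  set X : G → ℝ := fun u => ev π2 (fun v => f (u * v) ^ (k + 1)) with hX
  have hX0 : ∀ u, 0 ≤ X u := fun u => hπ2 _ (fun v => pow_nonneg (hf _) _)
  set c : ℝ := C2 ^ ((1 : ℝ) / k) with hc
  have hc0 : 0 ≤ c := Real.rpow_nonneg hC2 _
  have hck : c ^ k = C2 := by
    rw [hc, ← Real.rpow_natCast, ← Real.rpow_mul hC2, one_div_mul_cancel, Real.rpow_one]
    exact_mod_cast (show k ≠ 0 by omega)
  set g : G → ℝ := fun u => (c * X u) ^ ((1 : ℝ) / (k + 1 : ℕ)) with hg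
  have hg0 : ∀ u, 0 ≤ g u := fun u => Real.rpow_nonneg (mul_nonneg hc0 (hX0 u)) _
  have hgk : ∀ u, g u ^ (k + 1) = c * X u := by
    intro u
    rw [hg]
    show ((c * X u) ^ ((1 : ℝ) / (k + 1 : ℕ))) ^ (k + 1) = _
    rw [← Real.rpow_natCast, ← Real.rpow_mul (mul_nonneg hc0 (hX0 u)), one_div_mul_cancel,
      Real.rpow_one]
    exact_mod_cast (show k + 1 ≠ 0 by omega)
  have hle : ∀ u, ev ν2 (fun v => f (u * v) ^ k) ≤ g u ^ k := by
    intro u
    have h3 := h2 (fun v => f (u * v)) (fun v => hf _)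
    have h4 : (g u ^ k) ^ (k + 1) = C2 * (X u) ^ k := by
      rw [← pow_mul, mul_comm k (k + 1), pow_mul, hgk, mul_pow, hck]
    rw [← h4] at h3
    exact le_of_pow_le_pow_left₀ (by omega) (pow_nonneg (hg0 u) _) h3
  have h5 : ev ν1 (fun u => ev ν2 (fun v => f (u * v) ^ k)) ≤ ev ν1 (fun u => g u ^ k) :=
    hν1.mono hle
  have h6 : 0 ≤ ev ν1 (fun u => ev ν2 (fun v => f (u * v) ^ k)) :=
    hν1 _ (fun u => hν2 _ (fun v => pow_nonneg (hf _) _))
  calc (ev ν1 (fun u => ev ν2 (fun v => f (u * v) ^ k))) ^ (k + 1)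
      ≤ (ev ν1 (fun u => g u ^ k)) ^ (k + 1) := pow_le_pow_left₀ h6 h5 _
    _ ≤ C1 * (ev π1 (fun u => g u ^ (k + 1))) ^ k := h1 g hg0
    _ = C1 * (ev π1 (fun u => c * X u)) ^ k := by rw [ev_congr π1 hgk]
    _ = C1 * C2 * (ev π1 X) ^ k := by rw [ev_mul_fun, mul_pow, hck]; ring

theorem Mom.self {k : ℕ} (hk : 1 ≤ k) {a : MA G} (ha : Pos a) : Mom k (mass a) a a := by
  refine cv_mom_of_primal hk ha ha (fun w h => h) ?_
  have : mass a = ∑ w ∈ a.coeff.support, a.coeff w * 1 := cv_ev_eq (Finset.Subset.refl _) _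
  rw [this]
  refine Finset.sum_le_sum (fun w hw => le_of_eq ?_)
  rw [Finsupp.mem_support_iff] at hw
  rw [pow_succ]
  field_simp

theorem Mom.self_prob {k : ℕ} (hk : 1 ≤ k) {a : MA G} (ha : Prob a) : Mom k 1 a a := by
  have := Mom.self hk ha.pos
  rwa [ha.one] at this

/-! ### conversions -/

/-- (C1) tiny terms with respect to `P` are tiny with respect to `π`. -/
theorem Dom.toPure {C t M : ℝ} {π P F : MA G} (hπ : Pos π) (hP : Pos P) (hC : 0 ≤ C)
    (ht : 0 ≤ t) (hM0 : 0 ≤ M) (hb : Bd C P F) (hd : Dom t P F) (hM : Mom 2 M π P) :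
    Dom (C * Real.sqrt (t * M)) π F := by
  have hn := cv_coeff_nonneg hP
  have hp := cv_coeff_nonneg hπ
  obtain ⟨a0, a1⟩ := cv_dom_primal hP ht hd
  obtain ⟨b0, b1⟩ := cv_mom_primal (by norm_num) hπ hP hM0 hM
  refine cv_dom_of_primal hπ (fun w h => a0 w (b0 w h)) ?_
  have hsub : F.coeff.support ⊆ P.coeff.support := by
    intro w hw
    rw [Finsupp.mem_support_iff] at hw ⊢
    exact fun hh => hw (a0 w hh)
  set S := F.coeff.support
  have h1 : (∑ w ∈ S, F.coeff w ^ 2 / π.coeff w) ^ 2 ≤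
      (∑ w ∈ S, F.coeff w ^ 2 / P.coeff w) * ∑ w ∈ S, F.coeff w ^ 2 * P.coeff w / π.coeff w ^ 2 := by
    refine Finset.sum_sq_le_sum_mul_sum_of_sq_le_mul _
      (fun w _ => div_nonneg (sq_nonneg _) (hn w))
      (fun w _ => div_nonneg (mul_nonneg (sq_nonneg _) (hn w)) (sq_nonneg _))
      (fun w hw => le_of_eq ?_)
    have h2 := hsub hw
    rw [Finsupp.mem_support_iff] at h2
    have h3 : π.coeff w ≠ 0 := fun hh => h2 (b0 w hh)
    field_simp
  have h2 : ∑ w ∈ S, F.coeff w ^ 2 * P.coeff w / π.coeff w ^ 2 ≤ C ^ 2 * M := by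
    calc ∑ w ∈ S, F.coeff w ^ 2 * P.coeff w / π.coeff w ^ 2
        ≤ ∑ w ∈ S, C ^ 2 * (P.coeff w ^ 3 / π.coeff w ^ 2) := by
          refine Finset.sum_le_sum (fun w _ => ?_)
          rw [mul_div_assoc']
          refine div_le_div_of_nonneg_right ?_ (sq_nonneg _)
          have h4 := cv_bd_coeff hb w
          have h5 : F.coeff w ^ 2 ≤ (C * P.coeff w) ^ 2 := by
            rw [← sq_abs (F.coeff w)]
            exact pow_le_pow_left₀ (abs_nonneg _) h4 2
          calc F.coeff w ^ 2 * P.coeff w ≤ (C * P.coeff w) ^ 2 * P.coeff w :=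
                mul_le_mul_of_nonneg_right h5 (hn w)
            _ = C ^ 2 * P.coeff w ^ 3 := by ring
      _ = C ^ 2 * ∑ w ∈ S, P.coeff w ^ 3 / π.coeff w ^ 2 := by rw [Finset.mul_sum]
      _ ≤ C ^ 2 * M := by
          refine mul_le_mul_of_nonneg_left ?_ (sq_nonneg _)
          refine le_trans (Finset.sum_le_sum_of_subset_of_nonneg hsub
            (fun w _ _ => div_nonneg (pow_nonneg (hn w) _) (sq_nonneg _))) b1
  have h3 : 0 ≤ ∑ w ∈ S, F.coeff w ^ 2 / P.coeff w :=
    Finset.sum_nonneg (fun w _ => div_nonneg (sq_nonneg _) (hn w))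
  have h4 : 0 ≤ ∑ w ∈ S, F.coeff w ^ 2 / π.coeff w :=
    Finset.sum_nonneg (fun w _ => div_nonneg (sq_nonneg _) (hp w))
  have h5 : (∑ w ∈ S, F.coeff w ^ 2 / π.coeff w) ^ 2 ≤ (C * Real.sqrt (t * M)) ^ 2 := by
    refine le_trans h1 ?_
    rw [mul_pow, Real.sq_sqrt (mul_nonneg ht hM0)]
    calc (∑ w ∈ S, F.coeff w ^ 2 / P.coeff w) *
          ∑ w ∈ S, F.coeff w ^ 2 * P.coeff w / π.coeff w ^ 2 ≤ t * (C ^ 2 * M) :=
          mul_le_mul a1 h2 (Finset.sum_nonneg (fun w _ =>
            div_nonneg (mul_nonneg (sq_nonneg _) (hn w)) (sq_nonneg _))) ht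
      _ = C ^ 2 * (t * M) := by ring
  exact le_of_sq_le_sq_abs h4 h5 hC ht hM0
where
  le_of_sq_le_sq_abs {x C t M : ℝ} (hx : 0 ≤ x) (h : x ^ 2 ≤ (C * Real.sqrt (t * M)) ^ 2)
      (hC : 0 ≤ C) (_ : 0 ≤ t) (_ : 0 ≤ M) : x ≤ C * Real.sqrt (t * M) := by
    have := abs_le_of_sq_le_sq h (mul_nonneg hC (Real.sqrt_nonneg _))
    rwa [abs_of_nonneg hx] at this

/-- (C2) main terms: a bound with respect to `π` gives a bound with respect to `P`. -/
theorem Dom.toRef {k : ℕ} (hk : 1 ≤ k) {C X X' M : ℝ} {π P F : MA G} (hπ : Pos π) (hP : Pos P)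
    (hC : 0 ≤ C) (hX : 0 ≤ X) (hX' : 0 ≤ X') (hM0 : 0 ≤ M) (hb : Bd C P F) (hd : Dom X π F)
    (hM : Mom k M P π) (hXX : X ^ (k + 1) * (C ^ 2 * M) ≤ X' ^ (k + 2)) :
    Dom X' P F := by
  have hn := cv_coeff_nonneg hP
  have hp := cv_coeff_nonneg hπ
  obtain ⟨a0, a1⟩ := cv_dom_primal hπ hX hd
  obtain ⟨b0, b1⟩ := cv_mom_primal hk hP hπ hM0 hM
  refine cv_dom_of_primal hP (fun w h => a0 w (b0 w h)) ?_
  have hsub : F.coeff.support ⊆ π.coeff.support := by
    intro w hw
    rw [Finsupp.mem_support_iff] at hw ⊢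
    exact fun hh => hw (a0 w hh)
  set S := F.coeff.support
  have h1 := cv_holder S k (fun w => F.coeff w ^ 2 / P.coeff w)
    (fun w => F.coeff w ^ 2 / π.coeff w)
    (fun w => C ^ 2 * (π.coeff w ^ (k + 1) / P.coeff w ^ k))
    (fun w _ => div_nonneg (sq_nonneg _) (hn w)) (fun w _ => div_nonneg (sq_nonneg _) (hp w))
    (fun w _ => mul_nonneg (sq_nonneg _) (div_nonneg (pow_nonneg (hp w) _) (pow_nonneg (hn w) _)))
    (fun w hw => by
      have h2 := hsub hw
      rw [Finsupp.mem_support_iff] at h2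
      have h3 : P.coeff w ≠ 0 := fun hh => h2 (b0 w hh)
      have h2' : 0 < π.coeff w := lt_of_le_of_ne (hp w) (Ne.symm h2)
      have h3' : 0 < P.coeff w := lt_of_le_of_ne (hn w) (Ne.symm h3)
      have h5 : F.coeff w ^ 2 ≤ (C * P.coeff w) ^ 2 := by
        rw [← sq_abs (F.coeff w)]
        exact pow_le_pow_left₀ (abs_nonneg _) (cv_bd_coeff hb w) 2
      have e : (F.coeff w ^ 2 / π.coeff w) ^ (k + 1) *
          (C ^ 2 * (π.coeff w ^ (k + 1) / P.coeff w ^ k)) =
          (F.coeff w ^ 2 / P.coeff w) ^ (k + 1) * ((C * P.coeff w) ^ 2 / P.coeff w) := by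
        rw [div_pow, div_pow]
        rw [pow_succ (P.coeff w) k]
        field_simp
      rw [e, pow_succ (F.coeff w ^ 2 / P.coeff w) (k + 1)]
      refine mul_le_mul_of_nonneg_left ?_ (pow_nonneg (div_nonneg (sq_nonneg _) h3'.le) _)
      exact div_le_div_of_nonneg_right h5 h3'.le)
  have h2 : ∑ w ∈ S, C ^ 2 * (π.coeff w ^ (k + 1) / P.coeff w ^ k) ≤ C ^ 2 * M := by
    rw [← Finset.mul_sum]
    refine mul_le_mul_of_nonneg_left ?_ (sq_nonneg _)
    exact le_trans (Finset.sum_le_sum_of_subset_of_nonneg hsub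
      (fun w _ _ => div_nonneg (pow_nonneg (hp w) _) (pow_nonneg (hn w) _))) b1
  have h3 : 0 ≤ ∑ w ∈ S, F.coeff w ^ 2 / π.coeff w :=
    Finset.sum_nonneg (fun w _ => div_nonneg (sq_nonneg _) (hp w))
  have h4 : (∑ w ∈ S, F.coeff w ^ 2 / P.coeff w) ^ (k + 2) ≤ X' ^ (k + 2) := by
    refine le_trans h1 (le_trans ?_ hXX)
    exact mul_le_mul (pow_le_pow_left₀ h3 a1 _) h2
      (Finset.sum_nonneg (fun w _ => mul_nonneg (sq_nonneg _)
        (div_nonneg (pow_nonneg (hp w) _) (pow_nonneg (hn w) _)))) (pow_nonneg hX _)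
  exact le_of_pow_le_pow_left₀ (by omega) hX' h4

/-! ### powers and words -/

theorem Mom.pow {k : ℕ} (hk : 1 ≤ k) {C : ℝ} {π ν : MA G} (hC : 0 ≤ C) (hν : Pos ν) (hπ : Pos π)
    (h : Mom k C π ν) (n : ℕ) : Mom k (C ^ n) (π ^ n) (ν ^ n) := by
  induction n with
  | zero =>
    rw [pow_zero, pow_zero, pow_zero]
    exact Mom.self_prob hk Prob.one'
  | succ n ih =>
    rw [pow_succ, pow_succ, pow_succ]
    exact Mom.mul hk hC (hν.pow n) hν hπ ih h

/-! ### moments of one cell -/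

theorem cv_pow_upper {x : ℝ} {n : ℕ} (h : n * |x| ≤ 1) (h1 : x ≤ 1) :
    (1 - x) ^ n ≤ 1 - n * x + (n * x) ^ 2 := by
  have h2 : (1 - x) ^ n ≤ Real.exp (-x) ^ n := by
    refine pow_le_pow_left₀ (by linarith) ?_ n
    have := Real.add_one_le_exp (-x)
    linarith
  rw [← Real.exp_nat_mul] at h2
  have h3 : |(n : ℝ) * (-x)| ≤ 1 := by
    rw [abs_mul, abs_neg, Nat.abs_cast]; exact h
  have h4 := Real.abs_exp_sub_one_sub_id_le h3
  have h5 := (abs_le.mp h4).2
  nlinarith

theorem cv_inv_pow_upper {x : ℝ} {n : ℕ} (hn : 1 ≤ n) (h : 2 * n * |x| ≤ 1) :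
    ((1 - x) ^ n)⁻¹ ≤ 1 + n * x + 6 * (n * x) ^ 2 := by
  have hn' : (1 : ℝ) ≤ n := by exact_mod_cast hn
  have hx : |x| ≤ 1 / 2 := by
    have := abs_nonneg x
    nlinarith
  have hx1 := (abs_le.mp hx).1
  have hx2 := (abs_le.mp hx).2
  have h1 : 0 < 1 - x := by linarith
  have h2 : (1 - x)⁻¹ ≤ Real.exp (x + 2 * x ^ 2) := by
    have h3 := Real.add_one_le_exp (x + 2 * x ^ 2)
    have h4 : (1 - x)⁻¹ ≤ x + 2 * x ^ 2 + 1 := by
      rw [inv_le_iff_one_le_mul₀' h1]
      nlinarith [sq_nonneg x]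
    linarith
  have h5 : ((1 - x) ^ n)⁻¹ ≤ Real.exp (x + 2 * x ^ 2) ^ n := by
    rw [← inv_pow]
    exact pow_le_pow_left₀ (inv_nonneg.mpr h1.le) h2 n
  rw [← Real.exp_nat_mul] at h5
  set y := (n : ℝ) * (x + 2 * x ^ 2) with hy
  have hy2 : y ^ 2 ≤ 4 * (n * x) ^ 2 := by
    have e : y = (n * x) * (1 + 2 * x) := by rw [hy]; ring
    rw [e, mul_pow]
    have : (1 + 2 * x) ^ 2 ≤ 4 := by nlinarith
    nlinarith [sq_nonneg ((n : ℝ) * x)]
  have hy1 : |y| ≤ 1 := by
    apply abs_le_of_sq_le_sq _ zero_le_one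
    have : ((n : ℝ) * x) ^ 2 ≤ 1 / 4 := by
      have h6 : |(n : ℝ) * x| ≤ 1 / 2 := by
        rw [abs_mul, Nat.abs_cast]; linarith
      have := pow_le_pow_left₀ (abs_nonneg _) h6 2
      rw [sq_abs] at this
      linarith
    linarith
  have h7 := (abs_le.mp (Real.abs_exp_sub_one_sub_id_le hy1)).2
  have h8 : 2 * n * x ^ 2 ≤ 2 * (n * x) ^ 2 := by nlinarith [sq_nonneg x]
  have : y = n * x + 2 * n * x ^ 2 := by rw [hy]; ring
  linarith

/-- `b` against `a` -/
theorem Mom.cell {k : ℕ} (hk : 1 ≤ k) {u V : ℝ} {a b : MA G} (ha : Prob a) (hb : Prob b)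
    (hV : 0 ≤ V) (hu : 2 * (k + 1) * u ≤ 1) (hbd : Bd u a (a - b)) (hd : Dom V a (a - b)) :
    Mom k (1 + 6 * (k + 1) ^ 2 * V) a b := by
  have hn := cv_coeff_nonneg hb.pos
  have hp := cv_coeff_nonneg ha.pos
  obtain ⟨a0, a1⟩ := cv_dom_primal ha.pos hV hd
  have hb0 : ∀ w, a.coeff w = 0 → b.coeff w = 0 := by
    intro w hw
    have := a0 w hw
    rw [MonoidAlgebra.coeff_sub, Finsupp.sub_apply, hw] at this
    linarith
  refine cv_mom_of_primal hk ha.pos hb.pos hb0 ?_
  have hsub : b.coeff.support ⊆ a.coeff.support := by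
    intro w hw
    rw [Finsupp.mem_support_iff] at hw ⊢
    exact fun hh => hw (hb0 w hh)
  have hsub2 : (a - b).coeff.support ⊆ a.coeff.support := by
    intro w hw
    rw [Finsupp.mem_support_iff] at hw ⊢
    exact fun hh => hw (a0 w hh)
  have hone : ∑ w ∈ a.coeff.support, a.coeff w = 1 := by
    have h1 := ha.one
    unfold mass at h1
    rw [cv_ev_eq (Finset.Subset.refl _)] at h1
    simpa using h1
  have honeb : ∑ w ∈ a.coeff.support, b.coeff w = 1 := by
    have h1 := hb.one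
    unfold mass at h1
    rw [cv_ev_eq hsub] at h1
    simpa using h1
  have hV2 : ∑ w ∈ a.coeff.support, (a - b).coeff w ^ 2 / a.coeff w ≤ V := by
    rw [← Finset.sum_subset hsub2]
    · exact a1
    · intro w _ hw
      rw [Finsupp.notMem_support_iff] at hw
      rw [hw]; simp
  calc ∑ w ∈ b.coeff.support, b.coeff w ^ (k + 1) / a.coeff w ^ k
      ≤ ∑ w ∈ a.coeff.support, b.coeff w ^ (k + 1) / a.coeff w ^ k :=
        Finset.sum_le_sum_of_subset_of_nonneg hsub
          (fun w _ _ => div_nonneg (pow_nonneg (hn w) _) (pow_nonneg (hp w) _))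
    _ ≤ ∑ w ∈ a.coeff.support, (a.coeff w - (k + 1) * (a.coeff w - b.coeff w) +
          6 * (k + 1) ^ 2 * ((a - b).coeff w ^ 2 / a.coeff w)) := by
        refine Finset.sum_le_sum (fun w hw => ?_)
        rw [Finsupp.mem_support_iff] at hw
        have hp' : 0 < a.coeff w := lt_of_le_of_ne (hp w) (Ne.symm hw)
        set θ := (a.coeff w - b.coeff w) / a.coeff w with hθ
        have hbθ : b.coeff w = (1 - θ) * a.coeff w := by rw [hθ]; field_simp; ring
        have habs : |θ| ≤ u := by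
          rw [hθ, abs_div, abs_of_pos hp', div_le_iff₀ hp']
          have := cv_bd_coeff hbd w
          rwa [MonoidAlgebra.coeff_sub, Finsupp.sub_apply] at this
        have hk0 : (0 : ℝ) ≤ k := Nat.cast_nonneg k
        have h1 : ((k + 1 : ℕ) : ℝ) * |θ| ≤ 1 := by
          push_cast
          have := abs_nonneg θ
          nlinarith
        have h1' : θ ≤ 1 := by
          have := le_abs_self θ
          push_cast at h1
          have := abs_nonneg θ
          nlinarith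
        have h2 := cv_pow_upper h1 h1'
        have e1 : b.coeff w ^ (k + 1) / a.coeff w ^ k = a.coeff w * (1 - θ) ^ (k + 1) := by
          rw [hbθ, mul_pow, pow_succ (a.coeff w)]
          field_simp
        have e2 : (a - b).coeff w ^ 2 / a.coeff w = a.coeff w * θ ^ 2 := by
          rw [MonoidAlgebra.coeff_sub, Finsupp.sub_apply, hθ]
          field_simp
        have e3 : a.coeff w - b.coeff w = a.coeff w * θ := by rw [hθ]; field_simp
        rw [e1, e2, e3]
        push_cast at h2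
        have h3 : (1 - θ) ^ (k + 1) ≤ 1 - (k + 1) * θ + 6 * (k + 1) ^ 2 * θ ^ 2 := by
          have : 0 ≤ ((k : ℝ) + 1) ^ 2 * θ ^ 2 := by positivity
          nlinarith
        calc a.coeff w * (1 - θ) ^ (k + 1) ≤
              a.coeff w * (1 - (k + 1) * θ + 6 * (k + 1) ^ 2 * θ ^ 2) :=
              mul_le_mul_of_nonneg_left h3 hp'.le
          _ = _ := by ring
    _ ≤ 1 + 6 * (k + 1) ^ 2 * V := by
        rw [Finset.sum_add_distrib, Finset.sum_sub_distrib, ← Finset.mul_sum, ← Finset.mul_sum,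
          Finset.sum_sub_distrib, hone, honeb]
        have : 6 * ((k : ℝ) + 1) ^ 2 * ∑ w ∈ a.coeff.support, (a - b).coeff w ^ 2 / a.coeff w ≤
            6 * ((k : ℝ) + 1) ^ 2 * V := mul_le_mul_of_nonneg_left hV2 (by positivity)
        linarith

/-- `a` against `b` -/
theorem Mom.cell_inv {k : ℕ} (hk : 1 ≤ k) {u V : ℝ} {a b : MA G} (ha : Prob a) (hb : Prob b)
    (hV : 0 ≤ V) (hu : 2 * (k + 1) * u ≤ 1) (hbd : Bd u a (a - b)) (hd : Dom V a (a - b)) :
    Mom k (1 + 6 * k ^ 2 * V) b a := by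
  have hn := cv_coeff_nonneg hb.pos
  have hp := cv_coeff_nonneg ha.pos
  have hk1 : (1 : ℝ) ≤ k := by exact_mod_cast hk
  obtain ⟨a0, a1⟩ := cv_dom_primal ha.pos hV hd
  have hb0 : ∀ w, a.coeff w = 0 → b.coeff w = 0 := by
    intro w hw
    have := a0 w hw
    rw [MonoidAlgebra.coeff_sub, Finsupp.sub_apply, hw] at this
    linarith
  have hcoef : ∀ w, |a.coeff w - b.coeff w| ≤ u * a.coeff w := by
    intro w
    have := cv_bd_coeff hbd w
    rwa [MonoidAlgebra.coeff_sub, Finsupp.sub_apply] at this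
  have hab0 : ∀ w, b.coeff w = 0 → a.coeff w = 0 := by
    intro w hw
    have h1 := hcoef w
    rw [hw, sub_zero, abs_of_nonneg (hp w)] at h1
    have := hp w
    nlinarith
  refine cv_mom_of_primal hk hb.pos ha.pos hab0 ?_
  have hsub : b.coeff.support ⊆ a.coeff.support := by
    intro w hw
    rw [Finsupp.mem_support_iff] at hw ⊢
    exact fun hh => hw (hb0 w hh)
  have hsub2 : (a - b).coeff.support ⊆ a.coeff.support := by
    intro w hw
    rw [Finsupp.mem_support_iff] at hw ⊢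
    exact fun hh => hw (a0 w hh)
  have hone : ∑ w ∈ a.coeff.support, a.coeff w = 1 := by
    have h1 := ha.one
    unfold mass at h1
    rw [cv_ev_eq (Finset.Subset.refl _)] at h1
    simpa using h1
  have honeb : ∑ w ∈ a.coeff.support, b.coeff w = 1 := by
    have h1 := hb.one
    unfold mass at h1
    rw [cv_ev_eq hsub] at h1
    simpa using h1
  have hV2 : ∑ w ∈ a.coeff.support, (a - b).coeff w ^ 2 / a.coeff w ≤ V := by
    rw [← Finset.sum_subset hsub2]
    · exact a1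
    · intro w _ hw
      rw [Finsupp.notMem_support_iff] at hw
      rw [hw]; simp
  calc ∑ w ∈ a.coeff.support, a.coeff w ^ (k + 1) / b.coeff w ^ k
      ≤ ∑ w ∈ a.coeff.support, (a.coeff w + k * (a.coeff w - b.coeff w) +
          6 * k ^ 2 * ((a - b).coeff w ^ 2 / a.coeff w)) := by
        refine Finset.sum_le_sum (fun w hw => ?_)
        rw [Finsupp.mem_support_iff] at hw
        have hp' : 0 < a.coeff w := lt_of_le_of_ne (hp w) (Ne.symm hw)
        set θ := (a.coeff w - b.coeff w) / a.coeff w with hθ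
        have hbθ : b.coeff w = (1 - θ) * a.coeff w := by rw [hθ]; field_simp; ring
        have habs : |θ| ≤ u := by
          rw [hθ, abs_div, abs_of_pos hp', div_le_iff₀ hp']
          exact hcoef w
        have h1 : 2 * (k : ℝ) * |θ| ≤ 1 := by
          have := abs_nonneg θ
          nlinarith
        have hθ1 : θ < 1 := by
          have h3 := le_abs_self θ
          have := abs_nonneg θ
          nlinarith
        have h2 := cv_inv_pow_upper hk h1
        have h1θ : 0 < 1 - θ := by linarith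
        have e1 : a.coeff w ^ (k + 1) / b.coeff w ^ k = a.coeff w * ((1 - θ) ^ k)⁻¹ := by
          rw [hbθ, mul_pow, pow_succ (a.coeff w)]
          field_simp
        have e2 : (a - b).coeff w ^ 2 / a.coeff w = a.coeff w * θ ^ 2 := by
          rw [MonoidAlgebra.coeff_sub, Finsupp.sub_apply, hθ]
          field_simp
        have e3 : a.coeff w - b.coeff w = a.coeff w * θ := by rw [hθ]; field_simp
        rw [e1, e2, e3]
        calc a.coeff w * ((1 - θ) ^ k)⁻¹ ≤ a.coeff w * (1 + k * θ + 6 * (k * θ) ^ 2) :=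
              mul_le_mul_of_nonneg_left h2 hp'.le
          _ = _ := by ring
    _ ≤ 1 + 6 * k ^ 2 * V := by
        rw [Finset.sum_add_distrib, Finset.sum_add_distrib, ← Finset.mul_sum, ← Finset.mul_sum,
          Finset.sum_sub_distrib, hone, honeb]
        have h1 : 6 * (k : ℝ) ^ 2 * ∑ w ∈ a.coeff.support, (a - b).coeff w ^ 2 / a.coeff w ≤
            6 * (k : ℝ) ^ 2 * V := mul_le_mul_of_nonneg_left hV2 (by positivity)
        linarith

/-- a word against the pure power -/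
theorem Mom.wd {k : ℕ} (hk : 1 ≤ k) {u V : ℝ} {a b : MA G} (ha : Prob a) (hb : Prob b)
    (hV : 0 ≤ V) (hu : 2 * (k + 1) * u ≤ 1) (hbd : Bd u a (a - b)) (hd : Dom V a (a - b))
    (w : List Bool) :
    Mom k ((1 + 6 * (k + 1) ^ 2 * V) ^ (w.count true)) (a ^ w.length) (Wd a b w) := by
  induction w with
  | nil => simpa [Wd_nil] using Mom.self_prob hk (Prob.one' (G := G))
  | cons t w ih =>
    rw [Wd_cons, List.length_cons, pow_succ' a]
    have hM : (0 : ℝ) ≤ 1 + 6 * (k + 1) ^ 2 * V := by positivity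
    cases t
    · rw [List.count_cons_of_ne (by simp)]
      have := Mom.mul hk (pow_nonneg hM _) ha.pos (Wd_prob ha hb w).pos (ha.pos.pow _)
        (Mom.self_prob hk ha) ih
      rw [one_mul] at this
      simpa using this
    · rw [List.count_cons_self, pow_succ']
      have := Mom.mul hk (pow_nonneg hM _) hb.pos (Wd_prob ha hb w).pos (ha.pos.pow _)
        (Mom.cell hk ha hb hV hu hbd hd) ih
      simpa using this

/-- the pure power against a word -/
theorem Mom.wd_inv {k : ℕ} (hk : 1 ≤ k) {u V : ℝ} {a b : MA G} (ha : Prob a) (hb : Prob b)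
    (hV : 0 ≤ V) (hu : 2 * (k + 1) * u ≤ 1) (hbd : Bd u a (a - b)) (hd : Dom V a (a - b))
    (w : List Bool) :
    Mom k ((1 + 6 * k ^ 2 * V) ^ (w.count true)) (Wd a b w) (a ^ w.length) := by
  induction w with
  | nil => simpa [Wd_nil] using Mom.self_prob hk (Prob.one' (G := G))
  | cons t w ih =>
    rw [Wd_cons, List.length_cons, pow_succ' a]
    have hM : (0 : ℝ) ≤ 1 + 6 * k ^ 2 * V := by positivity
    cases t
    · rw [List.count_cons_of_ne (by simp)]
      have := Mom.mul hk (pow_nonneg hM _) ha.pos (ha.pos.pow _) (Wd_prob ha hb w).pos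
        (Mom.self_prob hk ha) ih
      rw [one_mul] at this
      simpa using this
    · rw [List.count_cons_self, pow_succ']
      have := Mom.mul hk (pow_nonneg hM _) ha.pos (ha.pos.pow _) (Wd_prob ha hb w).pos
        (Mom.cell_inv hk ha hb hV hu hbd hd) ih
      simpa using this

end

end Crest.Agent.R300LB
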