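import Mathlib

/-!
# Row 300, lower bounds (S0454, S0455): calculus of finitely supported signed measures on a monoid

`MA G = MonoidAlgebra ℝ G`, product = convolution.  `ev ν f = ∫ f dν`.
`Dom V π ν` : dual form of "the squared `L²(π)` norm of `dν/dπ` is at most `V`".
-/

set_option autoImplicit false

namespace Crest.Agent.R300LB

open Finset

noncomputable section

variable {G : Type*} [Monoid G]

/-- finitely supported signed measures on `G` -/
abbrev MA (G : Type*) := MonoidAlgebra ℝ G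

/-- integral of `f` against `ν` -/
def ev (ν : MA G) (f : G → ℝ) : ℝ := Finsupp.sum ν.coeff (fun w c => c * f w)

theorem ev_zero (f : G → ℝ) : ev (0 : MA G) f = 0 := by
  simp [ev]

theorem ev_add (μ ν : MA G) (f : G → ℝ) : ev (μ + ν) f = ev μ f + ev ν f := by
  unfold ev
  rw [MonoidAlgebra.coeff_add]
  exact Finsupp.sum_add_index' (by simp) (by intros; ring)

theorem ev_neg (ν : MA G) (f : G → ℝ) : ev (-ν) f = - ev ν f := by
  have h := ev_add (-ν) ν f
  rw [neg_add_cancel, ev_zero] at h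
  linarith

theorem ev_sub (μ ν : MA G) (f : G → ℝ) : ev (μ - ν) f = ev μ f - ev ν f := by
  rw [sub_eq_add_neg, ev_add, ev_neg]; ring

theorem ev_smul (c : ℝ) (ν : MA G) (f : G → ℝ) : ev (c • ν) f = c * ev ν f := by
  unfold ev
  rw [MonoidAlgebra.coeff_smul, Finsupp.sum_smul_index (by simp), Finsupp.mul_sum]
  exact Finsupp.sum_congr (fun _ _ => by ring)

theorem ev_single (w : G) (c : ℝ) (f : G → ℝ) :
    ev (MonoidAlgebra.single w c : MA G) f = c * f w := by
  unfold ev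
  rw [MonoidAlgebra.coeff_single]
  exact Finsupp.sum_single_index (by simp)

theorem ev_one (f : G → ℝ) : ev (1 : MA G) f = f 1 := by
  rw [MonoidAlgebra.one_def, ev_single]; ring

theorem ev_sum {ι : Type*} (s : Finset ι) (ν : ι → MA G) (f : G → ℝ) :
    ev (∑ i ∈ s, ν i) f = ∑ i ∈ s, ev (ν i) f := by
  classical
  induction s using Finset.induction_on with
  | empty => simp [ev_zero]
  | insert a s ha ih => rw [Finset.sum_insert ha, ev_add, ih, Finset.sum_insert ha]

theorem ev_add_fun (ν : MA G) (f g : G → ℝ) : ev ν (fun w => f w + g w) = ev ν f + ev ν g := by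
  unfold ev
  rw [← Finsupp.sum_add]
  exact Finsupp.sum_congr (fun _ _ => by ring)

theorem ev_mul_fun (ν : MA G) (c : ℝ) (f : G → ℝ) : ev ν (fun w => c * f w) = c * ev ν f := by
  unfold ev
  rw [Finsupp.mul_sum]
  exact Finsupp.sum_congr (fun _ _ => by ring)

theorem ev_sub_fun (ν : MA G) (f g : G → ℝ) : ev ν (fun w => f w - g w) = ev ν f - ev ν g := by
  unfold ev
  rw [← Finsupp.sum_sub]
  exact Finsupp.sum_congr (fun _ _ => by ring)

theorem ev_sum_fun {ι : Type*} (s : Finset ι) (ν : MA G) (f : ι → G → ℝ) :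
    ev ν (fun w => ∑ i ∈ s, f i w) = ∑ i ∈ s, ev ν (f i) := by
  classical
  induction s using Finset.induction_on with
  | empty => simp [ev]
  | insert a s ha ih =>
    rw [Finset.sum_insert ha, ← ih, ← ev_add_fun]
    congr 1
    funext w
    rw [Finset.sum_insert ha]

theorem ev_congr (ν : MA G) {f g : G → ℝ} (h : ∀ w, f w = g w) : ev ν f = ev ν g := by
  congr 1; funext w; exact h w

/-- Fubini -/
theorem ev_swap (μ ν : MA G) (F : G → G → ℝ) :
    ev μ (fun u => ev ν (fun v => F u v)) = ev ν (fun v => ev μ (fun u => F u v)) := by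
  unfold ev
  simp_rw [Finsupp.mul_sum]
  rw [Finsupp.sum_comm]
  refine Finsupp.sum_congr (fun v _ => Finsupp.sum_congr (fun u _ => by ring))

theorem ev_mul (μ ν : MA G) (f : G → ℝ) :
    ev (μ * ν) f = ev μ (fun u => ev ν (fun v => f (u * v))) := by
  induction μ using MonoidAlgebra.induction_linear with
  | zero => rw [zero_mul, ev_zero, ev_zero]
  | add x y hx hy => rw [add_mul, ev_add, hx, hy, ← ev_add]
  | single u c =>
    induction ν using MonoidAlgebra.induction_linear with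
    | zero => rw [mul_zero, ev_zero, ev_single, ev_zero, mul_zero]
    | add x y hx hy =>
      rw [mul_add, ev_add, hx, hy, ev_single, ev_single, ev_single, ev_add]
      ring
    | single v d =>
      rw [MonoidAlgebra.single_mul_single, ev_single, ev_single, ev_single]
      ring

/-- nonnegative measure -/
def Pos (ν : MA G) : Prop := ∀ f : G → ℝ, (∀ w, 0 ≤ f w) → 0 ≤ ev ν f

/-- total mass -/
def mass (ν : MA G) : ℝ := ev ν (fun _ => 1)

/-- probability measure -/
structure Prob (a : MA G) : Prop where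
  pos : Pos a
  one : mass a = 1

/-- pointwise order -/
def Le (μ ν : MA G) : Prop := Pos (ν - μ)

theorem Pos.zero : Pos (0 : MA G) := fun f _ => by rw [ev_zero]

theorem Pos.one : Pos (1 : MA G) := fun f hf => by rw [ev_one]; exact hf 1

theorem Pos.add {μ ν : MA G} (h1 : Pos μ) (h2 : Pos ν) : Pos (μ + ν) := fun f hf => by
  rw [ev_add]; exact add_nonneg (h1 f hf) (h2 f hf)

theorem Pos.smul {ν : MA G} (h : Pos ν) {c : ℝ} (hc : 0 ≤ c) : Pos (c • ν) := fun f hf => by
  rw [ev_smul]; exact mul_nonneg hc (h f hf)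

theorem Pos.mul {μ ν : MA G} (h1 : Pos μ) (h2 : Pos ν) : Pos (μ * ν) := fun f hf => by
  rw [ev_mul]; exact h1 _ (fun u => h2 _ (fun v => hf _))

theorem Pos.pow {ν : MA G} (h : Pos ν) (k : ℕ) : Pos (ν ^ k) := by
  induction k with
  | zero => rw [pow_zero]; exact Pos.one
  | succ k ih => rw [pow_succ]; exact ih.mul h

theorem Pos.sum {ι : Type*} {s : Finset ι} {ν : ι → MA G} (h : ∀ i ∈ s, Pos (ν i)) :
    Pos (∑ i ∈ s, ν i) := fun f hf => by
  rw [ev_sum]; exact Finset.sum_nonneg (fun i hi => h i hi f hf)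

theorem Pos.mono {ν : MA G} (h : Pos ν) {f g : G → ℝ} (hfg : ∀ w, f w ≤ g w) :
    ev ν f ≤ ev ν g := by
  have := h (fun w => g w - f w) (fun w => sub_nonneg.mpr (hfg w))
  rw [ev_sub_fun] at this
  linarith

theorem Le.ev_le {μ ν : MA G} (h : Le μ ν) {f : G → ℝ} (hf : ∀ w, 0 ≤ f w) :
    ev μ f ≤ ev ν f := by
  have := h f hf
  rw [ev_sub] at this
  linarith

theorem Le.refl (μ : MA G) : Le μ μ := fun f _ => by rw [sub_self, ev_zero]

theorem Le.trans {μ ν ρ : MA G} (h1 : Le μ ν) (h2 : Le ν ρ) : Le μ ρ := fun f hf => by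
  rw [ev_sub]
  have a := h1.ev_le hf
  have b := h2.ev_le hf
  linarith

theorem Le.pos {μ ν : MA G} (h : Le μ ν) (hμ : Pos μ) : Pos ν := fun f hf =>
  le_trans (hμ f hf) (h.ev_le hf)

theorem Le.mul_left {μ ν : MA G} (h : Le μ ν) {a : MA G} (ha : Pos a) : Le (a * μ) (a * ν) := by
  unfold Le at *
  rw [← mul_sub]
  exact ha.mul h

theorem Le.mul_right {μ ν : MA G} (h : Le μ ν) {a : MA G} (ha : Pos a) : Le (μ * a) (ν * a) := by
  unfold Le at *
  rw [← sub_mul]
  exact Pos.mul h ha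

theorem mass_mul (μ ν : MA G) : mass (μ * ν) = mass μ * mass ν := by
  unfold mass
  rw [ev_mul]
  show ev μ (fun _ => ev ν (fun _ => 1)) = _
  have : (fun _ : G => ev ν (fun _ => (1:ℝ))) = fun w : G => ev ν (fun _ => (1:ℝ)) * 1 := by
    funext w; ring
  rw [this, ev_mul_fun, mul_comm]

theorem mass_one : mass (1 : MA G) = 1 := by
  unfold mass; rw [ev_one]

theorem mass_add (μ ν : MA G) : mass (μ + ν) = mass μ + mass ν := ev_add _ _ _

theorem mass_sub (μ ν : MA G) : mass (μ - ν) = mass μ - mass ν := ev_sub _ _ _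

theorem mass_smul (c : ℝ) (ν : MA G) : mass (c • ν) = c * mass ν := ev_smul _ _ _

theorem mass_pow (ν : MA G) (k : ℕ) : mass (ν ^ k) = mass ν ^ k := by
  induction k with
  | zero => rw [pow_zero, pow_zero, mass_one]
  | succ k ih => rw [pow_succ, mass_mul, ih, pow_succ]

theorem Prob.one' : Prob (1 : MA G) := ⟨Pos.one, mass_one⟩

theorem Prob.mul {a b : MA G} (ha : Prob a) (hb : Prob b) : Prob (a * b) :=
  ⟨ha.pos.mul hb.pos, by rw [mass_mul, ha.one, hb.one, mul_one]⟩

theorem Prob.pow {a : MA G} (ha : Prob a) (k : ℕ) : Prob (a ^ k) :=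
  ⟨ha.pos.pow k, by rw [mass_pow, ha.one, one_pow]⟩

theorem ev_const {a : MA G} (ha : Prob a) (c : ℝ) : ev a (fun _ => c) = c := by
  have : (fun _ : G => c) = fun w : G => c * 1 := by funext w; ring
  rw [this, ev_mul_fun]
  have := ha.one
  unfold mass at this
  rw [this, mul_one]

/-- Cauchy–Schwarz for a nonnegative measure -/
theorem Pos.cauchy {π : MA G} (h : Pos π) (f g : G → ℝ) :
    (ev π (fun w => f w * g w)) ^ 2 ≤ ev π (fun w => f w ^ 2) * ev π (fun w => g w ^ 2) := by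
  have key : ∀ t : ℝ, 0 ≤ ev π (fun w => f w ^ 2) * (t * t) +
      (2 * ev π (fun w => f w * g w)) * t + ev π (fun w => g w ^ 2) := by
    intro t
    have h1 := h (fun w => (t * f w + g w) ^ 2) (fun w => sq_nonneg _)
    have h2 : ev π (fun w => (t * f w + g w) ^ 2) = ev π (fun w => f w ^ 2) * (t * t) +
      (2 * ev π (fun w => f w * g w)) * t + ev π (fun w => g w ^ 2) := by
      have e : ∀ w, (t * f w + g w) ^ 2 = (t * t) * (f w ^ 2) + (2 * t) * (f w * g w) + g w ^ 2 := by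
        intro w; ring
      rw [ev_congr π e, ev_add_fun, ev_add_fun, ev_mul_fun, ev_mul_fun]
      ring
    rw [h2] at h1
    exact h1
  have := discrim_le_zero key
  unfold discrim at this
  nlinarith

/-- `Dom V π ν`: the squared `L²(π)`-norm of `ν` is at most `V` (dual form). -/
def Dom (V : ℝ) (π ν : MA G) : Prop :=
  ∀ f : G → ℝ, (ev ν f) ^ 2 ≤ V * ev π (fun w => f w ^ 2)

theorem Dom.mono {V V' : ℝ} {π ν : MA G} (h : Dom V π ν) (hV : V ≤ V') (hπ : Pos π) :
    Dom V' π ν := fun f =>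
  le_trans (h f) (mul_le_mul_of_nonneg_right hV (hπ _ (fun w => sq_nonneg _)))

theorem Dom.zero (π : MA G) (hπ : Pos π) {V : ℝ} (hV : 0 ≤ V) : Dom V π 0 := fun f => by
  rw [ev_zero]
  have := mul_nonneg hV (hπ (fun w => f w ^ 2) (fun w => sq_nonneg _))
  simpa using this

/-- change of reference -/
theorem Dom.ref {V C : ℝ} {π π' ν : MA G} (h : Dom V π ν) (hV : 0 ≤ V)
    (hle : ∀ f : G → ℝ, (∀ w, 0 ≤ f w) → ev π f ≤ C * ev π' f) : Dom (V * C) π' ν := fun f => by
  refine le_trans (h f) ?_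
  rw [mul_assoc]
  exact mul_le_mul_of_nonneg_left (hle _ (fun w => sq_nonneg _)) hV

theorem Dom.smul {V : ℝ} {π ν : MA G} (h : Dom V π ν) (c : ℝ) : Dom (c ^ 2 * V) π (c • ν) :=
  fun f => by
    rw [ev_smul, mul_pow, mul_assoc]
    exact mul_le_mul_of_nonneg_left (h f) (sq_nonneg c)

theorem Dom.neg {V : ℝ} {π ν : MA G} (h : Dom V π ν) : Dom V π (-ν) := fun f => by
  rw [ev_neg, neg_sq]; exact h f

theorem Dom.mul {V1 V2 : ℝ} {π1 π2 ν1 ν2 : MA G} (h1 : Dom V1 π1 ν1) (h2 : Dom V2 π2 ν2)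
    (hV1 : 0 ≤ V1) (hπ1 : Pos π1) : Dom (V1 * V2) (π1 * π2) (ν1 * ν2) := fun f => by
  rw [ev_mul, ev_mul]
  refine le_trans (h1 _) ?_
  rw [mul_assoc]
  refine mul_le_mul_of_nonneg_left ?_ hV1
  rw [← ev_mul_fun]
  exact hπ1.mono (fun u => h2 _)

/-- a nonnegative measure against itself -/
theorem Dom.self {τ : MA G} (h : Pos τ) : Dom (mass τ) τ τ := fun f => by
  have := h.cauchy (fun _ => 1) f
  simp only [one_mul, one_pow] at this
  exact this

theorem Dom.self_prob {a : MA G} (h : Prob a) : Dom 1 a a := by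
  have := Dom.self h.pos
  rwa [h.one] at this

/-- mixture rule -/
theorem Dom.mix {V1 V2 t1 t2 : ℝ} {π1 π2 ν1 ν2 : MA G} (h1 : Dom V1 π1 ν1) (h2 : Dom V2 π2 ν2)
    (ht1 : 0 < t1) (ht2 : 0 < t2) (hV1 : 0 ≤ V1) (hV2 : 0 ≤ V2) (hπ1 : Pos π1) (hπ2 : Pos π2) :
    Dom (V1 / t1 + V2 / t2) (t1 • π1 + t2 • π2) (ν1 + ν2) := fun f => by
  rw [ev_add, ev_add, ev_smul, ev_smul]
  have a1 := h1 f
  have a2 := h2 f
  set A := ev ν1 f
  set B := ev ν2 f
  have p1 : 0 ≤ ev π1 (fun w => f w ^ 2) := hπ1 _ (fun w => sq_nonneg _)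
  have p2 : 0 ≤ ev π2 (fun w => f w ^ 2) := hπ2 _ (fun w => sq_nonneg _)
  set X := ev π1 (fun w => f w ^ 2)
  set Y := ev π2 (fun w => f w ^ 2)
  have key : (V1 / t1 + V2 / t2) * (t1 * X + t2 * Y) =
      V1 * X + V2 * Y + (V1 / t1 * (t2 * Y) + V2 / t2 * (t1 * X)) := by
    field_simp
    ring
  rw [key]
  have h3 : 2 * A * B ≤ V1 / t1 * (t2 * Y) + V2 / t2 * (t1 * X) := by
    have hab : (A * B) ^ 2 ≤ (V1 * X) * (V2 * Y) := by
      rw [mul_pow]
      exact mul_le_mul a1 a2 (sq_nonneg _) (mul_nonneg hV1 p1)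
    set P := V1 / t1 * (t2 * Y)
    set Q := V2 / t2 * (t1 * X)
    have hP : 0 ≤ P := by positivity
    have hQ : 0 ≤ Q := by positivity
    have hPQ : P * Q = (V1 * X) * (V2 * Y) := by
      simp only [P, Q]; field_simp
    have h4 : (2 * (A * B)) ^ 2 ≤ (P + Q) ^ 2 := by nlinarith [sq_nonneg (P - Q)]
    have := abs_le_of_sq_le_sq' h4 (by positivity)
    linarith [this.2]
  nlinarith

/-- triangle inequality for `√V` -/
theorem Dom.add {x y : ℝ} {π μ ν : MA G} (h1 : Dom (x ^ 2) π μ) (h2 : Dom (y ^ 2) π ν)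
    (hx : 0 ≤ x) (hy : 0 ≤ y) (hπ : Pos π) : Dom ((x + y) ^ 2) π (μ + ν) := fun f => by
  rw [ev_add]
  have a1 := h1 f
  have a2 := h2 f
  have p : 0 ≤ ev π (fun w => f w ^ 2) := hπ _ (fun w => sq_nonneg _)
  set X := ev π (fun w => f w ^ 2)
  obtain ⟨r, hr0, hr⟩ : ∃ r, 0 ≤ r ∧ r ^ 2 = X := ⟨Real.sqrt X, Real.sqrt_nonneg _, Real.sq_sqrt p⟩
  rw [← hr] at a1 a2 ⊢
  have b1 : |ev μ f| ≤ x * r := by
    apply abs_le_of_sq_le_sq _ (by positivity)
    nlinarith
  have b2 : |ev ν f| ≤ y * r := by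
    apply abs_le_of_sq_le_sq _ (by positivity)
    nlinarith
  have b3 : |ev μ f + ev ν f| ≤ (x + y) * r := by
    calc |ev μ f + ev ν f| ≤ |ev μ f| + |ev ν f| := abs_add_le _ _
      _ ≤ (x + y) * r := by nlinarith
  calc (ev μ f + ev ν f) ^ 2 = |ev μ f + ev ν f| ^ 2 := by rw [sq_abs]
    _ ≤ ((x + y) * r) ^ 2 := by
        apply pow_le_pow_left₀ (abs_nonneg _) b3
    _ = (x + y) ^ 2 * r ^ 2 := by ring

theorem Dom.sum {ι : Type*} (s : Finset ι) {x : ι → ℝ} {π : MA G} {ν : ι → MA G}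
    (h : ∀ i ∈ s, Dom ((x i) ^ 2) π (ν i)) (hx : ∀ i ∈ s, 0 ≤ x i) (hπ : Pos π) :
    Dom ((∑ i ∈ s, x i) ^ 2) π (∑ i ∈ s, ν i) := by
  classical
  induction s using Finset.induction_on with
  | empty => simpa using Dom.zero π hπ (le_refl (0:ℝ))
  | insert a s ha ih =>
    rw [Finset.sum_insert ha, Finset.sum_insert ha]
    refine Dom.add (h a (Finset.mem_insert_self a s)) (ih (fun i hi => h i (Finset.mem_insert_of_mem hi))
      (fun i hi => hx i (Finset.mem_insert_of_mem hi))) (hx a (Finset.mem_insert_self a s))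
      (Finset.sum_nonneg (fun i hi => hx i (Finset.mem_insert_of_mem hi))) hπ

end

end Crest.Agent.R300LB
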