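import Crest.Agent.R300.LBSlipModel

/-!
# Row 300, lower bounds, piece L10: base slip
-/

set_option autoImplicit false

namespace Crest.Agent.R300LB.Sl

open Polynomial Finset

noncomputable section

/-! ### common part of two laws -/

theorem ev_eq_sum {G : Type*} [Monoid G] (ν : MA G) (f : G → ℝ) (S : Finset G)
    (hS : ν.coeff.support ⊆ S) : ev ν f = ∑ w ∈ S, ν.coeff w * f w := by
  unfold ev
  exact Finsupp.sum_of_support_subset _ hS _ (by simp)

theorem coeff_nonneg {G : Type*} [Monoid G] {ν : MA G} (h : Pos ν) (w : G) : 0 ≤ ν.coeff w := by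
  classical
  have h1 := h (fun v => if v = w then 1 else 0) (fun v => by split_ifs <;> norm_num)
  rw [ev_eq_sum ν _ (insert w ν.coeff.support) (Finset.subset_insert _ _)] at h1
  simp only [mul_ite, mul_one, mul_zero] at h1
  rw [Finset.sum_ite_eq' (insert w ν.coeff.support) w] at h1
  rwa [if_pos (Finset.mem_insert_self _ _)] at h1

theorem overlap {G : Type*} [Monoid G] {μ μ' : MA G} (h : Prob μ) (h' : Prob μ') {τ : ℝ}
    (hτ : TVle τ (μ - μ')) : ∃ s : MA G, Pos s ∧ Le s μ ∧ Le s μ' ∧ 1 - τ / 2 ≤ mass s := by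
  classical
  set S := μ.coeff.support ∪ μ'.coeff.support with hS
  set s : MA G := ∑ w ∈ S, MonoidAlgebra.single w (min (μ.coeff w) (μ'.coeff w)) with hs
  have evs : ∀ f, ev s f = ∑ w ∈ S, min (μ.coeff w) (μ'.coeff w) * f w := by
    intro f
    rw [hs, ev_sum]
    exact Finset.sum_congr rfl (fun w _ => ev_single _ _ _)
  have e1 : ∀ f, ev μ f = ∑ w ∈ S, μ.coeff w * f w := fun f =>
    ev_eq_sum μ f S Finset.subset_union_left
  have e2 : ∀ f, ev μ' f = ∑ w ∈ S, μ'.coeff w * f w := fun f =>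
    ev_eq_sum μ' f S Finset.subset_union_right
  refine ⟨s, ?_, ?_, ?_, ?_⟩
  · intro f hf
    rw [evs]
    exact Finset.sum_nonneg (fun w _ => mul_nonneg
      (le_min (coeff_nonneg h.pos w) (coeff_nonneg h'.pos w)) (hf w))
  · intro f hf
    rw [ev_sub, evs, e1, ← Finset.sum_sub_distrib]
    refine Finset.sum_nonneg (fun w _ => ?_)
    rw [← sub_mul]
    exact mul_nonneg (sub_nonneg.mpr (min_le_left _ _)) (hf w)
  · intro f hf
    rw [ev_sub, evs, e2, ← Finset.sum_sub_distrib]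
    refine Finset.sum_nonneg (fun w _ => ?_)
    rw [← sub_mul]
    exact mul_nonneg (sub_nonneg.mpr (min_le_right _ _)) (hf w)
  · have h1 := h.one
    have h2 := h'.one
    unfold mass at h1 h2 ⊢
    rw [e1] at h1
    rw [e2] at h2
    rw [evs]
    have h3 := hτ (fun w => if μ'.coeff w ≤ μ.coeff w then 1 else -1)
      (fun w => by split_ifs <;> simp)
    rw [ev_sub, e1, e2, ← Finset.sum_sub_distrib] at h3
    have h4 := le_trans (le_abs_self _) h3
    have h5 : ∑ w ∈ S, min (μ.coeff w) (μ'.coeff w) * 1 =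
        (∑ w ∈ S, μ.coeff w * 1 + ∑ w ∈ S, μ'.coeff w * 1 -
        ∑ w ∈ S, (μ.coeff w * (if μ'.coeff w ≤ μ.coeff w then 1 else -1) -
          μ'.coeff w * (if μ'.coeff w ≤ μ.coeff w then 1 else -1))) / 2 := by
      rw [← Finset.sum_add_distrib, ← Finset.sum_sub_distrib, Finset.sum_div]
      refine Finset.sum_congr rfl (fun w _ => ?_)
      split_ifs with hc
      · rw [min_eq_right hc]; ring
      · rw [min_eq_left (not_le.mp hc).le]; ring
    rw [h5, h1, h2]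
    linarith

/-! ### projection to words -/

/-- forget the counter -/
def pj : MA HH →ₐ[ℝ] MA BW := MonoidAlgebra.mapDomainAlgHom ℝ ℝ (MonoidHom.fst BW (Multiplicative ℕ))

theorem pj_single (w : HH) (c : ℝ) : pj (MonoidAlgebra.single w c) = MonoidAlgebra.single w.1 c := by
  unfold pj
  simp

theorem ev_pj (X : MA HH) (f : BW → ℝ) : ev (pj X) f = ev X (fun w => f w.1) := by
  induction X using MonoidAlgebra.induction_linear with
  | zero => rw [map_zero, ev_zero, ev_zero]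
  | add x y hx hy => rw [map_add, ev_add, ev_add, hx, hy]
  | single w c => rw [pj_single, ev_single, ev_single]

theorem pj_pos {X : MA HH} (h : Pos X) : Pos (pj X) := fun f hf => by
  rw [ev_pj]; exact h _ (fun w => hf w.1)

theorem pj_prob {X : MA HH} (h : Prob X) : Prob (pj X) := by
  refine ⟨pj_pos h.pos, ?_⟩
  have := h.one
  unfold mass at this ⊢
  rw [ev_pj]; exact this

theorem pj_TV {τ : ℝ} {X : MA HH} (h : TVle τ X) : TVle τ (pj X) := fun f hf => by
  rw [ev_pj]; exact h _ (fun w => hf w.1)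

/-- the block law -/
def g2 (q : ℝ) : MA BW := D q [false, true]
/-- the mark law -/
def d2 (q : ℝ) : MA BW := D q [false]

theorem pj_dd (q : ℝ) : pj (dd zz q) = d2 q := by
  unfold dd zz d2 D letter sym
  rw [map_add, map_smul, map_smul, map_one, pj_single]
  simp only [List.map_cons, List.map_nil, List.prod_cons, List.prod_nil, mul_one]
  rfl

theorem pj_gg {q : ℝ} (h0 : 0 < q) : pj (gg (nu q) q) = g2 q := by
  rw [gg_eq]
  unfold nu g2 D letter sym
  rw [map_add, map_smul, map_smul, map_one, map_add, map_add, map_smul, map_smul, map_smul,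
    pj_single, pj_single, pj_single]
  simp only [List.map_cons, List.map_nil, List.prod_cons, List.prod_nil, mul_one]
  have e1 : (MonoidAlgebra.single (FreeMonoid.ofList [false, true]) 1 : MA BW) =
      MonoidAlgebra.single (FreeMonoid.of false) 1 * MonoidAlgebra.single (FreeMonoid.of true) 1 := by
    rw [MonoidAlgebra.single_mul_single, one_mul]
    rfl
  have e2 : (MonoidAlgebra.single (FreeMonoid.ofList [false]) 1 : MA BW) =
      MonoidAlgebra.single (FreeMonoid.of false) 1 := rfl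
  have e3 : (MonoidAlgebra.single (FreeMonoid.ofList [true]) 1 : MA BW) =
      MonoidAlgebra.single (FreeMonoid.of true) 1 := rfl
  rw [e1, e2, e3]
  set x : MA BW := MonoidAlgebra.single (FreeMonoid.of false) 1
  set y : MA BW := MonoidAlgebra.single (FreeMonoid.of true) 1
  have hq : (1 + q) ≠ 0 := by positivity
  simp only [smul_add, smul_smul, mul_add, add_mul, smul_mul_assoc, mul_smul_comm, one_mul, mul_one]
  have c1 : (1 - q ^ 2) * (q / (1 + q)) = (1 - q) * q := by field_simp; ring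
  have c2 : (1 - q ^ 2) * ((1 - q) / (1 + q)) = (1 - q) * (1 - q) := by field_simp; ring
  rw [c1, c2]
  module

/-- array of `k+1` marks in words -/
def V (q : ℝ) (n α k β : ℕ) : MA BW := g2 q ^ α * d2 q * (g2 q ^ n * d2 q) ^ k * g2 q ^ β

theorem pj_U {q : ℝ} (h0 : 0 < q) (n β k : ℕ) :
    pj (U (nu q) zz q n β k) = (g2 q ^ n * d2 q) ^ k * g2 q ^ β := by
  induction k with
  | zero => rw [U, map_pow, pj_gg h0, pow_zero, one_mul]
  | succ k ih =>
    rw [U, map_mul, map_mul, map_pow, pj_gg h0, pj_dd, ih, pow_succ', mul_assoc (g2 q ^ n * d2 q)]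

theorem pj_Arr {q : ℝ} (h0 : 0 < q) (n α β k : ℕ) : pj (Arr q n α β k) = V q n α k β := by
  unfold Arr V
  rw [map_mul, map_mul, map_pow, pj_gg h0, pj_dd, pj_U h0, mul_assoc (g2 q ^ α * d2 q)]

theorem V_prob {q : ℝ} (h0 : 0 < q) (h1 : q ≤ 1 / 16) (n α β k : ℕ) : Prob (V q n α k β) := by
  rw [← pj_Arr h0]
  exact pj_prob (Arr_prob h0 h1 n α β k)

theorem V_mul (q : ℝ) {n α k β α' k' β' : ℕ} (h : β + α' = n) :
    V q n α k β * V q n α' k' β' = V q n α (k + 1 + k') β' := by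
  unfold V
  have e : g2 q ^ β * g2 q ^ α' = g2 q ^ n := by rw [← pow_add, h]
  calc g2 q ^ α * d2 q * (g2 q ^ n * d2 q) ^ k * g2 q ^ β *
        (g2 q ^ α' * d2 q * (g2 q ^ n * d2 q) ^ k' * g2 q ^ β')
      = g2 q ^ α * d2 q * (g2 q ^ n * d2 q) ^ k * ((g2 q ^ β * g2 q ^ α') * d2 q) *
        (g2 q ^ n * d2 q) ^ k' * g2 q ^ β' := by simp only [mul_assoc]
    _ = _ := by
        rw [e, pow_add, pow_succ]
        simp only [mul_assoc]

theorem a_pow (q : ℝ) (m : ℕ) (R : ℕ) :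
    (g2 q ^ m * d2 q * g2 q ^ (m + 1)) ^ (R + 1) = V q (2 * m + 1) m R (m + 1) := by
  induction R with
  | zero => unfold V; rw [zero_add, pow_one, pow_zero, mul_one]
  | succ R ih =>
    rw [pow_succ, ih]
    have e : g2 q ^ m * d2 q * g2 q ^ (m + 1) = V q (2 * m + 1) m 0 (m + 1) := by
      unfold V; rw [pow_zero, mul_one]
    rw [e, V_mul q (by omega), add_zero]

/-- overlap of two arrays -/
theorem piece {q : ℝ} (h0 : 0 < q) (h1 : q ≤ 1 / 16) {n k a b : ℕ} (hn : 1 ≤ n)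
    (hk : (((k + b : ℕ) : ℝ) + 2) * 10 ^ 15 ≤ q ^ 4 * n) {α β α' β' : ℕ} (hα : n ≤ 16 * α) (hα' : α ≤ n)
    (hβ : n ≤ 16 * β) (hβ' : β ≤ n) (gα : n ≤ 16 * α') (gα' : α' ≤ n)
    (gβ : n ≤ 16 * β') (gβ' : β' ≤ n)
    (hA : α' + (k + b) * n + β' = α + k * n + β + a)
    (hτ : ((a : ℝ) + b) * tauA q (α + k * n + β) ≤ 1 / 4) :
    ∃ s : MA BW, Pos s ∧ Le s (V q n α k β) ∧ Le s (V q n α' (k + b) β') ∧ 3 / 4 ≤ mass s := by
  have hk' : ((k : ℝ) + 2) * 10 ^ 15 ≤ q ^ 4 * n := by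
    refine le_trans ?_ hk
    push_cast
    have : (0 : ℝ) ≤ b := Nat.cast_nonneg b
    nlinarith
  have t1 := local_TV h0 h1 hn hk' hα hα' hβ hβ'
  have t2 := local_TV h0 h1 hn hk gα gα' gβ gβ'
  have t3 := pure_TV (nu_prob h0 h1) h0 h1 (α + k * n + β) (k + 1) a b
  rw [hA] at t2
  have e : k + 1 + b = k + b + 1 := by ring
  rw [e] at t3
  have t4 := tv_add (tv_add t2 t3) (tv_neg t1)
  have e2 : Arr q n α' β' (k + b) - bg (nu q) q (α + k * n + β + a) (k + b + 1) +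
      (bg (nu q) q (α + k * n + β + a) (k + b + 1) - bg (nu q) q (α + k * n + β) (k + 1)) +
      -(Arr q n α β k - bg (nu q) q (α + k * n + β) (k + 1)) = Arr q n α' β' (k + b) - Arr q n α β k := by
    abel
  rw [e2] at t4
  have t5 := pj_TV (tv_mono t4 (show _ ≤ (1 / 2 : ℝ) by linarith))
  rw [map_sub, pj_Arr h0, pj_Arr h0] at t5
  obtain ⟨s, hs1, hs2, hs3, hs4⟩ := overlap (V_prob h0 h1 n α' β' (k + b)) (V_prob h0 h1 n α β k) t5
  exact ⟨s, hs1, hs3, hs2, by linarith⟩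

/-! ### the cuts -/

def af (m D : ℕ) : ℕ :=
  if 4 * D ≤ 3 * (2 * m + 1) then m + D / 2 else m - ((2 * m + 1 - D) - (2 * m + 1 - D) / 2)
def af' (m D : ℕ) : ℕ :=
  if 4 * D ≤ 3 * (2 * m + 1) then m - (D - D / 2) else m + (2 * m + 1 - D) / 2
def Jf (m D : ℕ) : ℕ := if 4 * D ≤ 3 * (2 * m + 1) then 0 else 1

theorem Jf_mono {m D D' : ℕ} (h : D ≤ D') : Jf m D ≤ Jf m D' := by
  unfold Jf; split_ifs <;> omega

theorem piece_cut {q : ℝ} (h0 : 0 < q) (h1 : q ≤ 1 / 16) {m r D D' : ℕ} (hm : 20 ≤ m) (hr : 1 ≤ r)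
    (hk : ((r : ℝ) + 2) * 10 ^ 15 ≤ q ^ 4 * ((2 * m + 1 : ℕ) : ℝ)) (hD : D ≤ D') (hD' : D' ≤ 2 * m + 1)
    (hτ : (((D' - D : ℕ) : ℝ) + 1) * tauA q ((r - 1) * (2 * m + 1) + 1) ≤ 1 / 4) :
    ∃ s : MA BW, Pos s ∧ Le s (V q (2 * m + 1) (af m D) (r - 1) (2 * m + 1 - af m D')) ∧
      Le s (V q (2 * m + 1) (af' m D) (r - 1 + (Jf m D' - Jf m D)) (2 * m + 1 - af' m D')) ∧
      3 / 4 ≤ mass s := by
  set n := 2 * m + 1 with hn
  have hJ : Jf m D' - Jf m D ≤ 1 := by unfold Jf; split_ifs <;> omega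
  have hJ2 : Jf m D ≤ Jf m D' := Jf_mono hD
  refine piece h0 h1 (n := n) (k := r - 1) (a := D' - D) (b := Jf m D' - Jf m D) (by omega) ?_
    ?_ ?_ ?_ ?_ ?_ ?_ ?_ ?_ ?_ ?_
  · refine le_trans ?_ hk
    have : r - 1 + (Jf m D' - Jf m D) ≤ r := by omega
    have : ((r - 1 + (Jf m D' - Jf m D) : ℕ) : ℝ) ≤ r := by exact_mod_cast this
    nlinarith
  · unfold af; split_ifs <;> omega
  · unfold af; split_ifs <;> omega
  · unfold af; split_ifs <;> omega
  · omega
  · unfold af'; split_ifs <;> omega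
  · unfold af'; split_ifs <;> omega
  · unfold af'; split_ifs <;> omega
  · omega
  · have key : af' m D + (Jf m D' - Jf m D) * n + (n - af' m D') = af m D + (n - af m D') + (D' - D) := by
      unfold af af' Jf
      split_ifs with a b c
      · simp only [Nat.sub_self, zero_mul]; omega
      · simp only [Nat.sub_zero, one_mul]; omega
      · exfalso; omega
      · simp only [Nat.sub_self, zero_mul]; omega
    rw [Nat.add_mul]
    omega
  · have e1 : (r - 1) * n + 1 ≤ af m D + (r - 1) * n + (n - af m D') := by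
      have : 1 ≤ n - af m D' := by unfold af; split_ifs <;> omega
      omega
    have e2 := tauA_anti h0 h1 e1
    have e3 : ((Jf m D' - Jf m D : ℕ) : ℝ) ≤ 1 := by exact_mod_cast hJ
    have e4 : 0 ≤ tauA q ((r - 1) * n + 1) := by unfold tauA; positivity
    have e5 : 0 ≤ tauA q (af m D + (r - 1) * n + (n - af m D')) := by unfold tauA; positivity
    have e6 : (0 : ℝ) ≤ ((D' - D : ℕ) : ℝ) := Nat.cast_nonneg _
    refine le_trans ?_ hτ
    exact mul_le_mul (by linarith) e2 e5 (by linarith)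

theorem pieces {q : ℝ} (h0 : 0 < q) (h1 : q ≤ 1 / 16) {m r K : ℕ} (hm : 20 ≤ m) (hr : 1 ≤ r)
    (hK : 1 ≤ K)
    (hk : ((r : ℝ) + 2) * 10 ^ 15 ≤ q ^ 4 * ((2 * m + 1 : ℕ) : ℝ))
    (hτ : (((2 * m + 1 : ℕ) : ℝ) / K + 2) * tauA q ((r - 1) * (2 * m + 1) + 1) ≤ 1 / 4) :
    ∀ j, 1 ≤ j → j ≤ K → ∃ s : MA BW, Pos s ∧
      Le s (V q (2 * m + 1) m (j * r - 1) (2 * m + 1 - af m (j * (2 * m + 1) / K))) ∧
      Le s (V q (2 * m + 1) m (j * r - 1 + Jf m (j * (2 * m + 1) / K))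
        (2 * m + 1 - af' m (j * (2 * m + 1) / K))) ∧
      (3 / 4 : ℝ) ^ j ≤ mass s := by
  set n := 2 * m + 1 with hn
  have hKr : (0 : ℝ) < K := by exact_mod_cast hK
  have hD : ∀ j, j * n / K ≤ (j + 1) * n / K := fun j =>
    Nat.div_le_div_right (Nat.mul_le_mul_right n (Nat.le_succ j))
  have hDn : ∀ j, j ≤ K → j * n / K ≤ n := by
    intro j hj
    calc j * n / K ≤ K * n / K := Nat.div_le_div_right (Nat.mul_le_mul_right n hj)
      _ = n := Nat.mul_div_cancel_left n hK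
  have hdiff : ∀ j, (((j + 1) * n / K - j * n / K : ℕ) : ℝ) ≤ (n : ℝ) / K + 1 := by
    intro j
    rw [Nat.cast_sub (hD j)]
    have a1 : (((j + 1) * n / K : ℕ) : ℝ) ≤ (((j + 1) * n : ℕ) : ℝ) / K := Nat.cast_div_le
    have a2 : (((j * n : ℕ) : ℝ)) / K < ((j * n / K : ℕ) : ℝ) + 1 := by
      rw [div_lt_iff₀ hKr]
      have := Nat.lt_div_mul_add (a := j * n) (b := K) (by omega)
      have h3 : j * n < (j * n / K + 1) * K := by
        rw [Nat.add_mul, one_mul]; exact this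
      exact_mod_cast h3
    push_cast at a1 a2 ⊢
    have a3 : ((j : ℝ) + 1) * n / K = (j : ℝ) * n / K + n / K := by ring
    linarith
  have hpc : ∀ j, j < K → ∃ s : MA BW, Pos s ∧
      Le s (V q n (af m (j * n / K)) (r - 1) (n - af m ((j + 1) * n / K))) ∧
      Le s (V q n (af' m (j * n / K)) (r - 1 + (Jf m ((j + 1) * n / K) - Jf m (j * n / K)))
        (n - af' m ((j + 1) * n / K))) ∧ 3 / 4 ≤ mass s := by
    intro j hj
    refine piece_cut h0 h1 hm hr hk (hD j) (hDn (j + 1) (by omega)) ?_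
    refine le_trans (mul_le_mul_of_nonneg_right ?_ (by unfold tauA; positivity)) hτ
    have := hdiff j
    linarith
  intro j hj
  induction j, hj using Nat.le_induction with
  | base =>
    intro _
    obtain ⟨s, h2, h3, h4, h5⟩ := hpc 0 (by omega)
    refine ⟨s, h2, ?_, ?_, by rw [pow_one]; exact h5⟩
    · have e : af m (0 * n / K) = m := by
        rw [zero_mul, Nat.zero_div]; unfold af; simp
      rw [e, zero_add] at h3
      rw [one_mul r]
      exact h3
    · have e : af' m (0 * n / K) = m := by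
        rw [zero_mul, Nat.zero_div]; unfold af'; simp
      have e2 : Jf m (0 * n / K) = 0 := by
        rw [zero_mul, Nat.zero_div]; unfold Jf; simp
      rw [e, e2, Nat.sub_zero, zero_add] at h4
      rw [one_mul r]
      exact h4
  | succ j hj ih =>
    intro hjK
    obtain ⟨s, s1, s2, s3, s4⟩ := ih (by omega)
    obtain ⟨t, t1, t2, t3, t4⟩ := hpc j (by omega)
    have hjr : 1 ≤ j * r := Nat.mul_pos hj hr
    refine ⟨s * t, s1.mul t1, ?_, ?_, ?_⟩
    · have h2 : Le (s * t) (V q n m (j * r - 1) (n - af m (j * n / K)) *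
          V q n (af m (j * n / K)) (r - 1) (n - af m ((j + 1) * n / K))) :=
        (s2.mul_right t1).trans (t2.mul_left (V_prob h0 h1 _ _ _ _).pos)
      rw [V_mul q (by
        have : af m (j * n / K) ≤ n := by
          have := hDn j (by omega)
          unfold af; split_ifs <;> omega
        omega)] at h2
      have e : j * r - 1 + 1 + (r - 1) = (j + 1) * r - 1 := by
        have hr2 : (j + 1) * r = j * r + r := by rw [Nat.add_mul, one_mul]
        rw [hr2]; omega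
      rw [e] at h2
      exact h2
    · have h2 : Le (s * t) (V q n m (j * r - 1 + Jf m (j * n / K)) (n - af' m (j * n / K)) *
          V q n (af' m (j * n / K)) (r - 1 + (Jf m ((j + 1) * n / K) - Jf m (j * n / K)))
            (n - af' m ((j + 1) * n / K))) :=
        (s3.mul_right t1).trans (t3.mul_left (V_prob h0 h1 _ _ _ _).pos)
      rw [V_mul q (by
        have : af' m (j * n / K) ≤ n := by
          have := hDn j (by omega)
          unfold af'; split_ifs <;> omega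
        omega)] at h2
      have hJ := Jf_mono (m := m) (hD j)
      have e : j * r - 1 + Jf m (j * n / K) + 1 + (r - 1 + (Jf m ((j + 1) * n / K) - Jf m (j * n / K))) =
          (j + 1) * r - 1 + Jf m ((j + 1) * n / K) := by
        have hr2 : (j + 1) * r = j * r + r := by rw [Nat.add_mul, one_mul]
        rw [hr2]
        generalize Jf m ((j + 1) * n / K) = x at hJ ⊢
        generalize Jf m (j * n / K) = y at hJ ⊢
        omega
      rw [e] at h2
      exact h2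
    · rw [mass_mul, pow_succ]
      exact mul_le_mul s4 t4 (by norm_num) (le_trans (by positivity) s4)

/-! ### numbers -/

theorem tau_num {q N : ℝ} (h0 : 0 < q) (h1 : q ≤ 1 / 16) (hN : 8 * 10 ^ 15 ≤ q ^ 4 * N) {A : ℕ}
    (hA : q ^ 4 * N ^ 2 / (4 * 10 ^ 15) ≤ (A : ℝ) + 1) : tauA q A ≤ 10 ^ 8 / (q ^ 3 * N) := by
  have hq4 : 0 < q ^ 4 := by positivity
  have hN0 : 0 < N := by
    by_contra h
    push Not at h
    nlinarith
  unfold tauA
  have e1 : (10 : ℝ) ^ 8 / (q ^ 3 * N) = 1 / (q ^ 3 * N / 10 ^ 8) := by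
    rw [one_div_div]
  rw [e1]
  refine one_div_le_one_div_of_le (by positivity) ?_
  refine Real.le_sqrt_of_sq_le ?_
  have hq2 : q ^ 2 ≤ 1 / 256 := by nlinarith
  have e2 : (1 - q ^ 2) * (1 - (1 - q ^ 2)) = (1 - q ^ 2) * q ^ 2 := by ring
  rw [mul_assoc, e2]
  have h2 : q ^ 4 * N ^ 2 / (4 * 10 ^ 15) * ((1 - q ^ 2) * q ^ 2) ≤ ((A : ℝ) + 1) * ((1 - q ^ 2) * q ^ 2) := by
    refine mul_le_mul_of_nonneg_right hA ?_
    have : 0 ≤ 1 - q ^ 2 := by linarith
    positivity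
  refine le_trans ?_ h2
  have h3 : (0 : ℝ) ≤ q ^ 6 * N ^ 2 := by positivity
  have e3 : (q ^ 3 * N / 10 ^ 8) ^ 2 = q ^ 6 * N ^ 2 / 10 ^ 16 := by ring
  have e4 : q ^ 4 * N ^ 2 / (4 * 10 ^ 15) * ((1 - q ^ 2) * q ^ 2) =
      q ^ 6 * N ^ 2 * (1 - q ^ 2) / (4 * 10 ^ 15) := by ring
  rw [e3, e4, div_le_div_iff₀ (by norm_num) (by norm_num)]
  nlinarith

theorem slip_exists {q : ℝ} (h0 : 0 < q) (h1 : q ≤ 1 / 16) {m : ℕ} (hm : 4 * 10 ^ 15 / q ^ 4 ≤ (m : ℝ)) :
    ∃ (R : ℕ) (s : MA BW), Slip (g2 q ^ m * d2 q * g2 q ^ (m + 1)) R s ∧ (R : ℝ) + 1 ≤ m ∧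
      Real.exp (-(4 * 10 ^ 15 / q ^ 3)) ≤ mass s := by
  have hq4 : 0 < q ^ 4 := by positivity
  have hq3 : 0 < q ^ 3 := by positivity
  have hm' : 4 * 10 ^ 15 ≤ (m : ℝ) * q ^ 4 := (div_le_iff₀ hq4).mp hm
  have hq41 : q ^ 4 ≤ 1 := pow_le_one₀ h0.le (by linarith)
  have hm20 : (20 : ℝ) ≤ m := by
    have : (0 : ℝ) ≤ m := Nat.cast_nonneg m
    nlinarith
  have hm20' : 20 ≤ m := by exact_mod_cast hm20
  set n : ℕ := 2 * m + 1 with hn
  set N : ℝ := ((n : ℕ) : ℝ) with hNdef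
  have hNm : N = 2 * m + 1 := by rw [hNdef, hn]; push_cast; ring
  have hN0 : 0 < N := by rw [hNm]; positivity
  have hqN : 8 * 10 ^ 15 ≤ q ^ 4 * N := by rw [hNm]; nlinarith
  -- choice of r
  set x : ℝ := q ^ 4 * N / (2 * 10 ^ 15) with hx
  have hx4 : 4 ≤ x := by rw [hx, le_div_iff₀ (by norm_num)]; linarith
  set r : ℕ := ⌊x⌋₊ with hr
  have hr1 : (r : ℝ) ≤ x := Nat.floor_le (by linarith)
  have hr2 : x - 1 < r := by
    have := Nat.lt_floor_add_one x
    linarith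
  have hr3 : 1 ≤ r := by
    have : (1 : ℝ) ≤ r := by linarith
    exact_mod_cast this
  have hxe : x * (2 * 10 ^ 15) = q ^ 4 * N := by rw [hx]; field_simp
  -- choice of K
  set K : ℕ := ⌈10 ^ 9 / q ^ 3⌉₊ with hK
  have hK1 : 10 ^ 9 / q ^ 3 ≤ K := Nat.le_ceil _
  have hK2 : (K : ℝ) < 10 ^ 9 / q ^ 3 + 1 := Nat.ceil_lt_add_one (by positivity)
  have hq31 : q ^ 3 ≤ 1 := pow_le_one₀ h0.le (by linarith)
  have hK3 : (1 : ℝ) ≤ 10 ^ 9 / q ^ 3 := by rw [le_div_iff₀ hq3]; nlinarith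
  have hK4 : 1 ≤ K := by
    have : (1 : ℝ) ≤ K := by linarith
    exact_mod_cast this
  have hK5 : (K : ℝ) ≤ 2 * 10 ^ 9 / q ^ 3 := by
    have : 2 * 10 ^ 9 / q ^ 3 = 10 ^ 9 / q ^ 3 + 10 ^ 9 / q ^ 3 := by ring
    rw [this]; linarith
  have hK0 : (0 : ℝ) < K := by linarith
  -- hypotheses of `pieces`
  have hk : ((r : ℝ) + 2) * 10 ^ 15 ≤ q ^ 4 * N := by nlinarith
  have hτ : (N / K + 2) * tauA q ((r - 1) * n + 1) ≤ 1 / 4 := by
    have a1 : q ^ 4 * N ^ 2 / (4 * 10 ^ 15) ≤ (((r - 1) * n + 1 : ℕ) : ℝ) + 1 := by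
      have b1 : (((r - 1) * n + 1 : ℕ) : ℝ) = ((r : ℝ) - 1) * N + 1 := by
        push_cast [Nat.cast_sub hr3]; ring
      rw [b1]
      have b2 : q ^ 4 * N ^ 2 / (4 * 10 ^ 15) = x / 2 * N := by rw [hx]; ring
      rw [b2]
      have b3 : x / 2 ≤ (r : ℝ) - 1 := by linarith
      nlinarith
    have a2 := tau_num h0 h1 hqN a1
    have a3 : N / K ≤ q ^ 3 * N / 10 ^ 9 := by
      rw [div_le_div_iff₀ hK0 (by norm_num)]
      have : 10 ^ 9 ≤ K * q ^ 3 := by rwa [div_le_iff₀ hq3] at hK1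
      nlinarith
    have a4 : 0 ≤ tauA q ((r - 1) * n + 1) := by unfold tauA; positivity
    have a5 : 10 ^ 16 ≤ q ^ 3 * N := by
      have : q ^ 4 * N ≤ q ^ 3 * N * (1 / 16) := by
        have : q ^ 4 * N = q ^ 3 * N * q := by ring
        rw [this]
        exact mul_le_mul_of_nonneg_left h1 (by positivity)
      linarith
    calc (N / K + 2) * tauA q ((r - 1) * n + 1)
        ≤ (q ^ 3 * N / 10 ^ 9 + 2) * (10 ^ 8 / (q ^ 3 * N)) :=
          mul_le_mul (by linarith) a2 a4 (by positivity)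
      _ = 1 / 10 + 2 * 10 ^ 8 / (q ^ 3 * N) := by field_simp
      _ ≤ 1 / 10 + 1 / 10 := by
          have : 2 * 10 ^ 8 / (q ^ 3 * N) ≤ 1 / 10 := by
            rw [div_le_div_iff₀ (by positivity) (by norm_num)]
            linarith
          linarith
      _ ≤ 1 / 4 := by norm_num
  obtain ⟨s, s1, s2, s3, s4⟩ := pieces h0 h1 hm20' hr3 hK4 hk hτ K hK4 le_rfl
  have hKn : K * (2 * m + 1) / K = 2 * m + 1 := Nat.mul_div_cancel_left _ hK4
  rw [hKn] at s2 s3
  have ea : af m (2 * m + 1) = m := by unfold af; rw [if_neg (by omega)]; omega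
  have ea' : af' m (2 * m + 1) = m := by unfold af'; rw [if_neg (by omega)]; omega
  have eJ : Jf m (2 * m + 1) = 1 := by unfold Jf; rw [if_neg (by omega)]
  have en : 2 * m + 1 - m = m + 1 := by omega
  have hKr : 1 ≤ K * r := Nat.mul_pos hK4 hr3
  rw [ea, en, ← a_pow, Nat.sub_add_cancel hKr] at s2
  rw [ea', eJ, en, ← a_pow, Nat.sub_add_cancel hKr] at s3
  have hmass : 0 < mass s := lt_of_lt_of_le (by positivity) s4
  refine ⟨K * r, s, ⟨s1, s2, s3, hmass⟩, ?_, ?_⟩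
  · push_cast
    have c1 : (K : ℝ) * r ≤ 2 * 10 ^ 9 / q ^ 3 * x :=
      mul_le_mul hK5 hr1 (Nat.cast_nonneg _) (by positivity)
    have c2 : 2 * 10 ^ 9 / q ^ 3 * x = q * N / 10 ^ 6 := by rw [hx]; field_simp
    rw [c2] at c1
    have c3 : q * N ≤ 1 / 16 * N := mul_le_mul_of_nonneg_right h1 hN0.le
    rw [hNm] at c1 c3
    linarith
  · refine le_trans ?_ s4
    have d1 : Real.exp (-1) ≤ 3 / 4 := by
      have := Real.exp_neg_one_lt_d9
      linarith
    calc Real.exp (-(4 * 10 ^ 15 / q ^ 3)) ≤ Real.exp ((K : ℝ) * (-1)) := by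
          refine Real.exp_le_exp.mpr ?_
          have : 2 * 10 ^ 9 / q ^ 3 ≤ 4 * 10 ^ 15 / q ^ 3 :=
            div_le_div_of_nonneg_right (by norm_num) hq3.le
          linarith
      _ = Real.exp (-1) ^ K := by rw [Real.exp_nat_mul]
      _ ≤ (3 / 4) ^ K := pow_le_pow_left₀ (Real.exp_pos _).le d1 K

end

end Crest.Agent.R300LB.Sl

namespace Crest.Agent.R300LB

/-- **L10.** base slip of the pair `(01)^m 0 (01)^(m+1)` -/
theorem base_slip : ∃ C : ℝ, 0 < C ∧ ∀ q : ℝ, 0 < q → q ≤ 1 / 16 → ∀ m : ℕ, C / q ^ 4 ≤ (m : ℝ) →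
    ∃ (R : ℕ) (s : MA BW),
      Slip (D q [false, true] ^ m * D q [false] * D q [false, true] ^ (m + 1)) R s ∧
      (R : ℝ) + 1 ≤ m ∧ Real.exp (-(C / q ^ 3)) ≤ mass s :=
  ⟨4 * 10 ^ 15, by norm_num, fun _ h0 h1 _ hm => Sl.slip_exists h0 h1 hm⟩

end Crest.Agent.R300LB
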