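import Crest.Agent.R300.LBPlan
import Crest.Agent.R300.LBOrth

/-!
# Row 300, lower bounds, piece E7 part A: algebra for the step (monotonicity of `SB`, words)
-/

set_option autoImplicit false

namespace Crest.Agent.R300LB

open Finset

noncomputable section

namespace Stp

variable {G : Type*} [Monoid G]

theorem SB_monoPd {p : ℝ} {a Z : MA G} {z Pd Pd' : ℕ} (h : SB p a Z z Pd) (hP : Pd ≤ Pd') :
    SB p a Z z Pd' := fun T f => by
  refine (Finset.sum_le_sum_of_subset_of_nonneg (Finset.Icc_subset_Icc hP (by omega))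
    (fun _ _ _ => sq_nonneg _)).trans (h T f)

theorem SB_mono {p p' : ℝ} {a Z : MA G} {z Pd : ℕ} (ha : Prob a) (h : SB p a Z z Pd)
    (hP : p ≤ p') : SB p' a Z z Pd := fun T f =>
  (h T f).trans (mul_le_mul_of_nonneg_right hP ((ha.pow _).pos _ (fun w => sq_nonneg _)))

theorem SB_dom {p : ℝ} {a Z : MA G} {z Pd m : ℕ} (h : SB p a Z z Pd) (hm : Pd ≤ m) :
    Dom p (a ^ (2 * m + z)) (a ^ m * Z * a ^ m) := fun f => by
  have h1 := h (2 * m) f
  have hmem : m ∈ Icc Pd (2 * m - Pd) := by rw [Finset.mem_Icc]; omega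
  have h2 := Finset.single_le_sum (f := fun x => (ev (a ^ x * Z * a ^ (2 * m - x)) f) ^ 2)
    (fun _ _ => sq_nonneg _) hmem
  have e : 2 * m - m = m := by omega
  simp only [e] at h2
  exact h2.trans h1

/-! ### words -/

theorem Wd_lower {u : ℝ} {a b : MA G} (ha : Prob a) (hu0 : 0 ≤ u) (hu : u ≤ 1)
    (h : Bd u a (a - b)) (w : List Bool) :
    Le ((1 - u) ^ w.length • a ^ w.length) (Wd a b w) := by
  have := Bd.prod_lower ha hu (w.map (fun t => if t then b else a)) (by
    intro c hc
    rw [List.mem_map] at hc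
    obtain ⟨t, _, rfl⟩ := hc
    cases t
    · simpa using smul_le_self ha.pos (by linarith)
    · have h1 := h.lower
      rw [sub_sub_cancel] at h1
      simpa using h1)
  rw [List.length_map] at this
  exact this

theorem Wd_upper {u : ℝ} {a b : MA G} (ha : Prob a) (hb : Prob b) (hu0 : 0 ≤ u)
    (h : Bd u a (a - b)) (w : List Bool) :
    Le (Wd a b w) ((1 + u) ^ w.length • a ^ w.length) := by
  have := Bd.prod_upper ha hu0 (w.map (fun t => if t then b else a)) (by
    intro c hc
    rw [List.mem_map] at hc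
    obtain ⟨t, _, rfl⟩ := hc
    cases t
    · exact ⟨by simpa using ha.pos, by simpa using le_smul_self ha.pos (by linarith)⟩
    · have h1 := h.upper
      rw [sub_sub_cancel] at h1
      exact ⟨by simpa using hb.pos, by simpa using h1⟩)
  rw [List.length_map] at this
  exact this

/-- two words of the same length: pointwise closeness -/
theorem Wd_bd {u : ℝ} {a b : MA G} (ha : Prob a) (hb : Prob b) (hu0 : 0 ≤ u)
    (h : Bd u a (a - b)) (w w' : List Bool) (N : ℕ) (hw : w.length = N) (hw' : w'.length = N)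
    (hN : (N : ℝ) * u ≤ 1 / 4) :
    Bd (4 * N * u) (Wd a b w) (Wd a b w - Wd a b w') ∧
      ∀ f : G → ℝ, (∀ v, 0 ≤ f v) → ev (a ^ N) f ≤ 2 * ev (Wd a b w) f := by
  have hNu : 0 ≤ (N : ℝ) * u := by positivity
  have h1 : 1 - (N : ℝ) * u ≤ (1 - u) ^ N := by
    rcases Nat.eq_zero_or_pos N with h0 | h0
    · subst h0; simp
    · have hN1 : (1 : ℝ) ≤ N := by exact_mod_cast h0
      have hu1 : u ≤ 1 := by nlinarith
      have := one_add_mul_le_pow (a := -u) (by linarith) N
      have e : (1 : ℝ) + -u = 1 - u := by ring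
      rw [e] at this
      linarith
  have h2 : (1 + u) ^ N ≤ 1 + 2 * (N * u) := by
    have := one_add_pow_sub_le hu0 N (by linarith)
    linarith
  have key : ∀ w : List Bool, w.length = N → ∀ f : G → ℝ, (∀ v, 0 ≤ f v) →
      (1 - (N : ℝ) * u) * ev (a ^ N) f ≤ ev (Wd a b w) f ∧
      ev (Wd a b w) f ≤ (1 + 2 * (N * u)) * ev (a ^ N) f := by
    intro w hw f hf
    have hX : 0 ≤ ev (a ^ N) f := (ha.pow N).pos f hf
    constructor
    · rcases Nat.eq_zero_or_pos N with h0 | h0
      · subst h0
        have : w = [] := List.length_eq_zero_iff.mp hw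
        subst this
        rw [Wd_nil]; simp
      · have hN1 : (1 : ℝ) ≤ N := by exact_mod_cast h0
        have hu1 : u ≤ 1 := by nlinarith
        have h3 := (Wd_lower ha hu0 hu1 h w).ev_le hf
        rw [ev_smul, hw] at h3
        exact (mul_le_mul_of_nonneg_right h1 hX).trans h3
    · have h3 := (Wd_upper ha hb hu0 h w).ev_le hf
      rw [ev_smul, hw] at h3
      exact h3.trans (mul_le_mul_of_nonneg_right h2 hX)
  refine ⟨fun f hf => ?_, fun f hf => ?_⟩
  · obtain ⟨a1, a2⟩ := key w hw f hf
    obtain ⟨b1, b2⟩ := key w' hw' f hf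
    have hX : 0 ≤ ev (a ^ N) f := (ha.pow N).pos f hf
    rw [ev_sub]
    set X := ev (a ^ N) f
    set t := ev (Wd a b w) f
    set t' := ev (Wd a b w') f
    have h3 : |t - t'| ≤ 3 * ((N : ℝ) * u) * X := abs_le.mpr ⟨by linarith, by linarith⟩
    have h4 : X ≤ 4 / 3 * t := by nlinarith
    calc |t - t'| ≤ 3 * ((N : ℝ) * u) * X := h3
      _ ≤ 3 * ((N : ℝ) * u) * (4 / 3 * t) := mul_le_mul_of_nonneg_left h4 (by positivity)
      _ = 4 * N * u * t := by ring
  · obtain ⟨a1, a2⟩ := key w hw f hf
    have hX : 0 ≤ ev (a ^ N) f := (ha.pow N).pos f hf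
    nlinarith

/-- padding with `a ^ m` on both sides -/
theorem pad_le {a A B : MA G} {c : ℝ} (ha : Prob a) (m : ℕ)
    (h : ∀ f : G → ℝ, (∀ v, 0 ≤ f v) → ev A f ≤ c * ev B f) :
    ∀ f : G → ℝ, (∀ v, 0 ≤ f v) → ev (a ^ m * A * a ^ m) f ≤ c * ev (a ^ m * B * a ^ m) f := by
  intro f hf
  have hpm := (ha.pow m).pos
  rw [mul_assoc, mul_assoc, ev_mul, ev_mul, ← ev_mul_fun]
  refine hpm.mono (fun x => ?_)
  rw [ev_mul, ev_mul]
  exact h _ (fun y => hpm _ (fun z => hf _))

/-- `M` copies of a word -/
def reps (w : List Bool) : ℕ → List Bool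
  | 0 => []
  | (M + 1) => reps w M ++ w

theorem reps_length (w : List Bool) (M : ℕ) : (reps w M).length = w.length * M := by
  induction M with
  | zero => simp [reps]
  | succ M ih => rw [reps, List.length_append, ih]; ring

theorem reps_count (w : List Bool) (M : ℕ) : (reps w M).count true = w.count true * M := by
  induction M with
  | zero => simp [reps]
  | succ M ih => rw [reps, List.count_append, ih]; ring

theorem Wd_reps (a b : MA G) (w : List Bool) (M : ℕ) : Wd a b (reps w M) = (Wd a b w) ^ M := by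
  induction M with
  | zero => simp [reps, Wd_nil]
  | succ M ih => rw [reps, Wd_append, ih, pow_succ]

theorem pat_length (m r : ℕ) (c : Bool) : (pat m r c).length = 2 * m + 2 ^ r := by
  unfold pat
  rw [List.length_append, List.length_append, List.length_replicate, List.length_map, tm_length]
  ring

theorem pat_count (m r : ℕ) (c : Bool) : (pat m r c).count true ≤ 2 ^ r := by
  unfold pat
  rw [List.count_append, List.count_append]
  have h1 : (List.replicate m false).count true = 0 := by
    rw [List.count_replicate]; simp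
  rw [h1, zero_add, add_zero]
  refine (List.count_le_length).trans ?_
  rw [List.length_map, tm_length]

/-- reference change for the powers of the new measure -/
theorem refCh_pow (hRC : RefChStatement) (G : Type) [Monoid G] (a b : MA G) (V u : ℝ) (lam m r M : ℕ)
    (ha : Prob a) (hb : Prob b) (hd : Dom V a (a - b)) (hbd : Bd u a (a - b)) (hV : 0 ≤ V)
    (hu : 0 ≤ u) (hlam : 1 ≤ lam) (h1 : u * lam ≤ 1 / 4)
    (h2 : 32 * lam * V * (2 ^ r * M) ≤ 1) :
    RefCh (Real.exp (-((lam : ℝ) / 8))) (a ^ ((2 * m + 2 ^ r) * M)) ((Wd a b (pat m r false)) ^ M) := by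
  have := hRC G a b V u lam (reps (pat m r false) M) ha hb hd hbd hV hu hlam h1 (by
    refine le_trans ?_ h2
    refine mul_le_mul_of_nonneg_left ?_ (by positivity)
    rw [reps_count]
    have h3 := Nat.mul_le_mul_right M (pat_count m r false)
    calc (((pat m r false).count true * M : ℕ) : ℝ) ≤ ((2 ^ r * M : ℕ) : ℝ) := by exact_mod_cast h3
      _ = 2 ^ r * M := by push_cast; ring)
  rw [reps_length, pat_length, Wd_reps] at this
  exact this

end Stp

end

end Crest.Agent.R300LB
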