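import Crest.Agent.R300.LBPlan
import Crest.Agent.R300.LBOrth
import Crest.Agent.R300.LBStepA
import Crest.Agent.R300.LBStepB

/-!
# Row 300, lower bounds, piece E7 part C: drift and slip of the new level with explicit exponents
-/

set_option autoImplicit false

namespace Crest.Agent.R300LB

open Finset

noncomputable section

namespace Stp

open Real

/-- the drift of the powers, with explicit exponents -/
theorem drift_use (hDr : DriftStatement) {G : Type} [Monoid G] {a b s : MA G} {R m r K : ℕ}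
    {w L X α β : ℝ} (ha : Prob a) (hb : Prob b) (hs : Slip a R s) (hm1 : 1 ≤ m)
    (hd : Dom (exp (-X)) a (a - b)) (hR : (R : ℝ) + 1 ≤ exp L * (mass s) ^ 2)
    (hm : exp L ≤ m) (hN : (2 : ℝ) ^ r ≤ exp w) (hNV : 2 ^ r * exp (-X) ≤ 1)
    (hw : 1000 ≤ exp w) (hL1 : 1 ≤ L) (hLe : L ≤ exp w) (hK : 1 ≤ K) (hKα : 2 * (K : ℝ) ≤ exp α)
    (hα : α ≤ 3 * L) (hβ : exp (α - L) + exp (α / 2) ≤ exp β) (hβ2 : 4 * w - X + β ≤ -(3 * w)) :
    ∀ M : ℕ, M ≤ K → Dom (4 * exp (4 * w - X + β)) (a ^ ((2 * m + 2 ^ r) * M))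
      ((a ^ m * Wd a b (tm r) * a ^ m) ^ M - a ^ ((2 * m + 2 ^ r) * M)) := by
  intro M hM
  obtain ⟨l, hl1, hl2⟩ := exists_two_pow hK
  have hlα : (2 : ℝ) ^ l ≤ exp α := hl2.trans hKα
  have hV0 : (0 : ℝ) ≤ exp (-X) := (exp_pos _).le
  have hVZ0 : (0 : ℝ) ≤ 2 * (2 ^ r * exp (-X)) := by positivity
  have hVZ : Dom (2 * (2 ^ r * exp (-X))) (a ^ (2 ^ r)) (Wd a b (tm r) - a ^ (2 ^ r)) := by
    have h1 := Wd_dom ha hb hV0 hd (tm r)
    rw [tm_length] at h1
    refine h1.mono ?_ (ha.pow _).pos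
    have := one_add_pow_sub_le hV0 (2 ^ r) (by push_cast; exact hNV)
    push_cast at this
    exact this
  have hVZ2 : 2 * (2 ^ r * exp (-X)) ≤ exp (2 * w - X) := by
    calc 2 * (2 ^ r * exp (-X)) ≤ exp w * (exp w * exp (-X)) := by
          refine mul_le_mul (by linarith) (mul_le_mul_of_nonneg_right hN hV0) (by positivity)
            (by positivity)
      _ = exp (2 * w - X) := by rw [← exp_add, ← exp_add]; congr 1; ring
  have hN' : ((2 ^ r : ℕ) : ℝ) ≤ exp w := by push_cast; exact hN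
  have hmn : exp L ≤ 2 * (m : ℝ) + ((2 ^ r : ℕ) : ℝ) := by
    have : (0 : ℝ) ≤ ((2 ^ r : ℕ) : ℝ) := Nat.cast_nonneg _
    have h2 : (0 : ℝ) ≤ m := Nat.cast_nonneg _
    linarith
  have hσ := sigma_bound hN' hVZ0 hVZ2 hw hlα hmn
  have hσ2 : sigmaB (2 ^ r) m l (2 * (2 ^ r * exp (-X))) 1 ≤ exp (4 * w - X + β) := by
    refine hσ.trans ?_
    rw [exp_add (4 * w - X) β]
    exact mul_le_mul_of_nonneg_left hβ (by positivity)
  have h1 := hDr G a (Wd a b (tm r)) s R m (2 ^ r) l (2 * (2 ^ r * exp (-X))) 1 ha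
    (Wd_prob ha hb _) hs Nat.one_le_two_pow hm1 hVZ0 hVZ zero_le_one (by
      have h2 : (0 : ℝ) ≤ (mass s) ^ 2 := sq_nonneg _
      calc (R : ℝ) + 1 ≤ exp L * (mass s) ^ 2 := hR
        _ ≤ m * (mass s) ^ 2 := mul_le_mul_of_nonneg_right hm h2
        _ = 1 ^ 2 * (mass s) ^ 2 * m := by ring)
    (drift_cond hlα hα hL1 hLe (by linarith) (hσ2.trans (exp_le_exp.mpr hβ2))) M (hM.trans hl1)
  exact h1.mono (mul_le_mul_of_nonneg_left hσ2 (by norm_num)) (ha.pow _).pos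

/-- drift for the pair step -/
theorem drift_pair (hDr : DriftStatement) {G : Type} [Monoid G] {a b s : MA G} {R m r S : ℕ}
    {w L X Z : ℝ} (ha : Prob a) (hb : Prob b) (hs : Slip a R s) (hm1 : 1 ≤ m)
    (hd : Dom (exp (-X)) a (a - b)) (hR : (R : ℝ) + 1 ≤ exp L * (mass s) ^ 2)
    (hm : exp L ≤ m) (hN : (2 : ℝ) ^ r ≤ exp w) (hNV : 2 ^ r * exp (-X) ≤ 1)
    (hw1 : 1000 ≤ w) (he5 : 500000 ≤ exp w) (hwL : 27000 * w ≤ L) (hLe : L ≤ exp w) (hS1 : 1 ≤ S)
    (hS2 : (S : ℝ) ≤ exp (4 * Z)) (hZ0 : 0 ≤ Z) (hZL : 2 * Z ≤ L) (hZX : 8 * Z ≤ X)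
    (hX : 11 / 10 * L ≤ X) :
    ∀ M : ℕ, M ≤ 3 * S → Dom (exp (2 * Z - X + 7 * w)) (a ^ ((2 * m + 2 ^ r) * M))
      ((a ^ m * Wd a b (tm r) * a ^ m) ^ M - a ^ ((2 * m + 2 ^ r) * M)) := by
  intro M hM
  have h1 := drift_use hDr (K := 3 * S) (w := w) (L := L) (X := X) (α := 4 * Z + w)
    (β := 2 * Z + 2 * w) ha hb hs hm1 hd hR hm hN hNV (by linarith) (by linarith) hLe (by omega)
    (by
      push_cast
      have e : exp (4 * Z + w) = exp (4 * Z) * exp w := by rw [← exp_add]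
      rw [e]
      nlinarith [exp_pos (4 * Z)])
    (by linarith)
    (by
      have e1 : exp (4 * Z + w - L) ≤ exp (2 * Z + w) := exp_le_exp.mpr (by linarith)
      have e2 : exp ((4 * Z + w) / 2) ≤ exp (2 * Z + w) := exp_le_exp.mpr (by linarith)
      have e3 : exp (2 * Z + 2 * w) = exp (2 * Z + w) * exp w := by
        rw [← exp_add]; congr 1; ring
      rw [e3]
      nlinarith [exp_pos (2 * Z + w)])
    (by linarith) M hM
  refine h1.mono ?_ (ha.pow _).pos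
  have e3 : exp (2 * Z - X + 7 * w) = exp (4 * w - X + (2 * Z + 2 * w)) * exp w := by
    rw [← exp_add]; congr 1; ring
  rw [e3]
  nlinarith [exp_pos (4 * w - X + (2 * Z + 2 * w))]

/-- slip of the new level -/
theorem slip_use (hDr : DriftStatement) (hSl : SlipStepStatement) {G : Type} [Monoid G]
    {a b s : MA G} {R m r : ℕ}
    {w L X : ℝ} (ha : Prob a) (hb : Prob b) (hs : Slip a R s) (hm1 : 1 ≤ m)
    (hd : Dom (exp (-X)) a (a - b)) (hR : (R : ℝ) + 1 ≤ exp L * (mass s) ^ 2)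
    (hη1 : mass s ≤ 1)
    (hm : exp L ≤ m) (hN : (2 : ℝ) ^ r ≤ exp w) (hNV : 2 ^ r * exp (-X) ≤ 1)
    (hn2 : 2 * (m : ℝ) + 2 ^ r ≤ exp (L + 502 * w))
    (hw1 : 1000 ≤ w) (he5 : 500000 ≤ exp w) (hwL : 27000 * w ≤ L) (hLe : L ≤ exp w)
    (hX : 11 / 10 * L ≤ X) :
    ∃ (R' : ℕ) (s' : MA G), Slip (a ^ m * Wd a b (tm r) * a ^ m) R' s' ∧
      ((R' : ℝ) + 1) ≤ exp (2 * L + 1000 * w) * (mass s') ^ 2 := by
  have hη0 : 0 < mass s := hs.mpos
  have hL1 : 1 ≤ L := by linarith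
  obtain ⟨R', hR1, hR2⟩ : ∃ R' : ℕ, 64 * (2 * (m : ℝ) + 2 ^ r) * (R + 1) ≤ mass s * R' ∧
      (R' : ℝ) + 1 ≤ exp (2 * L + 504 * w) := by
    refine ⟨⌈64 * (2 * (m : ℝ) + 2 ^ r) * (R + 1) / mass s⌉₊, ?_, ?_⟩
    · have h1 := Nat.le_ceil (64 * (2 * (m : ℝ) + 2 ^ r) * (R + 1) / mass s)
      rw [div_le_iff₀ hη0] at h1
      linarith
    · have h1 := (Nat.ceil_lt_add_one (a := 64 * (2 * (m : ℝ) + 2 ^ r) * (R + 1) / mass s)
        (by positivity)).le
      have h2 : ((R : ℝ) + 1) / mass s ≤ exp L := by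
        rw [div_le_iff₀ hη0]
        refine hR.trans (mul_le_mul_of_nonneg_left ?_ (exp_pos _).le)
        nlinarith
      have h3 : 64 * (2 * (m : ℝ) + 2 ^ r) * (R + 1) / mass s ≤ 64 * exp (2 * L + 502 * w) := by
        have e1 : 64 * (2 * (m : ℝ) + 2 ^ r) * (R + 1) / mass s
          = 64 * ((2 * (m : ℝ) + 2 ^ r) * (((R : ℝ) + 1) / mass s)) := by ring
        have e2 : exp (2 * L + 502 * w) = exp (L + 502 * w) * exp L := by
          rw [← exp_add]; congr 1; ring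
        rw [e1, e2]
        refine mul_le_mul_of_nonneg_left (mul_le_mul hn2 h2 (by positivity) (exp_pos _).le)
          (by norm_num)
      have h4 : 1 ≤ exp (2 * L + 502 * w) := one_le_exp (by linarith)
      have e3 : exp (2 * L + 504 * w) = exp (2 * L + 502 * w) * (exp w * exp w) := by
        rw [← exp_add, ← exp_add]; congr 1; ring
      rw [e3]
      have h5 : 66 ≤ exp w * exp w := by nlinarith
      nlinarith
  have h1 := drift_use hDr (K := R' + 1) (w := w) (L := L) (X := X) (α := 2 * L + 505 * w)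
    (β := L + 506 * w) ha hb hs hm1 hd hR hm hN hNV (by linarith) (by linarith) hLe (by omega)
    (by
      push_cast
      have e : exp (2 * L + 505 * w) = exp (2 * L + 504 * w) * exp w := by
        rw [← exp_add]; congr 1; ring
      rw [e]
      nlinarith [exp_pos (2 * L + 504 * w)])
    (by linarith)
    (by
      have e1 : exp (2 * L + 505 * w - L) ≤ exp (L + 505 * w) := exp_le_exp.mpr (by linarith)
      have e2 : exp ((2 * L + 505 * w) / 2) ≤ exp (L + 505 * w) := exp_le_exp.mpr (by linarith)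
      have e3 : exp (L + 506 * w) = exp (L + 505 * w) * exp w := by
        rw [← exp_add]; congr 1; ring
      rw [e3]
      nlinarith [exp_pos (L + 505 * w)])
    (by linarith)
  have hn1 : 1 ≤ 2 * m + 2 ^ r := by
    have := Nat.one_le_two_pow (n := r)
    omega
  obtain ⟨s', hs', hs2⟩ := hSl G a (a ^ m * Wd a b (tm r) * a ^ m) s R R' (2 * m + 2 ^ r) ha
    (((ha.pow m).mul (Wd_prob ha hb _)).mul (ha.pow m)) hs hn1 (by push_cast; exact hR1)
    (fun M hM => (h1 M hM).mono (by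
      have e : exp (4 * w - X + (L + 506 * w)) ≤ exp (-w) := exp_le_exp.mpr (by linarith)
      have e2 : exp (-w) ≤ 1 / 64 := by
        rw [exp_neg, inv_eq_one_div]
        exact one_div_le_one_div_of_le (by norm_num) (by linarith)
      linarith) (ha.pow _).pos)
  refine ⟨R', s', hs', hR2.trans ?_⟩
  have h2 : 1 / 4 ≤ (mass s') ^ 2 := by nlinarith
  have e4 : exp (2 * L + 1000 * w) = exp (2 * L + 504 * w) * exp (496 * w) := by
    rw [← exp_add]; congr 1; ring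
  have h3 : 4 ≤ exp (496 * w) := by
    have := exp_le_exp.mpr (show w ≤ 496 * w by linarith)
    linarith
  rw [e4, mul_assoc]
  have h4 : 1 ≤ exp (496 * w) * mass s' ^ 2 := by nlinarith
  nlinarith [exp_pos (2 * L + 504 * w)]

/-- the reference change for the pair step -/
theorem refCh_use (hRC : RefChStatement) {G : Type} [Monoid G] {a b : MA G} {m r S g : ℕ}
    {w L P c u A Z : ℝ} (ha : Prob a) (hb : Prob b) (hd : Dom (exp (-(c * L))) a (a - b))
    (hbd : Bd u a (a - b)) (hu : 0 ≤ u) (hN : (2 : ℝ) ^ r ≤ exp w) (hw1 : 1000 ≤ w)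
    (he5 : 500000 ≤ exp w)
    (hwL : 27000 * w ≤ L) (hLe : L ≤ exp w) (hP : 27 / 10 ≤ P) (hPL : P ≤ L)
    (hA : 404 * P ≤ A) (huL : u * (A * L) ≤ 1) (hX : 11 / 10 * L ≤ c * L)
    (hZX : 8 * Z ≤ c * L) (hS2 : (S : ℝ) ≤ exp (4 * Z)) (hg : 2 * (g + 1) ≤ S) :
    ∃ e0 : ℝ, 0 ≤ e0 ∧ e0 ≤ exp (-(12 * (P * L))) ∧
      RefCh e0 (a ^ ((2 * m + 2 ^ r) * (3 * S + g + 2)))
        ((Wd a b (pat m r false)) ^ (3 * S + g + 2)) := by
  have hL1 : 1 ≤ L := by linarith
  have hPL0 : 2 ≤ P * L := by nlinarith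
  obtain ⟨lam, hl1, hl2⟩ : ∃ lam : ℕ, 100 * (P * L) ≤ lam ∧ (lam : ℝ) ≤ 101 * (P * L) := by
    refine ⟨⌈100 * (P * L)⌉₊, Nat.le_ceil _, ?_⟩
    have := (Nat.ceil_lt_add_one (a := 100 * (P * L)) (by positivity)).le
    linarith
  have hlam1 : 1 ≤ lam := by
    have : (0 : ℝ) < lam := by linarith
    exact_mod_cast this
  refine ⟨exp (-((lam : ℝ) / 8)), (exp_pos _).le, exp_le_exp.mpr (by linarith), ?_⟩
  refine refCh_pow hRC G a b (exp (-(c * L))) u lam m r (3 * S + g + 2) ha hb hd hbd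
    (exp_pos _).le hu hlam1 ?_ ?_
  · have h1 : u * lam ≤ u * (101 * (P * L)) := mul_le_mul_of_nonneg_left hl2 hu
    have h2 : u * (404 * P * L) ≤ u * (A * L) :=
      mul_le_mul_of_nonneg_left (mul_le_mul_of_nonneg_right hA (by linarith)) hu
    linarith
  · have h1 : 32 * (lam : ℝ) ≤ exp (3 * w) := by
      calc 32 * (lam : ℝ) ≤ 3232 * (L * L) := by nlinarith
        _ ≤ exp w * (exp w * exp w) := by
            refine mul_le_mul (by linarith) (mul_le_mul hLe hLe (by linarith) (exp_pos _).le)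
              (by positivity) (exp_pos _).le
        _ = exp (3 * w) := by rw [← exp_add, ← exp_add]; congr 1; ring
    have h2 : (((3 * S + g + 2 : ℕ)) : ℝ) ≤ exp (4 * Z + w) := by
      have h3 : 3 * S + g + 2 ≤ 4 * S := by omega
      have h4 : (((3 * S + g + 2 : ℕ)) : ℝ) ≤ 4 * S := by exact_mod_cast h3
      have e : exp (4 * Z + w) = exp (4 * Z) * exp w := by rw [← exp_add]
      rw [e]
      nlinarith [exp_pos (4 * Z)]
    calc 32 * (lam : ℝ) * exp (-(c * L)) * (2 ^ r * ((3 * S + g + 2 : ℕ) : ℝ))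
        ≤ exp (3 * w) * exp (-(c * L)) * (exp w * exp (4 * Z + w)) := by
          refine mul_le_mul (mul_le_mul_of_nonneg_right h1 (exp_pos _).le)
            (mul_le_mul hN h2 (by positivity) (exp_pos _).le) (by positivity) (by positivity)
      _ = exp (5 * w - c * L + 4 * Z) := by
          rw [← exp_add, ← exp_add, ← exp_add]; congr 1; ring
      _ ≤ 1 := by rw [exp_le_one_iff]; linarith

end Stp

end

end Crest.Agent.R300LB
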