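import Crest.Agent.R300.LBPlan
import Crest.Agent.R300.LBOrth
import Crest.Agent.R300.LBStepA
import Crest.Agent.R300.LBStepB
import Crest.Agent.R300.LBStepC

/-!
# Row 300, lower bounds, piece E7: one step of the recursion in exponential form
-/

set_option autoImplicit false

namespace Crest.Agent.R300LB

open Finset

noncomputable section

namespace Stp

open Real

/-- the pair property of the new level -/
theorem pair_use (hDr : DriftStatement) (hRC : RefChStatement) (hPair : PairStepStatement)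
    {G : Type} [Monoid G] {a b s W E : MA G} {R m r Pd : ℕ} {w L P c u A Z pW θ : ℝ}
    (ha : Prob a) (hb : Prob b) (hs : Slip a R s) (hR : (R : ℝ) + 1 ≤ exp L * (mass s) ^ 2)
    (hMC : MChoice L w r m Pd) (hd : Dom (exp (-(c * L))) a (a - b)) (hbd : Bd u a (a - b))
    (hu : 0 ≤ u) (hN : (2 : ℝ) ^ r ≤ exp w) (hw1 : 1000 ≤ w) (he5 : 500000 ≤ exp w)
    (hwL : 27000 * w ≤ L) (hLe : L ≤ exp w) (hP : 27 / 10 ≤ P) (hPL : P ≤ L)
    (hA : 404 * P ≤ A) (huL : u * (A * L) ≤ 1) (hX : 11 / 10 * L ≤ c * L)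
    (hZ1 : 11 / 80 * L ≤ Z) (hZL : 2 * Z ≤ L)
    (hZX : 8 * Z ≤ c * L) (hNV : 2 ^ r * exp (-(c * L)) ≤ 1)
    (hWE : Wd a b (pat m r false) - Wd a b (pat m r true) = a ^ m * W * a ^ m + E)
    (hPa : Wd a b (pat m r false) = a ^ m * Wd a b (tm r) * a ^ m)
    (hW0 : mass W = 0) (hpW0 : 0 ≤ pW) (hpW : pW ≤ exp (5 * w - P * L))
    (hWSB : SB pW a W (2 ^ r) Pd) (hθ0 : 0 ≤ θ) (hθ : θ ≤ exp (-(19 * (P * L))))
    (hE : Dom θ (a ^ (2 * m + 2 ^ r)) E) (h4N : 4 * (2 : ℝ) ^ r ≤ A)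
    (hbd' : Bd (4 * (2 : ℝ) ^ r * u) (Wd a b (pat m r false))
      (Wd a b (pat m r false) - Wd a b (pat m r true))) (g Pd' : ℕ)
    (hg : (g : ℝ) ≤ exp ((2 * L + 1000 * w) / 100)) (hPd' : exp (2 * L + 1000 * w) ≤ Pd') :
    SB (exp (-(2 * (P * L)) - 2 * Z + 27 * w)) (Wd a b (pat m r false))
      ((Wd a b (pat m r false) - Wd a b (pat m r true)) * (Wd a b (pat m r false)) ^ g *
        (Wd a b (pat m r false) - Wd a b (pat m r true))) (g + 2) Pd' := by
  have hL1 : 1 ≤ L := by linarith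
  have hY1 : 27 / 10 * L ≤ P * L := mul_le_mul_of_nonneg_right hP (by linarith)
  have hn500 : exp (L + 500 * w) ≤ ((2 * m + 2 ^ r : ℕ) : ℝ) := by
    push_cast
    have h1 := hMC.m1
    have h2 : (0 : ℝ) ≤ 2 ^ r := by positivity
    have h3 : (0 : ℝ) ≤ m := Nat.cast_nonneg _
    linarith
  obtain ⟨S, k, hSC⟩ := exists_sChoice (Z := Z) hw1 he5 (by linarith) hs.mpos hR hn500
  have hgS : 2 * (g + 1) ≤ S := by
    have h1 : (2 * ((g : ℝ) + 1)) ≤ S := by
      have h2 : 1 ≤ exp ((2 * L + 1000 * w) / 100) := one_le_exp (by linarith)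
      have h3 : exp ((2 * L + 1000 * w) / 100) * exp w ≤ exp (4 * Z - w) := by
        rw [← exp_add]; exact exp_le_exp.mpr (by linarith)
      have h4 := hSC.S3
      nlinarith
    exact_mod_cast h1
  obtain ⟨e0, he0, he1, hRCh⟩ := refCh_use (m := m) (S := S) (g := g) hRC ha hb hd hbd hu hN hw1
    he5 hwL hLe hP hPL hA huL hX hZX hSC.S2 hgS
  have hdr := drift_pair hDr ha hb hs hMC.m_1 hd hR hMC.mL hN hNV hw1 he5 hwL hLe hSC.S1 hSC.S2
    (by linarith) hZL hZX hX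
  rw [← hPa] at hdr
  have hNu : 4 * ((2 : ℝ) ^ r) * u ≤ A * u := mul_le_mul_of_nonneg_right h4N hu
  have hAu1 : A * u ≤ 1 := by
    have h0 : 0 ≤ A * u := by
      have : 0 ≤ A := by linarith
      positivity
    nlinarith
  have hχ1 : exp (2 * Z - c * L + 7 * w) ≤ 1 := by rw [exp_le_one_iff]; linarith
  have hsb := hPair G a (Wd a b (pat m r false)) (Wd a b (pat m r true)) W E s R m (2 ^ r) Pd S g k
    pW θ (exp (2 * Z - c * L + 7 * w)) (4 * (2 : ℝ) ^ r * u) e0 ha (Wd_prob ha hb _)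
    (Wd_prob ha hb _) hs Nat.one_le_two_pow hSC.S1 hMC.m_1 hWE hW0 hpW0 hWSB hMC.Pdm hMC.Nm hθ0 hE
    (exp_pos _).le hχ1 hdr hgS hSC.k1 (by positivity) hbd' he0 hRCh
  have hb5 := pair_bound (S := S) (n := 2 * m + 2 ^ r) (k := k) (η := mass s) (pW := pW) (θ := θ)
    (χ := exp (2 * Z - c * L + 7 * w)) (u' := 4 * (2 : ℝ) ^ r * u) (e0 := e0) (L := L) (w := w)
    (X := c * L) (Y := P * L) (Z := Z) (by linarith) (by linarith) hpW0 hpW hθ le_rfl hSC.S2
    ((exp_le_exp.mpr (by linarith)).trans hn500) hSC.k2 hs.mpos.le hZL hZX hY1 hwL (by positivity)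
    (hNu.trans hAu1) he0 he1
  refine SB_monoPd (SB_mono (Wd_prob ha hb _) hsb hb5) ?_
  have h3 : (3 * (S : ℝ)) ≤ Pd' := by
    refine le_trans ?_ hPd'
    have e : exp (2 * L + 1000 * w) = exp (2 * L + 999 * w) * exp w := by
      rw [← exp_add]; congr 1; ring
    have h4 : (S : ℝ) ≤ exp (2 * L + 999 * w) := hSC.S2.trans (exp_le_exp.mpr (by linarith))
    rw [e]
    nlinarith [exp_pos (2 * L + 999 * w)]
  exact_mod_cast h3

end Stp

open Stp Real in
/-- **E7** -/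
theorem stepStatement (hTM : TMStatement) (hWord : WordStatement) (hDr : DriftStatement)
    (hSl : SlipStepStatement) (hRC : RefChStatement) (hPair : PairStepStatement) :
    StepStatement := by
  intro δ hδ0 hδ1
  have hδ2 : 0 < δ ^ 2 := by positivity
  refine ⟨10 ^ 8 / δ ^ 2, ?_, ?_⟩
  · rw [le_div_iff₀ hδ2]; nlinarith
  intro q hq0 hq1 L c P u τ hc hP hPc hL hu0 huL hτ x y a b hSt
  obtain ⟨w, r, hU, hPL, h4N, h404⟩ := base_num hδ0 hδ1 hP hL
  generalize exp (10 ^ 8 / δ ^ 2 * P ^ 2) = A at huL h4N h404 ⊢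
  have hw1 := hU.w1
  have hwL := hU.wL
  have hwP := hU.wP
  have hLe := hU.Le
  have hN0 := hU.N0
  have he5 := hU.e5
  have hw0 : 0 ≤ w := by linarith
  have hL1 : 1 ≤ L := by linarith
  have hL0 : 0 < L := by linarith
  have ha := hSt.pa
  have hb := hSt.pb
  obtain ⟨R, s, hs, hR⟩ := hSt.slip
  obtain ⟨ν, hν, hν1, hν2, hν3⟩ : ∃ ν : ℝ, min (1 / 2) (c / 8) = ν ∧ ν ≤ 1 / 2 ∧ ν ≤ c / 8 ∧
      11 / 80 ≤ ν :=
    ⟨_, rfl, min_le_left _ _, min_le_right _ _, le_min (by norm_num) (by linarith)⟩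
  rw [hν]
  have hX1 : 11 / 10 * L ≤ c * L := mul_le_mul_of_nonneg_right hc hL0.le
  have hY1 : 27 / 10 * L ≤ P * L := mul_le_mul_of_nonneg_right hP hL0.le
  have hYX : P * L ≤ 3 * (c * L) := by
    have := mul_le_mul_of_nonneg_right hPc hL0.le
    linarith
  have hZ1 : 11 / 80 * L ≤ ν * L := mul_le_mul_of_nonneg_right hν3 hL0.le
  have hZ2 : 2 * (ν * L) ≤ L := by
    have := mul_le_mul_of_nonneg_right hν1 hL0.le
    linarith
  have hZ3 : 8 * (ν * L) ≤ c * L := by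
    have := mul_le_mul_of_nonneg_right hν2 hL0.le
    linarith
  have hdw : 2700 * w ≤ δ * L := by
    have := mul_le_mul_of_nonneg_right hP hw0
    linarith
  obtain ⟨hL', hc', hP'⟩ := expo hδ0 hP hν1 hw0 hwP hdw
  have hη0 : 0 < mass s := hs.mpos
  have hη1 : mass s ≤ 1 := by
    have := hs.le0.mass_le
    rwa [(ha.pow R).one] at this
  obtain ⟨m, Pd, hMC⟩ := exists_mChoice hw1 hwL he5 hN0
  have hNL : ((2 ^ r : ℕ) : ℝ) ≤ exp (L / 100) := by
    push_cast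
    exact hN0.trans (exp_le_exp.mpr (by linarith))
  have hNV : 2 ^ r * exp (-(c * L)) ≤ 1 := by
    calc 2 ^ r * exp (-(c * L)) ≤ exp w * exp (-(c * L)) :=
          mul_le_mul_of_nonneg_right hN0 (exp_pos _).le
      _ = exp (w - c * L) := by rw [← exp_add]; congr 1
      _ ≤ 1 := by rw [exp_le_one_iff]; linarith
  -- Thue–Morse core
  obtain ⟨W, E, hWE, hW0, hWSB, hE⟩ := hTM BW a b s R m r (2 ^ r) Pd (exp (-(c * L)))
    (exp (-(P * L))) ha hb (exp_pos _).le (exp_pos _).le hSt.dom (by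
      rw [← exp_nat_mul]; exact exp_le_exp.mpr (by push_cast; linarith)) hNV hU.r1 le_rfl
    (fun g hg => hSt.pair g Pd (le_trans (by exact_mod_cast hg) hNL) hMC.Pd1) hs hMC.m_1
  obtain ⟨hlen, hne, htv, hPa, hPb⟩ := hWord q τ x y a b m r hq0 hq1 hτ hSt.len hSt.ne ha hb
    hSt.ta hSt.tb
  obtain ⟨hθ0, hθ1⟩ := theta_bound (R := R) (c := c) (L := L) (P := P) hU.r1 (by linarith) hN0
    hη0 hR hMC.m1 (by linarith) hU.wr
  generalize (2 ^ r * 4 * r * ((R : ℝ) + 1) / ((mass s) ^ 2 * m)) ^ r * exp (-(c * L)) = θ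
    at hθ0 hθ1 hE
  obtain ⟨hpW0, hpW1⟩ := pW_bound (Y := P * L) he5 hN0
  generalize 10 * ((2 : ℝ) ^ r) ^ 4 * exp (-(P * L)) = pW at hpW0 hpW1 hWSB
  -- pointwise closeness
  have hA0 : 0 ≤ A := by linarith
  have hNu : 4 * ((2 : ℝ) ^ r) * u ≤ A * u := mul_le_mul_of_nonneg_right h4N hu0.le
  have hAu1 : A * u ≤ 1 := by
    have h0 : 0 ≤ A * u := by positivity
    nlinarith
  obtain ⟨hbd1, hle1⟩ := Wd_bd ha hb hu0.le hSt.bd (tm r) ((tm r).map not) (2 ^ r) (tm_length r)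
    (by rw [List.length_map, tm_length]) (by push_cast; linarith)
  have hdiff : Wd a b (pat m r false) - Wd a b (pat m r true)
      = a ^ m * (Wd a b (tm r) - Wd a b ((tm r).map not)) * a ^ m := by
    rw [hPa, hPb, mul_sub, sub_mul]
  have hWE' : Wd a b (pat m r false) - Wd a b (pat m r true)
      = a ^ m * W * a ^ m + a ^ m * E * a ^ m := by
    rw [hdiff, hWE, mul_add, add_mul]
  have hbd' : Bd (4 * (2 : ℝ) ^ r * u) (Wd a b (pat m r false))
      (Wd a b (pat m r false) - Wd a b (pat m r true)) := by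
    rw [hdiff, hPa]
    have h1 := (hbd1.mulLeft (ha.pow m).pos).mulRight (by positivity)
      ((ha.pow m).pos.mul (Wd_prob ha hb _).pos) (ha.pow m).pos
    push_cast at h1
    exact h1
  have hle' : ∀ f : BW → ℝ, (∀ v, 0 ≤ f v) →
      ev (a ^ (2 * m + 2 ^ r)) f ≤ 2 * ev (Wd a b (pat m r false)) f := by
    have h1 := pad_le ha m hle1
    rw [hPa]
    have e : a ^ (2 * m + 2 ^ r) = a ^ m * a ^ (2 ^ r) * a ^ m := by
      rw [← pow_add, ← pow_add]; congr 1; ring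
    rw [e]; exact h1
  have hnE : ((2 * (m : ℝ)) + 2 ^ r) ≤ exp ((2 + δ / P) * L) := by
    rw [hL']; exact hMC.n2.trans (exp_le_exp.mpr (by linarith))
  refine ⟨blk x y (pat m r false), blk x y (pat m r true), Wd a b (pat m r false),
    Wd a b (pat m r true), ?_⟩
  have hDomW : Dom ((√pW) ^ 2) (a ^ (2 * m + 2 ^ r)) (a ^ m * W * a ^ m) := by
    rw [sq_sqrt hpW0]
    exact SB_dom hWSB (by have := hMC.Pdm; omega)
  have hDomE : Dom ((√θ) ^ 2) (a ^ (2 * m + 2 ^ r)) (a ^ m * E * a ^ m) := by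
    rw [sq_sqrt hθ0]; exact hE
  refine
    { len := by rw [hlen, hlen]
      ne := hne
      lenL := ?_
      pa := Wd_prob ha hb _
      pb := Wd_prob ha hb _
      ta := (htv false).mono (mul_le_mul_of_nonneg_right hnE hτ)
      tb := (htv true).mono (mul_le_mul_of_nonneg_right hnE hτ)
      bd := hbd'.mono hNu (Wd_prob ha hb _).pos
      dom := ?_
      pair := ?_
      slip := ?_ }
  · rw [hlen]
    push_cast
    calc (2 * (m : ℝ) + 2 ^ r) * x.length ≤ exp (L + 502 * w) * exp L :=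
          mul_le_mul hMC.n2 hSt.lenL (Nat.cast_nonneg _) (exp_pos _).le
      _ = exp (2 * L + 502 * w) := by rw [← exp_add]; congr 1; ring
      _ ≤ exp ((2 + δ / P) * L) := by rw [hL']; exact exp_le_exp.mpr (by linarith)
  · have h1 := Dom.add hDomW hDomE (sqrt_nonneg _) (sqrt_nonneg _) (ha.pow _).pos
    rw [← hWE'] at h1
    have h2 := h1.ref (sq_nonneg _) hle'
    exact h2.mono (newV he5 hpW1 hw0 (by linarith) hθ1 hc') (Wd_prob ha hb _).pos
  · intro g Pd' hg hPd'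
    rw [hL'] at hg hPd'
    refine SB_mono (Wd_prob ha hb _) (pair_use hDr hRC hPair ha hb hs hR hMC hSt.dom hSt.bd hu0.le
      hN0 hw1 he5 hwL hLe hP hPL h404 huL hX1 hZ1 hZ2 hZ3 hNV hWE' hPa hW0 hpW0 hpW1 hWSB hθ0
      hθ1 hE h4N hbd' g Pd' hg hPd') (exp_le_exp.mpr ?_)
    linarith
  · have h1 := slip_use hDr hSl ha hb hs hMC.m_1 hSt.dom hR hη1 hMC.mL hN0 hNV hMC.n2 hw1 he5 hwL
      hLe hX1
    rw [← hPa] at h1
    rw [hL']
    exact h1

end

end Crest.Agent.R300LB
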