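import Crest.Agent.R300.LBGlue
import Crest.Agent.R300.LBSlip
import Crest.Agent.R300.LBStep

/-! Row 300, lower bounds: `CoreStatement` -/

set_option autoImplicit false

namespace Crest.Agent.R300LB

theorem core : CoreStatement :=
  core_of base_slip (stepStatement stepPieces.tmS stepPieces.word stepPieces.drift
    stepPieces.slipStep stepPieces.refCh stepPieces.pair)

end Crest.Agent.R300LB
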