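import Crest.Agent.R300.LBPlan
import Crest.Agent.R300.LBOrth

/-!
# Row 300, lower bounds, piece E5a: drift of the powers of a cell
-/

set_option autoImplicit false
set_option linter.unusedSectionVars false

namespace Crest.Agent.R300LB

open Finset

noncomputable section

variable {G : Type*} [Monoid G]

theorem Bes.drift_dom_sum {ι : Type*} {S : Finset ι} {p : ℝ} {π : MA G} {U : ι → MA G}
    (h : Bes S p π U) : Dom (S.card * p) π (∑ i ∈ S, U i) := fun f => by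
  rw [ev_sum, mul_assoc]
  exact (sq_sum_le_card_mul_sum_sq).trans
    (mul_le_mul_of_nonneg_left (h f) (Nat.cast_nonneg _))

/-- dyadic decomposition of a sum over positions -/
theorem drift_dyadic {π : MA G} (hπ : Pos π) {x : ℕ → ℝ} (hx : ∀ κ, 0 ≤ x κ) {M : ℕ}
    {f : ℕ → MA G}
    (hf : ∀ j0 w κ : ℕ, 1 ≤ w → w ≤ κ → κ ≤ j0 + 1 → j0 + w + κ ≤ M + 1 →
      Dom (x κ ^ 2) π (∑ j ∈ range w, f (j0 + j))) :
    ∀ l h : ℕ, h + 1 ≤ 2 ^ l → 2 * h ≤ M + 1 →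
      Dom ((∑ i ∈ range l, x (2 ^ i)) ^ 2) π (∑ j ∈ range h, f j) := by
  intro l
  induction l with
  | zero =>
    intro h hh _
    have : h = 0 := by simpa using hh
    subst this
    simpa using Dom.zero π hπ (le_refl (0 : ℝ))
  | succ l ih =>
    intro h hh hM
    rw [sum_range_succ]
    have hs : 0 ≤ ∑ i ∈ range l, x (2 ^ i) := sum_nonneg fun i _ => hx _
    by_cases hc : h + 1 ≤ 2 ^ l
    · refine (ih h hc hM).mono ?_ hπ
      exact pow_le_pow_left₀ hs (le_add_of_nonneg_right (hx _)) 2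
    · have h1 : 1 ≤ 2 ^ l := Nat.one_le_two_pow
      have h2 : 2 ^ (l + 1) = 2 ^ l + 2 ^ l := by rw [pow_succ]; ring
      have e : ∑ j ∈ range h, f j = ∑ j ∈ range (2 ^ l - 1), f j +
          ∑ j ∈ range (h + 1 - 2 ^ l), f (2 ^ l - 1 + j) := by
        rw [← sum_range_add]
        congr 2
        omega
      rw [e]
      refine Dom.add (ih _ (by omega) (by omega)) (hf _ _ _ (by omega) (by omega) (by omega)
        (by omega)) hs (hx _) hπ

theorem drift_flip {π : MA G} {x : ℕ → ℝ} {M : ℕ} {f : ℕ → MA G}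
    (hf : ∀ j0 w κ : ℕ, 1 ≤ w → w ≤ κ → κ ≤ j0 + 1 → j0 + w + κ ≤ M + 1 →
      Dom (x κ ^ 2) π (∑ j ∈ range w, f (j0 + j))) :
    ∀ j0 w κ : ℕ, 1 ≤ w → w ≤ κ → κ ≤ j0 + 1 → j0 + w + κ ≤ M + 1 →
      Dom (x κ ^ 2) π (∑ j ∈ range w, (fun j => f (M - 1 - j)) (j0 + j)) := by
  intro j0 w κ hw hwk hk hj
  have := hf (M - (j0 + w)) w κ hw hwk (by omega) (by omega)
  rw [← sum_range_reflect] at this
  have e : ∑ j ∈ range w, (fun j => f (M - 1 - j)) (j0 + j) =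
      ∑ j ∈ range w, f (M - (j0 + w) + (w - 1 - j)) := by
    refine sum_congr rfl fun j hj' => ?_
    have := mem_range.mp hj'
    show f _ = f _
    congr 1
    omega
  rw [e]
  exact this

theorem drift_two_halves {f : ℕ → MA G} {M p q : ℕ} (e0 : M = p + q) :
    ∑ j ∈ range M, f j = ∑ j ∈ range p, f j + ∑ j ∈ range q, f (M - 1 - j) := by
  have e1 : ∑ j ∈ range q, f (M - 1 - j) = ∑ j ∈ range q, f (p + j) := by
    rw [← sum_range_reflect]
    refine sum_congr rfl fun j hj' => ?_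
    have := mem_range.mp hj'
    congr 1
    omega
  rw [e1, ← sum_range_add, ← e0]

/-- both halves of a sum over positions -/
theorem drift_dyadic_two {π : MA G} (hπ : Pos π) {x : ℕ → ℝ} (hx : ∀ κ, 0 ≤ x κ) {M l p q : ℕ}
    {f : ℕ → MA G} (e0 : M = p + q) (hp1 : p + 1 ≤ 2 ^ l) (hq1 : q + 1 ≤ 2 ^ l)
    (hp2 : 2 * p ≤ M + 1) (hq2 : 2 * q ≤ M + 1)
    (hf : ∀ j0 w κ : ℕ, 1 ≤ w → w ≤ κ → κ ≤ j0 + 1 → j0 + w + κ ≤ M + 1 →
      Dom (x κ ^ 2) π (∑ j ∈ range w, f (j0 + j))) :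
    Dom (((∑ i ∈ range l, x (2 ^ i)) + (∑ i ∈ range l, x (2 ^ i))) ^ 2) π
      (∑ j ∈ range M, f j) := by
  obtain ⟨S, hS⟩ : ∃ S, S = ∑ i ∈ range l, x (2 ^ i) := ⟨_, rfl⟩
  have hs : 0 ≤ S := by rw [hS]; exact sum_nonneg fun i _ => hx _
  have A := drift_dyadic hπ hx hf l p hp1 hp2
  have B := drift_dyadic (f := fun j => f (M - 1 - j)) hπ hx (drift_flip hf) l q hq1 hq2
  rw [drift_two_halves e0, ← hS]
  rw [← hS] at A B
  exact Dom.add A B hs hs hπ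

/-- geometric sum with ratio `√2` -/
theorem drift_geo_one (l : ℕ) (A : ℝ) (hA : 0 ≤ A) :
    ∑ i ∈ range (l + 1), √(2 ^ i) * A ≤ 7 / 2 * (√(2 ^ l) * A) := by
  induction l with
  | zero => simp; nlinarith
  | succ l ih =>
    rw [sum_range_succ]
    have e : √((2 : ℝ) ^ (l + 1)) = √(2 ^ l) * √2 := by
      rw [pow_succ, Real.sqrt_mul (by positivity)]
    have h2 : (1.414 : ℝ) ≤ √2 := Real.le_sqrt_of_sq_le (by norm_num)
    have h0 : 0 ≤ √((2 : ℝ) ^ l) * A := by positivity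
    rw [e]
    nlinarith [mul_nonneg h0 (sub_nonneg.mpr h2)]

/-- geometric sum with ratio `2^(1/4)` -/
theorem drift_geo_two (l : ℕ) (A : ℝ) (hA : 0 ≤ A) :
    ∑ i ∈ range (l + 1), √(√(2 ^ i)) * A ≤ 13 / 2 * (√(√(2 ^ l)) * A) := by
  induction l with
  | zero => simp; nlinarith
  | succ l ih =>
    rw [sum_range_succ]
    have e : √(√((2 : ℝ) ^ (l + 1))) = √(√(2 ^ l)) * √(√2) := by
      rw [pow_succ, Real.sqrt_mul (by positivity), Real.sqrt_mul (by positivity)]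
    have h2 : (1.189 : ℝ) ≤ √(√2) :=
      Real.le_sqrt_of_sq_le (Real.le_sqrt_of_sq_le (by norm_num))
    have h0 : 0 ≤ √(√((2 : ℝ) ^ l)) * A := by positivity
    rw [e]
    nlinarith [mul_nonneg h0 (sub_nonneg.mpr h2)]

end

/-! ### one window -/

section

variable {G : Type} [Monoid G]

/-- norm of a window of `κ` positions -/
noncomputable def xwin (n : ℕ) (V ρ : ℝ) (κ : ℕ) : ℝ :=
  √V * (√(κ / n) + √(2 * ρ * √κ))

theorem drift_xwin_nonneg (n : ℕ) (V ρ : ℝ) (κ : ℕ) : 0 ≤ xwin n V ρ κ := by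
  unfold xwin; positivity

theorem drift_window (hLoc : LocationStatement) {a s Z : MA G} {R m N0 : ℕ} {V ρ : ℝ}
    (ha : Prob a) (hs : Slip a R s) (hm : 1 ≤ m) (hV : 0 ≤ V) (hρ : 0 < ρ)
    (hR : ((R : ℝ) + 1) ≤ ρ ^ 2 * (mass s) ^ 2 * m) (hSB : SB V a Z N0 0)
    (M j0 w κ : ℕ) (hw : 1 ≤ w) (hwk : w ≤ κ) (hk : κ ≤ j0 + 1) (hj : j0 + w + κ ≤ M + 1) :
    Dom (xwin (2 * m + N0) V ρ κ ^ 2) (a ^ ((2 * m + N0) * M))
      (∑ j ∈ range w, (fun j => a ^ ((2 * m + N0) * j + m) * Z *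
        a ^ ((2 * m + N0) * (M - 1 - j) + m)) (j0 + j)) := by
  set n := 2 * m + N0 with hn
  set k := m * κ / (R + 1) with hkd
  have hκ : 1 ≤ κ := hw.trans hwk
  have hk1 : (R + 1) * k ≤ m * κ := Nat.mul_div_le _ _
  have hmκ : m * κ ≤ m * j0 + m := by
    calc m * κ ≤ m * (j0 + 1) := Nat.mul_le_mul_left m hk
      _ = m * j0 + m := by ring
  have hnj : m * j0 ≤ n * j0 := Nat.mul_le_mul_right j0 (by omega)
  have hMw : n * (j0 + w) + n * κ ≤ n * M + n := by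
    calc n * (j0 + w) + n * κ = n * (j0 + w + κ) := by ring
      _ ≤ n * (M + 1) := Nat.mul_le_mul_left n hj
      _ = n * M + n := by ring
  have hnκ : n * κ = m * κ + (m + N0) * κ := by rw [hn]; ring
  have hmN : m + N0 ≤ (m + N0) * κ := Nat.le_mul_of_pos_right _ hκ
  have hw1 : n * (w - 1) + n = n * w := by
    calc n * (w - 1) + n = n * (w - 1 + 1) := by ring
      _ = n * w := by congr 1; omega
  have hjw : n * (j0 + w) = n * j0 + n * w := by ring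
  have hM1 : n ≤ n * M := Nat.le_mul_of_pos_right _ (by omega)
  have hB := hLoc G a s Z R k N0 0 n (n * j0 + m) w (n * M - N0) V ha hs hV hSB (by omega) hw
    (by omega) (by omega)
  have h1 := hB.drift_dom_sum
  rw [card_range] at h1
  have e1 : n * M - N0 + N0 = n * M := by omega
  rw [e1] at h1
  have e2 : ∑ j ∈ range w, (fun j => a ^ (n * j + m) * Z * a ^ (n * (M - 1 - j) + m)) (j0 + j) =
      ∑ j ∈ range w, a ^ (n * j0 + m + n * j) * Z * a ^ (n * M - N0 - (n * j0 + m + n * j)) := by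
    refine sum_congr rfl fun j hj' => ?_
    have hjw' := mem_range.mp hj'
    have e3 : n * (j0 + j) + m = n * j0 + m + n * j := by ring
    have e4 : n * (M - 1 - (j0 + j)) + m = n * M - N0 - (n * j0 + m + n * j) := by
      have e5 : n * M = n * (M - 1 - (j0 + j)) + n * (j0 + j) + n := by
        calc n * M = n * (M - 1 - (j0 + j) + (j0 + j) + 1) := by congr 1; omega
          _ = _ := by ring
      have e6 : n * (j0 + j) = n * j0 + n * j := by ring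
      omega
    simp only [e3, e4]
  rw [e2]
  refine h1.mono ?_ (ha.pos.pow _)
  -- numerical part
  have hη : 0 < mass s := hs.mpos
  have hκ0 : (0 : ℝ) < κ := by exact_mod_cast hκ
  have hn0 : (0 : ℝ) < n := by
    have : 0 < n := by omega
    exact_mod_cast this
  have hR0 : (0 : ℝ) < (R : ℝ) + 1 := by positivity
  have hkk : (m : ℝ) * κ ≤ ((R : ℝ) + 1) * (k + 1) := by
    have : m * κ < (R + 1) * (k + 1) := Nat.lt_mul_div_succ (m * κ) (Nat.succ_pos R)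
    exact_mod_cast this.le
  have hsq : κ ≤ (ρ * mass s) ^ 2 * ((k : ℝ) + 1) := by
    have h3 : ((R : ℝ) + 1) * κ ≤ ρ ^ 2 * (mass s) ^ 2 * (m * κ) := by
      calc ((R : ℝ) + 1) * κ ≤ (ρ ^ 2 * (mass s) ^ 2 * m) * κ :=
            mul_le_mul_of_nonneg_right hR hκ0.le
        _ = _ := by ring
    have h4 : ((R : ℝ) + 1) * κ ≤ ((R : ℝ) + 1) * ((ρ * mass s) ^ 2 * ((k : ℝ) + 1)) := by
      calc ((R : ℝ) + 1) * κ ≤ ρ ^ 2 * (mass s) ^ 2 * (m * κ) := h3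
        _ ≤ ρ ^ 2 * (mass s) ^ 2 * (((R : ℝ) + 1) * (k + 1)) :=
            mul_le_mul_of_nonneg_left hkk (by positivity)
        _ = _ := by ring
    exact le_of_mul_le_mul_left h4 hR0
  have hroot : √(κ : ℝ) ≤ ρ * (mass s * √((k : ℝ) + 1)) := by
    rw [← mul_assoc]
    apply Real.sqrt_le_iff.mpr
    refine ⟨by positivity, ?_⟩
    rw [mul_pow, Real.sq_sqrt (by positivity)]
    exact hsq
  have hκr : 0 < √(κ : ℝ) := Real.sqrt_pos.mpr hκ0
  have hms : 0 < mass s * √((k : ℝ) + 1) := by positivity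
  have hq : 2 / (mass s * √((k : ℝ) + 1)) ≤ 2 * ρ / √(κ : ℝ) := by
    rw [div_le_div_iff₀ hms hκr]
    nlinarith
  unfold xwin
  rw [mul_pow, Real.sq_sqrt hV]
  have hA : √((κ : ℝ) / n) ^ 2 = κ / n := Real.sq_sqrt (by positivity)
  have hBq : √(2 * ρ * √(κ : ℝ)) ^ 2 = 2 * ρ * √(κ : ℝ) := Real.sq_sqrt (by positivity)
  have hAB : 0 ≤ √((κ : ℝ) / n) * √(2 * ρ * √(κ : ℝ)) := by positivity
  have hwκ : (w : ℝ) ≤ κ := by exact_mod_cast hwk
  calc (w : ℝ) * (V * (1 / n + 2 / (mass s * √((k : ℝ) + 1))))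
      ≤ κ * (V * (1 / n + 2 * ρ / √(κ : ℝ))) := by
        refine mul_le_mul hwκ (mul_le_mul_of_nonneg_left (by linarith) hV) (by positivity) hκ0.le
    _ = V * (κ / n + 2 * ρ * (κ / √(κ : ℝ))) := by ring
    _ = V * (κ / n + 2 * ρ * √(κ : ℝ)) := by rw [Real.div_sqrt]
    _ ≤ V * (√((κ : ℝ) / n) + √(2 * ρ * √(κ : ℝ))) ^ 2 := by
        refine mul_le_mul_of_nonneg_left ?_ hV
        nlinarith

/-! ### the sum of the window norms -/

theorem drift_sigmaB_nonneg {N0 m l : ℕ} {VZ ρ : ℝ} (hV : 0 ≤ VZ) (hρ : 0 ≤ ρ) :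
    0 ≤ sigmaB N0 m l VZ ρ := by
  unfold sigmaB; positivity

theorem drift_xwin_sum {N0 m l : ℕ} {VZ ρ : ℝ} (hm : 1 ≤ m) (hV : 0 ≤ VZ) (hρ : 0 < ρ) :
    ((∑ i ∈ range (l + 1), xwin (2 * m + N0) (N0 * VZ) ρ (2 ^ i)) +
      (∑ i ∈ range (l + 1), xwin (2 * m + N0) (N0 * VZ) ρ (2 ^ i))) ^ 2 ≤
      sigmaB N0 m l VZ ρ := by
  have hn0 : (0 : ℝ) < ((2 * m + N0 : ℕ) : ℝ) := by
    have : 0 < 2 * m + N0 := by omega
    exact_mod_cast this
  have e : ∀ i : ℕ, xwin (2 * m + N0) (N0 * VZ) ρ (2 ^ i) =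
      √(N0 * VZ) * (√(2 ^ i) * (1 / √((2 * m + N0 : ℕ) : ℝ)) + √(√(2 ^ i)) * √(2 * ρ)) := by
    intro i
    unfold xwin
    push_cast
    rw [Real.sqrt_div (by positivity), Real.sqrt_mul (by positivity) (√((2 : ℝ) ^ i))]
    ring
  have hS : ∑ i ∈ range (l + 1), xwin (2 * m + N0) (N0 * VZ) ρ (2 ^ i) ≤
      √(N0 * VZ) * (7 / 2 * (√(2 ^ l) * (1 / √((2 * m + N0 : ℕ) : ℝ))) +
        13 / 2 * (√(√(2 ^ l)) * √(2 * ρ))) := by
    rw [sum_congr rfl fun i _ => e i, ← mul_sum, sum_add_distrib]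
    exact mul_le_mul_of_nonneg_left (add_le_add (drift_geo_one l _ (by positivity))
      (drift_geo_two l _ (by positivity))) (Real.sqrt_nonneg _)
  have hS0 : 0 ≤ ∑ i ∈ range (l + 1), xwin (2 * m + N0) (N0 * VZ) ρ (2 ^ i) :=
    sum_nonneg fun i _ => drift_xwin_nonneg _ _ _ _
  set S := ∑ i ∈ range (l + 1), xwin (2 * m + N0) (N0 * VZ) ρ (2 ^ i)
  set x : ℝ := √(2 ^ l) * (1 / √((2 * m + N0 : ℕ) : ℝ)) with hx
  set y : ℝ := √(√(2 ^ l)) * √(2 * ρ) with hy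
  have hx2 : x ^ 2 = 2 ^ l / (2 * m + N0) := by
    rw [hx, mul_pow, div_pow, one_pow, Real.sq_sqrt (by positivity), Real.sq_sqrt hn0.le]
    push_cast
    ring
  have hy2 : y ^ 2 = 2 * (ρ * √(2 ^ l)) := by
    rw [hy, mul_pow, Real.sq_sqrt (by positivity), Real.sq_sqrt (by positivity)]
    ring
  have hx0 : 0 ≤ x := by positivity
  have hy0 : 0 ≤ y := by positivity
  have hV2 : √(N0 * VZ) ^ 2 = N0 * VZ := Real.sq_sqrt (by positivity)
  have h1 : (S + S) ^ 2 ≤ (2 * (√(N0 * VZ) * (7 / 2 * x + 13 / 2 * y))) ^ 2 :=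
    pow_le_pow_left₀ (by linarith) (by linarith) 2
  refine h1.trans ?_
  have h2 : (2 * (√(N0 * VZ) * (7 / 2 * x + 13 / 2 * y))) ^ 2 =
      N0 * VZ * (4 * (7 / 2 * x + 13 / 2 * y) ^ 2) := by
    rw [mul_pow, mul_pow, hV2]; ring
  rw [h2]
  unfold sigmaB
  have h3 : 4 * (7 / 2 * x + 13 / 2 * y) ^ 2 ≤ 1000 * (x ^ 2 + y ^ 2 / 2) := by
    nlinarith [sq_nonneg (7 * x - 13 * y), sq_nonneg x, sq_nonneg y]
  have h4 : 0 ≤ (N0 : ℝ) * VZ := by positivity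
  calc (N0 : ℝ) * VZ * (4 * (7 / 2 * x + 13 / 2 * y) ^ 2)
      ≤ N0 * VZ * (1000 * (x ^ 2 + y ^ 2 / 2)) := mul_le_mul_of_nonneg_left h3 h4
    _ = _ := by rw [hx2, hy2]; ring

/-! ### the doubling argument -/

/-- first order part of `P ^ M - T ^ M` -/
noncomputable def dF1 (P T : MA G) (M : ℕ) : MA G := ∑ j ∈ range M, T ^ j * (P - T) * T ^ (M - 1 - j)

theorem dF1_add (P T : MA G) (M1 M2 : ℕ) :
    dF1 P T (M1 + M2) = dF1 P T M1 * T ^ M2 + T ^ M1 * dF1 P T M2 := by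
  unfold dF1
  rw [sum_range_add, sum_mul, mul_sum]
  congr 1
  · refine sum_congr rfl fun j hj => ?_
    have := mem_range.mp hj
    have e : M1 + M2 - 1 - j = (M1 - 1 - j) + M2 := by omega
    rw [e, pow_add]
    simp only [mul_assoc]
  · refine sum_congr rfl fun j hj => ?_
    have := mem_range.mp hj
    have e : M1 + M2 - 1 - (M1 + j) = M2 - 1 - j := by omega
    rw [e, pow_add]
    simp only [mul_assoc]

theorem mass_dF1 {P T : MA G} (hP : Prob P) (hT : Prob T) (M : ℕ) : mass (dF1 P T M) = 0 := by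
  unfold dF1 mass
  rw [ev_sum]
  refine sum_eq_zero fun j _ => ?_
  have : mass (T ^ j * (P - T) * T ^ (M - 1 - j)) = 0 := by
    rw [mass_mul, mass_mul, mass_sub, hP.one, hT.one]; ring
  exact this

/-- remainder -/
noncomputable def dH2 (P T : MA G) (M : ℕ) : MA G := P ^ M - T ^ M - dF1 P T M

theorem dH2_add (P T : MA G) (M1 M2 : ℕ) :
    dH2 P T (M1 + M2) = (dH2 P T M1 * T ^ M2 + T ^ M1 * dH2 P T M2) +
      (P ^ M1 - T ^ M1) * (P ^ M2 - T ^ M2) := by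
  unfold dH2
  rw [dF1_add, pow_add, pow_add]
  noncomm_ring

theorem mass_dH2 {P T : MA G} (hP : Prob P) (hT : Prob T) (M : ℕ) : mass (dH2 P T M) = 0 := by
  unfold dH2
  rw [mass_sub, mass_sub, mass_dF1 hP hT, (hP.pow M).one, (hT.pow M).one]; ring

theorem drift_sigmaB_mono {N0 m l : ℕ} {VZ ρ : ℝ} (hV : 0 ≤ VZ) (hρ : 0 ≤ ρ) :
    √2 * sigmaB N0 m l VZ ρ ≤ sigmaB N0 m (l + 1) VZ ρ := by
  unfold sigmaB
  have h2 : √2 ≤ 2 := by
    rw [Real.sqrt_le_left (by norm_num)]; norm_num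
  have e1 : √((2 : ℝ) ^ (l + 1)) = √(2 ^ l) * √2 := by
    rw [pow_succ, Real.sqrt_mul (by positivity)]
  have h3 : (2 : ℝ) ^ l / (2 * m + N0) * √2 ≤ 2 ^ (l + 1) / (2 * m + N0) := by
    rw [pow_succ, mul_div_right_comm]
    exact mul_le_mul_of_nonneg_left h2 (by positivity)
  rw [e1]
  have h4 : 0 ≤ 1000 * (N0 : ℝ) * VZ := by positivity
  calc √2 * (1000 * N0 * VZ * (2 ^ l / (2 * m + N0) + ρ * √(2 ^ l)))
      = 1000 * N0 * VZ * (2 ^ l / (2 * m + N0) * √2 + ρ * (√(2 ^ l) * √2)) := by ring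
    _ ≤ _ := mul_le_mul_of_nonneg_left (by linarith) h4

/-- the doubling recursion -/
theorem drift_doubling {P T : MA G} (hP : Prob P) (hT : Prob T) {σ : ℕ → ℝ} (hσ0 : ∀ l, 0 ≤ σ l)
    (hσ : ∀ l, √2 * σ l ≤ σ (l + 1))
    (h1 : ∀ l M, M ≤ 2 ^ l → Dom (σ l) (T ^ M) (dF1 P T M)) :
    ∀ l : ℕ, 16 * ((l : ℝ) + 1) ^ 2 * σ l ≤ 1 → ∀ M, M ≤ 2 ^ l →
      Dom ((4 * l * σ l) ^ 2) (T ^ M) (dH2 P T M) := by
  intro l
  induction l with
  | zero =>
    intro _ M hM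
    have hM' : M = 0 ∨ M = 1 := by
      have : M ≤ 1 := by simpa using hM
      omega
    have hz : dH2 P T M = 0 := by
      rcases hM' with rfl | rfl
      · simp [dH2, dF1]
      · simp [dH2, dF1]
    rw [hz]
    exact Dom.zero _ (hT.pos.pow _) (sq_nonneg _)
  | succ l ih =>
    intro hl M hM
    have hσσ : σ l ≤ σ (l + 1) := by
      have h2 : (1 : ℝ) ≤ √2 := by
        rw [Real.one_le_sqrt]; norm_num
      nlinarith [hσ l, hσ0 l]
    have hl' : 16 * ((l : ℝ) + 1) ^ 2 * σ l ≤ 1 := by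
      refine le_trans ?_ hl
      push_cast
      have h3 : ((l : ℝ) + 1) ^ 2 ≤ ((l : ℝ) + 1 + 1) ^ 2 := by
        have : (0 : ℝ) ≤ l := Nat.cast_nonneg l
        nlinarith
      calc 16 * ((l : ℝ) + 1) ^ 2 * σ l ≤ 16 * ((l : ℝ) + 1 + 1) ^ 2 * σ l :=
            mul_le_mul_of_nonneg_right (by linarith) (hσ0 l)
        _ ≤ _ := mul_le_mul_of_nonneg_left hσσ (by positivity)
    have hp : 2 ^ (l + 1) = 2 ^ l + 2 ^ l := by rw [pow_succ]; ring
    obtain ⟨M1, M2, rfl, hM1, hM2⟩ : ∃ M1 M2, M = M1 + M2 ∧ M1 ≤ 2 ^ l ∧ M2 ≤ 2 ^ l :=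
      ⟨M / 2, M - M / 2, by omega, by omega, by omega⟩
    obtain ⟨h, hh⟩ : ∃ h : ℝ, h = 4 * l * σ l := ⟨_, rfl⟩
    have hh0 : 0 ≤ h := by
      rw [hh]; exact mul_nonneg (by positivity) (hσ0 l)
    have H1 := ih hl' M1 hM1
    have dH2' := ih hl' M2 hM2
    rw [← hh] at H1 dH2'
    obtain ⟨t, ht0, ht⟩ : ∃ t : ℝ, 0 ≤ t ∧ t ^ 2 = σ l := ⟨√(σ l), Real.sqrt_nonneg _, Real.sq_sqrt (hσ0 l)⟩
    have hF : ∀ N, N ≤ 2 ^ l → Dom (h ^ 2) (T ^ N) (dH2 P T N) →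
        Dom ((t + h) ^ 2) (T ^ N) (P ^ N - T ^ N) := by
      intro N hN hHN
      have e : P ^ N - T ^ N = dF1 P T N + dH2 P T N := by unfold dH2; abel
      rw [e]
      have := h1 l N hN
      rw [← ht] at this
      exact Dom.add this hHN ht0 hh0 (hT.pos.pow _)
    have A := orth_step (hT.pow M1) (hT.pos.pow M2) (mass_dH2 hP hT M1) H1 (sq_nonneg _)
      (Dom.self_prob (hT.pow M2)) zero_le_one dH2' (sq_nonneg _)
    have B := Dom.mul (hF M1 hM1 H1) (hF M2 hM2 dH2') (sq_nonneg _) (hT.pos.pow M1)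
    have eA : h ^ 2 * 1 + h ^ 2 = (√2 * h) ^ 2 := by
      rw [mul_pow, Real.sq_sqrt (by norm_num)]; ring
    have eB : (t + h) ^ 2 * (t + h) ^ 2 = ((t + h) ^ 2) ^ 2 := by ring
    rw [eA] at A
    rw [eB] at B
    rw [dH2_add, pow_add]
    refine (Dom.add A B (by positivity) (by positivity) ((hT.pos.pow _).mul (hT.pos.pow _))).mono
      ?_ ((hT.pos.pow _).mul (hT.pos.pow _))
    refine pow_le_pow_left₀ (by positivity) ?_ 2
    -- √2 h + (t+h)² ≤ 4 (l+1) σ_{l+1}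
    have ht4 : 4 * ((l : ℝ) + 1) * t ≤ 1 := by
      have h5 : (4 * ((l : ℝ) + 1) * t) ^ 2 ≤ 1 ^ 2 := by
        calc (4 * ((l : ℝ) + 1) * t) ^ 2 = 16 * ((l : ℝ) + 1) ^ 2 * σ l := by rw [← ht]; ring
          _ ≤ 1 ^ 2 := by rw [one_pow]; exact hl'
      exact le_of_sq_le_sq h5 (by norm_num) |> fun h => h
    have hl0 : (0 : ℝ) ≤ l := Nat.cast_nonneg l
    have hht : h ≤ t := by
      have h6 : 4 * (l : ℝ) * t ≤ 1 := by nlinarith
      calc h = (4 * l * t) * t := by rw [hh, ← ht]; ring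
        _ ≤ 1 * t := mul_le_mul_of_nonneg_right h6 ht0
        _ = t := one_mul t
    have h7 : (t + h) ^ 2 ≤ 4 * σ l := by
      rw [← ht]; nlinarith
    have h8 : √2 * h ≤ 4 * l * σ (l + 1) := by
      rw [hh]
      calc √2 * (4 * l * σ l) = 4 * l * (√2 * σ l) := by ring
        _ ≤ _ := mul_le_mul_of_nonneg_left (hσ l) (by positivity)
    push_cast
    nlinarith

theorem drift (hLoc : LocationStatement) (hDSB : DomSBStatement) : DriftStatement := by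
  intro G _ a c s R m N0 l VZ ρ ha hc hs hN0 hm hV hZ hρ hR hσ M hM
  have hρ' : 0 < ρ := by
    rcases eq_or_lt_of_le hρ with h | h
    · exfalso
      rw [← h] at hR
      have : (0 : ℝ) < (R : ℝ) + 1 := by positivity
      nlinarith
    · exact h
  set n := 2 * m + N0 with hn
  set P : MA G := a ^ m * c * a ^ m with hPd
  set T : MA G := a ^ n with hTd
  have hP : Prob P := ((ha.pow m).mul hc).mul (ha.pow m)
  have hT : Prob T := ha.pow n
  have hZm : mass (c - a ^ N0) = 0 := by rw [mass_sub, hc.one, (ha.pow N0).one]; ring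
  have hSB : SB (N0 * VZ) a (c - a ^ N0) N0 0 := hDSB G a _ N0 VZ ha hZm hV hN0 hZ
  have hVN : 0 ≤ (N0 : ℝ) * VZ := by positivity
  have hPT : P - T = a ^ m * (c - a ^ N0) * a ^ m := by
    rw [hPd, hTd, hn, mul_sub, sub_mul, ← pow_add, ← pow_add]
    congr 2
    ring
  have hF1 : ∀ M, dF1 P T M = ∑ j ∈ range M, a ^ (n * j + m) * (c - a ^ N0) *
      a ^ (n * (M - 1 - j) + m) := by
    intro M
    unfold dF1
    refine sum_congr rfl fun j _ => ?_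
    rw [hPT, hTd, ← pow_mul, ← pow_mul, pow_add, add_comm (n * (M - 1 - j)) m, pow_add]
    simp only [mul_assoc]
  have h1 : ∀ l M, M ≤ 2 ^ l → Dom (sigmaB N0 m l VZ ρ) (T ^ M) (dF1 P T M) := by
    intro l M hM
    have hp : 2 ^ (l + 1) = 2 ^ l + 2 ^ l := by rw [pow_succ]; ring
    have hp1 : 1 ≤ 2 ^ l := Nat.one_le_two_pow
    obtain ⟨p, q, e0, hp1, hq1, hp2, hq2⟩ : ∃ p q, M = p + q ∧ p + 1 ≤ 2 ^ (l + 1) ∧
        q + 1 ≤ 2 ^ (l + 1) ∧ 2 * p ≤ M + 1 ∧ 2 * q ≤ M + 1 :=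
      ⟨M - M / 2, M / 2, by omega, by omega, by omega, by omega, by omega⟩
    have := drift_dyadic_two (π := a ^ (n * M)) (ha.pos.pow _) (x := xwin n (N0 * VZ) ρ)
      (fun κ => drift_xwin_nonneg _ _ _ _) e0 hp1 hq1 hp2 hq2
      (f := fun j => a ^ (n * j + m) * (c - a ^ N0) * a ^ (n * (M - 1 - j) + m))
      (fun j0 w κ hw hwk hk hj => drift_window hLoc ha hs hm hVN hρ' hR hSB M j0 w κ hw hwk hk hj)
    rw [hF1, hTd, ← pow_mul]
    exact this.mono (drift_xwin_sum hm hV hρ') (ha.pos.pow _)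
  have h2 := drift_doubling hP hT (σ := fun l => sigmaB N0 m l VZ ρ)
    (fun l => drift_sigmaB_nonneg hV hρ) (fun l => drift_sigmaB_mono hV hρ) h1 l hσ M hM
  have h3 := h1 l M hM
  have hσ0 : 0 ≤ sigmaB N0 m l VZ ρ := drift_sigmaB_nonneg hV hρ
  obtain ⟨t, ht0, ht⟩ : ∃ t : ℝ, 0 ≤ t ∧ t ^ 2 = sigmaB N0 m l VZ ρ :=
    ⟨√(sigmaB N0 m l VZ ρ), Real.sqrt_nonneg _, Real.sq_sqrt hσ0⟩
  simp only [← ht] at h2 h3 hσ
  have e : P ^ M - T ^ M = dF1 P T M + dH2 P T M := by unfold dH2; abel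
  have h4 := Dom.add h3 h2 ht0 (by positivity) (hT.pos.pow _)
  rw [← e] at h4
  rw [pow_mul, ← ht]
  refine h4.mono ?_ (hT.pos.pow _)
  have hl0 : (0 : ℝ) ≤ l := Nat.cast_nonneg l
  have ht4 : 4 * ((l : ℝ) + 1) * t ≤ 1 := by
    have h5 : (4 * ((l : ℝ) + 1) * t) ^ 2 ≤ 1 ^ 2 := by
      calc (4 * ((l : ℝ) + 1) * t) ^ 2 = 16 * ((l : ℝ) + 1) ^ 2 * t ^ 2 := by ring
        _ ≤ 1 ^ 2 := by rw [one_pow]; exact hσ
    exact le_of_sq_le_sq h5 (by norm_num)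
  have hht : 4 * (l : ℝ) * t ^ 2 ≤ t := by
    have h6 : 4 * (l : ℝ) * t ≤ 1 := by nlinarith
    calc 4 * (l : ℝ) * t ^ 2 = (4 * l * t) * t := by ring
      _ ≤ 1 * t := mul_le_mul_of_nonneg_right h6 ht0
      _ = t := one_mul t
  have h9 : 0 ≤ 4 * (l : ℝ) * t ^ 2 := by positivity
  nlinarith

end

end Crest.Agent.R300LB
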