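import Mathlib
import Crest.Prelude.Def_TraceTV
import Crest.Agent.R300.LBDefs
import Crest.Agent.R300.LBInterface

/-!
# Row 300, lower bounds (D1), (D2): the frozen definitions in terms of `D q w`, and `m` samples

* `ev_D_ofFn`, `traceLaw_eq`, `traceTV_le_of_TVle`, `TVle_zero_of_traceLaw`;
* `evm μ m F`: the `m`-fold product measure; `evm_D_eq`, `successProb_eq`;
* `evm_var_le` (`χ²`, tensorised), `evm_sub_le` (hybrid argument in `ℓ¹`);
* `exists_successProb_lt` : `t` words close to one reference law cannot be reconstructed.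
-/

set_option autoImplicit false
set_option linter.unusedSectionVars false

namespace Crest.Agent.R300LB

open Crest.FinProb Crest.TraceRecon Finset

noncomputable section

/-! ## (D1) one trace -/

theorem D_nil (q : ℝ) : D q [] = 1 := rfl

theorem D_cons (q : ℝ) (c : Bool) (w : List Bool) : D q (c :: w) = letter q c * D q w := by
  unfold D; rw [List.map_cons, List.prod_cons]

theorem D_append (q : ℝ) (u v : List Bool) : D q (u ++ v) = D q u * D q v := by
  unfold D; rw [List.map_append, List.prod_append]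

theorem ev_letter (q : ℝ) (c : Bool) (f : BW → ℝ) :
    ev (letter q c) f = q * f 1 + (1 - q) * f (FreeMonoid.of c) := by
  unfold letter
  rw [ev_add, ev_smul, ev_smul, ev_one, ev_single, one_mul]

theorem prob_letter {q : ℝ} (h0 : 0 ≤ q) (h1 : q ≤ 1) (c : Bool) : Prob (letter q c) := by
  constructor
  · intro f hf
    rw [ev_letter]
    exact add_nonneg (mul_nonneg h0 (hf _)) (mul_nonneg (by linarith) (hf _))
  · unfold mass; rw [ev_letter]; ring

theorem prob_D {q : ℝ} (h0 : 0 ≤ q) (h1 : q ≤ 1) (w : List Bool) : Prob (D q w) := by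
  induction w with
  | nil => exact Prob.one'
  | cons c w ih => rw [D_cons]; exact (prob_letter h0 h1 c).mul ih

theorem bernoulliWeight_cons {n : ℕ} (p : ℝ) (b : Bool) (k : Fin n → Bool) :
    bernoulliWeight p (Fin.cons b k : Fin (n + 1) → Bool)
      = (if b then p else 1 - p) * bernoulliWeight p k := by
  unfold bernoulliWeight
  rw [Fin.prod_univ_succ]
  simp

theorem traceOf_cons {n : ℕ} (x : Fin (n + 1) → Bool) (b : Bool) (k : Fin n → Bool) :
    traceOf x (Fin.cons b k : Fin (n + 1) → Bool)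
      = if b then x 0 :: traceOf (fun i => x i.succ) k else traceOf (fun i => x i.succ) k := by
  unfold traceOf
  rw [List.finRange_succ]
  have h : List.map x (List.filter (fun i => (Fin.cons b k : Fin (n + 1) → Bool) i)
        (List.map Fin.succ (List.finRange n)))
      = List.map (fun i => x i.succ) (List.filter (fun i => k i) (List.finRange n)) := by
    rw [List.filter_map, List.map_map]
    rfl
  cases b
  · simp only [Fin.cons_zero, List.filter_cons, Bool.false_eq_true, if_false]
    exact h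
  · simp only [Fin.cons_zero, List.filter_cons, if_true, List.map_cons]
    rw [h]

/-- the expectation of `f` of a trace of `x` -/
theorem ev_D_ofFn (q : ℝ) : ∀ {n : ℕ} (x : Fin n → Bool) (f : BW → ℝ),
    ev (D q (List.ofFn x)) f
      = ∑ keep : Fin n → Bool, bernoulliWeight (1 - q) keep *
          f (FreeMonoid.ofList (traceOf x keep)) := by
  intro n
  induction n with
  | zero =>
    intro x f
    rw [List.ofFn_zero, D_nil, ev_one, Fintype.sum_unique]
    simp [bernoulliWeight, traceOf]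
  | succ n ih =>
    intro x f
    rw [List.ofFn_succ, D_cons, ev_mul, ev_letter]
    have e1 := ih (fun i => x i.succ) (fun v => f (1 * v))
    have e2 := ih (fun i => x i.succ) (fun v => f (FreeMonoid.of (x 0) * v))
    rw [e1, e2]
    rw [← (Fin.consEquiv (fun _ => Bool)).sum_comp, Fintype.sum_prod_type]
    simp only [Fintype.sum_bool]
    rw [Finset.mul_sum, Finset.mul_sum, add_comm]
    congr 1
    · refine Finset.sum_congr rfl fun k _ => ?_
      have : (Fin.consEquiv (fun _ : Fin (n + 1) => Bool)) (true, k)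
          = (Fin.cons true k : Fin (n + 1) → Bool) := rfl
      rw [this, bernoulliWeight_cons, traceOf_cons]
      simp only [if_true]
      rw [mul_assoc]
      rfl
    · refine Finset.sum_congr rfl fun k _ => ?_
      have : (Fin.consEquiv (fun _ : Fin (n + 1) => Bool)) (false, k)
          = (Fin.cons false k : Fin (n + 1) → Bool) := rfl
      rw [this, bernoulliWeight_cons, traceOf_cons]
      simp only [Bool.false_eq_true, if_false]
      rw [mul_assoc, one_mul, sub_sub_cancel]

open scoped Classical in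
theorem traceLaw_eq (q : ℝ) {n : ℕ} (x : Fin n → Bool) (w : List Bool) :
    traceLaw (1 - q) x w
      = ev (D q (List.ofFn x)) (fun v => if v = FreeMonoid.ofList w then 1 else 0) := by
  rw [ev_D_ofFn]
  unfold traceLaw bernoulliProb
  rw [Finset.sum_filter]
  refine Finset.sum_congr rfl fun k _ => ?_
  by_cases h : traceOf x k = w
  · simp [h]
  · have h' : ¬ (FreeMonoid.ofList (traceOf x k) = FreeMonoid.ofList w) := fun h2 =>
      h (FreeMonoid.ofList.injective h2)
    simp [h]

/-- sum of absolute values of the point masses along an injective family is at most `τ` -/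
theorem sum_abs_le_of_TVle {ν : MA BW} {τ : ℝ} (h : TVle τ ν) {ι : Type*} (s : Finset ι)
    (g : ι → BW) (hg : Set.InjOn g (s : Set ι)) [DecidableEq BW] :
    ∑ i ∈ s, |ev ν (fun v => if v = g i then 1 else 0)| ≤ τ := by
  classical
  set c : ι → ℝ := fun i => ev ν (fun v => if v = g i then 1 else 0) with hc
  set ε : ι → ℝ := fun i => if 0 ≤ c i then 1 else -1 with hε
  set f : BW → ℝ := fun v => ∑ i ∈ s, ε i * (if v = g i then 1 else 0) with hf
  have h1 : ev ν f = ∑ i ∈ s, |c i| := by
    rw [hf, ev_sum_fun]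
    refine Finset.sum_congr rfl fun i _ => ?_
    rw [ev_mul_fun]
    show ε i * c i = |c i|
    simp only [hε]
    split
    · rename_i h0; rw [abs_of_nonneg h0, one_mul]
    · rename_i h0; rw [abs_of_neg (not_le.mp h0)]; ring
  have h2 : ∀ v, |f v| ≤ 1 := by
    intro v
    by_cases hv : ∃ i ∈ s, v = g i
    · obtain ⟨i, hi, rfl⟩ := hv
      have : f (g i) = ε i := by
        simp only [hf]
        rw [Finset.sum_eq_single i]
        · simp
        · intro j hj hji
          have : g i ≠ g j := fun h3 => hji (hg (by exact_mod_cast hj) (by exact_mod_cast hi) h3.symm)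
          simp [this]
        · intro h3; exact absurd hi h3
      rw [this]
      simp only [hε]
      split <;> simp
    · push Not at hv
      have : f v = 0 := by
        simp only [hf]
        refine Finset.sum_eq_zero fun i hi => ?_
        simp [hv i hi]
      rw [this]; simp
  have h3 := h f h2
  rw [h1] at h3
  exact (le_abs_self _).trans h3

/-- (D1b) -/
theorem traceTV_le_of_TVle {q τ : ℝ} {n : ℕ} (x y : Fin n → Bool)
    (h : TVle τ (D q (List.ofFn x) - D q (List.ofFn y))) : traceTV (1 - q) x y ≤ τ / 2 := by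
  classical
  unfold traceTV
  have h1 : ∑ k ∈ Finset.range (n + 1), ∑ v : Fin k → Bool,
      |traceLaw (1 - q) x (List.ofFn v) - traceLaw (1 - q) y (List.ofFn v)|
      = ∑ i ∈ (Finset.range (n + 1)).sigma (fun k => (Finset.univ : Finset (Fin k → Bool))),
        |ev (D q (List.ofFn x) - D q (List.ofFn y))
          (fun v => if v = FreeMonoid.ofList (List.ofFn i.2) then 1 else 0)| := by
    rw [Finset.sum_sigma]
    refine Finset.sum_congr rfl fun k _ => Finset.sum_congr rfl fun v _ => ?_
    rw [ev_sub, traceLaw_eq, traceLaw_eq]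
  have h2 := sum_abs_le_of_TVle h
    ((Finset.range (n + 1)).sigma (fun k => (Finset.univ : Finset (Fin k → Bool))))
    (fun i => FreeMonoid.ofList (List.ofFn i.2)) (by
      rintro ⟨k, v⟩ _ ⟨l, w⟩ _ h
      have h2 : List.ofFn v = List.ofFn w := FreeMonoid.ofList.injective h
      have hkl : k = l := by simpa using congrArg List.length h2
      subst hkl
      rw [List.ofFn_inj.mp h2])
  rw [h1]
  linarith

/-! ## `m` samples -/

variable {G : Type*} [Monoid G]

theorem TVle.scale {τ : ℝ} {ν : MA G} (h : TVle τ ν) {f : G → ℝ} {C : ℝ} (hC : 0 ≤ C)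
    (hf : ∀ w, |f w| ≤ C) : |ev ν f| ≤ C * τ := by
  rcases hC.eq_or_lt with h0 | h0
  · have : ∀ w, f w = 0 := fun w => by
      have := hf w; rw [← h0] at this; exact abs_eq_zero.mp (le_antisymm this (abs_nonneg _))
    have e : ev ν f = 0 := by
      rw [ev_congr ν this]
      have := ev_mul_fun ν 0 (fun _ => 0)
      simpa using this
    rw [e, ← h0]; simp
  · have h1 := h (fun w => C⁻¹ * f w) (fun w => by
      rw [abs_mul, abs_of_pos (inv_pos.mpr h0)]
      have := mul_le_mul_of_nonneg_left (hf w) (inv_pos.mpr h0).le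
      rwa [inv_mul_cancel₀ h0.ne'] at this)
    rw [ev_mul_fun, abs_mul, abs_of_pos (inv_pos.mpr h0), inv_mul_le_iff₀ h0] at h1
    exact h1

theorem Prob.abs_ev_le {a : MA G} (ha : Prob a) {f : G → ℝ} {C : ℝ} (hf : ∀ w, |f w| ≤ C) :
    |ev a f| ≤ C := by
  rw [abs_le]
  constructor
  · have := ha.pos.mono (f := fun _ => -C) (g := f) (fun w => (abs_le.mp (hf w)).1)
    rwa [ev_const ha] at this
  · have := ha.pos.mono (f := f) (g := fun _ => C) (fun w => (abs_le.mp (hf w)).2)
    rwa [ev_const ha] at this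

/-- the `m`-fold product of `μ` applied to a function of `m` words -/
def evm (μ : MA G) : (m : ℕ) → ((Fin m → G) → ℝ) → ℝ
  | 0, F => F ![]
  | m + 1, F => ev μ fun u => evm μ m fun τ => F (Fin.cons u τ)

theorem evm_zero (μ : MA G) (F : (Fin 0 → G) → ℝ) : evm μ 0 F = F ![] := rfl
theorem evm_succ (μ : MA G) (m : ℕ) (F : (Fin (m + 1) → G) → ℝ) :
    evm μ (m + 1) F = ev μ fun u => evm μ m fun τ => F (Fin.cons u τ) := rfl

theorem evm_fun_sum (μ : MA G) {ι : Type*} (s : Finset ι) : ∀ (m : ℕ) (F : ι → (Fin m → G) → ℝ),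
    evm μ m (fun τ => ∑ i ∈ s, F i τ) = ∑ i ∈ s, evm μ m (F i) := by
  intro m
  induction m with
  | zero => intro F; simp [evm_zero]
  | succ m ih =>
    intro F
    simp only [evm_succ]
    rw [← ev_sum_fun]
    congr 1; funext u
    exact ih fun i τ => F i (Fin.cons u τ)

theorem evm_const {μ : MA G} (h : Prob μ) (c : ℝ) : ∀ m : ℕ, evm μ m (fun _ => c) = c := by
  intro m
  induction m with
  | zero => simp [evm_zero]
  | succ m ih => rw [evm_succ, ih, ev_const h]

theorem evm_mono {μ : MA G} (h : Pos μ) : ∀ (m : ℕ) {F H : (Fin m → G) → ℝ},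
    (∀ τ, F τ ≤ H τ) → evm μ m F ≤ evm μ m H := by
  intro m
  induction m with
  | zero => intro F H hFH; exact hFH _
  | succ m ih =>
    intro F H hFH
    rw [evm_succ, evm_succ]
    exact h.mono fun u => ih fun τ => hFH _

theorem abs_evm_le {μ : MA G} (h : Prob μ) (m : ℕ) {F : (Fin m → G) → ℝ} {C : ℝ}
    (hF : ∀ τ, |F τ| ≤ C) : |evm μ m F| ≤ C := by
  rw [abs_le]
  constructor
  · have := evm_mono h.pos m (F := fun _ => -C) (H := F) (fun τ => (abs_le.mp (hF τ)).1)
    rwa [evm_const h] at this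
  · have := evm_mono h.pos m (F := F) (H := fun _ => C) (fun τ => (abs_le.mp (hF τ)).2)
    rwa [evm_const h] at this

/-- hybrid bound in `ℓ¹` -/
theorem evm_sub_le {μ μ' : MA G} {t : ℝ} (h1 : Prob μ) (h2 : Prob μ') (h3 : TVle t (μ - μ')) :
    ∀ (m : ℕ) {F : (Fin m → G) → ℝ}, (∀ τ, |F τ| ≤ 1) →
      |evm μ m F - evm μ' m F| ≤ m * t := by
  intro m
  induction m with
  | zero => intro F hF; simp [evm_zero]
  | succ m ih =>
    intro F hF
    rw [evm_succ, evm_succ]
    have e : ev μ (fun u => evm μ m fun τ => F (Fin.cons u τ))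
        - ev μ' (fun u => evm μ' m fun τ => F (Fin.cons u τ))
        = ev (μ - μ') (fun u => evm μ m fun τ => F (Fin.cons u τ))
          + ev μ' (fun u => (evm μ m fun τ => F (Fin.cons u τ))
              - (evm μ' m fun τ => F (Fin.cons u τ))) := by
      rw [ev_sub, ev_sub_fun]; ring
    rw [e]
    have b1 : |ev (μ - μ') (fun u => evm μ m fun τ => F (Fin.cons u τ))| ≤ t :=
      h3 _ fun u => abs_evm_le h1 m fun τ => hF _
    have b2 : |ev μ' (fun u => (evm μ m fun τ => F (Fin.cons u τ))
              - (evm μ' m fun τ => F (Fin.cons u τ)))| ≤ m * t :=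
      h2.abs_ev_le fun u => ih fun τ => hF _
    push_cast
    calc _ ≤ _ + _ := abs_add_le _ _
      _ ≤ t + m * t := add_le_add b1 b2
      _ = (m + 1) * t := by ring

/-- Cauchy–Schwarz for the product measure -/
theorem evm_sq_le {π : MA G} (hπ : Prob π) : ∀ (k : ℕ) (H : (Fin k → G) → ℝ),
    (evm π k H) ^ 2 ≤ evm π k (fun τ => H τ ^ 2) := by
  intro k
  induction k with
  | zero => intro H; simp [evm_zero]
  | succ k ihk =>
    intro H
    rw [evm_succ, evm_succ]
    have c1 := Dom.self_prob hπ (fun u => evm π k fun τ => H (Fin.cons u τ))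
    rw [one_mul] at c1
    exact c1.trans (hπ.pos.mono fun u => ihk _)

theorem two_mul_le_of_sq {a b X Y : ℝ} (h : (a * b) ^ 2 ≤ X * Y) (hX : 0 ≤ X) (hY : 0 ≤ Y) :
    2 * (a * b) ≤ X + Y := by
  have h4 : (2 * (a * b)) ^ 2 ≤ (X + Y) ^ 2 := by nlinarith [sq_nonneg (X - Y)]
  exact (abs_le_of_sq_le_sq' h4 (add_nonneg hX hY)).2

/-- `χ²` bound for `m` samples: if `ν(1) = 0` and `Dom V π ν` with `π` a probability, then
`((π+ν)^{⊗m} F - π^{⊗m} F)² ≤ ((1+V)^m - 1) Var_{π^{⊗m}}(F)`. -/
theorem evm_var_le {π ν : MA G} {V : ℝ} (hV : 0 ≤ V) (hπ : Prob π)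
    (hν : mass ν = 0) (h : Dom V π ν) : ∀ (m : ℕ) (F : (Fin m → G) → ℝ),
      (evm (π + ν) m F - evm π m F) ^ 2
        ≤ ((1 + V) ^ m - 1) * (evm π m (fun τ => F τ ^ 2) - (evm π m F) ^ 2) := by
  have hconst : ∀ c : ℝ, ev ν (fun _ => c) = 0 := by
    intro c
    have h1 := ev_mul_fun ν c (fun _ => 1)
    have h2 : ev ν (fun _ => (1 : ℝ)) = 0 := hν
    rw [h2, mul_zero] at h1
    simpa using h1
  -- variance form of the domination
  have hvar : ∀ f : G → ℝ, (ev ν f) ^ 2 ≤ V * ((ev π fun w => f w ^ 2) - (ev π f) ^ 2) := by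
    intro f
    have h1 := h (fun w => f w - ev π f)
    rw [ev_sub_fun, hconst, sub_zero] at h1
    refine h1.trans (le_of_eq ?_)
    congr 1
    have e : (fun w => (f w - ev π f) ^ 2)
        = fun w => (f w ^ 2 - (2 * ev π f) * f w) + (ev π f) ^ 2 := by funext w; ring
    rw [e, ev_add_fun, ev_sub_fun, ev_mul_fun, ev_const hπ]; ring
  have hVarnn : ∀ f : G → ℝ, 0 ≤ (ev π fun w => f w ^ 2) - (ev π f) ^ 2 := by
    intro f
    have c1 := Dom.self_prob hπ f
    rw [one_mul] at c1
    linarith
  -- `(Pf)² ≤ (1+V) π f²`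
  have hP : ∀ f : G → ℝ, (ev (π + ν) f) ^ 2 ≤ (1 + V) * ev π fun w => f w ^ 2 := by
    intro f
    rw [ev_add]
    have h1 := hvar f
    have h2 := hVarnn f
    set S := (ev π fun w => f w ^ 2) - (ev π f) ^ 2 with hS
    have h3 : 2 * (ev π f * ev ν f) ≤ V * (ev π f) ^ 2 + S := by
      apply two_mul_le_of_sq _ (mul_nonneg hV (sq_nonneg _)) h2
      rw [mul_pow]
      nlinarith [sq_nonneg (ev π f), mul_le_mul_of_nonneg_left h1 (sq_nonneg (ev π f))]
    have h4 : (ev π fun w => f w ^ 2) = S + (ev π f) ^ 2 := by rw [hS]; ring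
    rw [h4]
    nlinarith
  intro m
  induction m with
  | zero => intro F; simp [evm_zero]
  | succ m ih =>
    intro F
    set g : G → ℝ := fun u => evm π m fun τ => F (Fin.cons u τ) with hg
    set hh : G → ℝ := fun u => (evm (π + ν) m fun τ => F (Fin.cons u τ)) - g u with hhh
    set v : G → ℝ := fun u => (evm π m fun τ => F (Fin.cons u τ) ^ 2) - g u ^ 2 with hv
    have e1 : evm (π + ν) (m + 1) F - evm π (m + 1) F = ev ν g + ev (π + ν) hh := by
      rw [evm_succ, evm_succ]
      have : (fun u => evm (π + ν) m fun τ => F (Fin.cons u τ)) = fun u => g u + hh u := by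
        funext u; simp [hhh]
      rw [this, ev_add_fun, ev_add]
      ring
    have e2 : evm π (m + 1) (fun τ => F τ ^ 2) - (evm π (m + 1) F) ^ 2
        = ((ev π fun u => g u ^ 2) - (ev π g) ^ 2) + ev π v := by
      rw [evm_succ, evm_succ, hv, ev_sub_fun]
      ring
    have hc0 : (0 : ℝ) ≤ (1 + V) ^ m - 1 := by
      have := one_le_pow₀ (n := m) (show (1 : ℝ) ≤ 1 + V by linarith)
      linarith
    have b1 := hvar g
    have b2 : (ev (π + ν) hh) ^ 2 ≤ (1 + V) * (((1 + V) ^ m - 1) * ev π v) := by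
      refine (hP hh).trans (mul_le_mul_of_nonneg_left ?_ (by linarith))
      rw [← ev_mul_fun]
      exact hπ.pos.mono fun u => ih fun τ => F (Fin.cons u τ)
    have hvnn : 0 ≤ ev π v := by
      apply hπ.pos
      intro u
      have := evm_sq_le hπ m fun τ => F (Fin.cons u τ)
      simp only [hv, hg]
      linarith
    have hVarg := hVarnn g
    rw [e1, e2]
    set a := ev ν g
    set b := ev (π + ν) hh
    set S := (ev π fun u => g u ^ 2) - (ev π g) ^ 2
    set T := ev π v
    set c : ℝ := (1 + V) * ((1 + V) ^ m - 1) with hc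
    have hcc : 0 ≤ c := mul_nonneg (by linarith) hc0
    have b2' : b ^ 2 ≤ c * T := by rw [hc]; linarith [b2]
    have tgt : (1 + V) ^ (m + 1) - 1 = V + c := by rw [hc]; ring
    rw [tgt]
    have h2ab : 2 * (a * b) ≤ V * T + c * S := by
      apply two_mul_le_of_sq _ (mul_nonneg hV hvnn) (mul_nonneg hcc hVarg)
      rw [mul_pow]
      have h7 := mul_le_mul b1 b2' (sq_nonneg _) (mul_nonneg hV hVarg)
      calc a ^ 2 * b ^ 2 ≤ V * S * (c * T) := h7
        _ = V * T * (c * S) := by ring
    nlinarith [b1, b2', h2ab]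

/-- functions bounded by one: `|P^{⊗m} F - π^{⊗m} F| ≤ sqrt((1+V)^m - 1)` -/
theorem abs_evm_sub_le {π ν : MA G} {V : ℝ} (hV : 0 ≤ V) (hπ : Prob π)
    (hν : mass ν = 0) (h : Dom V π ν) (m : ℕ) {F : (Fin m → G) → ℝ} (hF : ∀ τ, |F τ| ≤ 1) :
    |evm (π + ν) m F - evm π m F| ≤ Real.sqrt ((1 + V) ^ m - 1) := by
  apply Real.le_sqrt_of_sq_le
  rw [sq_abs]
  refine (evm_var_le hV hπ hν h m F).trans ?_
  have hc0 : (0 : ℝ) ≤ (1 + V) ^ m - 1 := by
    have := one_le_pow₀ (n := m) (show (1 : ℝ) ≤ 1 + V by linarith)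
    linarith
  have h1 : evm π m (fun τ => F τ ^ 2) - (evm π m F) ^ 2 ≤ 1 := by
    have h2 : evm π m (fun τ => F τ ^ 2) ≤ evm π m (fun _ => 1) := by
      apply evm_mono hπ.pos
      intro τ
      have := hF τ
      rw [← sq_abs]
      nlinarith [abs_nonneg (F τ)]
    rw [evm_const hπ] at h2
    nlinarith [sq_nonneg (evm π m F)]
  nlinarith

/-- expectation of a function of `m` independent traces -/
theorem evm_D_eq (q : ℝ) {n : ℕ} (x : Fin n → Bool) : ∀ (m : ℕ) (F : (Fin m → BW) → ℝ),
    evm (D q (List.ofFn x)) m F = ∑ keeps : Fin m → Fin n → Bool,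
      (∏ k, bernoulliWeight (1 - q) (keeps k)) *
        F fun k => FreeMonoid.ofList (traceOf x (keeps k)) := by
  intro m
  induction m with
  | zero =>
    intro F
    rw [evm_zero, Fintype.sum_unique]
    simp only [Finset.univ_eq_empty, Finset.prod_empty, one_mul]
    congr 1
    funext k; exact k.elim0
  | succ m ih =>
    intro F
    rw [evm_succ, ev_D_ofFn]
    rw [← (Fin.consEquiv (fun _ => (Fin n → Bool))).sum_comp, Fintype.sum_prod_type]
    refine Finset.sum_congr rfl fun k0 _ => ?_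
    rw [ih, Finset.mul_sum]
    refine Finset.sum_congr rfl fun ks _ => ?_
    have : (Fin.consEquiv (fun _ : Fin (m + 1) => (Fin n → Bool))) (k0, ks)
        = (Fin.cons k0 ks : Fin (m + 1) → (Fin n → Bool)) := rfl
    rw [this, Fin.prod_univ_succ]
    simp only [Fin.cons_zero, Fin.cons_succ]
    rw [mul_assoc]
    congr 3
    funext i
    refine Fin.cases ?_ (fun j => ?_) i
    · simp
    · simp

theorem successProb_eq (q : ℝ) {n m : ℕ} (K : (Fin m → List Bool) → (Fin n → Bool) → ℝ)
    (x : Fin n → Bool) :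
    successProb (1 - q) K x
      = evm (D q (List.ofFn x)) m (fun τ => K (fun k => FreeMonoid.toList (τ k)) x) := by
  rw [evm_D_eq]
  unfold successProb
  refine Finset.sum_congr rfl fun k _ => ?_
  simp

/-- (D2) -/
theorem exists_successProb_lt {n m t : ℕ} {q : ℝ} (hq0 : 0 ≤ q) (hq1 : q ≤ 1)
    (K : (Fin m → List Bool) → (Fin n → Bool) → ℝ) (hK : IsRule K)
    (ht : 0 < t) (x : Fin t → (Fin n → Bool)) (hx : Function.Injective x)
    (π : MA BW) (hπ : Prob π) (ν : Fin t → MA BW) {V τ : ℝ} (hV : 0 ≤ V)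
    (hν : ∀ i, mass (ν i) = 0) (hdom : ∀ i, Dom V π (ν i)) (hprob : ∀ i, Prob (π + ν i))
    (htv : ∀ i, TVle τ (π + ν i - D q (List.ofFn (x i)))) {s : ℝ}
    (hs : 1 / (t : ℝ) + Real.sqrt ((1 + V) ^ m - 1) + m * τ < s) :
    ∃ i, successProb (1 - q) K (x i) < s := by
  by_contra hcon
  push Not at hcon
  set F : Fin t → (Fin m → BW) → ℝ :=
    fun i τ => K (fun k => FreeMonoid.toList (τ k)) (x i) with hF
  have hF0 : ∀ i τ, 0 ≤ F i τ := fun i τ => (hK _).1 _
  have hsum : ∀ τ, ∑ i, F i τ ≤ 1 := by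
    intro τ
    have h1 := (hK (fun k => FreeMonoid.toList (τ k))).2
    rw [← h1]
    have h2 : ∑ i, F i τ = ∑ y ∈ Finset.univ.image x, K (fun k => FreeMonoid.toList (τ k)) y :=
      (Finset.sum_image (f := fun y => K (fun k => FreeMonoid.toList (τ k)) y)
        (fun i _ j _ h => hx h)).symm
    rw [h2]
    exact Finset.sum_le_sum_of_subset_of_nonneg (Finset.subset_univ _) fun y _ _ => (hK _).1 y
  have hF1 : ∀ i τ, |F i τ| ≤ 1 := by
    intro i τ
    rw [abs_of_nonneg (hF0 i τ)]
    exact (Finset.single_le_sum (f := fun i => F i τ) (fun j _ => hF0 j τ)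
      (Finset.mem_univ i)).trans (hsum τ)
  have hi : ∀ i, s ≤ evm π m (F i) + Real.sqrt ((1 + V) ^ m - 1) + m * τ := by
    intro i
    have h1 := hcon i
    rw [successProb_eq] at h1
    have h2 := abs_evm_sub_le hV hπ (hν i) (hdom i) m (hF1 i)
    have h3 := evm_sub_le (hprob i) (prob_D hq0 hq1 _) (htv i) m (hF1 i)
    have h4 := (abs_le.mp h2).2
    have h5 := (abs_le.mp h3).1
    have h6 : s ≤ evm (D q (List.ofFn (x i))) m (F i) := h1
    linarith
  have hsum2 : ∑ i, evm π m (F i) ≤ 1 := by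
    rw [← evm_fun_sum]
    have := evm_mono hπ.pos m (F := fun τ => ∑ i, F i τ) (H := fun _ => 1) hsum
    rwa [evm_const hπ] at this
  have htot : (t : ℝ) * s ≤ 1 + t * (Real.sqrt ((1 + V) ^ m - 1) + m * τ) := by
    have h1 : ∑ _i : Fin t, s ≤ ∑ i, (evm π m (F i) + (Real.sqrt ((1 + V) ^ m - 1) + m * τ)) :=
      Finset.sum_le_sum fun i _ => by have := hi i; linarith
    rw [Finset.sum_add_distrib, Finset.sum_const, Finset.sum_const, Finset.card_univ,
      Fintype.card_fin, nsmul_eq_mul, nsmul_eq_mul] at h1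
    linarith
  have ht' : (0 : ℝ) < t := by exact_mod_cast ht
  have h7 : s ≤ 1 / (t : ℝ) + (Real.sqrt ((1 + V) ^ m - 1) + m * τ) := by
    rw [← sub_nonneg]
    have : 0 ≤ (1 + t * (Real.sqrt ((1 + V) ^ m - 1) + m * τ) - t * s) / t :=
      div_nonneg (by linarith) ht'.le
    have e : (1 + t * (Real.sqrt ((1 + V) ^ m - 1) + m * τ) - t * s) / t
        = 1 / (t : ℝ) + (Real.sqrt ((1 + V) ^ m - 1) + m * τ) - s := by
      field_simp
    rw [e] at this
    exact this
  linarith

end

end Crest.Agent.R300LB
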