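import Crest.Agent.R300.LBInterface
import Crest.Agent.R300.LBLaw2
import Crest.Prelude.Def_TraceTV

/-!
# Row 300, lower bounds: thinning, padding, the word family, and the final deduction from `CoreStatement`
-/

set_option autoImplicit false

namespace Crest.Agent.R300LB

open Finset

noncomputable section

namespace Fnl

variable {G : Type*} [Monoid G]

/-! ### TV calculus -/

theorem TVle.add {τ σ : ℝ} {μ ν : MA G} (h1 : TVle τ μ) (h2 : TVle σ ν) : TVle (τ + σ) (μ + ν) := by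
  intro f hf
  rw [ev_add]
  exact (abs_add_le _ _).trans (add_le_add (h1 f hf) (h2 f hf))

theorem TVle.neg {τ : ℝ} {μ : MA G} (h1 : TVle τ μ) : TVle τ (-μ) := by
  intro f hf
  rw [ev_neg, abs_neg]
  exact h1 f hf

theorem TVle.sub_comm {τ : ℝ} {μ ν : MA G} (h1 : TVle τ (μ - ν)) : TVle τ (ν - μ) := by
  have := TVle.neg h1
  rwa [neg_sub] at this

theorem TVle.mono {τ σ : ℝ} {μ : MA G} (h1 : TVle τ μ) (h : τ ≤ σ) : TVle σ μ :=
  fun f hf => (h1 f hf).trans h

theorem TVle.zero' : TVle 0 (0 : MA G) := by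
  intro f _
  rw [ev_zero, abs_zero]

theorem abs_ev_le_one {a : MA G} (ha : Prob a) {f : G → ℝ} (hf : ∀ w, |f w| ≤ 1) :
    |ev a f| ≤ 1 := by
  have h1 : ev a f ≤ ev a (fun _ => 1) := ha.pos.mono (fun w => (abs_le.mp (hf w)).2)
  have h2 : ev a (fun _ => -1) ≤ ev a f := ha.pos.mono (fun w => (abs_le.mp (hf w)).1)
  rw [ev_const ha] at h1 h2
  exact abs_le.mpr ⟨h2, h1⟩

theorem TVle.mul_left {τ : ℝ} {ν a : MA G} (h : TVle τ ν) (ha : Prob a) (hτ : 0 ≤ τ) :
    TVle τ (a * ν) := by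
  intro f hf
  rw [ev_mul]
  have h1 : ∀ u, |ev ν fun v => f (u * v)| ≤ τ := fun u => h _ (fun v => hf _)
  rcases hτ.eq_or_lt with h0 | h0
  · have : ∀ u, (ev ν fun v => f (u * v)) = 0 := fun u => by
      have := h1 u
      rw [← h0] at this
      exact abs_nonpos_iff.mp this
    simp only [this]
    have hz : ev a (fun _ => (0:ℝ)) = 0 := ev_const ha 0
    rw [hz, abs_zero]; exact hτ
  · have h2 := abs_ev_le_one ha (f := fun u => τ⁻¹ * ev ν fun v => f (u * v)) (fun u => by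
      rw [abs_mul, abs_of_pos (inv_pos.mpr h0)]
      rw [inv_mul_le_iff₀ h0, mul_one]
      exact h1 u)
    rw [ev_mul_fun, abs_mul, abs_of_pos (inv_pos.mpr h0), inv_mul_le_iff₀ h0, mul_one] at h2
    exact h2

theorem TVle.mul_right {τ : ℝ} {ν a : MA G} (h : TVle τ ν) (ha : Prob a) :
    TVle τ (ν * a) := by
  intro f hf
  rw [ev_mul]
  exact h _ (fun u => abs_ev_le_one ha (fun v => hf _))

theorem TVle.nonneg {τ : ℝ} {ν : MA G} (h : TVle τ ν) : 0 ≤ τ :=
  (abs_nonneg _).trans (h (fun _ => 0) (by simp))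

/-- product of two close pairs -/
theorem TVle.prod {τ σ : ℝ} {a a' b b' : MA G} (h1 : TVle τ (a - a')) (h2 : TVle σ (b - b'))
    (hb : Prob b) (ha' : Prob a') : TVle (τ + σ) (a * b - a' * b') := by
  have e : a * b - a' * b' = (a - a') * b + a' * (b - b') := by
    rw [sub_mul, mul_sub]; abel
  rw [e]
  exact TVle.add (TVle.mul_right h1 hb) (TVle.mul_left h2 ha' (TVle.nonneg h2))

theorem TVle.pow {τ : ℝ} {a a' : MA G} (h1 : TVle τ (a - a')) (ha : Prob a) (ha' : Prob a') (k : ℕ) :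
    TVle (k * τ) (a ^ k - a' ^ k) := by
  induction k with
  | zero => simpa using (TVle.zero' (G := G))
  | succ k ih =>
    rw [pow_succ, pow_succ]
    have := TVle.prod ih h1 ha (ha'.pow k)
    refine TVle.mono this ?_
    push_cast
    linarith

theorem tv_of_dom {V : ℝ} {π ν : MA G} (h : Dom V π ν) (hπ : Prob π) (hV : 0 ≤ V) :
    TVle (Real.sqrt V) ν := by
  intro f hf
  have h1 := h f
  have h2 : ev π (fun w => f w ^ 2) ≤ 1 := by
    have := hπ.pos.mono (f := fun w => f w ^ 2) (g := fun _ => 1) (fun w => by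
      have := hf w
      rw [← sq_abs]
      nlinarith [abs_nonneg (f w)])
    rwa [ev_const hπ] at this
  have h3 : (ev ν f) ^ 2 ≤ V := h1.trans (by nlinarith)
  exact Real.abs_le_sqrt h3

/-! ### the deletion channel -/

theorem prob_letter {q : ℝ} (h0 : 0 ≤ q) (h1 : q ≤ 1) (c : Bool) : Prob (letter q c) := by
  constructor
  · refine Pos.add (Pos.smul Pos.one h0) (Pos.smul ?_ (by linarith))
    intro f hf
    rw [ev_single, one_mul]
    exact hf _
  · unfold letter mass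
    rw [ev_add, ev_smul, ev_smul, ev_one, ev_single]
    ring

theorem D_nil (q : ℝ) : D q [] = 1 := rfl

theorem D_cons (q : ℝ) (c : Bool) (w : List Bool) : D q (c :: w) = letter q c * D q w := rfl

theorem D_append (q : ℝ) (u v : List Bool) : D q (u ++ v) = D q u * D q v := by
  unfold D
  rw [List.map_append, List.prod_append]

theorem prob_D {q : ℝ} (h0 : 0 ≤ q) (h1 : q ≤ 1) (w : List Bool) : Prob (D q w) := by
  induction w with
  | nil => exact Prob.one'
  | cons c w ih => rw [D_cons]; exact (prob_letter h0 h1 c).mul ih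

/-- `k`-fold repetition of a word -/
def rep (x : List Bool) : ℕ → List Bool
  | 0 => []
  | k + 1 => x ++ rep x k

theorem rep_length (x : List Bool) (k : ℕ) : (rep x k).length = k * x.length := by
  induction k with
  | zero => simp [rep]
  | succ k ih => rw [rep, List.length_append, ih]; ring

theorem D_rep (q : ℝ) (x : List Bool) (k : ℕ) : D q (rep x k) = D q x ^ k := by
  induction k with
  | zero => rw [rep, pow_zero, D_nil]
  | succ k ih => rw [rep, D_append, ih, pow_succ']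

theorem rep_add (x : List Bool) (j k : ℕ) : rep x (j + k) = rep x j ++ rep x k := by
  induction j with
  | zero => simp [rep]
  | succ j ih =>
    rw [Nat.add_right_comm, rep, ih, rep, List.append_assoc]

/-! ### thinning -/

/-- the thinning homomorphism -/
def Th (r : ℝ) : MA BW →ₐ[ℝ] MA BW :=
  MonoidAlgebra.lift ℝ (MA BW) BW (FreeMonoid.lift (letter r))

theorem Th_single (r : ℝ) (w : BW) (c : ℝ) :
    Th r (MonoidAlgebra.single w c) = c • D r w.toList := by
  unfold Th D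
  rw [MonoidAlgebra.lift_single, FreeMonoid.lift_apply]

theorem ev_Th (r : ℝ) (ν : MA BW) (f : BW → ℝ) :
    ev (Th r ν) f = ev ν (fun w => ev (D r w.toList) f) := by
  induction ν using MonoidAlgebra.induction_linear with
  | zero => rw [map_zero, ev_zero, ev_zero]
  | add x y hx hy => rw [map_add, ev_add, ev_add, hx, hy]
  | single w c => rw [Th_single, ev_smul, ev_single]

theorem Th_letter {q0 r q : ℝ} (h : q = q0 + (1 - q0) * r) (c : Bool) :
    Th r (letter q0 c) = letter q c := by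
  unfold letter
  rw [map_add, map_smul, map_smul, map_one, Th_single]
  have : (FreeMonoid.toList (FreeMonoid.of c)) = [c] := rfl
  rw [this, D_cons, D_nil, mul_one, one_smul]
  unfold letter
  rw [smul_add, smul_smul, smul_smul, ← add_assoc, ← add_smul, h]
  congr 2
  ring

theorem Th_D {q0 r q : ℝ} (h : q = q0 + (1 - q0) * r) (w : List Bool) :
    Th r (D q0 w) = D q w := by
  induction w with
  | nil => rw [D_nil, D_nil, map_one]
  | cons c w ih => rw [D_cons, D_cons, map_mul, ih, Th_letter h]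

theorem prob_Th {r : ℝ} (h0 : 0 ≤ r) (h1 : r ≤ 1) {a : MA BW} (ha : Prob a) : Prob (Th r a) := by
  constructor
  · intro f hf
    rw [ev_Th]
    exact ha.pos _ (fun w => (prob_D h0 h1 _).pos f hf)
  · unfold mass
    rw [ev_Th]
    have : (fun w : BW => ev (D r w.toList) (fun _ => (1:ℝ))) = fun _ => 1 := by
      funext w
      exact ev_const (prob_D h0 h1 _) 1
    rw [this]
    exact ha.one

theorem tv_Th {r : ℝ} (h0 : 0 ≤ r) (h1 : r ≤ 1) {τ : ℝ} {ν : MA BW} (h : TVle τ ν) :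
    TVle τ (Th r ν) := by
  intro f hf
  rw [ev_Th]
  exact h _ (fun w => abs_ev_le_one (prob_D h0 h1 _) hf)

theorem dom_Th {r : ℝ} (h0 : 0 ≤ r) (h1 : r ≤ 1) {V : ℝ} (hV : 0 ≤ V) {π ν : MA BW}
    (hπ : Pos π) (h : Dom V π ν) : Dom V (Th r π) (Th r ν) := by
  intro f
  rw [ev_Th, ev_Th]
  refine (h _).trans (mul_le_mul_of_nonneg_left ?_ hV)
  refine hπ.mono (fun w => ?_)
  have := Dom.self_prob (prob_D h0 h1 w.toList) f
  simpa using this

/-! ### lists as functions -/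

theorem exists_ofFn {n : ℕ} (l : List Bool) (h : l.length = n) :
    ∃ f : Fin n → Bool, List.ofFn f = l := by
  subst h
  exact ⟨l.get, List.ofFn_get l⟩

/-- the `i`-th member of the family: `x^i y x^(T-1-i)` padded by `false` to length `n` -/
def zw (n T : ℕ) (x y : List Bool) (i : ℕ) : List Bool :=
  rep x i ++ (y ++ (rep x (T - 1 - i) ++ List.replicate (n - T * x.length) false))

theorem zw_length {n T : ℕ} {x y : List Bool} (hxy : x.length = y.length) (h : T * x.length ≤ n)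
    {i : ℕ} (hi : i < T) : (zw n T x y i).length = n := by
  unfold zw
  rw [List.length_append, List.length_append, List.length_append, rep_length, rep_length,
    List.length_replicate, ← hxy]
  have h1 : i * x.length + (x.length + (T - 1 - i) * x.length) = T * x.length := by
    have : i + 1 + (T - 1 - i) = T := by omega
    calc i * x.length + (x.length + (T - 1 - i) * x.length)
        = (i + 1 + (T - 1 - i)) * x.length := by ring
      _ = T * x.length := by rw [this]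
  omega

theorem zw_inj {n T : ℕ} {x y : List Bool} (hxy : x.length = y.length) (hne : x ≠ y)
    {i j : ℕ} (hij : i < j) (hj : j < T) : zw n T x y i ≠ zw n T x y j := by
  intro h
  unfold zw at h
  obtain ⟨k, rfl⟩ : ∃ k, j = i + (k + 1) := ⟨j - i - 1, by omega⟩
  rw [rep_add, List.append_assoc] at h
  have h1 := List.append_cancel_left h
  rw [rep, List.append_assoc] at h1
  have h2 := (List.append_inj h1 hxy.symm).1
  exact hne h2.symm

theorem D_zw (q : ℝ) (n T : ℕ) (x y : List Bool) (i : ℕ) :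
    D q (zw n T x y i) = D q x ^ i * (D q y * (D q x ^ (T - 1 - i) *
      D q (List.replicate (n - T * x.length) false))) := by
  unfold zw
  rw [D_append, D_append, D_append, D_rep, D_rep]

/-- Everything the sampling argument needs: for the deletion probability `q ≥ q0`. -/
theorem family {q0 q : ℝ} (h0 : 0 ≤ q0) (h01 : q0 < 1) (hq : q0 ≤ q) (hq1 : q ≤ 1)
    {n T : ℕ} {x y : List Bool} (hxy : x.length = y.length) (hne : x ≠ y)
    (hT : T * x.length ≤ n) {a b : MA BW} (ha : Prob a) (hb : Prob b) {V τ : ℝ}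
    (hV : 0 ≤ V) (hta : TVle τ (a - D q0 x)) (htb : TVle τ (b - D q0 y)) (hd : Dom V a (a - b)) :
    ∃ (z : Fin T → (Fin n → Bool)) (π : MA BW) (ν : Fin T → MA BW),
      Function.Injective z ∧ Prob π ∧ (∀ i, mass (ν i) = 0) ∧ (∀ i, Dom V π (ν i)) ∧
      (∀ i, Prob (π + ν i)) ∧ (∀ i, TVle (T * τ) (π + ν i - D q (List.ofFn (z i)))) := by
  classical
  set r : ℝ := (q - q0) / (1 - q0) with hr
  have h1q : 0 < 1 - q0 := by linarith
  have hr0 : 0 ≤ r := div_nonneg (by linarith) h1q.le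
  have hr1 : r ≤ 1 := (div_le_one h1q).mpr (by linarith)
  have hrq : q = q0 + (1 - q0) * r := by rw [hr]; field_simp; ring
  have hτ : 0 ≤ τ := TVle.nonneg hta
  -- thinned data
  set a' := Th r a with ha'
  set b' := Th r b with hb'
  have pa : Prob a' := prob_Th hr0 hr1 ha
  have pb : Prob b' := prob_Th hr0 hr1 hb
  have ta : TVle τ (a' - D q x) := by
    rw [ha', ← Th_D hrq x, ← map_sub]; exact tv_Th hr0 hr1 hta
  have tb : TVle τ (b' - D q y) := by
    rw [hb', ← Th_D hrq y, ← map_sub]; exact tv_Th hr0 hr1 htb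
  have da : Dom V a' (a' - b') := by
    rw [ha', hb', ← map_sub]; exact dom_Th hr0 hr1 hV ha.pos hd
  have hq0 : 0 ≤ q := h0.trans hq
  have hz : ∀ i : Fin T, ∃ f : Fin n → Bool, List.ofFn f = zw n T x y i := fun i =>
    exists_ofFn _ (zw_length hxy hT i.2)
  choose z hz using hz
  set c := D q (List.replicate (n - T * x.length) false) with hc
  have pc : Prob c := prob_D hq0 hq1 _
  have key : ∀ i : Fin T, a' ^ T = a' ^ (i : ℕ) * (a' * a' ^ (T - 1 - (i : ℕ))) := fun i => by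
    rw [← pow_succ', ← pow_add]; congr 1; have := i.2; omega
  refine ⟨z, a' ^ T * c, fun i => - (a' ^ (i : ℕ) * ((a' - b') * (a' ^ (T - 1 - (i : ℕ)) * c))),
    ?_, (pa.pow T).mul pc, ?_, ?_, ?_, ?_⟩
  · intro i j hij
    have e : zw n T x y i = zw n T x y j := by rw [← hz i, ← hz j, hij]
    by_contra hne'
    rcases lt_or_gt_of_ne (fun h => hne' (Fin.ext h) : (i : ℕ) ≠ j) with h | h
    · exact zw_inj hxy hne h j.2 e
    · exact zw_inj hxy hne h i.2 e.symm
  · intro i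
    have : mass (a' - b') = 0 := by rw [mass_sub, pa.one, pb.one, sub_self]
    have h1 : mass (-(a' ^ (i : ℕ) * ((a' - b') * (a' ^ (T - 1 - (i : ℕ)) * c)))) =
        - mass (a' ^ (i : ℕ) * ((a' - b') * (a' ^ (T - 1 - (i : ℕ)) * c))) := ev_neg _ _
    rw [h1, mass_mul, mass_mul, this]
    ring
  · intro i
    refine Dom.neg ?_
    have h1 := Dom.mul (Dom.self_prob (pa.pow (i : ℕ)))
      (Dom.mul da (Dom.self_prob ((pa.pow (T - 1 - (i : ℕ))).mul pc)) hV pa.pos) zero_le_one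
      (pa.pow _).pos
    have e1 : a' ^ (i : ℕ) * (a' * (a' ^ (T - 1 - (i : ℕ)) * c)) = a' ^ T * c := by
      rw [key i]; simp only [mul_assoc]
    rw [e1, one_mul, mul_one] at h1
    exact h1
  · intro i
    have e : a' ^ T * c + -(a' ^ (i : ℕ) * ((a' - b') * (a' ^ (T - 1 - (i : ℕ)) * c))) =
        a' ^ (i : ℕ) * (b' * (a' ^ (T - 1 - (i : ℕ)) * c)) := by
      rw [key i]; simp only [mul_assoc, sub_mul, mul_sub]; abel
    rw [e]
    exact (pa.pow _).mul (pb.mul ((pa.pow _).mul pc))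
  · intro i
    have e : a' ^ T * c + -(a' ^ (i : ℕ) * ((a' - b') * (a' ^ (T - 1 - (i : ℕ)) * c))) =
        a' ^ (i : ℕ) * (b' * (a' ^ (T - 1 - (i : ℕ)) * c)) := by
      rw [key i]; simp only [mul_assoc, sub_mul, mul_sub]; abel
    rw [e, hz i, D_zw]
    have pD : Prob (D q x) := prob_D hq0 hq1 _
    have pDy : Prob (D q y) := prob_D hq0 hq1 _
    have t1 := TVle.pow ta pa pD (i : ℕ)
    have t2 := TVle.pow ta pa pD (T - 1 - (i : ℕ))
    have t3 : TVle 0 (c - c) := by rw [sub_self]; exact TVle.zero'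
    have t4 := TVle.prod t2 t3 pc (pD.pow _)
    have t5 := TVle.prod tb t4 ((pa.pow _).mul pc) pDy
    have t6 := TVle.prod t1 t5 (pb.mul ((pa.pow _).mul pc)) (pD.pow _)
    refine TVle.mono t6 ?_
    have hi : ((i : ℕ) : ℝ) + 1 + ((T - 1 - (i : ℕ) : ℕ) : ℝ) = T := by
      have : (i : ℕ) + 1 + (T - 1 - (i : ℕ)) = T := by have := i.2; omega
      exact_mod_cast this
    rw [← hi]
    nlinarith

/-! ### real analysis -/

theorem num_samples {c c' s : ℝ} (hc : 0 < c) (hcc : c < c') (hs : 0 < s) (T : ℕ) :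
    ∃ (N₀ : ℕ) (R : ℝ), 1 ≤ R ∧ ∀ n : ℕ, N₀ ≤ n → ∀ Λ Λ0 : ℝ, R ≤ Λ → Λ ≤ Real.log n →
      Λ / 4096 ≤ Λ0 → ∀ m : ℕ, (m : ℝ) < (n : ℝ) ^ (c * Real.log Λ) → ∀ V τ : ℝ, 0 ≤ V →
      V ≤ (n : ℝ) ^ (-(c' * Real.log Λ0)) → 0 ≤ τ → τ ≤ Real.exp (-(Real.log n) ^ (3 / 2 : ℝ)) →
      Real.sqrt ((1 + V) ^ m - 1) + m * (T * τ) ≤ s / 2 := by
  set B : ℝ := (4 * c + 1) ^ 4 with hB
  obtain ⟨N₀, hN₀⟩ := exists_nat_ge (max (max (Real.exp B) 2) (max (32 / s ^ 2) (4 * T / s)))
  refine ⟨N₀, max 1 (Real.exp ((c' * Real.log 4096 + 1) / (c' - c))), le_max_left _ _, ?_⟩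
  intro n hn Λ Λ0 hΛR hΛn hΛ0 m hm V τ hV0 hV hτ0 hτ
  have hnN : (N₀ : ℝ) ≤ n := by exact_mod_cast hn
  have hn1 : Real.exp B ≤ n := ((le_max_left _ _).trans (le_max_left _ _)).trans (hN₀.trans hnN)
  have hn2 : (2 : ℝ) ≤ n := ((le_max_right _ _).trans (le_max_left _ _)).trans (hN₀.trans hnN)
  have hn3 : 32 / s ^ 2 ≤ n := ((le_max_left _ _).trans (le_max_right _ _)).trans (hN₀.trans hnN)
  have hn4 : 4 * T / s ≤ n := ((le_max_right _ _).trans (le_max_right _ _)).trans (hN₀.trans hnN)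
  have hnpos : (0 : ℝ) < n := by linarith
  set l := Real.log n with hl
  have hlexp : Real.exp l = n := Real.exp_log hnpos
  have hlB : B ≤ l := by rw [hl]; exact (Real.le_log_iff_exp_le hnpos).mpr hn1
  have hB1 : 1 ≤ B := by
    rw [hB]; exact one_le_pow₀ (by linarith)
  have hl1 : 1 ≤ l := hB1.trans hlB
  have hl0 : 0 < l := by linarith
  have hΛ1 : 1 ≤ Λ := (le_max_left _ _).trans hΛR
  have hΛpos : 0 < Λ := by linarith
  have hlogΛ0 : 0 ≤ Real.log Λ := Real.log_nonneg hΛ1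
  have hΛe : (c' * Real.log 4096 + 1) / (c' - c) ≤ Real.log Λ :=
    (Real.le_log_iff_exp_le hΛpos).mpr ((le_max_right _ _).trans hΛR)
  have hcc' : 0 < c' - c := by linarith
  have hc' : 0 < c' := by linarith
  have h1 : c' * Real.log 4096 + 1 ≤ (c' - c) * Real.log Λ := by
    rw [div_le_iff₀ hcc'] at hΛe
    linarith
  have hrp : ∀ x : ℝ, (n : ℝ) ^ x = Real.exp (l * x) := fun x => by
    rw [Real.rpow_def_of_pos hnpos]
  rw [hrp] at hm hV
  have hlogΛ0' : Real.log Λ - Real.log 4096 ≤ Real.log Λ0 := by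
    rw [← Real.log_div hΛpos.ne' (by norm_num)]
    exact Real.log_le_log (by positivity) hΛ0
  have hm0 : (0 : ℝ) ≤ m := Nat.cast_nonneg m
  -- m V ≤ exp (-l)
  have hmV : (m : ℝ) * V ≤ Real.exp (-l) := by
    calc (m : ℝ) * V ≤ Real.exp (l * (c * Real.log Λ)) * Real.exp (l * -(c' * Real.log Λ0)) :=
          mul_le_mul hm.le hV hV0 (Real.exp_pos _).le
      _ = Real.exp (l * (c * Real.log Λ - c' * Real.log Λ0)) := by
          rw [← Real.exp_add]; congr 1; ring
      _ ≤ Real.exp (-l) := by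
          apply Real.exp_le_exp.mpr
          have h2 : c * Real.log Λ - c' * Real.log Λ0 ≤ -1 := by
            have := mul_le_mul_of_nonneg_left hlogΛ0' hc'.le
            linarith
          have h3 := mul_le_mul_of_nonneg_left h2 hl0.le
          linarith
  have hexpn : Real.exp (-l) = 1 / n := by rw [Real.exp_neg, hlexp, one_div]
  have hmV0 : 0 ≤ (m : ℝ) * V := mul_nonneg hm0 hV0
  have hmV1 : (m : ℝ) * V ≤ 1 := hmV.trans (by
    rw [hexpn, div_le_one hnpos]; linarith)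
  have hpow : (1 + V) ^ m ≤ Real.exp (m * V) := by
    rw [Real.exp_nat_mul]
    exact pow_le_pow_left₀ (by linarith) (by linarith [Real.add_one_le_exp V]) m
  have hexp2 : Real.exp (m * V) - 1 ≤ 2 * (m * V) := by
    have := Real.abs_exp_sub_one_le (x := (m : ℝ) * V) (by rw [abs_of_nonneg hmV0]; exact hmV1)
    rw [abs_of_nonneg hmV0] at this
    exact (le_abs_self _).trans this
  have hsq : Real.sqrt ((1 + V) ^ m - 1) ≤ s / 4 := by
    apply Real.sqrt_le_iff.mpr
    refine ⟨by linarith, ?_⟩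
    have h3 : 2 * (1 / (n : ℝ)) ≤ (s / 4) ^ 2 := by
      rw [div_le_iff₀ (by positivity)] at hn3
      rw [mul_one_div, div_le_iff₀ hnpos]
      linarith
    have h4 : (1 + V) ^ m - 1 ≤ 2 * (m * V) := by linarith
    have h5 : 2 * ((m : ℝ) * V) ≤ 2 * (1 / (n : ℝ)) := by rw [← hexpn]; linarith
    linarith
  -- the TV part
  have hloglog : Real.log Λ ≤ Real.log l := Real.log_le_log hΛpos hΛn
  have hlogl : Real.log l ≤ 4 * l ^ (1 / 4 : ℝ) := by
    have := Real.log_le_rpow_div hl0.le (show (0 : ℝ) < 1 / 4 by norm_num)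
    calc Real.log l ≤ l ^ (1 / 4 : ℝ) / (1 / 4) := this
      _ = 4 * l ^ (1 / 4 : ℝ) := by ring
  have hlq : 4 * c + 1 ≤ l ^ (1 / 4 : ℝ) := by
    have h6 : (B : ℝ) ^ (1 / 4 : ℝ) ≤ l ^ (1 / 4 : ℝ) :=
      Real.rpow_le_rpow (by linarith) hlB (by norm_num)
    have h7 : B ^ (1 / 4 : ℝ) = 4 * c + 1 := by
      rw [hB, ← Real.rpow_natCast, ← Real.rpow_mul (by linarith)]
      norm_num
    rw [← h7]; exact h6
  have hl32 : l ^ (3 / 2 : ℝ) = l * (l ^ (1 / 4 : ℝ) * l ^ (1 / 4 : ℝ)) := by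
    rw [← Real.rpow_add hl0]
    nth_rewrite 2 [← Real.rpow_one l]
    rw [← Real.rpow_add hl0]
    norm_num
  have hmT : (m : ℝ) * (T * τ) ≤ s / 4 := by
    have h8 : (m : ℝ) * τ ≤ Real.exp (-l) := by
      calc (m : ℝ) * τ ≤ Real.exp (l * (c * Real.log Λ)) * Real.exp (-l ^ (3 / 2 : ℝ)) :=
            mul_le_mul hm.le hτ hτ0 (Real.exp_pos _).le
        _ = Real.exp (l * (c * Real.log Λ) - l ^ (3 / 2 : ℝ)) := by
            rw [← Real.exp_add]; congr 1
        _ ≤ Real.exp (-l) := by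
            apply Real.exp_le_exp.mpr
            rw [hl32]
            set z := l ^ (1 / 4 : ℝ) with hz
            have hz1 : 1 ≤ z := by linarith
            have h9 : c * Real.log Λ ≤ c * (4 * z) :=
              mul_le_mul_of_nonneg_left (hloglog.trans hlogl) hc.le
            have h10 : c * (4 * z) + 1 ≤ z * z := by
              have := mul_le_mul_of_nonneg_right hlq (show 0 ≤ z by linarith)
              linarith
            have h11 : c * Real.log Λ - z * z ≤ -1 := by linarith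
            have h12 := mul_le_mul_of_nonneg_left h11 hl0.le
            linarith
    calc (m : ℝ) * (T * τ) = T * (m * τ) := by ring
      _ ≤ T * (1 / n) := by
          rw [← hexpn]; exact mul_le_mul_of_nonneg_left h8 (Nat.cast_nonneg T)
      _ ≤ s / 4 := by
          rw [div_le_iff₀ hs] at hn4
          rw [mul_one_div, div_le_iff₀ hnpos]
          linarith
  linarith

theorem num_tv {c' A ε : ℝ} (hc' : 0 < c') (hA : 0 < A) (hε : 0 < ε) :
    ∃ (N₀ : ℕ) (R : ℝ), ∀ n : ℕ, N₀ ≤ n → ∀ Λ0 : ℝ, R ≤ Λ0 → ∀ V τ : ℝ, 0 ≤ V →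
      V ≤ (n : ℝ) ^ (-(c' * Real.log Λ0)) → τ ≤ Real.exp (-(Real.log n) ^ (3 / 2 : ℝ)) →
      (n : ℝ) ^ A * (2 * τ + Real.sqrt V) < ε := by
  set B : ℝ := (A + 1) ^ 2 with hB
  obtain ⟨N₀, hN₀⟩ := exists_nat_ge (max (max (Real.exp B) 2) (4 / ε))
  refine ⟨N₀, max 1 (Real.exp (2 * (A + 1) / c')), ?_⟩
  intro n hn Λ0 hΛR V τ hV0 hV hτ
  have hnN : (N₀ : ℝ) ≤ n := by exact_mod_cast hn
  have hn1 : Real.exp B ≤ n := ((le_max_left _ _).trans (le_max_left _ _)).trans (hN₀.trans hnN)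
  have hn2 : (2 : ℝ) ≤ n := ((le_max_right _ _).trans (le_max_left _ _)).trans (hN₀.trans hnN)
  have hn3 : 4 / ε ≤ n := (le_max_right _ _).trans (hN₀.trans hnN)
  have hnpos : (0 : ℝ) < n := by linarith
  set l := Real.log n with hl
  have hlexp : Real.exp l = n := Real.exp_log hnpos
  have hlB : B ≤ l := by rw [hl]; exact (Real.le_log_iff_exp_le hnpos).mpr hn1
  have hB1 : 1 ≤ B := by
    rw [hB]; exact one_le_pow₀ (by linarith)
  have hl0 : 0 < l := by linarith
  have hΛpos : 0 < Λ0 := by linarith [(le_max_left (1:ℝ) (Real.exp (2 * (A + 1) / c'))).trans hΛR]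
  have hΛe : 2 * (A + 1) / c' ≤ Real.log Λ0 :=
    (Real.le_log_iff_exp_le hΛpos).mpr ((le_max_right _ _).trans hΛR)
  have h1 : 2 * (A + 1) ≤ c' * Real.log Λ0 := by
    rw [div_le_iff₀ hc'] at hΛe
    linarith
  have hrp : ∀ x : ℝ, (n : ℝ) ^ x = Real.exp (l * x) := fun x => by
    rw [Real.rpow_def_of_pos hnpos]
  rw [hrp] at hV ⊢
  have hexpn : Real.exp (-l) = 1 / n := by rw [Real.exp_neg, hlexp, one_div]
  have hsqV : Real.sqrt V ≤ Real.exp (-(l * (A + 1))) := by
    apply Real.sqrt_le_iff.mpr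
    refine ⟨(Real.exp_pos _).le, hV.trans ?_⟩
    rw [pow_two, ← Real.exp_add]
    apply Real.exp_le_exp.mpr
    have := mul_le_mul_of_nonneg_left h1 hl0.le
    linarith
  have hlq : A + 1 ≤ l ^ (1 / 2 : ℝ) := by
    have h6 : (B : ℝ) ^ (1 / 2 : ℝ) ≤ l ^ (1 / 2 : ℝ) :=
      Real.rpow_le_rpow (by linarith) hlB (by norm_num)
    have h7 : B ^ (1 / 2 : ℝ) = A + 1 := by
      rw [hB, ← Real.rpow_natCast, ← Real.rpow_mul (by linarith)]
      norm_num
    rw [← h7]; exact h6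
  have hl32 : l ^ (3 / 2 : ℝ) = l * l ^ (1 / 2 : ℝ) := by
    nth_rewrite 2 [← Real.rpow_one l]
    rw [← Real.rpow_add hl0]
    norm_num
  have hτ' : τ ≤ Real.exp (-(l * (A + 1))) := by
    refine hτ.trans (Real.exp_le_exp.mpr ?_)
    rw [hl32]
    have := mul_le_mul_of_nonneg_left hlq hl0.le
    linarith
  calc Real.exp (l * A) * (2 * τ + Real.sqrt V)
      ≤ Real.exp (l * A) * (3 * Real.exp (-(l * (A + 1)))) :=
        mul_le_mul_of_nonneg_left (by linarith) (Real.exp_pos _).le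
    _ = 3 * Real.exp (-l) := by
        rw [mul_left_comm, ← Real.exp_add]; congr 2; ring
    _ < ε := by
        rw [hexpn, mul_one_div, div_lt_iff₀ hnpos]
        rw [div_le_iff₀ hε] at hn3
        linarith

/-- final deduction for S0454 -/
theorem S0454_of_core (hcore : CoreStatement) (s : ℝ) (hs : 0 < s) (c : ℝ) (hc : 0 < c)
    (hc' : c < 1 / (4 * Real.log 2)) :
    ∃ (N₀ : ℕ) (R : ℝ), ∀ n ≥ N₀, ∀ q : ℝ, 0 < q → q < 1 → R ≤ q ^ 3 * Real.log n →
      ∀ m : ℕ, (m : ℝ) < (n : ℝ) ^ (c * Real.log (q ^ 3 * Real.log n)) →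
        ∀ K : (Fin m → List Bool) → (Fin n → Bool) → ℝ, Crest.TraceRecon.IsRule K →
          ∃ x : Fin n → Bool, Crest.TraceRecon.successProb (1 - q) K x < s := by
  have hlog2 : 0 < 4 * Real.log 2 := by have := Real.log_pos (by norm_num : (1:ℝ) < 2); linarith
  -- choose δ
  obtain ⟨δ, hδ0, hδ1, hδ⟩ : ∃ δ : ℝ, 0 < δ ∧ δ < 1 ∧ c < (1 - δ) / (4 * Real.log 2) := by
    have h1 : c * (4 * Real.log 2) < 1 := by
      rw [lt_div_iff₀ hlog2] at hc'; exact hc'
    refine ⟨(1 - c * (4 * Real.log 2)) / 2, by linarith, ?_, ?_⟩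
    · have : 0 < c * (4 * Real.log 2) := by positivity
      linarith
    · rw [lt_div_iff₀ hlog2]; linarith
  set c' := (1 - δ) / (4 * Real.log 2) with hc'def
  obtain ⟨T, hT⟩ := exists_nat_ge (max 1 (4 / s))
  have hT1 : 1 ≤ T := by exact_mod_cast (le_max_left _ _).trans hT
  have hTpos : (0 : ℝ) < T := by exact_mod_cast hT1
  have hTs : 1 / (T : ℝ) ≤ s / 4 := by
    have h1 : 4 / s ≤ T := (le_max_right _ _).trans hT
    rw [div_le_iff₀ hs] at h1
    rw [div_le_iff₀ hTpos]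
    linarith
  obtain ⟨n₀, R₀, hcore'⟩ := hcore δ hδ0 hδ1 T hT1
  obtain ⟨N₁, R₁, hR₁, hnum⟩ := num_samples hc hδ hs T
  refine ⟨max n₀ N₁, max R₁ (4096 * R₀), ?_⟩
  intro n hn q hq0 hq1 hR m hm K hK
  have hn0 : n₀ ≤ n := (le_max_left _ _).trans hn
  have hnN1 : N₁ ≤ n := (le_max_right _ _).trans hn
  set q0 := min q (1 / 16) with hq0def
  have hq0pos : 0 < q0 := lt_min hq0 (by norm_num)
  have hq0le : q0 ≤ q := min_le_left _ _
  have hq016 : q0 ≤ 1 / 16 := min_le_right _ _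
  have hq0ge : q / 16 ≤ q0 := le_min (by linarith) (by linarith)
  have hRpos : 0 < q ^ 3 * Real.log n := by
    have := (le_max_left R₁ (4096 * R₀)).trans hR
    linarith
  have hln : 0 < Real.log n := by
    have h3 : 0 < q ^ 3 := by positivity
    exact (mul_pos_iff_of_pos_left h3).mp hRpos
  have hΛ0 : q ^ 3 * Real.log n / 4096 ≤ q0 ^ 3 * Real.log n := by
    have : (q / 16) ^ 3 ≤ q0 ^ 3 := pow_le_pow_left₀ (by positivity) hq0ge 3
    calc q ^ 3 * Real.log n / 4096 = (q / 16) ^ 3 * Real.log n := by ring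
      _ ≤ q0 ^ 3 * Real.log n := mul_le_mul_of_nonneg_right this hln.le
  have hR0 : R₀ ≤ q0 ^ 3 * Real.log n := by
    have := (le_max_right R₁ (4096 * R₀)).trans hR
    linarith
  obtain ⟨x, y, a, b, V, τ, hxy, hne, hTn, pa, pb, ta, tb, hV, hd, hVn, hτn⟩ :=
    hcore' n hn0 q0 hq0pos hq016 hR0
  have hq01 : q0 < 1 := by linarith
  obtain ⟨z, π, ν, hz, hπ, hν0, hνd, hνp, hνt⟩ :=
    family hq0pos.le hq01 hq0le hq1.le hxy hne hTn pa pb hV ta tb hd
  have hτ0 : 0 ≤ τ := TVle.nonneg ta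
  have hΛn : q ^ 3 * Real.log n ≤ Real.log n := by
    have : q ^ 3 ≤ 1 := pow_le_one₀ hq0.le hq1.le
    nlinarith
  have hfin := hnum n hnN1 (q ^ 3 * Real.log n) (q0 ^ 3 * Real.log n)
    ((le_max_left _ _).trans hR) hΛn hΛ0 m hm V τ hV hVn hτ0 hτn
  obtain ⟨i, hi⟩ := exists_successProb_lt hq0.le hq1.le K hK (by omega) z hz π hπ ν hV hν0 hνd hνp hνt
    (s := s) (by linarith)
  exact ⟨z i, hi⟩

/-- final deduction for S0455 -/
theorem S0455_of_core (hcore : CoreStatement) (q : ℝ) (hq : 0 < q) (hq1 : q < 1) (A : ℝ)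
    (hA : 0 < A) (ε : ℝ) (hε : 0 < ε) :
    ∃ N₀ : ℕ, ∀ n ≥ N₀, ∃ x y : Fin n → Bool, x ≠ y ∧
      (n : ℝ) ^ A * Crest.TraceRecon.traceTV (1 - q) x y < ε := by
  have hlog2 : 0 < 4 * Real.log 2 := by have := Real.log_pos (by norm_num : (1:ℝ) < 2); linarith
  obtain ⟨n₀, R₀, hcore'⟩ := hcore (1 / 2) (by norm_num) (by norm_num) 2 (by norm_num)
  have hc' : 0 < (1 - 1 / 2) / (4 * Real.log 2) := by positivity
  obtain ⟨N₁, R₁, hnum⟩ := num_tv hc' hA hε
  set q0 := min q (1 / 16) with hq0def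
  have hq0pos : 0 < q0 := lt_min hq (by norm_num)
  have hq0le : q0 ≤ q := min_le_left _ _
  have hq016 : q0 ≤ 1 / 16 := min_le_right _ _
  have hq3 : 0 < q0 ^ 3 := by positivity
  obtain ⟨N₂, hN₂⟩ := exists_nat_ge (Real.exp (max R₀ R₁ / q0 ^ 3))
  refine ⟨max n₀ (max N₁ N₂), ?_⟩
  intro n hn
  have hn0 : n₀ ≤ n := (le_max_left _ _).trans hn
  have hnN1 : N₁ ≤ n := ((le_max_left _ _).trans (le_max_right _ _)).trans hn
  have hnN2 : N₂ ≤ n := ((le_max_right _ _).trans (le_max_right _ _)).trans hn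
  have hnpos : (0 : ℝ) < n := by
    have h1 : (N₂ : ℝ) ≤ n := by exact_mod_cast hnN2
    linarith [Real.exp_pos (max R₀ R₁ / q0 ^ 3)]
  have hlog : max R₀ R₁ / q0 ^ 3 ≤ Real.log n := by
    rw [Real.le_log_iff_exp_le hnpos]
    have h1 : (N₂ : ℝ) ≤ n := by exact_mod_cast hnN2
    linarith
  have hΛ : max R₀ R₁ ≤ q0 ^ 3 * Real.log n := by
    rw [div_le_iff₀ hq3] at hlog
    linarith
  obtain ⟨x, y, a, b, V, τ, hxy, hne, hTn, pa, pb, ta, tb, hV, hd, hVn, hτn⟩ :=
    hcore' n hn0 q0 hq0pos hq016 ((le_max_left _ _).trans hΛ)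
  have hq01 : q0 < 1 := by linarith
  obtain ⟨z, π, ν, hz, hπ, hν0, hνd, hνp, hνt⟩ :=
    family hq0pos.le hq01 hq0le hq1.le hxy hne hTn pa pb hV ta tb hd
  refine ⟨z 0, z 1, fun h => absurd (hz h) (by decide), ?_⟩
  have tv : TVle (2 * (2 * τ + Real.sqrt V)) (D q (List.ofFn (z 0)) - D q (List.ofFn (z 1))) := by
    have e : D q (List.ofFn (z 0)) - D q (List.ofFn (z 1)) =
        -(π + ν 0 - D q (List.ofFn (z 0))) + (π + ν 1 - D q (List.ofFn (z 1))) + (ν 0 + -ν 1) := by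
      abel
    rw [e]
    have t0 := tv_of_dom (hνd 0) hπ hV
    have t1 := tv_of_dom (hνd 1) hπ hV
    refine TVle.mono (TVle.add (TVle.add (TVle.neg (hνt 0)) (hνt 1)) (TVle.add t0 (TVle.neg t1))) ?_
    push_cast
    linarith
  have h1 := traceTV_le_of_TVle (z 0) (z 1) tv
  have h2 := hnum n hnN1 _ ((le_max_right _ _).trans hΛ) V τ hV hVn hτn
  have h3 : (0 : ℝ) ≤ (n : ℝ) ^ A := Real.rpow_nonneg hnpos.le _
  calc (n : ℝ) ^ A * Crest.TraceRecon.traceTV (1 - q) (z 0) (z 1)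
      ≤ (n : ℝ) ^ A * (2 * τ + Real.sqrt V) := mul_le_mul_of_nonneg_left (by linarith) h3
    _ < ε := h2

end Fnl

end

end Crest.Agent.R300LB
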