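import Crest.Agent.R300.LBDefs

/-!
# Row 300, lower bounds, piece L3: homogenized kernels and the location gain lemma
-/

set_option autoImplicit false

namespace Crest.Agent.R300LB

open Finset Polynomial

noncomputable section

variable {G : Type*} [Monoid G]

/-- action of the polynomial `φ(L/R')` of degree `≤ N` homogenized to degree `N`:
`∑ φ_l a^l F a^(N-l)` -/
def homL (a : MA G) (N : ℕ) (F : MA G) : ℝ[X] →ₗ[ℝ] MA G where
  toFun φ := ∑ l ∈ range (N + 1), φ.coeff l • (a ^ l * F * a ^ (N - l))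
  map_add' φ ψ := by
    simp only [coeff_add, add_smul, Finset.sum_add_distrib]
  map_smul' c φ := by
    simp only [coeff_smul, smul_eq_mul, mul_smul, Finset.smul_sum, RingHom.id_apply]

theorem homL_apply (a : MA G) (N : ℕ) (F : MA G) (φ : ℝ[X]) :
    homL a N F φ = ∑ l ∈ range (N + 1), φ.coeff l • (a ^ l * F * a ^ (N - l)) := rfl

theorem homL_X_pow (a : MA G) {N i : ℕ} (hi : i ≤ N) (F : MA G) :
    homL a N F (X ^ i) = a ^ i * F * a ^ (N - i) := by
  rw [homL_apply, Finset.sum_eq_single i]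
  · rw [coeff_X_pow_self, one_smul]
  · intro b _ hb
    rw [coeff_X_pow, if_neg hb, zero_smul]
  · intro h
    exact absurd (Finset.mem_range.mpr (by omega)) h

theorem homL_one (a : MA G) (N : ℕ) (F : MA G) : homL a N F 1 = F * a ^ N := by
  have := homL_X_pow a (Nat.zero_le N) F
  rw [pow_zero, pow_zero, one_mul, Nat.sub_zero] at this
  exact this

/-- linearity in `F` -/
theorem homL_sum {ι : Type*} (a : MA G) (N : ℕ) (s : Finset ι) (F : ι → MA G) (φ : ℝ[X]) :
    homL a N (∑ i ∈ s, F i) φ = ∑ i ∈ s, homL a N (F i) φ := by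
  simp only [homL_apply, Finset.mul_sum, Finset.sum_mul, Finset.smul_sum]
  rw [Finset.sum_comm]

theorem homL_smul_right (a : MA G) (N : ℕ) (c : ℝ) (F : MA G) (φ : ℝ[X]) :
    homL a N (c • F) φ = c • homL a N F φ := by
  simp only [homL_apply, Finset.smul_sum, mul_smul_comm, smul_mul_assoc]
  refine Finset.sum_congr rfl (fun l _ => ?_)
  rw [smul_comm]

theorem homL_mul (a : MA G) {N K : ℕ} {φ ψ : ℝ[X]} (hφ : φ.natDegree ≤ N) (hψ : ψ.natDegree ≤ K)
    (F : MA G) : homL a (N + K) F (φ * ψ) = homL a N (homL a K F ψ) φ := by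
  have e1 : φ * ψ = ∑ i ∈ range (N + 1), ∑ j ∈ range (K + 1),
      (φ.coeff i * ψ.coeff j) • (X ^ (i + j) : ℝ[X]) := by
    conv_lhs => rw [φ.as_sum_range' (N + 1) (by omega), ψ.as_sum_range' (K + 1) (by omega)]
    rw [Finset.sum_mul_sum]
    refine Finset.sum_congr rfl (fun i _ => Finset.sum_congr rfl (fun j _ => ?_))
    rw [monomial_mul_monomial, ← C_mul_X_pow_eq_monomial, smul_eq_C_mul]
  rw [e1, map_sum]
  conv_rhs => rw [homL_apply]
  refine Finset.sum_congr rfl (fun i hi => ?_)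
  rw [map_sum, homL_apply, Finset.mul_sum, Finset.sum_mul, Finset.smul_sum]
  refine Finset.sum_congr rfl (fun j hj => ?_)
  rw [Finset.mem_range] at hi hj
  rw [map_smul, homL_X_pow a (by omega)]
  rw [mul_smul_comm, smul_mul_assoc, smul_smul]
  congr 1
  have e2 : N + K - (i + j) = (K - j) + (N - i) := by omega
  rw [e2, pow_add, pow_add]
  simp only [mul_assoc]

/-- multiplication by pure powers on both sides commutes with `homL` -/
theorem homL_conj (a : MA G) (N M M' : ℕ) (F : MA G) (φ : ℝ[X]) :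
    a ^ M * homL a N F φ * a ^ M' = homL a N (a ^ M * F * a ^ M') φ := by
  simp only [homL_apply, Finset.mul_sum, Finset.sum_mul, mul_smul_comm, smul_mul_assoc]
  refine Finset.sum_congr rfl (fun l _ => ?_)
  congr 1
  have h1 : a ^ M * (a ^ l * F * a ^ (N - l)) * a ^ M' =
      (a ^ M * a ^ l) * F * (a ^ (N - l) * a ^ M') := by simp only [mul_assoc]
  have h2 : a ^ l * (a ^ M * F * a ^ M') * a ^ (N - l) =
      (a ^ l * a ^ M) * F * (a ^ M' * a ^ (N - l)) := by simp only [mul_assoc]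
  rw [h1, h2, ← pow_add, ← pow_add, ← pow_add, ← pow_add, add_comm M l, add_comm (N - l) M']

/-- `ℓ¹` bound for a homogenized kernel -/
theorem Dom.homL {a : MA G} (ha : Prob a) {N n : ℕ} {F : MA G} {x : ℝ} (hx : 0 ≤ x)
    (hF : Dom (x ^ 2) (a ^ n) F) (φ : ℝ[X]) :
    Dom (((∑ l ∈ range (N + 1), |φ.coeff l|) * x) ^ 2) (a ^ (n + N)) (homL a N F φ) := by
  rw [homL_apply, Finset.sum_mul]
  refine Dom.sum _ (fun l hl => ?_) (fun l _ => mul_nonneg (abs_nonneg _) hx) (ha.pos.pow _)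
  rw [mul_pow, sq_abs]
  refine Dom.smul ?_ _
  rw [Finset.mem_range] at hl
  have h1 : Dom (1 * x ^ 2 * 1) (a ^ l * a ^ n * a ^ (N - l)) (a ^ l * F * a ^ (N - l)) :=
    ((Dom.self_prob (ha.pow l)).mul hF zero_le_one (ha.pos.pow _)).mul
      (Dom.self_prob (ha.pow _)) (by positivity) ((ha.pos.pow _).mul (ha.pos.pow _))
  rw [one_mul, mul_one, ← pow_add, ← pow_add] at h1
  have e : l + n + (N - l) = n + N := by omega
  rwa [e] at h1

/-- Young's inequality `ℓ¹ * ℓ²`, finite version -/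
theorem young (u v : ℕ → ℝ) (hu : ∀ i, 0 ≤ u i) (S : ℕ) :
    ∑ s ∈ range S, (∑ k ∈ range (s + 1), u k * v (s - k)) ^ 2 ≤
      (∑ i ∈ range S, u i) ^ 2 * ∑ j ∈ range S, v j ^ 2 := by
  have h1 : ∀ s ∈ range S, (∑ k ∈ range (s + 1), u k * v (s - k)) ^ 2 ≤
      (∑ i ∈ range S, u i) * ∑ k ∈ range (s + 1), u k * v (s - k) ^ 2 := by
    intro s hs
    rw [Finset.mem_range] at hs
    have h2 : (∑ k ∈ range (s + 1), u k * v (s - k)) ^ 2 ≤
        (∑ k ∈ range (s + 1), u k) * ∑ k ∈ range (s + 1), u k * v (s - k) ^ 2 := by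
      refine Finset.sum_sq_le_sum_mul_sum_of_sq_le_mul _ (fun k _ => hu k)
        (fun k _ => mul_nonneg (hu k) (sq_nonneg _)) (fun k _ => le_of_eq (by ring))
    refine le_trans h2 (mul_le_mul_of_nonneg_right ?_
      (Finset.sum_nonneg (fun k _ => mul_nonneg (hu k) (sq_nonneg _))))
    refine Finset.sum_le_sum_of_subset_of_nonneg (fun k hk => ?_) (fun k _ _ => hu k)
    rw [Finset.mem_range] at hk ⊢
    omega
  refine le_trans (Finset.sum_le_sum h1) ?_
  rw [← Finset.mul_sum, sq, mul_assoc]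
  refine mul_le_mul_of_nonneg_left ?_ (Finset.sum_nonneg (fun k _ => hu k))
  rw [Finset.sum_range_diag_flip S (fun k j => u k * v j ^ 2), Finset.sum_mul]
  refine Finset.sum_le_sum (fun m _ => ?_)
  rw [← Finset.mul_sum]
  refine mul_le_mul_of_nonneg_left ?_ (hu m)
  refine Finset.sum_le_sum_of_subset_of_nonneg (fun k hk => ?_) (fun k _ _ => sq_nonneg _)
  rw [Finset.mem_range] at hk ⊢
  omega

/-- spaced version: if the support of `v` has gaps `> N ≥` support of `u` then there is no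
interference -/
theorem young_spaced (u v : ℕ → ℝ) (S N : ℕ) (hu0 : ∀ i, N < i → u i = 0)
    (hv : ∀ i j, i < j → v i ≠ 0 → v j ≠ 0 → N < j - i) :
    ∑ s ∈ range S, (∑ k ∈ range (s + 1), u k * v (s - k)) ^ 2 ≤
      (∑ i ∈ range S, u i ^ 2) * ∑ j ∈ range S, v j ^ 2 := by
  have h1 : ∀ s ∈ range S, (∑ k ∈ range (s + 1), u k * v (s - k)) ^ 2 =
      ∑ k ∈ range (s + 1), u k ^ 2 * v (s - k) ^ 2 := by
    intro s _
    by_cases hex : ∃ k ∈ range (s + 1), u k * v (s - k) ≠ 0
    · obtain ⟨k0, hk0, hne⟩ := hex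
      rw [Finset.mem_range] at hk0
      have hz : ∀ k ∈ range (s + 1), k ≠ k0 → u k * v (s - k) = 0 := by
        intro k hk hkk
        rw [Finset.mem_range] at hk
        by_contra hne'
        have a1 : u k0 ≠ 0 := left_ne_zero_of_mul hne
        have a2 : u k ≠ 0 := left_ne_zero_of_mul hne'
        have b1 : v (s - k0) ≠ 0 := right_ne_zero_of_mul hne
        have b2 : v (s - k) ≠ 0 := right_ne_zero_of_mul hne'
        have c1 : k0 ≤ N := by
          by_contra h; exact a1 (hu0 _ (by omega))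
        have c2 : k ≤ N := by
          by_contra h; exact a2 (hu0 _ (by omega))
        rcases lt_or_gt_of_ne hkk with h | h
        · have := hv (s - k0) (s - k) (by omega) b1 b2
          omega
        · have := hv (s - k) (s - k0) (by omega) b2 b1
          omega
      rw [Finset.sum_eq_single k0 hz (fun h => absurd (Finset.mem_range.mpr hk0) h),
        Finset.sum_eq_single k0 (fun k hk hkk => ?_) (fun h => absurd (Finset.mem_range.mpr hk0) h),
        mul_pow]
      rw [← mul_pow, hz k hk hkk]; norm_num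
    · push Not at hex
      rw [Finset.sum_eq_zero hex, Finset.sum_eq_zero (fun k hk => ?_)]
      · norm_num
      · rw [← mul_pow, hex k hk]; norm_num
  rw [Finset.sum_congr rfl h1, Finset.sum_range_diag_flip S (fun k j => u k ^ 2 * v j ^ 2),
    Finset.sum_mul]
  refine Finset.sum_le_sum (fun m _ => ?_)
  rw [← Finset.mul_sum]
  refine mul_le_mul_of_nonneg_left ?_ (sq_nonneg _)
  refine Finset.sum_le_sum_of_subset_of_nonneg (fun k hk => ?_) (fun k _ _ => sq_nonneg _)
  rw [Finset.mem_range] at hk ⊢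
  omega

/-- orthogonality of the first mark (N6) -/
theorem lg_orth {a Δ : MA G} (ha : Prob a) (hΔ0 : mass Δ = 0) {V : ℝ} (hV : 0 ≤ V)
    (hΔ : Dom V a Δ) : ∀ (n : ℕ) (H : ℕ → MA G) (h : ℕ → ℝ), (∀ p < n, 0 ≤ h p) →
    (∀ p < n, Dom (h p) (a ^ (n - 1 - p)) (H p)) →
    Dom (V * ∑ p ∈ range n, h p) (a ^ n) (∑ p ∈ range n, a ^ p * Δ * H p) := by
  intro n
  induction n with
  | zero =>
    intro H h _ _
    simpa using Dom.zero (1 : MA G) Pos.one (le_refl (0 : ℝ))
  | succ n ih =>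
    intro H h hh hH
    have ih' := ih (fun p => H (p + 1)) (fun p => h (p + 1)) (fun p hp => hh _ (by omega))
      (fun p hp => by
        have := hH (p + 1) (by omega)
        have e : n + 1 - 1 - (p + 1) = n - 1 - p := by omega
        rwa [e] at this)
    have hH0 := hH 0 (by omega)
    rw [show n + 1 - 1 - 0 = n by omega] at hH0
    have eS : ∑ p ∈ range (n + 1), a ^ p * Δ * H p =
        Δ * H 0 + a * ∑ p ∈ range n, a ^ p * Δ * H (p + 1) := by
      rw [Finset.sum_range_succ', pow_zero, one_mul, add_comm, Finset.mul_sum]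
      congr 1
      refine Finset.sum_congr rfl (fun p _ => ?_)
      rw [pow_succ']; simp only [mul_assoc]
    rw [eS, Finset.sum_range_succ', add_comm (∑ k ∈ range n, h (k + 1)) (h 0)]
    set S' := ∑ p ∈ range n, a ^ p * Δ * H (p + 1)
    set W := ∑ p ∈ range n, h (p + 1) with hW
    have hW0 : 0 ≤ W := Finset.sum_nonneg (fun p hp => hh _ (by
      rw [Finset.mem_range] at hp; omega))
    intro f
    rw [ev_add, ev_mul, ev_mul, ev_swap, ev_swap a S']
    set fb : G → ℝ := fun v => ev a (fun u => f (u * v)) with hfb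
    have hcen : ∀ v, ev Δ (fun u => f (u * v)) = ev Δ (fun u => f (u * v) - fb v) := by
      intro v
      rw [ev_sub_fun]
      have : ev Δ (fun _ => fb v) = 0 := by
        have h1 : (fun _ : G => fb v) = fun w : G => fb v * 1 := by funext w; ring
        rw [h1, ev_mul_fun]
        unfold mass at hΔ0
        rw [hΔ0, mul_zero]
      rw [this, sub_zero]
    have hvar : ∀ v, ev a (fun u => (f (u * v) - fb v) ^ 2) =
        ev a (fun u => f (u * v) ^ 2) - fb v ^ 2 := by
      intro v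
      have e : ∀ u, (f (u * v) - fb v) ^ 2 =
          (f (u * v) ^ 2 - (2 * fb v) * f (u * v)) + fb v ^ 2 := by intro u; ring
      rw [ev_congr a e, ev_add_fun, ev_sub_fun, ev_mul_fun, ev_const ha]
      simp only [hfb]
      ring
    have hA : (ev (H 0) (fun v => ev Δ (fun u => f (u * v)))) ^ 2 ≤
        (h 0 * V) * ev (a ^ n) (fun v => ev a (fun u => f (u * v) ^ 2) - fb v ^ 2) := by
      refine le_trans (hH0 _) ?_
      rw [mul_assoc]
      refine mul_le_mul_of_nonneg_left ?_ (hh 0 (by omega))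
      rw [← ev_mul_fun]
      refine (ha.pos.pow n).mono (fun v => ?_)
      rw [hcen v, ← hvar v]
      exact hΔ _
    have hB : (ev S' fb) ^ 2 ≤ (V * W) * ev (a ^ n) (fun v => fb v ^ 2) := ih' fb
    have hx0 : 0 ≤ ev (a ^ n) (fun v => ev a (fun u => f (u * v) ^ 2) - fb v ^ 2) := by
      refine (ha.pos.pow n) _ (fun v => ?_)
      rw [← hvar v]
      exact ha.pos _ (fun u => sq_nonneg _)
    have hy0 : 0 ≤ ev (a ^ n) (fun v => fb v ^ 2) := (ha.pos.pow n) _ (fun v => sq_nonneg _)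
    have hxy : ev (a ^ (n + 1)) (fun w => f w ^ 2) =
        ev (a ^ n) (fun v => ev a (fun u => f (u * v) ^ 2) - fb v ^ 2) +
        ev (a ^ n) (fun v => fb v ^ 2) := by
      rw [← ev_add_fun, pow_succ', ev_mul, ev_swap]
      refine ev_congr _ (fun v => by ring)
    rw [hxy]
    set A := ev (H 0) (fun v => ev Δ (fun u => f (u * v)))
    change (A + ev S' fb) ^ 2 ≤ _
    set B := ev S' fb
    set x := ev (a ^ n) (fun v => ev a (fun u => f (u * v) ^ 2) - fb v ^ 2)
    set y := ev (a ^ n) (fun v => fb v ^ 2)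
    have h0 : 0 ≤ h 0 := hh 0 (by omega)
    have hVh : 0 ≤ h 0 * V := mul_nonneg h0 hV
    have hVW : 0 ≤ V * W := mul_nonneg hV hW0
    have hAB : (A * B) ^ 2 ≤ (h 0 * V * y) * (V * W * x) := by
      rw [mul_pow]
      calc A ^ 2 * B ^ 2 ≤ (h 0 * V * x) * (V * W * y) :=
            mul_le_mul hA hB (sq_nonneg _) (mul_nonneg hVh hx0)
        _ = (h 0 * V * y) * (V * W * x) := by ring
    have h3 : 2 * (A * B) ≤ h 0 * V * y + V * W * x := by
      have hP : 0 ≤ h 0 * V * y := mul_nonneg hVh hy0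
      have hQ : 0 ≤ V * W * x := mul_nonneg hVW hx0
      have h4 : (2 * (A * B)) ^ 2 ≤ (h 0 * V * y + V * W * x) ^ 2 := by
        nlinarith [sq_nonneg (h 0 * V * y - V * W * x)]
      exact (abs_le_of_sq_le_sq' h4 (by positivity)).2
    nlinarith

/-- General location gain.  `κ = φ + q * (1-X)^r`; the `φ` part is estimated by orthogonality and
`ℓ²`-norm of the coefficients, the rest by the `r`-th difference bound `hB`. -/
theorem locGain_gen {a Δ : MA G} (ha : Prob a) (hΔ0 : mass Δ = 0) {V : ℝ} (hV : 0 ≤ V)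
    (hΔ : Dom V a Δ) {n N M M' r : ℕ} {κ φ q : ℝ[X]} (hκ : κ = φ + q * (1 - X) ^ r)
    (hφ : φ.natDegree ≤ N) (hr : r ≤ N) (hq : q.natDegree ≤ N - r)
    {H : ℕ → MA G} {g : ℕ → ℝ} (hg : ∀ p < n, 0 ≤ g p)
    (hH : ∀ p < n, Dom (g p ^ 2) (a ^ (n - 1 - p)) (H p))
    {F : MA G} (hF : F = ∑ p ∈ range n, a ^ p * Δ * H p)
    {A B T Y : ℝ} (hA : ∑ l ∈ range (N + 1), φ.coeff l ^ 2 ≤ A)
    (hT0 : 0 ≤ T)
    (hT : ∀ u v : ℕ → ℝ, (∀ i, 0 ≤ u i) → (∀ i, N < i → u i = 0) →
      (∀ i, n ≤ i → v i = 0) → (∀ i < n, v i = g i) →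
      ∑ s ∈ range (n + N), (∑ k ∈ range (s + 1), u k * v (s - k)) ^ 2 ≤
        (∑ i ∈ range (n + N), u i ^ 2) * T ^ 2)
    (hB : ∑ l ∈ range (N - r + 1), |q.coeff l| ≤ B) (hY : 0 ≤ Y)
    (hD : Dom (Y ^ 2) (a ^ (M + (n + r) + M')) (a ^ M * homL a r F ((1 - X) ^ r) * a ^ M')) :
    Dom ((Real.sqrt (A * V) * T + B * Y) ^ 2) (a ^ (M + (n + N) + M'))
      (a ^ M * homL a N F κ * a ^ M') := by
  have hA0 : 0 ≤ A := le_trans (Finset.sum_nonneg (fun _ _ => sq_nonneg _)) hA
  have hB0 : 0 ≤ B := le_trans (Finset.sum_nonneg (fun _ _ => abs_nonneg _)) hB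
  have h1 : homL a N F κ = homL a N F φ + homL a N F (q * (1 - X) ^ r) := by
    rw [hκ, map_add]
  rw [h1, mul_add, add_mul]
  refine Dom.add ?_ ?_ (mul_nonneg (Real.sqrt_nonneg _) hT0) (mul_nonneg hB0 hY) (ha.pos.pow _)
  · -- orthogonality part
    have key : Dom (V * (A * T ^ 2)) (a ^ (n + N)) (homL a N F φ) := by
      -- extended sequences
      set H' : ℕ → MA G := fun p => if p < n then H p else 0 with hH'
      set g' : ℕ → ℝ := fun p => if p < n then g p else 0 with hg'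
      have hg'0 : ∀ p, 0 ≤ g' p := by
        intro p; simp only [hg']; split_ifs with h
        · exact hg p h
        · exact le_refl _
      have hcoef0 : ∀ k, N < k → φ.coeff k = 0 := fun k hk =>
        coeff_eq_zero_of_natDegree_lt (by omega)
      set K : ℕ → MA G := fun s => ∑ k ∈ range (s + 1), φ.coeff k • (H' (s - k) * a ^ (N - k))
        with hK
      have e1 : homL a N F φ = ∑ s ∈ range (n + N), a ^ s * Δ * K s := by
        have e2 : ∑ s ∈ range (n + N), a ^ s * Δ * K s =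
            ∑ s ∈ range (n + N), ∑ k ∈ range (s + 1),
              (fun k p => φ.coeff k • (a ^ (k + p) * Δ * (H' p * a ^ (N - k)))) k (s - k) := by
          refine Finset.sum_congr rfl (fun s _ => ?_)
          simp only [hK, Finset.mul_sum, mul_smul_comm]
          refine Finset.sum_congr rfl (fun k hk => ?_)
          rw [Finset.mem_range] at hk
          rw [show k + (s - k) = s by omega]
        rw [e2, Finset.sum_range_diag_flip (n + N)
          (fun k p => φ.coeff k • (a ^ (k + p) * Δ * (H' p * a ^ (N - k)))), homL_apply]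
        rcases Nat.eq_zero_or_pos n with hn | hn
        · subst hn
          have : F = 0 := by rw [hF]; simp
          rw [this]
          simp [hH']
        · have e4 : range (N + 1) ⊆ range (n + N) := by
            intro x hx
            rw [Finset.mem_range] at hx ⊢
            omega
          rw [← Finset.sum_subset e4 (f := fun m => ∑ k ∈ range (n + N - m),
            φ.coeff m • (a ^ (m + k) * Δ * (H' k * a ^ (N - m))))]
          · refine Finset.sum_congr rfl (fun l hl => ?_)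
            rw [Finset.mem_range] at hl
            have e5 : range n ⊆ range (n + N - l) := by
              intro x hx
              rw [Finset.mem_range] at hx ⊢
              omega
            rw [← Finset.sum_subset e5]
            · rw [hF, Finset.mul_sum, Finset.sum_mul, Finset.smul_sum]
              refine Finset.sum_congr rfl (fun p hp => ?_)
              rw [Finset.mem_range] at hp
              simp only [hH', if_pos hp]
              rw [pow_add]
              simp only [mul_assoc]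
            · intro p _ hp
              rw [Finset.mem_range] at hp
              simp only [hH', if_neg hp, zero_mul, mul_zero, smul_zero]
          · intro l _ hl
            rw [Finset.mem_range] at hl
            have : φ.coeff l = 0 := hcoef0 l (by omega)
            simp only [this, zero_smul, Finset.sum_const_zero]
      rw [e1]
      have o := lg_orth ha hΔ0 hV hΔ (n + N) K
        (fun s => (∑ k ∈ range (s + 1), |φ.coeff k| * g' (s - k)) ^ 2) (fun _ _ => sq_nonneg _)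
        (fun s hs => by
          refine Dom.sum _ (fun k hk => ?_) (fun k _ => mul_nonneg (abs_nonneg _) (hg'0 _))
            (ha.pos.pow _)
          rw [Finset.mem_range] at hk
          by_cases hk2 : k ≤ N
          · rw [mul_pow, sq_abs]
            refine Dom.smul ?_ _
            by_cases hp : s - k < n
            · simp only [hH', hg', if_pos hp]
              have h2 := (hH (s - k) hp).mul (Dom.self_prob (ha.pow (N - k))) (sq_nonneg _)
                (ha.pos.pow _)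
              rw [mul_one, ← pow_add] at h2
              have e6 : n - 1 - (s - k) + (N - k) = n + N - 1 - s := by omega
              rwa [e6] at h2
            · simp only [hH', hg', if_neg hp, zero_mul]
              exact Dom.zero _ (ha.pos.pow _) (by norm_num)
          · rw [hcoef0 k (by omega), zero_smul]
            exact Dom.zero _ (ha.pos.pow _) (sq_nonneg _))
      refine o.mono (mul_le_mul_of_nonneg_left ?_ hV) (ha.pos.pow _)
      refine le_trans (hT (fun k => |φ.coeff k|) g' (fun _ => abs_nonneg _)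
        (fun i hi => by rw [hcoef0 i hi, abs_zero]) (fun i hi => by simp only [hg', if_neg (by omega : ¬ i < n)])
        (fun i hi => by simp only [hg', if_pos hi])) ?_
      refine mul_le_mul_of_nonneg_right ?_ (sq_nonneg _)
      refine le_trans ?_ hA
      simp only [sq_abs]
      have : ∀ S, N + 1 ≤ S → ∑ i ∈ range S, φ.coeff i ^ 2 = ∑ i ∈ range (N + 1), φ.coeff i ^ 2 := by
        intro S hS
        symm
        refine Finset.sum_subset (fun x hx => ?_) (fun x _ hx => ?_)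
        · rw [Finset.mem_range] at hx ⊢; omega
        · rw [Finset.mem_range] at hx; rw [hcoef0 x (by omega)]; norm_num
      rcases Nat.eq_zero_or_pos n with hn | hn
      · refine Finset.sum_le_sum_of_subset_of_nonneg (fun x hx => ?_) (fun _ _ _ => sq_nonneg _)
        rw [Finset.mem_range] at hx ⊢; omega
      · rw [this (n + N) (by omega)]
    have e7 : (Real.sqrt (A * V) * T) ^ 2 = V * (A * T ^ 2) := by
      rw [mul_pow, Real.sq_sqrt (mul_nonneg hA0 hV)]; ring
    rw [e7]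
    have h2 := ((Dom.self_prob (ha.pow M)).mul key zero_le_one (ha.pos.pow _)).mul
      (Dom.self_prob (ha.pow M')) (by positivity) ((ha.pos.pow _).mul (ha.pos.pow _))
    rw [one_mul, mul_one, ← pow_add, ← pow_add] at h2
    exact h2
  · -- difference part
    have h3 : homL a N F (q * (1 - X) ^ r) = homL a (N - r) (homL a r F ((1 - X) ^ r)) q := by
      have e8 : N = (N - r) + r := by omega
      have hd : ((1 - X : ℝ[X]) ^ r).natDegree ≤ r := by
        refine le_trans (natDegree_pow_le) ?_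
        have : (1 - X : ℝ[X]).natDegree ≤ 1 := by
          refine le_trans (natDegree_sub_le _ _) ?_
          simp
        calc r * (1 - X : ℝ[X]).natDegree ≤ r * 1 := Nat.mul_le_mul_left _ this
          _ = r := mul_one r
      conv_lhs => rw [e8]
      exact homL_mul a hq hd F
    rw [h3, homL_conj]
    have h4 := Dom.homL ha hY hD q (N := N - r)
    have e9 : M + (n + r) + M' + (N - r) = M + (n + N) + M' := by omega
    rw [e9] at h4
    refine h4.mono ?_ (ha.pos.pow _)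
    have h5 : (∑ l ∈ range (N - r + 1), |q.coeff l|) * Y ≤ B * Y :=
      mul_le_mul_of_nonneg_right hB hY
    exact pow_le_pow_left₀ (mul_nonneg (Finset.sum_nonneg (fun _ _ => abs_nonneg _)) hY) h5 2

/-! ### Kernel polynomials -/

/-- `ℓ¹` norm of the coefficients -/
def pn1 (φ : ℝ[X]) : ℝ := φ.sum (fun _ c => |c|)

/-- squared `ℓ²` norm of the coefficients -/
def pn2 (φ : ℝ[X]) : ℝ := φ.sum (fun _ c => c ^ 2)

theorem pn1_eq {φ : ℝ[X]} {S : ℕ} (h : φ.natDegree < S) : pn1 φ = ∑ l ∈ range S, |φ.coeff l| :=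
  sum_over_range' φ (by simp) S h

theorem pn2_eq {φ : ℝ[X]} {S : ℕ} (h : φ.natDegree < S) : pn2 φ = ∑ l ∈ range S, φ.coeff l ^ 2 :=
  sum_over_range' φ (by simp) S h

theorem pn1_nonneg (φ : ℝ[X]) : 0 ≤ pn1 φ := by
  rw [pn1_eq (Nat.lt_succ_self _)]
  exact Finset.sum_nonneg (fun _ _ => abs_nonneg _)

theorem pn2_nonneg (φ : ℝ[X]) : 0 ≤ pn2 φ := by
  rw [pn2_eq (Nat.lt_succ_self _)]
  exact Finset.sum_nonneg (fun _ _ => sq_nonneg _)

theorem pn1_add (φ ψ : ℝ[X]) : pn1 (φ + ψ) ≤ pn1 φ + pn1 ψ := by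
  obtain ⟨S, hS1, hS2, hS3⟩ : ∃ S, φ.natDegree < S ∧ ψ.natDegree < S ∧ (φ + ψ).natDegree < S :=
    ⟨φ.natDegree + ψ.natDegree + (φ + ψ).natDegree + 1, by omega, by omega, by omega⟩
  rw [pn1_eq hS1, pn1_eq hS2, pn1_eq hS3, ← Finset.sum_add_distrib]
  refine Finset.sum_le_sum (fun l _ => ?_)
  rw [coeff_add]
  exact abs_add_le _ _

theorem sqrt_pn2_add (φ ψ : ℝ[X]) :
    Real.sqrt (pn2 (φ + ψ)) ≤ Real.sqrt (pn2 φ) + Real.sqrt (pn2 ψ) := by
  obtain ⟨S, hS1, hS2, hS3⟩ : ∃ S, φ.natDegree < S ∧ ψ.natDegree < S ∧ (φ + ψ).natDegree < S :=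
    ⟨φ.natDegree + ψ.natDegree + (φ + ψ).natDegree + 1, by omega, by omega, by omega⟩
  have hcs : (∑ l ∈ range S, φ.coeff l * ψ.coeff l) ≤ Real.sqrt (pn2 φ) * Real.sqrt (pn2 ψ) := by
    rw [pn2_eq hS1, pn2_eq hS2]
    exact Real.sum_mul_le_sqrt_mul_sqrt _ _ _
  apply Real.sqrt_le_iff.mpr
  refine ⟨by positivity, ?_⟩
  have e : pn2 (φ + ψ) = pn2 φ + 2 * (∑ l ∈ range S, φ.coeff l * ψ.coeff l) + pn2 ψ := by
    rw [pn2_eq hS1, pn2_eq hS2, pn2_eq hS3, Finset.mul_sum, ← Finset.sum_add_distrib,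
      ← Finset.sum_add_distrib]
    refine Finset.sum_congr rfl (fun l _ => ?_)
    rw [coeff_add]; ring
  have h1 := Real.sq_sqrt (pn2_nonneg φ)
  have h2 := Real.sq_sqrt (pn2_nonneg ψ)
  rw [e]
  nlinarith

theorem pn2_mul (φ ψ : ℝ[X]) : pn2 (φ * ψ) ≤ pn1 φ ^ 2 * pn2 ψ := by
  obtain ⟨S, hS1, hS2, hS3⟩ : ∃ S, φ.natDegree < S ∧ ψ.natDegree < S ∧ (φ * ψ).natDegree < S :=
    ⟨φ.natDegree + ψ.natDegree + (φ * ψ).natDegree + 1, by omega, by omega, by omega⟩
  have h1 := young (fun k => |φ.coeff k|) (fun k => |ψ.coeff k|) (fun _ => abs_nonneg _) S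
  rw [← pn1_eq hS1] at h1
  simp only [sq_abs] at h1
  rw [← pn2_eq hS2] at h1
  refine le_trans ?_ h1
  rw [pn2_eq hS3]
  refine Finset.sum_le_sum (fun s _ => ?_)
  rw [coeff_mul, Finset.Nat.sum_antidiagonal_eq_sum_range_succ (fun i j => φ.coeff i * ψ.coeff j)]
  refine sq_le_sq' ?_ ?_
  · have := Finset.sum_le_sum (s := range (s + 1))
      (f := fun k => -(|φ.coeff k| * |ψ.coeff (s - k)|)) (g := fun k => φ.coeff k * ψ.coeff (s - k))
      (fun k _ => by
        have := neg_abs_le (φ.coeff k * ψ.coeff (s - k))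
        rwa [abs_mul] at this)
    rw [Finset.sum_neg_distrib] at this
    exact this
  · refine Finset.sum_le_sum (fun k _ => ?_)
    have := le_abs_self (φ.coeff k * ψ.coeff (s - k))
    rwa [abs_mul] at this

theorem pn1_mul (φ ψ : ℝ[X]) : pn1 (φ * ψ) ≤ pn1 φ * pn1 ψ := by
  obtain ⟨S, hS1, hS2, hS3⟩ : ∃ S, φ.natDegree < S ∧ ψ.natDegree < S ∧ (φ * ψ).natDegree < S :=
    ⟨φ.natDegree + ψ.natDegree + (φ * ψ).natDegree + 1, by omega, by omega, by omega⟩
  rw [pn1_eq hS3]
  have h1 : ∀ s ∈ range S, |(φ * ψ).coeff s| ≤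
      ∑ k ∈ range (s + 1), |φ.coeff k| * |ψ.coeff (s - k)| := by
    intro s _
    rw [coeff_mul, Finset.Nat.sum_antidiagonal_eq_sum_range_succ (fun i j => φ.coeff i * ψ.coeff j)]
    refine le_trans (Finset.abs_sum_le_sum_abs _ _) (le_of_eq ?_)
    refine Finset.sum_congr rfl (fun k _ => abs_mul _ _)
  refine le_trans (Finset.sum_le_sum h1) ?_
  rw [Finset.sum_range_diag_flip S (fun k j => |φ.coeff k| * |ψ.coeff j|), pn1_eq hS1, pn1_eq hS2,
    Finset.sum_mul]
  refine Finset.sum_le_sum (fun m _ => ?_)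
  rw [← Finset.mul_sum]
  refine mul_le_mul_of_nonneg_left ?_ (abs_nonneg _)
  refine Finset.sum_le_sum_of_subset_of_nonneg (fun k hk => ?_) (fun k _ _ => abs_nonneg _)
  rw [Finset.mem_range] at hk ⊢
  omega

theorem pn1_one : pn1 (1 : ℝ[X]) = 1 := by
  rw [pn1_eq (S := 1) (by simp)]
  simp

theorem pn1_pow (φ : ℝ[X]) (r : ℕ) : pn1 (φ ^ r) ≤ pn1 φ ^ r := by
  induction r with
  | zero => rw [pow_zero, pow_zero, pn1_one]
  | succ r ih =>
    rw [pow_succ, pow_succ]
    exact le_trans (pn1_mul _ _) (mul_le_mul_of_nonneg_right ih (pn1_nonneg _))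

theorem pn1_neg (φ : ℝ[X]) : pn1 (-φ) = pn1 φ := by
  rw [pn1_eq (S := φ.natDegree + 1) (by rw [natDegree_neg]; omega),
    pn1_eq (S := φ.natDegree + 1) (by omega)]
  simp

theorem pn1_sub (φ ψ : ℝ[X]) : pn1 (φ - ψ) ≤ pn1 φ + pn1 ψ := by
  rw [sub_eq_add_neg]
  exact le_trans (pn1_add _ _) (by rw [pn1_neg])

/-- averaging kernel of window `J` -/
def avgK (J : ℕ) : ℝ[X] := ((1 : ℝ) / J) • ∑ l ∈ range J, X ^ l

/-- `1 - avgK J = (1 - X) * quoK J` -/
def quoK (J : ℕ) : ℝ[X] := ((1 : ℝ) / J) • ∑ l ∈ range J, ∑ i ∈ range l, X ^ i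

theorem avgK_coeff (J i : ℕ) : (avgK J).coeff i = if i < J then (1 : ℝ) / J else 0 := by
  unfold avgK
  rw [coeff_smul, finsetSum_coeff]
  simp only [coeff_X_pow, smul_eq_mul]
  rw [Finset.sum_ite_eq]
  simp only [Finset.mem_range, mul_ite, mul_one, mul_zero]

theorem avgK_natDegree (J : ℕ) : (avgK J).natDegree ≤ J - 1 := by
  rw [natDegree_le_iff_coeff_eq_zero]
  intro i hi
  rw [avgK_coeff, if_neg (by omega)]

theorem avgK_pn1 {J : ℕ} (hJ : 0 < J) : pn1 (avgK J) = 1 := by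
  rw [pn1_eq (S := J) (by have := avgK_natDegree J; omega)]
  have : ∀ l ∈ range J, |(avgK J).coeff l| = (1 : ℝ) / J := by
    intro l hl
    rw [Finset.mem_range] at hl
    rw [avgK_coeff, if_pos hl, abs_of_nonneg (by positivity)]
  rw [Finset.sum_congr rfl this, Finset.sum_const, card_range, nsmul_eq_mul]
  field_simp

theorem avgK_pn2 {J : ℕ} (hJ : 0 < J) : pn2 (avgK J) = 1 / J := by
  rw [pn2_eq (S := J) (by have := avgK_natDegree J; omega)]
  have : ∀ l ∈ range J, (avgK J).coeff l ^ 2 = ((1 : ℝ) / J) ^ 2 := by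
    intro l hl
    rw [Finset.mem_range] at hl
    rw [avgK_coeff, if_pos hl]
  rw [Finset.sum_congr rfl this, Finset.sum_const, card_range, nsmul_eq_mul]
  field_simp

theorem one_sub_avgK {J : ℕ} (hJ : 0 < J) : 1 - avgK J = quoK J * (1 - X) := by
  unfold avgK quoK
  have h1 : (1 : ℝ[X]) = ((1 : ℝ) / J) • ∑ l ∈ range J, (1 : ℝ[X]) := by
    rw [Finset.sum_const, card_range, nsmul_eq_mul, mul_one]
    rw [smul_eq_C_mul]
    have : (J : ℝ[X]) = C (J : ℝ) := by simp
    rw [this, ← C_mul]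
    have hJ' : (J : ℝ) ≠ 0 := by positivity
    rw [one_div_mul_cancel hJ', C_1]
  conv_lhs => rw [h1]
  rw [← smul_sub, ← Finset.sum_sub_distrib, smul_mul_assoc, Finset.sum_mul]
  congr 1
  refine Finset.sum_congr rfl (fun l _ => ?_)
  have := geom_sum_mul_neg (X : ℝ[X]) l
  rw [this]

theorem quoK_pn1 {J : ℕ} (hJ : 0 < J) : pn1 (quoK J) ≤ J / 2 := by
  have hsum : ∀ (s : Finset ℕ) (f : ℕ → ℝ[X]), pn1 (∑ l ∈ s, f l) ≤ ∑ l ∈ s, pn1 (f l) := by
    intro s f
    classical
    induction s using Finset.induction_on with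
    | empty =>
      rw [Finset.sum_empty, Finset.sum_empty]
      have : pn1 (0 : ℝ[X]) = 0 := by unfold pn1; simp
      rw [this]
    | insert a s ha ih =>
      rw [Finset.sum_insert ha, Finset.sum_insert ha]
      exact le_trans (pn1_add _ _) (by linarith)
  have hX : ∀ i : ℕ, pn1 (X ^ i : ℝ[X]) ≤ 1 := by
    intro i
    rw [pn1_eq (S := i + 1) (by rw [natDegree_X_pow]; omega)]
    rw [Finset.sum_eq_single i]
    · simp
    · intro b _ hb
      rw [coeff_X_pow, if_neg hb, abs_zero]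
    · intro h; exact absurd (Finset.mem_range.mpr (by omega)) h
  have h1 : pn1 (quoK J) ≤ (1 / (J : ℝ)) * pn1 (∑ l ∈ range J, ∑ i ∈ range l, (X ^ i : ℝ[X])) := by
    unfold quoK
    rw [smul_eq_C_mul]
    refine le_trans (pn1_mul _ _) ?_
    refine mul_le_mul_of_nonneg_right ?_ (pn1_nonneg _)
    rw [pn1_eq (S := 1) (by rw [natDegree_C]; omega)]
    simp
  refine le_trans h1 ?_
  have h2 : pn1 (∑ l ∈ range J, ∑ i ∈ range l, (X ^ i : ℝ[X])) ≤ ∑ l ∈ range J, (l : ℝ) := by
    refine le_trans (hsum _ _) (Finset.sum_le_sum (fun l _ => ?_))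
    refine le_trans (hsum _ _) (le_trans (Finset.sum_le_sum (fun i _ => hX i)) ?_)
    simp
  have h3 : ∑ l ∈ range J, (l : ℝ) = J * (J - 1) / 2 := by
    have : ∀ n : ℕ, ∑ l ∈ range n, (l : ℝ) = n * (n - 1) / 2 := by
      intro n
      induction n with
      | zero => simp
      | succ n ih => rw [Finset.sum_range_succ, ih]; push_cast; ring
    exact this J
  rw [h3] at h2
  have hJ' : (0 : ℝ) < J := by exact_mod_cast hJ
  calc (1 / (J : ℝ)) * pn1 (∑ l ∈ range J, ∑ i ∈ range l, (X ^ i : ℝ[X]))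
      ≤ (1 / (J : ℝ)) * (J * (J - 1) / 2) := mul_le_mul_of_nonneg_left h2 (by positivity)
    _ = (J - 1) / 2 := by field_simp
    _ ≤ J / 2 := by linarith

theorem quoK_natDegree (J : ℕ) : (quoK J).natDegree ≤ J - 2 := by
  rw [natDegree_le_iff_coeff_eq_zero]
  intro i hi
  unfold quoK
  rw [coeff_smul, finsetSum_coeff]
  simp only [finsetSum_coeff, coeff_X_pow, smul_eq_mul]
  rw [Finset.sum_eq_zero, mul_zero]
  intro l hl
  rw [Finset.mem_range] at hl
  rw [Finset.sum_ite_eq, if_neg]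
  rw [Finset.mem_range]
  omega

theorem kern_natDegree_one_sub_X_pow (r : ℕ) : ((1 - X : ℝ[X]) ^ r).natDegree ≤ r := by
  refine le_trans (natDegree_pow_le) ?_
  have : (1 - X : ℝ[X]).natDegree ≤ 1 := by
    refine le_trans (natDegree_sub_le _ _) ?_
    simp
  calc r * (1 - X : ℝ[X]).natDegree ≤ r * 1 := Nat.mul_le_mul_left _ this
    _ = r := mul_one r

/-- `1 - (1 - P)^r` for a kernel `P` -/
def phiK (P : ℝ[X]) (r : ℕ) : ℝ[X] := 1 - (1 - P) ^ r

theorem phiK_natDegree {P : ℝ[X]} {d : ℕ} (hP : P.natDegree ≤ d) (r : ℕ) :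
    (phiK P r).natDegree ≤ r * d := by
  unfold phiK
  refine le_trans (natDegree_sub_le _ _) ?_
  rw [natDegree_one]
  refine max_le (Nat.zero_le _) ?_
  refine le_trans (natDegree_pow_le) (Nat.mul_le_mul_left _ ?_)
  refine le_trans (natDegree_sub_le _ _) ?_
  rw [natDegree_one]
  exact max_le (Nat.zero_le _) hP

/-- `ℓ²` bound for `D * (1 - (1-P)^r)` -/
theorem phiK_pn2 {P D : ℝ[X]} {x : ℝ} (h1 : pn1 (1 - P) ≤ 2)
    (h2 : Real.sqrt (pn2 (D * P)) ≤ x) (r : ℕ) :
    Real.sqrt (pn2 (D * phiK P r)) ≤ (2 ^ r - 1) * x := by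
  have hx : 0 ≤ x := le_trans (Real.sqrt_nonneg _) h2
  induction r with
  | zero =>
    have : pn2 (D * phiK P 0) = 0 := by
      unfold phiK pn2; simp
    rw [this]; simp
  | succ r ih =>
    have e : D * phiK P (r + 1) = D * phiK P r + (1 - P) ^ r * (D * P) := by
      unfold phiK; ring
    rw [e]
    refine le_trans (sqrt_pn2_add _ _) ?_
    have h3 : Real.sqrt (pn2 ((1 - P) ^ r * (D * P))) ≤ 2 ^ r * x := by
      have h4 : pn2 ((1 - P) ^ r * (D * P)) ≤ (2 ^ r) ^ 2 * pn2 (D * P) := by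
        refine le_trans (pn2_mul _ _) (mul_le_mul_of_nonneg_right ?_ (pn2_nonneg _))
        refine pow_le_pow_left₀ (pn1_nonneg _) ?_ 2
        exact le_trans (pn1_pow _ _) (pow_le_pow_left₀ (pn1_nonneg _) h1 _)
      calc Real.sqrt (pn2 ((1 - P) ^ r * (D * P))) ≤ Real.sqrt ((2 ^ r) ^ 2 * pn2 (D * P)) :=
            Real.sqrt_le_sqrt h4
        _ = 2 ^ r * Real.sqrt (pn2 (D * P)) := by
            rw [Real.sqrt_mul (by positivity), Real.sqrt_sq (by positivity)]
        _ ≤ 2 ^ r * x := mul_le_mul_of_nonneg_left h2 (by positivity)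
    rw [pow_succ]
    nlinarith

theorem phiK_avg_pn2 {J : ℕ} (hJ : 0 < J) (r : ℕ) : pn2 (phiK (avgK J) r) ≤ 4 ^ r / J := by
  have h1 : pn1 (1 - avgK J) ≤ 2 := by
    refine le_trans (pn1_sub _ _) ?_
    rw [pn1_one, avgK_pn1 hJ]; norm_num
  have h2 : Real.sqrt (pn2 (1 * avgK J)) ≤ Real.sqrt (1 / J) := by
    rw [one_mul, avgK_pn2 hJ]
  have h3 := phiK_pn2 h1 h2 r
  rw [one_mul] at h3
  have h4 : Real.sqrt (pn2 (phiK (avgK J) r)) ≤ 2 ^ r * Real.sqrt (1 / J) :=
    le_trans h3 (mul_le_mul_of_nonneg_right (by linarith [show (0:ℝ) ≤ 1 from zero_le_one])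
      (Real.sqrt_nonneg _))
  have h5 := Real.sq_sqrt (pn2_nonneg (phiK (avgK J) r))
  rw [← h5]
  calc Real.sqrt (pn2 (phiK (avgK J) r)) ^ 2 ≤ (2 ^ r * Real.sqrt (1 / J)) ^ 2 :=
        pow_le_pow_left₀ (Real.sqrt_nonneg _) h4 2
    _ = 4 ^ r / J := by
        rw [mul_pow, Real.sq_sqrt (by positivity), ← pow_mul, mul_comm r 2, pow_mul]
        norm_num
        ring

theorem phiK_avg_sq_pn2 {J : ℕ} (hJ : 0 < J) (r : ℕ) :
    pn2 ((1 - X) * phiK (avgK J ^ 2) r) ≤ 4 ^ (r + 1) / (J : ℝ) ^ 3 := by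
  have hJ' : (0 : ℝ) < J := by exact_mod_cast hJ
  have h1 : pn1 (1 - avgK J ^ 2) ≤ 2 := by
    refine le_trans (pn1_sub _ _) ?_
    have := pn1_pow (avgK J) 2
    rw [avgK_pn1 hJ, one_pow] at this
    rw [pn1_one]; linarith
  have hgeom : (1 - X) * avgK J = ((1 : ℝ) / J) • (1 - X ^ J) := by
    unfold avgK
    rw [mul_smul_comm, mul_neg_geom_sum]
  have hn1 : pn1 ((1 - X) * avgK J) ≤ 2 / J := by
    rw [hgeom, smul_eq_C_mul]
    refine le_trans (pn1_mul _ _) ?_
    have e1 : pn1 (C ((1 : ℝ) / J)) = 1 / J := by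
      rw [pn1_eq (S := 1) (by rw [natDegree_C]; omega)]
      simp
    have e2 : pn1 (1 - X ^ J : ℝ[X]) ≤ 2 := by
      refine le_trans (pn1_sub _ _) ?_
      have hX : pn1 (X ^ J : ℝ[X]) ≤ 1 := by
        rw [pn1_eq (S := J + 1) (by rw [natDegree_X_pow]; omega)]
        rw [Finset.sum_eq_single J]
        · simp
        · intro b _ hb
          rw [coeff_X_pow, if_neg hb, abs_zero]
        · intro h; exact absurd (Finset.mem_range.mpr (by omega)) h
      rw [pn1_one]; linarith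
    rw [e1]
    calc 1 / (J : ℝ) * pn1 (1 - X ^ J : ℝ[X]) ≤ 1 / (J : ℝ) * 2 :=
          mul_le_mul_of_nonneg_left e2 (by positivity)
      _ = 2 / J := by ring
  have h2 : Real.sqrt (pn2 ((1 - X) * avgK J ^ 2)) ≤ 2 / J * Real.sqrt (1 / J) := by
    have e : (1 - X) * avgK J ^ 2 = ((1 - X) * avgK J) * avgK J := by ring
    rw [e]
    have h3 : pn2 (((1 - X) * avgK J) * avgK J) ≤ (2 / J) ^ 2 * (1 / J) := by
      refine le_trans (pn2_mul _ _) ?_
      rw [avgK_pn2 hJ]
      refine mul_le_mul_of_nonneg_right ?_ (by positivity)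
      exact pow_le_pow_left₀ (pn1_nonneg _) hn1 2
    calc Real.sqrt (pn2 (((1 - X) * avgK J) * avgK J)) ≤ Real.sqrt ((2 / J) ^ 2 * (1 / J)) :=
          Real.sqrt_le_sqrt h3
      _ = 2 / J * Real.sqrt (1 / J) := by
          rw [Real.sqrt_mul (by positivity), Real.sqrt_sq (by positivity)]
  have h3 := phiK_pn2 h1 h2 r
  have h4 : Real.sqrt (pn2 ((1 - X) * phiK (avgK J ^ 2) r)) ≤
      2 ^ r * (2 / J * Real.sqrt (1 / J)) :=
    le_trans h3 (mul_le_mul_of_nonneg_right (by linarith [show (0:ℝ) ≤ 1 from zero_le_one])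
      (by positivity))
  have h5 := Real.sq_sqrt (pn2_nonneg ((1 - X) * phiK (avgK J ^ 2) r))
  rw [← h5]
  calc Real.sqrt (pn2 ((1 - X) * phiK (avgK J ^ 2) r)) ^ 2
      ≤ (2 ^ r * (2 / J * Real.sqrt (1 / J))) ^ 2 :=
        pow_le_pow_left₀ (Real.sqrt_nonneg _) h4 2
    _ = 4 ^ (r + 1) / (J : ℝ) ^ 3 := by
        rw [mul_pow, mul_pow, Real.sq_sqrt (by positivity), ← pow_mul, mul_comm r 2, pow_mul,
          pow_succ]
        field_simp
        norm_num
        ring

/-- one_sub of `phiK` for the averaging kernel -/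
theorem one_eq_phiK_avg {J : ℕ} (hJ : 0 < J) (r : ℕ) :
    (1 : ℝ[X]) = phiK (avgK J) r + quoK J ^ r * (1 - X) ^ r := by
  unfold phiK
  rw [one_sub_avgK hJ, mul_pow]; ring

theorem deriv_eq_phiK_avg {J : ℕ} (hJ : 0 < J) (r : ℕ) :
    (1 - X : ℝ[X]) = (1 - X) * phiK (avgK J ^ 2) r +
      (quoK J ^ r * (1 + avgK J) ^ r) * (1 - X) ^ (r + 1) := by
  unfold phiK
  have : 1 - avgK J ^ 2 = quoK J * (1 - X) * (1 + avgK J) := by
    rw [← one_sub_avgK hJ]; ring
  rw [this, mul_pow, mul_pow]; ring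

theorem quoK_pow_pn1 {J : ℕ} (hJ : 0 < J) (r : ℕ) : pn1 (quoK J ^ r) ≤ ((J : ℝ) / 2) ^ r :=
  le_trans (pn1_pow _ _) (pow_le_pow_left₀ (pn1_nonneg _) (quoK_pn1 hJ) r)

theorem quoK_pow_natDegree (J r : ℕ) : (quoK J ^ r).natDegree ≤ r * (J - 2) :=
  le_trans (natDegree_pow_le) (Nat.mul_le_mul_left _ (quoK_natDegree J))

/-- common part of the two location gain lemmas: no derivative -/
theorem locGain_aux {a Δ : MA G} (ha : Prob a) (hΔ0 : mass Δ = 0) {V : ℝ} (hV : 0 ≤ V)
    (hΔ : Dom V a Δ) {n M M' r J : ℕ} (hJ : 2 ≤ J)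
    {H : ℕ → MA G} {g : ℕ → ℝ} (hg : ∀ p < n, 0 ≤ g p)
    (hH : ∀ p < n, Dom (g p ^ 2) (a ^ (n - 1 - p)) (H p))
    {F : MA G} (hF : F = ∑ p ∈ range n, a ^ p * Δ * H p)
    {T Y : ℝ} (hT0 : 0 ≤ T)
    (hT : ∀ u v : ℕ → ℝ, (∀ i, 0 ≤ u i) → (∀ i, r * (J - 1) < i → u i = 0) →
      (∀ i, n ≤ i → v i = 0) → (∀ i < n, v i = g i) →
      ∑ s ∈ range (n + r * (J - 1)), (∑ k ∈ range (s + 1), u k * v (s - k)) ^ 2 ≤
        (∑ i ∈ range (n + r * (J - 1)), u i ^ 2) * T ^ 2)
    (hY : 0 ≤ Y)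
    (hD : Dom (Y ^ 2) (a ^ (M + (n + r) + M')) (a ^ M * homL a r F ((1 - X) ^ r) * a ^ M')) :
    Dom ((2 ^ r * Real.sqrt (V / J) * T + ((J : ℝ) / 2) ^ r * Y) ^ 2)
      (a ^ (M + (n + r * (J - 1)) + M')) (a ^ M * F * a ^ (r * (J - 1) + M')) := by
  have hJ0 : 0 < J := by omega
  have hdφ : (phiK (avgK J) r).natDegree ≤ r * (J - 1) := phiK_natDegree (avgK_natDegree J) r
  have hr : r ≤ r * (J - 1) := Nat.le_mul_of_pos_right r (by omega)
  have hdq : (quoK J ^ r).natDegree ≤ r * (J - 1) - r := by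
    refine le_trans (quoK_pow_natDegree J r) ?_
    have : r * (J - 1) = r * (J - 2) + r := by
      have : J - 1 = (J - 2) + 1 := by omega
      rw [this]; ring
    omega
  have h := locGain_gen ha hΔ0 hV hΔ (M := M) (M' := M') (one_eq_phiK_avg hJ0 r) hdφ hr hdq hg hH hF
    (A := 4 ^ r / J) (B := ((J : ℝ) / 2) ^ r)
    (by rw [← pn2_eq (by omega)]; exact phiK_avg_pn2 hJ0 r) hT0 hT
    (by rw [← pn1_eq (by omega)]; exact quoK_pow_pn1 hJ0 r) hY hD
  have e1 : Real.sqrt (4 ^ r / (J : ℝ) * V) = 2 ^ r * Real.sqrt (V / J) := by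
    have : (4 : ℝ) ^ r / (J : ℝ) * V = (2 ^ r) ^ 2 * (V / J) := by
      rw [← pow_mul, mul_comm r 2, pow_mul]; norm_num; ring
    rw [this, Real.sqrt_mul (by positivity), Real.sqrt_sq (by positivity)]
  rw [e1, homL_one] at h
  have e2 : a ^ M * (F * a ^ (r * (J - 1))) * a ^ M' = a ^ M * F * a ^ (r * (J - 1) + M') := by
    rw [pow_add]; simp only [mul_assoc]
  rwa [e2] at h

/-- **Location gain** (blueprint LG): a first-mark sum `F = ∑ a^p Δ H_p`, flanked by powers of `a`,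
gains a factor `J^{-1/2}`; `Y` is the norm of the `r`-th difference. -/
theorem locGain {a Δ : MA G} (ha : Prob a) (hΔ0 : mass Δ = 0) {V : ℝ} (hV : 0 ≤ V)
    (hΔ : Dom V a Δ) {n M M' r J : ℕ} (hJ : 2 ≤ J)
    {H : ℕ → MA G} {g : ℕ → ℝ} (hg : ∀ p < n, 0 ≤ g p)
    (hH : ∀ p < n, Dom (g p ^ 2) (a ^ (n - 1 - p)) (H p))
    {F : MA G} (hF : F = ∑ p ∈ range n, a ^ p * Δ * H p) {Y : ℝ} (hY : 0 ≤ Y)
    (hD : Dom (Y ^ 2) (a ^ (M + (n + r) + M')) (a ^ M * homL a r F ((1 - X) ^ r) * a ^ M')) :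
    Dom ((2 ^ r * Real.sqrt (V / J) * (∑ p ∈ range n, g p) + ((J : ℝ) / 2) ^ r * Y) ^ 2)
      (a ^ (M + (n + r * (J - 1)) + M')) (a ^ M * F * a ^ (r * (J - 1) + M')) := by
  refine locGain_aux ha hΔ0 hV hΔ hJ hg hH hF (Finset.sum_nonneg (fun p hp => ?_)) ?_ hY hD
  · rw [Finset.mem_range] at hp; exact hg p hp
  · intro u v hu _ hv0 hv
    have h1 := young v u (fun i => by
      by_cases hi : i < n
      · rw [hv i hi]; exact hg i hi
      · rw [hv0 i (by omega)]) (n + r * (J - 1))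
    have h2 : ∑ i ∈ range (n + r * (J - 1)), v i = ∑ p ∈ range n, g p := by
      rw [← Finset.sum_congr rfl (fun p hp => hv p (Finset.mem_range.mp hp))]
      symm
      refine Finset.sum_subset (fun x hx => ?_) (fun x _ hx => ?_)
      · rw [Finset.mem_range] at hx ⊢; omega
      · rw [Finset.mem_range] at hx; exact hv0 x (by omega)
    rw [h2] at h1
    rw [mul_comm (∑ i ∈ range (n + r * (J - 1)), u i ^ 2)]
    refine le_trans (le_of_eq ?_) h1
    refine Finset.sum_congr rfl (fun s _ => ?_)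
    congr 1
    rw [← Finset.sum_range_reflect]
    refine Finset.sum_congr rfl (fun k hk => ?_)
    rw [Finset.mem_range] at hk
    have e1 : s + 1 - 1 - k = s - k := by omega
    have e2 : s - (s - k) = k := by omega
    rw [e1, e2, mul_comm]

/-- Location gain with spaced positions: `ℓ²` norm of the weights instead of `ℓ¹`. -/
theorem locGain_spaced {a Δ : MA G} (ha : Prob a) (hΔ0 : mass Δ = 0) {V : ℝ} (hV : 0 ≤ V)
    (hΔ : Dom V a Δ) {n M M' r J : ℕ} (hJ : 2 ≤ J)
    {H : ℕ → MA G} {g : ℕ → ℝ} (hg : ∀ p < n, 0 ≤ g p)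
    (hsp : ∀ i j, i < j → j < n → g i ≠ 0 → g j ≠ 0 → r * (J - 1) < j - i)
    (hH : ∀ p < n, Dom (g p ^ 2) (a ^ (n - 1 - p)) (H p))
    {F : MA G} (hF : F = ∑ p ∈ range n, a ^ p * Δ * H p) {Y : ℝ} (hY : 0 ≤ Y)
    (hD : Dom (Y ^ 2) (a ^ (M + (n + r) + M')) (a ^ M * homL a r F ((1 - X) ^ r) * a ^ M')) :
    Dom ((2 ^ r * Real.sqrt (V / J) * Real.sqrt (∑ p ∈ range n, g p ^ 2) +
      ((J : ℝ) / 2) ^ r * Y) ^ 2)
      (a ^ (M + (n + r * (J - 1)) + M')) (a ^ M * F * a ^ (r * (J - 1) + M')) := by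
  refine locGain_aux ha hΔ0 hV hΔ hJ hg hH hF (Real.sqrt_nonneg _) ?_ hY hD
  intro u v _ hu0 hv0 hv
  rw [Real.sq_sqrt (Finset.sum_nonneg (fun _ _ => sq_nonneg _))]
  have h1 := young_spaced u v (n + r * (J - 1)) (r * (J - 1)) hu0 (fun i j hij hi hj => by
    have hjn : j < n := by
      by_contra h; exact hj (hv0 j (by omega))
    have hin : i < n := by omega
    rw [hv i hin] at hi
    rw [hv j hjn] at hj
    exact hsp i j hij hjn hi hj)
  have h2 : ∑ i ∈ range (n + r * (J - 1)), v i ^ 2 = ∑ p ∈ range n, g p ^ 2 := by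
    rw [← Finset.sum_congr rfl (fun p hp => by rw [hv p (Finset.mem_range.mp hp)] :
      ∀ p ∈ range n, v p ^ 2 = g p ^ 2)]
    symm
    refine Finset.sum_subset (fun x hx => ?_) (fun x _ hx => ?_)
    · rw [Finset.mem_range] at hx ⊢; omega
    · rw [Finset.mem_range] at hx; rw [hv0 x (by omega)]; norm_num
  rw [← h2]
  exact h1

/-- Location gain with one derivative (base case): gain `J^{-3/2}`. -/
theorem locGain_deriv {a Δ : MA G} (ha : Prob a) (hΔ0 : mass Δ = 0) {V : ℝ} (hV : 0 ≤ V)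
    (hΔ : Dom V a Δ) {M M' r J : ℕ} (hJ : 2 ≤ J) {Y : ℝ} (hY : 0 ≤ Y)
    (hD : Dom (Y ^ 2) (a ^ (M + (1 + (r + 1)) + M'))
      (a ^ M * homL a (r + 1) Δ ((1 - X) ^ (r + 1)) * a ^ M')) :
    Dom ((2 ^ (r + 1) * Real.sqrt (V / (J : ℝ) ^ 3) + (J : ℝ) ^ r * Y) ^ 2)
      (a ^ (M + (1 + (2 * r * (J - 1) + 1)) + M'))
      (a ^ M * (Δ * a - a * Δ) * a ^ (2 * r * (J - 1) + M')) := by
  have hJ0 : 0 < J := by omega
  set N := 2 * r * (J - 1) + 1 with hN
  have hd2 : (avgK J ^ 2).natDegree ≤ 2 * (J - 1) :=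
    le_trans (natDegree_pow_le) (Nat.mul_le_mul_left _ (avgK_natDegree J))
  have hdφ : ((1 - X) * phiK (avgK J ^ 2) r).natDegree ≤ N := by
    refine le_trans natDegree_mul_le ?_
    have h1 := kern_natDegree_one_sub_X_pow 1
    rw [pow_one] at h1
    have h2 := phiK_natDegree hd2 r
    have h3 : r * (2 * (J - 1)) = 2 * r * (J - 1) := by ring
    omega
  have hrr : r + 1 ≤ N := by
    have : r ≤ 2 * r * (J - 1) := by
      calc r ≤ r * (2 * (J - 1)) := Nat.le_mul_of_pos_right r (by omega)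
        _ = 2 * r * (J - 1) := by ring
    omega
  have hdq : (quoK J ^ r * (1 + avgK J) ^ r).natDegree ≤ N - (r + 1) := by
    refine le_trans natDegree_mul_le ?_
    have h1 := quoK_pow_natDegree J r
    have h2 : ((1 + avgK J) ^ r).natDegree ≤ r * (J - 1) := by
      refine le_trans (natDegree_pow_le) (Nat.mul_le_mul_left _ ?_)
      refine le_trans (natDegree_add_le _ _) ?_
      rw [natDegree_one]
      exact max_le (Nat.zero_le _) (avgK_natDegree J)
    have e1 : r * (J - 1) = r * (J - 2) + r := by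
      have : J - 1 = (J - 2) + 1 := by omega
      rw [this]; ring
    have e2 : 2 * r * (J - 1) = r * (J - 1) + r * (J - 1) := by ring
    omega
  have hq1 : pn1 (quoK J ^ r * (1 + avgK J) ^ r) ≤ (J : ℝ) ^ r := by
    refine le_trans (pn1_mul _ _) ?_
    have h1 := quoK_pow_pn1 hJ0 r
    have h2 : pn1 ((1 + avgK J) ^ r) ≤ 2 ^ r := by
      refine le_trans (pn1_pow _ _) (pow_le_pow_left₀ (pn1_nonneg _) ?_ r)
      refine le_trans (pn1_add _ _) ?_
      rw [pn1_one, avgK_pn1 hJ0]; norm_num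
    calc pn1 (quoK J ^ r) * pn1 ((1 + avgK J) ^ r) ≤ ((J : ℝ) / 2) ^ r * 2 ^ r :=
          mul_le_mul h1 h2 (pn1_nonneg _) (by positivity)
      _ = (J : ℝ) ^ r := by rw [← mul_pow]; congr 1; ring
  have hF : Δ = ∑ p ∈ range 1, a ^ p * Δ * (fun _ => (1 : MA G)) p := by simp
  have h := locGain_gen ha hΔ0 hV hΔ (n := 1) (M := M) (M' := M') (deriv_eq_phiK_avg hJ0 r) hdφ hrr
    hdq (g := fun _ => 1) (fun _ _ => zero_le_one)
    (fun p hp => by
      have : p = 0 := by omega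
      subst this
      simp only [Nat.sub_self, pow_zero, one_pow]
      exact Dom.self_prob Prob.one') hF
    (A := 4 ^ (r + 1) / (J : ℝ) ^ 3) (B := (J : ℝ) ^ r) (T := 1)
    (by rw [← pn2_eq (by omega)]; exact phiK_avg_sq_pn2 hJ0 r) zero_le_one
    (by
      intro u v hu _ hv0 hv
      have h1 := young v u (fun i => by
        by_cases hi : i < 1
        · rw [hv i hi]; exact zero_le_one
        · rw [hv0 i (by omega)]) (1 + N)
      have h2 : ∑ i ∈ range (1 + N), v i = 1 := by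
        rw [Finset.sum_eq_single 0]
        · exact hv 0 (by omega)
        · intro b _ hb; exact hv0 b (by omega)
        · intro h; exact absurd (Finset.mem_range.mpr (by omega)) h
      rw [h2, one_pow, one_mul] at h1
      rw [one_pow, mul_one]
      refine le_trans (le_of_eq ?_) h1
      refine Finset.sum_congr rfl (fun s _ => ?_)
      congr 1
      rw [← Finset.sum_range_reflect]
      refine Finset.sum_congr rfl (fun k hk => ?_)
      rw [Finset.mem_range] at hk
      have e1 : s + 1 - 1 - k = s - k := by omega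
      have e2 : s - (s - k) = k := by omega
      rw [e1, e2, mul_comm])
    (by rw [← pn1_eq (by omega)]; exact hq1) hY hD
  have e1 : Real.sqrt (4 ^ (r + 1) / (J : ℝ) ^ 3 * V) = 2 ^ (r + 1) * Real.sqrt (V / (J : ℝ) ^ 3) := by
    have : (4 : ℝ) ^ (r + 1) / (J : ℝ) ^ 3 * V = (2 ^ (r + 1)) ^ 2 * (V / (J : ℝ) ^ 3) := by
      rw [← pow_mul, mul_comm (r + 1) 2, pow_mul]; norm_num; ring
    rw [this, Real.sqrt_mul (by positivity), Real.sqrt_sq (by positivity)]
  have e2 : homL a N Δ (1 - X) = (Δ * a - a * Δ) * a ^ (2 * r * (J - 1)) := by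
    rw [map_sub, homL_one]
    have := homL_X_pow a (N := N) (i := 1) (by omega) Δ
    rw [pow_one, pow_one] at this
    rw [this, hN, Nat.add_sub_cancel, sub_mul, pow_succ']
    simp only [mul_assoc]
  rw [e1, e2, mul_one] at h
  have e3 : a ^ M * ((Δ * a - a * Δ) * a ^ (2 * r * (J - 1))) * a ^ M' =
      a ^ M * (Δ * a - a * Δ) * a ^ (2 * r * (J - 1) + M') := by
    rw [pow_add]; simp only [mul_assoc]
  rwa [e3] at h

end

end Crest.Agent.R300LB
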