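import Crest.Agent.R300.LBPlan
import Crest.Agent.R300.LBLocGain
import Crest.Agent.R300.LBCoin

/-!
# Row 300, lower bounds, piece E2b: `LocationStatement`

Location gain through the coins lemma: binomial smoothing of the positions `X0 + n j`.
-/

set_option autoImplicit false

namespace Crest.Agent.R300LB

open Finset Polynomial

noncomputable section

section bes

variable {G : Type*} [Monoid G]

theorem lo_bes_dom {ι : Type*} {S : Finset ι} {p : ℝ} {π : MA G} {U : ι → MA G}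
    (h : Bes S p π U) (c : ι → ℝ) : Dom (p * ∑ i ∈ S, c i ^ 2) π (∑ i ∈ S, c i • U i) := by
  intro f
  rw [ev_sum]
  simp only [ev_smul]
  have h1 : (∑ i ∈ S, c i * ev (U i) f) ^ 2 ≤ (∑ i ∈ S, c i ^ 2) * ∑ i ∈ S, (ev (U i) f) ^ 2 :=
    Finset.sum_mul_sq_le_sq_mul_sq _ _ _
  have h2 := h f
  have h3 : 0 ≤ ∑ i ∈ S, c i ^ 2 := Finset.sum_nonneg (fun _ _ => sq_nonneg _)
  calc _ ≤ _ := h1
    _ ≤ (∑ i ∈ S, c i ^ 2) * (p * ev π (fun w => f w ^ 2)) := mul_le_mul_of_nonneg_left h2 h3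
    _ = _ := by ring

theorem lo_bes_of_dom {ι : Type*} {S : Finset ι} {p : ℝ} {π : MA G} {U : ι → MA G}
    (hp : 0 ≤ p) (hπ : Pos π)
    (h : ∀ c : ι → ℝ, Dom (p * ∑ i ∈ S, c i ^ 2) π (∑ i ∈ S, c i • U i)) : Bes S p π U := by
  intro f
  have h1 := h (fun i => ev (U i) f) f
  rw [ev_sum] at h1
  simp only [ev_smul] at h1
  set T := ∑ i ∈ S, (ev (U i) f) ^ 2 with hT
  have e : ∑ i ∈ S, ev (U i) f * ev (U i) f = T := by
    rw [hT]; exact Finset.sum_congr rfl (fun i _ => by ring)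
  rw [e] at h1
  have hT0 : 0 ≤ T := Finset.sum_nonneg (fun _ _ => sq_nonneg _)
  have hx : 0 ≤ ev π (fun w => f w ^ 2) := hπ _ (fun w => sq_nonneg _)
  rcases eq_or_lt_of_le hT0 with h0 | h0
  · rw [← h0]; positivity
  · nlinarith

end bes

/-! ### the binomial kernel -/

/-- binomial kernel `((1+X)/2)^i` -/
def binK (i : ℕ) : ℝ[X] := (C (1 / 2 : ℝ) * (1 + X)) ^ i

theorem binK_coeff (i l : ℕ) : (binK i).coeff l = (i.choose l : ℝ) / 2 ^ i := by
  unfold binK
  rw [mul_pow, ← C_pow, coeff_C_mul, coeff_one_add_X_pow]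
  rw [one_div, inv_pow]
  ring

theorem binK_natDegree (i : ℕ) : (binK i).natDegree ≤ i := by
  rw [natDegree_le_iff_coeff_eq_zero]
  intro l hl
  rw [binK_coeff, Nat.choose_eq_zero_of_lt hl]; simp

theorem binK_nonneg (i l : ℕ) : 0 ≤ (binK i).coeff l := by
  rw [binK_coeff]; positivity

theorem binK_sum (i : ℕ) : ∑ l ∈ range (i + 1), (binK i).coeff l = 1 := by
  simp only [binK_coeff]
  rw [← Finset.sum_div]
  have : ∑ l ∈ range (i + 1), (i.choose l : ℝ) = 2 ^ i := by
    exact_mod_cast Nat.sum_range_choose i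
  rw [this, div_self (by positivity)]

/-- second moment of the centered binomial distribution -/
theorem lo_binom_var (N : ℕ) :
    ∑ l ∈ range (N + 1), (N.choose l : ℝ) * ((N : ℝ) - 2 * (l : ℝ)) ^ 2 = (N : ℝ) * 2 ^ N := by
  have hs : ∀ N : ℕ, ∑ l ∈ range (N + 1), (N.choose l : ℝ) = 2 ^ N := by
    intro N; exact_mod_cast Nat.sum_range_choose N
  induction N with
  | zero => simp
  | succ N ih =>
    have e1 : ∑ l ∈ range (N + 1 + 1), ((N + 1).choose l : ℝ) * (((N + 1 : ℕ) : ℝ) - 2 * (l : ℝ)) ^ 2 =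
        ∑ l ∈ range (N + 1), (N.choose l : ℝ) * (((N + 1 : ℕ) : ℝ) - 2 * (l : ℝ)) ^ 2 +
        ∑ l ∈ range (N + 1), (N.choose l : ℝ) * (((N + 1 : ℕ) : ℝ) - 2 * ((l + 1 : ℕ) : ℝ)) ^ 2 := by
      rw [Finset.sum_range_succ']
      simp only [Nat.choose_succ_succ, Nat.cast_add, add_mul, Finset.sum_add_distrib]
      rw [Finset.sum_range_succ' (fun l => (N.choose l : ℝ) * (((N : ℝ) + (1 : ℕ)) - 2 * l) ^ 2)]
      have e2 : ∑ l ∈ range (N + 1), (N.choose (l + 1) : ℝ) * (((N : ℝ) + (1 : ℕ)) - 2 * ((l : ℝ) + (1 : ℕ))) ^ 2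
          = ∑ l ∈ range N, (N.choose (l + 1) : ℝ) * (((N : ℝ) + (1 : ℕ)) - 2 * ((l : ℝ) + (1 : ℕ))) ^ 2 := by
        rw [Finset.sum_range_succ, Nat.choose_succ_self]; simp
      rw [e2]
      simp
      ring
    rw [e1, ← Finset.sum_add_distrib]
    have e3 : ∀ l ∈ range (N + 1), (N.choose l : ℝ) * (((N + 1 : ℕ) : ℝ) - 2 * l) ^ 2 +
        (N.choose l : ℝ) * (((N + 1 : ℕ) : ℝ) - 2 * ((l + 1 : ℕ) : ℝ)) ^ 2 =
        2 * ((N.choose l : ℝ) * ((N : ℝ) - 2 * l) ^ 2) + 2 * (N.choose l : ℝ) := by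
      intro l _; push_cast; ring
    rw [Finset.sum_congr rfl e3, Finset.sum_add_distrib, ← Finset.mul_sum, ← Finset.mul_sum, ih, hs]
    push_cast; ring

/-- `‖(1-X) ((1+X)/2)^i‖₁ ≤ 2/√(i+1)` -/
theorem binK_deriv (i : ℕ) : pn1 ((1 - X) * binK i) ≤ 2 / √((i : ℝ) + 1) := by
  have hi : (0 : ℝ) < (i : ℝ) + 1 := by positivity
  have hdeg : ((1 - X) * binK i).natDegree < i + 2 := by
    have h1 := kern_natDegree_one_sub_X_pow 1
    rw [pow_one] at h1
    have h2 := binK_natDegree i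
    have := natDegree_mul_le (p := (1 - X : ℝ[X])) (q := binK i)
    omega
  rw [pn1_eq hdeg]
  have hc : ∀ l ∈ range (i + 2), ((1 - X) * binK i).coeff l =
      ((i + 1).choose l : ℝ) / 2 ^ (i + 1) * (2 * (((i + 1 : ℕ) : ℝ) - 2 * l) / ((i : ℝ) + 1)) := by
    intro l hl
    rw [Finset.mem_range] at hl
    rw [sub_mul, one_mul, coeff_sub, mul_comm X, binK_coeff]
    rcases l with _ | l
    · rw [coeff_mul_X_zero]
      simp only [Nat.choose_zero_right, Nat.cast_one, Nat.cast_zero, mul_zero, sub_zero, pow_succ]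
      push_cast
      field_simp
    · rw [coeff_mul_X, binK_coeff]
      have h1 : ((i + 1).choose (l + 1) : ℝ) * (l + 1) = (i + 1) * (i.choose l : ℝ) := by
        have := Nat.add_one_mul_choose_eq i l
        have h2 : ((i + 1 : ℕ) : ℝ) * (i.choose l : ℝ) = ((i + 1).choose (l + 1) : ℝ) * ((l + 1 : ℕ) : ℝ) := by
          exact_mod_cast this
        push_cast at h2
        linarith
      have h3 : ((i + 1).choose (l + 1) : ℝ) = (i.choose l : ℝ) + (i.choose (l + 1) : ℝ) := by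
        exact_mod_cast Nat.choose_succ_succ i l
      have h4 : (i.choose l : ℝ) = ((i + 1).choose (l + 1) : ℝ) * (l + 1) / (i + 1) := by
        rw [h1]; field_simp
      have h5 : (i.choose (l + 1) : ℝ) = ((i + 1).choose (l + 1) : ℝ) -
          ((i + 1).choose (l + 1) : ℝ) * (l + 1) / (i + 1) := by
        rw [← h4, h3]; ring
      rw [h5, h4, pow_succ]
      push_cast
      field_simp
      ring
  rw [Finset.sum_congr rfl (fun l hl => by rw [hc l hl])]
  have habs : ∀ l ∈ range (i + 2), |((i + 1).choose l : ℝ) / 2 ^ (i + 1) *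
      (2 * (((i + 1 : ℕ) : ℝ) - 2 * l) / ((i : ℝ) + 1))| =
      ((i + 1).choose l : ℝ) / 2 ^ (i + 1) * (2 * |((i + 1 : ℕ) : ℝ) - 2 * l| / ((i : ℝ) + 1)) := by
    intro l _
    rw [abs_mul, abs_of_nonneg (by positivity : (0:ℝ) ≤ ((i + 1).choose l : ℝ) / 2 ^ (i + 1)),
      abs_div, abs_mul, abs_of_pos hi, abs_of_pos (by norm_num : (0:ℝ) < 2)]
  rw [Finset.sum_congr rfl habs]
  set S := ∑ l ∈ range (i + 2), ((i + 1).choose l : ℝ) / 2 ^ (i + 1) *
      (2 * |((i + 1 : ℕ) : ℝ) - 2 * l| / ((i : ℝ) + 1)) with hS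
  have h6 : S ^ 2 ≤ (∑ l ∈ range (i + 2), ((i + 1).choose l : ℝ) / 2 ^ (i + 1)) *
      ∑ l ∈ range (i + 2), ((i + 1).choose l : ℝ) / 2 ^ (i + 1) *
        (2 * |((i + 1 : ℕ) : ℝ) - 2 * l| / ((i : ℝ) + 1)) ^ 2 := by
    rw [hS]
    refine Finset.sum_sq_le_sum_mul_sum_of_sq_le_mul _ (fun l _ => by positivity)
      (fun l _ => by positivity) (fun l _ => le_of_eq (by ring))
  have h7 : ∑ l ∈ range (i + 2), ((i + 1).choose l : ℝ) / 2 ^ (i + 1) = 1 := by
    rw [← Finset.sum_div]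
    have : ∑ l ∈ range (i + 1 + 1), ((i + 1).choose l : ℝ) = 2 ^ (i + 1) := by
      exact_mod_cast Nat.sum_range_choose (i + 1)
    rw [this, div_self (by positivity)]
  have h8 : ∑ l ∈ range (i + 2), ((i + 1).choose l : ℝ) / 2 ^ (i + 1) *
        (2 * |((i + 1 : ℕ) : ℝ) - 2 * l| / ((i : ℝ) + 1)) ^ 2 = 4 / ((i : ℝ) + 1) := by
    have e : ∀ l ∈ range (i + 2), ((i + 1).choose l : ℝ) / 2 ^ (i + 1) *
        (2 * |((i + 1 : ℕ) : ℝ) - 2 * l| / ((i : ℝ) + 1)) ^ 2 =
        (4 / (2 ^ (i + 1) * ((i : ℝ) + 1) ^ 2)) *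
          (((i + 1).choose l : ℝ) * (((i + 1 : ℕ) : ℝ) - 2 * l) ^ 2) := by
      intro l _
      rw [div_pow, mul_pow, sq_abs]
      field_simp
      ring
    rw [Finset.sum_congr rfl e, ← Finset.mul_sum, lo_binom_var (i + 1)]
    push_cast
    field_simp
  rw [h7, h8, one_mul] at h6
  have hS0 : 0 ≤ S := Finset.sum_nonneg (fun l _ => by positivity)
  rw [le_div_iff₀ (Real.sqrt_pos.mpr hi)]
  have h9 : (S * √((i : ℝ) + 1)) ^ 2 ≤ 2 ^ 2 := by
    rw [mul_pow, Real.sq_sqrt hi.le]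
    calc S ^ 2 * ((i : ℝ) + 1) ≤ 4 / ((i : ℝ) + 1) * ((i : ℝ) + 1) :=
          mul_le_mul_of_nonneg_right h6 hi.le
      _ = 2 ^ 2 := by field_simp; norm_num
  have := abs_le_of_sq_le_sq h9 (by norm_num)
  rwa [abs_of_nonneg (by positivity)] at this

/-! ### sums over a residue class -/

theorem lo_sum_blocks (F : ℕ → ℝ) (n J : ℕ) :
    ∑ j ∈ range J, ∑ v ∈ range n, F (n * j + v) = ∑ l ∈ range (n * J), F l := by
  induction J with
  | zero => simp
  | succ J ih =>
    rw [Finset.sum_range_succ, ih, Nat.mul_succ, Finset.sum_range_add]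

/-- sum of a kernel over an arithmetic progression with step `n` -/
theorem lo_residue {H : ℝ[X]} (hH : ∀ l, 0 ≤ H.coeff l) {i : ℕ} (hd : H.natDegree ≤ i)
    (h1 : ∑ l ∈ range (i + 1), H.coeff l = 1) {n : ℕ} (hn : 1 ≤ n) (M t : ℕ) :
    ∑ j ∈ range M, (if n * j ≤ t then H.coeff (t - n * j) else 0) ≤
      1 / n + pn1 ((1 - X) * H) := by
  have hn' : (0 : ℝ) < n := by exact_mod_cast (show 0 < n by omega)
  set D : ℝ[X] := (1 - X) * H with hD
  have hdiff : ∀ l, H.coeff l = H.coeff (l + 1) - D.coeff (l + 1) := by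
    intro l
    rw [hD, sub_mul, one_mul, coeff_sub, coeff_X_mul]
    ring
  -- step 1: one point against its window
  have hpt : ∀ t0 v : ℕ, H.coeff t0 ≤ H.coeff (t0 + v) + ∑ w ∈ range v, |D.coeff (t0 + w + 1)| := by
    intro t0 v
    induction v with
    | zero => simp
    | succ v ih =>
      rw [Finset.sum_range_succ]
      have h2 := hdiff (t0 + v)
      have h3 := neg_abs_le (D.coeff (t0 + v + 1))
      have e : t0 + (v + 1) = t0 + v + 1 := by ring
      rw [e]
      linarith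
  have hwin : ∀ t0 : ℕ, (n : ℝ) * H.coeff t0 ≤ ∑ v ∈ range n, H.coeff (t0 + v) +
      n * ∑ w ∈ range n, |D.coeff (t0 + w + 1)| := by
    intro t0
    have : ∑ v ∈ range n, H.coeff t0 ≤ ∑ v ∈ range n, (H.coeff (t0 + v) +
        ∑ w ∈ range n, |D.coeff (t0 + w + 1)|) := by
      refine Finset.sum_le_sum (fun v hv => le_trans (hpt t0 v) ?_)
      rw [Finset.mem_range] at hv
      have : ∑ w ∈ range v, |D.coeff (t0 + w + 1)| ≤ ∑ w ∈ range n, |D.coeff (t0 + w + 1)| :=
        Finset.sum_le_sum_of_subset_of_nonneg (fun x hx => by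
          rw [Finset.mem_range] at hx ⊢; omega) (fun _ _ _ => abs_nonneg _)
      linarith
    rw [Finset.sum_const, card_range, nsmul_eq_mul, Finset.sum_add_distrib, Finset.sum_const,
      card_range, nsmul_eq_mul] at this
    exact this
  -- step 2: rewrite the sum
  set J := t / n with hJ
  set ρ := t % n with hρ
  have ht : t = n * J + ρ := (Nat.div_add_mod t n).symm
  have hρn : ρ < n := Nat.mod_lt _ (by omega)
  have hle : ∑ j ∈ range M, (if n * j ≤ t then H.coeff (t - n * j) else 0) ≤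
      ∑ j ∈ range (J + 1), H.coeff (ρ + n * j) := by
    have e1 : ∑ j ∈ range (J + 1), H.coeff (ρ + n * j) =
        ∑ j ∈ range (J + 1), (if n * j ≤ t then H.coeff (t - n * j) else 0) := by
      rw [← Finset.sum_range_reflect]
      refine Finset.sum_congr rfl (fun j hj => ?_)
      rw [Finset.mem_range] at hj
      have h3 : n * j ≤ n * J := Nat.mul_le_mul_left _ (by omega)
      rw [if_pos (by omega)]
      congr 1
      have h4 : n * (J + 1 - 1 - j) = n * J - n * j := by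
        rw [Nat.add_sub_cancel, Nat.mul_sub]
      omega
    rw [e1]
    have e2 : ∑ j ∈ range M, (if n * j ≤ t then H.coeff (t - n * j) else 0) ≤
        ∑ j ∈ range (M + (J + 1)), (if n * j ≤ t then H.coeff (t - n * j) else 0) :=
      Finset.sum_le_sum_of_subset_of_nonneg (fun x hx => by
          rw [Finset.mem_range] at hx ⊢
          exact lt_of_lt_of_le hx (Nat.le_add_right _ _)) (fun _ _ _ => by
          split_ifs
          · exact hH _
          · exact le_refl _)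
    refine le_trans e2 (le_of_eq ?_)
    symm
    refine Finset.sum_subset (fun x hx => by rw [Finset.mem_range] at hx ⊢; omega)
      (fun x _ hx => ?_)
    rw [Finset.mem_range] at hx
    rw [if_neg]
    intro hc
    have h5 : n * (J + 1) ≤ n * x := Nat.mul_le_mul_left _ (by omega)
    have h6 : n * (J + 1) = n * J + n := by ring
    omega
  refine le_trans hle ?_
  have hsum : (n : ℝ) * ∑ j ∈ range (J + 1), H.coeff (ρ + n * j) ≤ 1 + n * pn1 D := by
    rw [Finset.mul_sum]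
    calc ∑ j ∈ range (J + 1), (n : ℝ) * H.coeff (ρ + n * j)
        ≤ ∑ j ∈ range (J + 1), (∑ v ∈ range n, H.coeff (ρ + n * j + v) +
          n * ∑ w ∈ range n, |D.coeff (ρ + n * j + w + 1)|) :=
          Finset.sum_le_sum (fun j _ => hwin _)
      _ = ∑ l ∈ range (n * (J + 1)), H.coeff (ρ + l) +
          n * ∑ l ∈ range (n * (J + 1)), |D.coeff (ρ + l + 1)| := by
          rw [Finset.sum_add_distrib, ← Finset.mul_sum]
          rw [← lo_sum_blocks (fun l => H.coeff (ρ + l)), ← lo_sum_blocks (fun l => |D.coeff (ρ + l + 1)|)]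
          simp only [add_assoc]
      _ ≤ 1 + n * pn1 D := by
          have hA : ∑ l ∈ range (n * (J + 1)), H.coeff (ρ + l) ≤ 1 := by
            rw [← h1]
            have e3 : ∑ l ∈ range (n * (J + 1)), H.coeff (ρ + l) ≤
                ∑ l ∈ range (ρ + n * (J + 1) + (i + 1)), H.coeff l := by
              rw [Finset.sum_range_add _ (ρ + n * (J + 1)), Finset.sum_range_add _ ρ]
              have p1 : 0 ≤ ∑ x ∈ range ρ, H.coeff x := Finset.sum_nonneg (fun _ _ => hH _)
              have p2 : 0 ≤ ∑ x ∈ range (i + 1), H.coeff (ρ + n * (J + 1) + x) :=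
                Finset.sum_nonneg (fun _ _ => hH _)
              linarith
            refine le_trans e3 (le_of_eq ?_)
            symm
            refine Finset.sum_subset (fun x hx => by rw [Finset.mem_range] at hx ⊢; omega)
              (fun x _ hx => ?_)
            rw [Finset.mem_range] at hx
            exact coeff_eq_zero_of_natDegree_lt (by omega)
          have hB : ∑ l ∈ range (n * (J + 1)), |D.coeff (ρ + l + 1)| ≤ pn1 D := by
            rw [pn1_eq (S := (ρ + 1) + n * (J + 1) + (D.natDegree + 1)) (by omega)]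
            rw [Finset.sum_range_add _ ((ρ + 1) + n * (J + 1)), Finset.sum_range_add _ (ρ + 1)]
            have p1 : 0 ≤ ∑ x ∈ range (ρ + 1), |D.coeff x| :=
              Finset.sum_nonneg (fun _ _ => abs_nonneg _)
            have p2 : 0 ≤ ∑ x ∈ range (D.natDegree + 1), |D.coeff (ρ + 1 + n * (J + 1) + x)| :=
              Finset.sum_nonneg (fun _ _ => abs_nonneg _)
            have e4 : ∀ l ∈ range (n * (J + 1)), |D.coeff (ρ + l + 1)| = |D.coeff (ρ + 1 + l)| := by
              intro l _; congr 2; ring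
            rw [Finset.sum_congr rfl e4]
            linarith
          have := mul_le_mul_of_nonneg_left hB hn'.le
          linarith
  have : ∑ j ∈ range (J + 1), H.coeff (ρ + n * j) ≤ (1 + n * pn1 D) / n := by
    rw [le_div_iff₀ hn']; linarith
  refine le_trans this (le_of_eq ?_)
  field_simp

/-! ### averages -/

theorem lo_avg_inv {h : ℝ} (h0 : 0 < h) (h1 : h ≤ 1) (k : ℕ) :
    avg h k (fun i => 1 / ((i : ℝ) + 1)) ≤ 1 / (h * ((k : ℝ) + 1)) := by
  rw [avg_eq]
  have hk : (0 : ℝ) < (k : ℝ) + 1 := by positivity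
  have e : ∀ i ∈ range (k + 1), (k.choose i : ℝ) * h ^ i * (1 - h) ^ (k - i) * (1 / ((i : ℝ) + 1)) =
      1 / (h * ((k : ℝ) + 1)) * (h ^ (i + 1) * (1 - h) ^ (k + 1 - (i + 1)) *
        ((k + 1).choose (i + 1) : ℝ)) := by
    intro i _
    have h2 : ((k + 1 : ℕ) : ℝ) * (k.choose i : ℝ) = ((k + 1).choose (i + 1) : ℝ) * ((i + 1 : ℕ) : ℝ) := by
      exact_mod_cast Nat.add_one_mul_choose_eq k i
    push_cast at h2
    have h3 : (k.choose i : ℝ) = ((k + 1).choose (i + 1) : ℝ) * ((i : ℝ) + 1) / ((k : ℝ) + 1) := by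
      rw [← h2]; field_simp
    rw [h3, Nat.add_sub_add_right, pow_succ]
    field_simp
  rw [Finset.sum_congr rfl e, ← Finset.mul_sum]
  have h4 : ∑ i ∈ range (k + 1), h ^ (i + 1) * (1 - h) ^ (k + 1 - (i + 1)) *
        ((k + 1).choose (i + 1) : ℝ) ≤ 1 := by
    have h5 := add_pow h (1 - h) (k + 1)
    rw [add_sub_cancel, one_pow, Finset.sum_range_succ'] at h5
    have h6 : 0 ≤ h ^ 0 * (1 - h) ^ (k + 1 - 0) * ((k + 1).choose 0 : ℝ) := by
      have : 0 ≤ 1 - h := by linarith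
      positivity
    linarith
  calc _ ≤ 1 / (h * ((k : ℝ) + 1)) * 1 := mul_le_mul_of_nonneg_left h4 (by positivity)
    _ = _ := mul_one _

theorem lo_avg_add (h : ℝ) : ∀ (k : ℕ) (V W : ℕ → ℝ),
    avg h k (fun i => V i + W i) = avg h k V + avg h k W
  | 0, V, W => rfl
  | (k + 1), V, W => by
      unfold avg
      rw [lo_avg_add h k (fun i => V (i + 1)) (fun i => W (i + 1)), lo_avg_add h k V W]
      ring

theorem lo_avg_const (h c : ℝ) : ∀ (k : ℕ), avg h k (fun _ => c) = c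
  | 0 => rfl
  | (k + 1) => by
      unfold avg
      rw [lo_avg_const h c k]
      ring

theorem lo_avg_sqrt {h : ℝ} (h0 : 0 < h) (h1 : h ≤ 1) (k : ℕ) :
    avg h k (fun i => 1 / √((i : ℝ) + 1)) ≤ 1 / √(h * ((k : ℝ) + 1)) := by
  have hτ : 0 < √(h * ((k : ℝ) + 1)) := Real.sqrt_pos.mpr (by positivity)
  set τ := √(h * ((k : ℝ) + 1)) with hτd
  have hτ2 : τ ^ 2 = h * ((k : ℝ) + 1) := Real.sq_sqrt (by positivity)
  have h2 : ∀ i, i ≤ k → 1 / √((i : ℝ) + 1) ≤ τ / 2 * (1 / ((i : ℝ) + 1)) + 1 / (2 * τ) := by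
    intro i _
    have hi : (0 : ℝ) < (i : ℝ) + 1 := by positivity
    set y := √((i : ℝ) + 1) with hy
    have hy0 : 0 < y := Real.sqrt_pos.mpr hi
    have hy2 : (i : ℝ) + 1 = y ^ 2 := (Real.sq_sqrt hi.le).symm
    rw [hy2]
    have : 1 / y = (2 * τ * y) / (2 * τ * y ^ 2) := by field_simp
    have h3 : τ / 2 * (1 / y ^ 2) + 1 / (2 * τ) = (τ ^ 2 + y ^ 2) / (2 * τ * y ^ 2) := by
      field_simp
    rw [this, h3]
    refine div_le_div_of_nonneg_right ?_ (by positivity)
    nlinarith [sq_nonneg (τ - y)]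
  refine le_trans (avg_mono h0.le h1 k _ _ h2) ?_
  rw [lo_avg_add, avg_mul, lo_avg_const]
  have h3 := lo_avg_inv h0 h1 k
  rw [← hτ2] at h3
  have h4 : τ / 2 * avg h k (fun i => 1 / ((i : ℝ) + 1)) ≤ τ / 2 * (1 / τ ^ 2) :=
    mul_le_mul_of_nonneg_left h3 (by positivity)
  have h5 : τ / 2 * (1 / τ ^ 2) + 1 / (2 * τ) = 1 / τ := by field_simp; ring
  linarith

/-! ### the main computation -/

section main

variable {G : Type*} [Monoid G]

theorem lo_Qa_iter (a F : MA G) (i : ℕ) : (Qa a)^[i] F = homL a i F (binK i) := by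
  induction i with
  | zero =>
    rw [Function.iterate_zero, id, homL_apply]
    simp [binK]
  | succ i ih =>
    rw [Function.iterate_succ_apply', ih]
    have e1 : binK (i + 1) = (C (1 / 2 : ℝ) * (1 + X)) * binK i := by
      unfold binK; rw [pow_succ']
    have hd : (C (1 / 2 : ℝ) * (1 + X) : ℝ[X]).natDegree ≤ 1 := by
      refine le_trans (natDegree_C_mul_le _ _) ?_
      refine le_trans (natDegree_add_le _ _) ?_
      simp
    rw [e1, add_comm i 1, homL_mul a hd (binK_natDegree i)]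
    set Y := homL a i F (binK i)
    have e2 : homL a 1 Y (C (1 / 2 : ℝ) * (1 + X)) = (1 / 2 : ℝ) • (Y * a ^ 1 + a ^ 1 * Y * a ^ 0) := by
      have : (C (1 / 2 : ℝ) * (1 + X) : ℝ[X]) = (1 / 2 : ℝ) • (1 + X ^ 1) := by
        rw [smul_eq_C_mul, pow_one]
      rw [this, map_smul, map_add, homL_one, homL_X_pow a (le_refl 1)]
    rw [e2]
    unfold Qa
    rw [pow_one, pow_zero, mul_one, add_comm]

/-- binomial smoothing of the positions -/
theorem lo_smooth (a Z : MA G) {i x0 n M T0 P0 : ℕ} (c : ℕ → ℝ) (H : ℝ[X])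
    (hd : H.natDegree ≤ i) (hM : 1 ≤ M) (hP : P0 ≤ x0) (hT : x0 + n * (M - 1) + P0 ≤ T0) :
    homL a i (∑ j ∈ range M, c j • (a ^ (x0 + n * j) * Z * a ^ (T0 - (x0 + n * j)))) H =
      ∑ y ∈ Finset.Icc P0 (T0 + i - P0), (∑ j ∈ range M, c j *
        (if x0 + n * j ≤ y then H.coeff (y - (x0 + n * j)) else 0)) •
          (a ^ y * Z * a ^ (T0 + i - y)) := by
  have hjm : ∀ j ∈ range M, n * j ≤ n * (M - 1) := by
    intro j hj
    rw [Finset.mem_range] at hj
    exact Nat.mul_le_mul_left _ (by omega)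
  rw [homL_sum]
  simp only [Finset.sum_smul]
  rw [Finset.sum_comm]
  refine Finset.sum_congr rfl (fun j hj => ?_)
  have hj' := hjm j hj
  rw [homL_smul_right, homL_apply, Finset.smul_sum]
  have hsub : Finset.Ico (x0 + n * j) (x0 + n * j + (i + 1)) ⊆ Finset.Icc P0 (T0 + i - P0) := by
    intro y hy
    rw [Finset.mem_Ico] at hy
    rw [Finset.mem_Icc]
    omega
  rw [← Finset.sum_subset hsub]
  · rw [Finset.sum_Ico_eq_sum_range]
    have e0 : x0 + n * j + (i + 1) - (x0 + n * j) = i + 1 := by omega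
    rw [e0]
    refine Finset.sum_congr rfl (fun l hl => ?_)
    rw [Finset.mem_range] at hl
    rw [if_pos (by omega), smul_smul]
    have e1 : x0 + n * j + l - (x0 + n * j) = l := by omega
    rw [e1]
    congr 1
    have e2 : T0 + i - (x0 + n * j + l) = T0 - (x0 + n * j) + (i - l) := by omega
    rw [e2, pow_add a (T0 - (x0 + n * j)), add_comm (x0 + n * j) l, pow_add a l]
    simp only [mul_assoc]
  · intro y _ hy
    rw [Finset.mem_Ico] at hy
    by_cases h1 : x0 + n * j ≤ y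
    · rw [if_pos h1, coeff_eq_zero_of_natDegree_lt (by omega), mul_zero, zero_smul]
    · rw [if_neg h1, mul_zero, zero_smul]

/-- `ℓ²` bound of the smoothed coefficients -/
theorem lo_smooth_norm {i x0 n M : ℕ} (S : Finset ℕ) (c : ℕ → ℝ) {H : ℝ[X]}
    (hH : ∀ l, 0 ≤ H.coeff l) (hd : H.natDegree ≤ i) (h1 : ∑ l ∈ range (i + 1), H.coeff l = 1)
    (hn : 1 ≤ n) :
    ∑ y ∈ S, (∑ j ∈ range M, c j *
        (if x0 + n * j ≤ y then H.coeff (y - (x0 + n * j)) else 0)) ^ 2 ≤
      (1 / n + pn1 ((1 - X) * H)) * ∑ j ∈ range M, c j ^ 2 := by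
  set hh : ℕ → ℕ → ℝ := fun y j => if x0 + n * j ≤ y then H.coeff (y - (x0 + n * j)) else 0 with hhd
  have hh0 : ∀ y j, 0 ≤ hh y j := by
    intro y j; simp only [hhd]; split_ifs
    · exact hH _
    · exact le_refl _
  set B := 1 / (n : ℝ) + pn1 ((1 - X) * H) with hB
  have hrow : ∀ y, ∑ j ∈ range M, hh y j ≤ B := by
    intro y
    by_cases hy : x0 ≤ y
    · have h2 := lo_residue hH hd h1 hn M (y - x0)
      refine le_trans (le_of_eq ?_) h2
      refine Finset.sum_congr rfl (fun j _ => ?_)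
      simp only [hhd]
      by_cases h3 : x0 + n * j ≤ y
      · rw [if_pos h3, if_pos (by omega), Nat.sub_sub]
      · rw [if_neg h3, if_neg (by omega)]
    · have : ∑ j ∈ range M, hh y j = 0 := by
        refine Finset.sum_eq_zero (fun j _ => ?_)
        simp only [hhd]
        rw [if_neg (by omega)]
      rw [this, hB]
      have := pn1_nonneg ((1 - X) * H)
      positivity
  have hcol : ∀ j, ∑ y ∈ S, hh y j ≤ 1 := by
    intro j
    rw [← h1]
    have e1 : ∑ y ∈ S, hh y j ≤ ∑ y ∈ S ∪ Finset.Ico (x0 + n * j) (x0 + n * j + (i + 1)), hh y j :=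
      Finset.sum_le_sum_of_subset_of_nonneg Finset.subset_union_left (fun y _ _ => hh0 y j)
    refine le_trans e1 (le_of_eq ?_)
    rw [← Finset.sum_subset (Finset.subset_union_right (s₁ := S)
      (s₂ := Finset.Ico (x0 + n * j) (x0 + n * j + (i + 1))))]
    · rw [Finset.sum_Ico_eq_sum_range]
      have e0 : x0 + n * j + (i + 1) - (x0 + n * j) = i + 1 := by omega
      rw [e0]
      refine Finset.sum_congr rfl (fun l _ => ?_)
      simp only [hhd]
      rw [if_pos (by omega)]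
      congr 1; omega
    · intro y _ hy
      rw [Finset.mem_Ico] at hy
      simp only [hhd]
      by_cases h3 : x0 + n * j ≤ y
      · rw [if_pos h3]; exact coeff_eq_zero_of_natDegree_lt (by omega)
      · rw [if_neg h3]
  have hcs : ∀ y ∈ S, (∑ j ∈ range M, c j * hh y j) ^ 2 ≤ B * ∑ j ∈ range M, hh y j * c j ^ 2 := by
    intro y _
    have h2 : (∑ j ∈ range M, c j * hh y j) ^ 2 ≤
        (∑ j ∈ range M, hh y j) * ∑ j ∈ range M, hh y j * c j ^ 2 :=
      Finset.sum_sq_le_sum_mul_sum_of_sq_le_mul _ (fun j _ => hh0 y j)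
        (fun j _ => mul_nonneg (hh0 y j) (sq_nonneg _)) (fun j _ => le_of_eq (by ring))
    refine le_trans h2 (mul_le_mul_of_nonneg_right (hrow y) ?_)
    exact Finset.sum_nonneg (fun j _ => mul_nonneg (hh0 y j) (sq_nonneg _))
  refine le_trans (Finset.sum_le_sum hcs) ?_
  rw [← Finset.mul_sum]
  have hB0 : 0 ≤ B := le_trans (Finset.sum_nonneg (fun j _ => hh0 0 j)) (hrow 0)
  refine mul_le_mul_of_nonneg_left ?_ hB0
  rw [Finset.sum_comm]
  refine Finset.sum_le_sum (fun j _ => ?_)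
  rw [← Finset.sum_mul]
  calc (∑ y ∈ S, hh y j) * c j ^ 2 ≤ 1 * c j ^ 2 := mul_le_mul_of_nonneg_right (hcol j) (sq_nonneg _)
    _ = c j ^ 2 := one_mul _

end main

/-- **E2b** -/
theorem locationStatement : LocationStatement := by
  intro G _ a s Z R k z Pd n X0 M T p ha hs hp hSB hn hM hX0 hT
  have hs1 := hs.mass_le_one ha
  have hs0 := hs.mpos
  refine lo_bes_of_dom ?_ (ha.pos.pow _) (fun c => ?_)
  · have : 0 ≤ 1 / (n : ℝ) + 2 / (mass s * √((k : ℝ) + 1)) := by positivity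
    positivity
  set K := (R + 1) * k with hK
  set x0 := X0 - K with hx0
  set T0 := T - 2 * K with hT0
  set F : MA G := ∑ j ∈ range M, c j • (a ^ (x0 + n * j) * Z * a ^ (T0 - (x0 + n * j))) with hF
  have hTT : x0 + n * (M - 1) + Pd ≤ T0 := by omega
  set c2 := ∑ j ∈ range M, c j ^ 2 with hc2
  have hc20 : 0 ≤ c2 := Finset.sum_nonneg (fun _ _ => sq_nonneg _)
  have key := coins ha hs hs1 k (fun i => p * c2 * (1 / (n : ℝ) + 2 * (1 / √((i : ℝ) + 1))))
    (a ^ (T0 + z)) F (fun i _ => by positivity) (ha.pos.pow _) (fun i _ => by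
      rw [Qa_iter_pow, lo_Qa_iter, hF,
        lo_smooth a Z c (binK i) (binK_natDegree i) hM (show Pd ≤ x0 by omega) hTT]
      have h1 := lo_bes_dom (hSB (T0 + i)) (fun y => ∑ j ∈ range M, c j *
        (if x0 + n * j ≤ y then (binK i).coeff (y - (x0 + n * j)) else 0))
      have e1 : T0 + i + z = T0 + z + i := by ring
      rw [e1] at h1
      refine h1.mono ?_ (ha.pos.pow _)
      rw [mul_assoc p c2]
      refine mul_le_mul_of_nonneg_left ?_ hp
      refine le_trans (lo_smooth_norm _ c (binK_nonneg i) (binK_natDegree i) (binK_sum i) hn) ?_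
      rw [mul_comm]
      refine mul_le_mul_of_nonneg_left ?_ hc20
      have := binK_deriv i
      have e2 : 2 / √((i : ℝ) + 1) = 2 * (1 / √((i : ℝ) + 1)) := by ring
      rw [e2] at this
      linarith)
  have eF : a ^ K * F * a ^ K = ∑ j ∈ range M, c j • (a ^ (X0 + n * j) * Z * a ^ (T - (X0 + n * j))) := by
    rw [hF, Finset.mul_sum, Finset.sum_mul]
    refine Finset.sum_congr rfl (fun j hj => ?_)
    rw [Finset.mem_range] at hj
    have hj' : n * j ≤ n * (M - 1) := Nat.mul_le_mul_left _ (by omega)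
    rw [mul_smul_comm, smul_mul_assoc]
    congr 1
    have e1 : X0 + n * j = K + (x0 + n * j) := by omega
    have e2 : T - (X0 + n * j) = T0 - (x0 + n * j) + K := by omega
    rw [e2, e1, pow_add a K (x0 + n * j), pow_add a (T0 - (x0 + n * j)) K]
    simp only [mul_assoc]
  have eπ : a ^ K * a ^ (T0 + z) * a ^ K = a ^ (T + z) := by
    rw [← pow_add, ← pow_add]; congr 1; omega
  rw [eF, eπ] at key
  refine key.mono ?_ (ha.pos.pow _)
  have hh0 : 0 < (mass s) ^ 2 := by positivity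
  have hh1 : (mass s) ^ 2 ≤ 1 := by nlinarith
  rw [avg_mul]
  have e3 : avg ((mass s) ^ 2) k (fun i => 1 / (n : ℝ) + 2 * (1 / √((i : ℝ) + 1))) =
      1 / (n : ℝ) + 2 * avg ((mass s) ^ 2) k (fun i => 1 / √((i : ℝ) + 1)) := by
    rw [lo_avg_add, lo_avg_const, avg_mul]
  rw [e3]
  have h4 := lo_avg_sqrt hh0 hh1 k
  have e5 : √((mass s) ^ 2 * ((k : ℝ) + 1)) = mass s * √((k : ℝ) + 1) := by
    rw [Real.sqrt_mul (by positivity), Real.sqrt_sq hs0.le]
  rw [e5] at h4
  have e6 : p * (1 / (n : ℝ) + 2 / (mass s * √((k : ℝ) + 1))) * c2 =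
      p * c2 * (1 / (n : ℝ) + 2 * (1 / (mass s * √((k : ℝ) + 1)))) := by ring
  rw [e6]
  refine mul_le_mul_of_nonneg_left ?_ (by positivity)
  linarith

end

end Crest.Agent.R300LB
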