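import Crest.Agent.R300.LBPlan
import Crest.Agent.R300.LBOrth

/-!
# Row 300, lower bounds, piece E6: the pair recursion
-/

set_option autoImplicit false

namespace Crest.Agent.R300LB

open Finset

noncomputable section

variable {G : Type*} [Monoid G]

namespace PairAux

/-- product rule in the `x ^ 2` form -/
theorem nmul {x y : ℝ} {π ρ μ ν : MA G} (h1 : Dom (x ^ 2) π μ) (h2 : Dom (y ^ 2) ρ ν)
    (hπ : Pos π) : Dom ((x * y) ^ 2) (π * ρ) (μ * ν) := by
  rw [mul_pow]
  exact h1.mul h2 (sq_nonneg x) hπ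

theorem nself {a : MA G} (ha : Prob a) : Dom ((1 : ℝ) ^ 2) a a := by
  rw [one_pow]; exact Dom.self_prob ha

theorem nmono {x y : ℝ} {π ν : MA G} (h : Dom (x ^ 2) π ν) (hx : 0 ≤ x) (hxy : x ≤ y)
    (hπ : Pos π) : Dom (y ^ 2) π ν :=
  h.mono (pow_le_pow_left₀ hx hxy 2) hπ

theorem nsmul' {x : ℝ} {π ν : MA G} (h : Dom (x ^ 2) π ν) (c : ℝ) :
    Dom ((|c| * x) ^ 2) π (c • ν) := by
  have := h.smul c
  rw [mul_pow, sq_abs]
  exact this

theorem sum_abs_le (S : ℕ) (c : ℕ → ℝ) :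
    ∑ x ∈ range S, |c x| ≤ √S * √(∑ x ∈ range S, c x ^ 2) := by
  rw [← Real.sqrt_mul (Nat.cast_nonneg _)]
  apply Real.le_sqrt_of_sq_le
  have := Finset.sum_mul_sq_le_sq_mul_sq (range S) (fun _ => (1:ℝ)) (fun x => |c x|)
  simpa [sq_abs] using this

/-- sum over the window of terms bounded by `|c x| * y` -/
theorem nsum {S : ℕ} {y : ℝ} (hy : 0 ≤ y) {π : MA G} {F : ℕ → MA G} (hπ : Pos π) (c : ℕ → ℝ)
    (h : ∀ x ∈ range S, Dom (y ^ 2) π (F x)) :
    Dom ((√S * y * √(∑ x ∈ range S, c x ^ 2)) ^ 2) π (∑ x ∈ range S, c x • F x) := by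
  have h1 := Dom.sum (range S) (x := fun x => |c x| * y) (π := π) (ν := fun x => c x • F x)
    (fun x hx => nsmul' (h x hx) (c x)) (fun x _ => by positivity) hπ
  rw [← Finset.sum_mul] at h1
  refine nmono h1 (mul_nonneg (Finset.sum_nonneg fun _ _ => abs_nonneg _) hy) ?_ hπ
  have := mul_le_mul_of_nonneg_right (sum_abs_le S c) hy
  calc _ ≤ _ := this
    _ = _ := by ring

theorem bes_dom {ι : Type*} {S : Finset ι} {p : ℝ} {π : MA G} {U : ι → MA G}
    (h : Bes S p π U) (c : ι → ℝ) : Dom (p * ∑ i ∈ S, c i ^ 2) π (∑ i ∈ S, c i • U i) := fun f => by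
  rw [ev_sum]
  have e : ∑ i ∈ S, ev (c i • U i) f = ∑ i ∈ S, c i * ev (U i) f :=
    Finset.sum_congr rfl fun i _ => ev_smul _ _ _
  rw [e]
  refine (Finset.sum_mul_sq_le_sq_mul_sq S c fun i => ev (U i) f).trans ?_
  have := mul_le_mul_of_nonneg_left (h f) (Finset.sum_nonneg fun i (_ : i ∈ S) => sq_nonneg (c i))
  calc _ ≤ _ := this
    _ = _ := by ring

theorem bes_of_dom {ι : Type*} {S : Finset ι} {p : ℝ} {π : MA G} {U : ι → MA G} (hp : 0 ≤ p)
    (hπ : Pos π) (h : ∀ c : ι → ℝ, Dom (p * ∑ i ∈ S, c i ^ 2) π (∑ i ∈ S, c i • U i)) :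
    Bes S p π U := fun f => by
  have h1 := h (fun i => ev (U i) f) f
  rw [ev_sum] at h1
  have e : ∑ i ∈ S, ev ((ev (U i) f) • U i) f = ∑ i ∈ S, (ev (U i) f) ^ 2 :=
    Finset.sum_congr rfl fun i _ => by rw [ev_smul]; ring
  rw [e] at h1
  set Q := ∑ i ∈ S, (ev (U i) f) ^ 2 with hQ
  have hQ0 : 0 ≤ Q := Finset.sum_nonneg fun i _ => sq_nonneg _
  have hE : 0 ≤ ev π (fun w => f w ^ 2) := hπ _ fun _ => sq_nonneg _
  rcases eq_or_lt_of_le hQ0 with h0 | h0
  · rw [← h0]; exact mul_nonneg hp hE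
  · have h2 : Q * Q ≤ Q * (p * ev π (fun w => f w ^ 2)) := by nlinarith
    exact le_of_mul_le_mul_left h2 h0

end PairAux

open PairAux

set_option maxHeartbeats 1600000 in
/-- E6 -/
theorem pairStep (hBl : BlockStatement) (hTe : TensorStatement) (hLo : LocationStatement) :
    PairStepStatement := by
  intro G _ a P P' W E s R m N0 Pd S g k pW θ χ u' e0 ha hP hP' hs hN0 hS hm hG hW0 hpW hSB hPd hN
    hθ hE hχ hχ1 hPM hg hk hu' hu hee hRef
  set n := 2 * m + N0 with hn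
  set Gp := P - P' with hGp
  set T := a ^ n with hT
  set w := a ^ m * W * a ^ m with hw
  have hTp : Prob T := ha.pow n
  have hPpos := hP.pos
  have hTk : ∀ k, Pos (T ^ k) := fun k => hTp.pos.pow k
  have hmG : mass Gp = 0 := by rw [hGp, mass_sub, hP.one, hP'.one, sub_self]
  have hmZ : mass (Gp * P ^ g * Gp) = 0 := by rw [mass_mul, hmG, mul_zero]
  have hSpos : (0:ℝ) ≤ √S := Real.sqrt_nonneg _
  -- norms of the basic objects w.r.t. the pure reference
  have hPn : ∀ M, M ≤ 3 * S → Dom ((√χ) ^ 2) (T ^ M) (P ^ M - T ^ M) := by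
    intro M hM
    rw [Real.sq_sqrt hχ]
    have := hPM M hM
    rwa [pow_mul] at this
  have hsχ : √χ ≤ 1 := by
    rw [show (1:ℝ) = √1 by simp]; exact Real.sqrt_le_sqrt hχ1
  have hPn2 : ∀ M, M ≤ 3 * S → Dom ((2:ℝ) ^ 2) (T ^ M) (P ^ M) := by
    intro M hM
    have h1 := (nself (hTp.pow M)).add (hPn M hM) zero_le_one (Real.sqrt_nonneg _) (hTk M)
    rw [add_sub_cancel] at h1
    exact nmono h1 (by positivity) (by linarith) (hTk M)
  have hwn : Dom ((√pW) ^ 2) T w := by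
    rw [Real.sq_sqrt hpW]
    have h1 := hSB (2 * m)
    intro f
    have h2 := h1 f
    have h3 : m ∈ Finset.Icc Pd (2 * m - Pd) := by
      rw [Finset.mem_Icc]; omega
    have h4 : (ev (a ^ m * W * a ^ (2 * m - m)) f) ^ 2 ≤
        ∑ x ∈ Finset.Icc Pd (2 * m - Pd), (ev (a ^ x * W * a ^ (2 * m - x)) f) ^ 2 :=
      Finset.single_le_sum (f := fun x => (ev (a ^ x * W * a ^ (2 * m - x)) f) ^ 2)
        (fun _ _ => sq_nonneg _) h3
    have h5 : 2 * m - m = m := by omega
    rw [h5] at h4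
    exact h4.trans h2
  have hEn : Dom ((√θ) ^ 2) T E := by rw [Real.sq_sqrt hθ]; exact hE
  set κ := √pW + √θ with hκ
  have hκ0 : 0 ≤ κ := by positivity
  have hGn : Dom (κ ^ 2) T Gp := by
    rw [hG]
    exact hwn.add hEn (Real.sqrt_nonneg _) (Real.sqrt_nonneg _) hTp.pos
  -- the three parts
  set X := XTB S n k (mass s) pW θ χ with hX
  set κ1 := √5 * pW * √(1 / n + 2 / (mass s * √(k + 1))) with hκ1
  set κ2 := √θ * (2 * √pW + √θ) with hκ2
  set κ3 := 7 * (√pW + √θ) ^ 2 * √χ with hκ3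
  have hκ1' : 0 ≤ κ1 := by positivity
  have hκ2' : 0 ≤ κ2 := by positivity
  have hκ3' : 0 ≤ κ3 := by positivity
  have hXe : X = κ1 + √S * κ2 + √S * κ3 := by
    rw [hX, XTB, hκ1, hκ2, hκ3]; ring
  have hX0 : 0 ≤ X := by rw [hXe]; positivity
  set M0 : ℕ → MA G := fun x => T ^ (S + x) * (w * T ^ g * w) * T ^ (2 * S - x) with hM0
  set M2 : ℕ → MA G := fun x =>
    T ^ (S + x) * (w * T ^ g * E + E * T ^ g * w + E * T ^ g * E) * T ^ (2 * S - x) with hM2
  set M3 : ℕ → MA G := fun x =>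
    (P ^ (S + x) - T ^ (S + x)) * (Gp * P ^ g * Gp) * P ^ (2 * S - x) +
    T ^ (S + x) * (Gp * (P ^ g - T ^ g) * Gp) * P ^ (2 * S - x) +
    T ^ (S + x) * (Gp * T ^ g * Gp) * (P ^ (2 * S - x) - T ^ (2 * S - x)) with hM3
  have hdec : ∀ x, P ^ (S + x) * (Gp * P ^ g * Gp) * P ^ (2 * S - x) = M0 x + M2 x + M3 x := by
    intro x
    simp only [hM0, hM2, hM3]
    have e1 : w * T ^ g * w + (w * T ^ g * E + E * T ^ g * w + E * T ^ g * E) = Gp * T ^ g * Gp := by
      rw [hG]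
      generalize T ^ g = tg
      simp only [add_mul, mul_add]
      abel
    have e2 : T ^ (S + x) * (w * T ^ g * w) * T ^ (2 * S - x) +
        T ^ (S + x) * (w * T ^ g * E + E * T ^ g * w + E * T ^ g * E) * T ^ (2 * S - x) =
        T ^ (S + x) * (Gp * T ^ g * Gp) * T ^ (2 * S - x) := by
      rw [← add_mul, ← mul_add, e1]
    rw [e2]
    generalize T ^ (S + x) = t1
    generalize T ^ (2 * S - x) = t2
    generalize P ^ (S + x) = p1
    generalize P ^ (2 * S - x) = p2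
    generalize P ^ g = pg
    generalize T ^ g = tg
    simp only [sub_mul, mul_sub]
    abel
  have hlen : ∀ x, x < S → T ^ (S + x) * (T * T ^ g * T) * T ^ (2 * S - x) = T ^ (3 * S + g + 2) := by
    intro x hx
    rw [← pow_succ', ← pow_succ, ← pow_add, ← pow_add]
    congr 1
    omega
  have hgS : g ≤ 3 * S := by omega
  -- error terms from `E`
  have hb2 : ∀ x ∈ range S, Dom (κ2 ^ 2) (T ^ (3 * S + g + 2)) (M2 x) := by
    intro x hx
    have hx' := mem_range.mp hx
    have t1 := nmul (nmul hwn (nself (hTp.pow g)) hTp.pos) hEn (hTp.pos.mul (hTk g))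
    have t2 := nmul (nmul hEn (nself (hTp.pow g)) hTp.pos) hwn (hTp.pos.mul (hTk g))
    have t3 := nmul (nmul hEn (nself (hTp.pow g)) hTp.pos) hEn (hTp.pos.mul (hTk g))
    have hpos := (hTp.pos.mul (hTk g)).mul hTp.pos
    have t4 := (t1.add t2 (by positivity) (by positivity) hpos).add t3 (by positivity)
      (by positivity) hpos
    have t5 := nmul (nmul (nself (hTp.pow (S + x))) t4 (hTk _)) (nself (hTp.pow (2 * S - x)))
      ((hTk _).mul hpos)
    rw [hlen x hx'] at t5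
    refine nmono t5 (by positivity) (le_of_eq ?_) (hTk _)
    rw [hκ2]; ring
  have hb3 : ∀ x ∈ range S, Dom (κ3 ^ 2) (T ^ (3 * S + g + 2)) (M3 x) := by
    intro x hx
    have hx' := mem_range.mp hx
    have hpos := (hTp.pos.mul (hTk g)).mul hTp.pos
    have t1 := nmul (nmul (hPn (S + x) (by omega))
      (nmul (nmul hGn (hPn2 g hgS) hTp.pos) hGn (hTp.pos.mul (hTk g))) (hTk _))
      (hPn2 (2 * S - x) (by omega)) ((hTk _).mul hpos)
    have t2 := nmul (nmul (nself (hTp.pow (S + x)))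
      (nmul (nmul hGn (hPn g hgS) hTp.pos) hGn (hTp.pos.mul (hTk g))) (hTk _))
      (hPn2 (2 * S - x) (by omega)) ((hTk _).mul hpos)
    have t3 := nmul (nmul (nself (hTp.pow (S + x)))
      (nmul (nmul hGn (nself (hTp.pow g)) hTp.pos) hGn (hTp.pos.mul (hTk g))) (hTk _))
      (hPn (2 * S - x) (by omega)) ((hTk _).mul hpos)
    rw [hlen x hx'] at t1 t2 t3
    have t4 := (t1.add t2 (by positivity) (by positivity) (hTk _)).add t3 (by positivity)
      (by positivity) (hTk _)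
    refine nmono t4 (by positivity) (le_of_eq ?_) (hTk _)
    rw [hκ3, hκ]; ring
  -- main term
  set D := 2 * m + n * g with hD
  have hSBZ := hTe G a W N0 Pd D pW ha hW0 hpW (by omega) (by omega) (by omega) hSB
  have h5 : 0 ≤ 5 * pW ^ 2 := by positivity
  have hDn : 2 * D ≤ n * S := by
    have h1 : D ≤ n * (g + 1) := by
      rw [hD, mul_add, mul_one]; omega
    have h2 : n * (2 * (g + 1)) ≤ n * S := Nat.mul_le_mul_left n hg
    nlinarith
  have hbes0 := hLo G a s (W * a ^ D * W) R k (2 * N0 + D) D n (n * S + m) S (3 * (n * S) + 2 * m)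
    (5 * pW ^ 2) ha hs h5 hSBZ (by omega) hS (by omega) (by
      have h1 : n * (S - 1) ≤ n * S := Nat.mul_le_mul_left n (by omega)
      omega)
  have hlen0 : 3 * (n * S) + 2 * m + (2 * N0 + D) = n * (3 * S + g + 2) := by
    rw [hD, hn]; ring
  rw [hlen0, pow_mul, ← hT] at hbes0
  have hM0e : ∀ x ∈ range S, a ^ (n * S + m + n * x) * (W * a ^ D * W) *
      a ^ (3 * (n * S) + 2 * m - (n * S + m + n * x)) = M0 x := by
    intro x hx
    have hx' := mem_range.mp hx
    simp only [hM0, hw, hT]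
    have e1 : n * S + m + n * x = n * (S + x) + m := by ring
    have e2 : 3 * (n * S) + 2 * m - (n * S + m + n * x) = m + n * (2 * S - x) := by
      have h1 : n * x ≤ n * S := Nat.mul_le_mul_left n hx'.le
      rw [Nat.mul_sub]
      have : n * (2 * S) = 2 * (n * S) := by ring
      omega
    have e3 : a ^ D = a ^ m * (a ^ n) ^ g * a ^ m := by
      rw [← pow_mul, ← pow_add, ← pow_add, hD]; congr 1; ring
    rw [e2, e1, e3, pow_add a (n * (S + x)) m, pow_add a m (n * (2 * S - x)), pow_mul, pow_mul]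
    simp only [mul_assoc]
  have hb0 : ∀ c : ℕ → ℝ, Dom ((κ1 * √(∑ x ∈ range S, c x ^ 2)) ^ 2) (T ^ (3 * S + g + 2))
      (∑ x ∈ range S, c x • M0 x) := by
    intro c
    have h1 := bes_dom hbes0 c
    have e1 : ∑ x ∈ range S, c x • (a ^ (n * S + m + n * x) * (W * a ^ D * W) *
        a ^ (3 * (n * S) + 2 * m - (n * S + m + n * x))) = ∑ x ∈ range S, c x • M0 x :=
      Finset.sum_congr rfl fun x hx => by rw [hM0e x hx]
    rw [e1] at h1
    have h2 : 0 ≤ ∑ x ∈ range S, c x ^ 2 := Finset.sum_nonneg fun _ _ => sq_nonneg _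
    have hη : 0 < mass s := hs.mpos
    have h3 : (0:ℝ) ≤ 1 / n + 2 / (mass s * √(k + 1)) := by positivity
    have e2 : (κ1 * √(∑ x ∈ range S, c x ^ 2)) ^ 2 =
        5 * pW ^ 2 * (1 / n + 2 / (mass s * √(k + 1))) * ∑ x ∈ range S, c x ^ 2 := by
      rw [hκ1, mul_pow, mul_pow, mul_pow, Real.sq_sqrt h2, Real.sq_sqrt h3,
        Real.sq_sqrt (by norm_num : (0:ℝ) ≤ 5)]
    rw [e2]
    exact h1
  -- the combination
  set p : ℝ := (√2 * X + √S * u' ^ 2 * e0) ^ 2 with hp
  have hpp : 0 ≤ p := sq_nonneg _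
  have hkey : Bes (range S) p (P ^ (S + 2 * S + (g + 2)))
      (fun x => P ^ (S + x) * (Gp * P ^ g * Gp) * P ^ (2 * S - x)) := by
    refine bes_of_dom hpp (hPpos.pow _) fun c => ?_
    set cc := √(∑ x ∈ range S, c x ^ 2) with hcc
    have hcc0 : 0 ≤ cc := Real.sqrt_nonneg _
    have h2 : 0 ≤ ∑ x ∈ range S, c x ^ 2 := Finset.sum_nonneg fun _ _ => sq_nonneg _
    have hν : ∑ x ∈ range S, c x • (P ^ (S + x) * (Gp * P ^ g * Gp) * P ^ (2 * S - x)) =
        (∑ x ∈ range S, c x • M0 x) + (∑ x ∈ range S, c x • M2 x) +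
          (∑ x ∈ range S, c x • M3 x) := by
      rw [← Finset.sum_add_distrib, ← Finset.sum_add_distrib]
      refine Finset.sum_congr rfl fun x _ => ?_
      rw [hdec x, smul_add, smul_add]
    have d1 := ((hb0 c).add (nsum hκ2' (hTk (3 * S + g + 2)) c hb2) (by positivity) (by positivity)
      (hTk _)).add (nsum hκ3' (hTk (3 * S + g + 2)) c hb3) (by positivity) (by positivity) (hTk _)
    rw [← hν] at d1
    have d2 : Dom ((X * cc) ^ 2) (a ^ (n * (3 * S + g + 2)))
        (∑ x ∈ range S, c x • (P ^ (S + x) * (Gp * P ^ g * Gp) * P ^ (2 * S - x))) := by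
      rw [pow_mul]
      refine nmono d1 (by positivity) (le_of_eq ?_) (hTk _)
      rw [hXe]; ring
    -- pointwise bound
    have b1 : ∀ x ∈ range S, Bd (|c x| * u' ^ 2) (P ^ (3 * S + g + 2))
        (c x • (P ^ (S + x) * (Gp * P ^ g * Gp) * P ^ (2 * S - x))) := by
      intro x hx
      have hx' := mem_range.mp hx
      have h1 := (hu.mul (Bd.self (hPpos.pow g)) hu' hPpos).mul hu (by positivity)
        (hPpos.mul (hPpos.pow g))
      have h2 := ((h1.mulLeft (hPpos.pow (S + x))).mulRight (by positivity)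
        ((hPpos.pow _).mul ((hPpos.mul (hPpos.pow g)).mul hPpos)) (hPpos.pow (2 * S - x))).smul (c x)
      have e1 : P ^ (S + x) * (P * P ^ g * P) * P ^ (2 * S - x) = P ^ (3 * S + g + 2) := by
        rw [← pow_succ', ← pow_succ, ← pow_add, ← pow_add]
        congr 1
        omega
      rw [e1] at h2
      have e2 : |c x| * (u' * 1 * u') = |c x| * u' ^ 2 := by ring
      rwa [e2] at h2
    have b2 := Bd.sum (s := range S) (hPpos.pow (3 * S + g + 2)) b1
    have b3 : Bd (√S * cc * u' ^ 2) (P ^ (3 * S + g + 2))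
        (∑ x ∈ range S, c x • (P ^ (S + x) * (Gp * P ^ g * Gp) * P ^ (2 * S - x))) := by
      refine b2.mono ?_ (hPpos.pow _)
      rw [← Finset.sum_mul]
      exact mul_le_mul_of_nonneg_right (sum_abs_le S c) (sq_nonneg _)
    have r1 := hRef _ (X * cc) (√S * cc * u' ^ 2) (by positivity) (by positivity) d2 b3
    have e3 : S + 2 * S + (g + 2) = 3 * S + g + 2 := by ring
    rw [e3]
    refine r1.congr ?_
    have e4 : √2 * (X * cc) + √S * cc * u' ^ 2 * e0 = (√2 * X + √S * u' ^ 2 * e0) * cc := by ring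
    rw [e4, mul_pow, hcc, Real.sq_sqrt h2]
  have hfin := hBl G P (Gp * P ^ g * Gp) (g + 2) S S (2 * S) 5 p hP hmZ hpp hS (by omega) (by omega)
    hkey
  have e5 : S + 2 * S = 3 * S := by ring
  rw [e5] at hfin
  push_cast at hfin
  exact hfin

end

end Crest.Agent.R300LB
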