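import Crest.Agent.R300.LBPlan
import Crest.Agent.R300.LBConv

/-!
# Row 300, lower bounds: change of reference (`RefChStatement`)
-/

set_option autoImplicit false

namespace Crest.Agent.R300LB

open Finset

noncomputable section

namespace RefChP

variable {G : Type*} [Monoid G]

theorem refCh_of_mom {π P : MA G} {k : ℕ} (hk : 1 ≤ k) {M : ℝ} (hM : 0 ≤ M) (hπ : Pos π)
    (hP : Pos P) (h : Mom k M P π) {e0 : ℝ} (he0 : 0 ≤ e0) (hMe : M / 2 ^ k / 2 ≤ e0 ^ 2) :
    RefCh e0 π P := by
  classical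
  intro ν X C hX hC hd hb f
  set B : Set G := {w | 2 * P.coeff w < π.coeff w} with hB
  set ind : G → ℝ := fun w => if w ∈ B then 1 else 0 with hind
  have hind0 : ∀ w, 0 ≤ ind w := fun w => by simp only [hind]; split_ifs <;> norm_num
  have hn := cv_coeff_nonneg hP
  have hp := cv_coeff_nonneg hπ
  -- `P B ≤ π B / 2`
  have hPB : ev P ind ≤ ev π ind / 2 := by
    set S := P.coeff.support ∪ π.coeff.support with hS
    rw [cv_ev_eq (S := S) Finset.subset_union_left, cv_ev_eq (S := S) Finset.subset_union_right,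
      Finset.sum_div]
    refine Finset.sum_le_sum (fun w _ => ?_)
    simp only [hind]
    split_ifs with hw
    · have : 2 * P.coeff w < π.coeff w := hw
      linarith
    · simp
  have hPB0 : 0 ≤ ev P ind := hP _ hind0
  have hπB0 : 0 ≤ ev π ind := hπ _ hind0
  -- `π B ≤ M / 2 ^ k`
  have hπB : ev π ind ≤ M / 2 ^ k := by
    have h1 := h ind hind0
    have e1 : (fun w => ind w ^ k) = ind := by
      funext w; simp only [hind]; split_ifs
      · simp
      · simp [show k ≠ 0 by omega]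
    have e2 : (fun w => ind w ^ (k + 1)) = ind := by
      funext w; simp only [hind]; split_ifs
      · simp
      · simp
    rw [e1, e2] at h1
    rcases eq_or_lt_of_le hπB0 with h0 | h0
    · rw [← h0]; positivity
    · have h2 : (ev P ind) ^ k ≤ (ev π ind / 2) ^ k := pow_le_pow_left₀ hPB0 hPB k
      have h3 : (ev π ind) ^ (k + 1) ≤ M * (ev π ind / 2) ^ k :=
        h1.trans (mul_le_mul_of_nonneg_left h2 hM)
      rw [div_pow, pow_succ] at h3
      have h4 : 0 < (ev π ind) ^ k := pow_pos h0 k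
      rw [le_div_iff₀ (by positivity)]
      have h5 : (ev π ind) ^ k * (ev π ind * 2 ^ k) ≤ (ev π ind) ^ k * M := by
        calc (ev π ind) ^ k * (ev π ind * 2 ^ k) = ((ev π ind) ^ k * ev π ind) * 2 ^ k := by ring
          _ ≤ (M * ((ev π ind) ^ k / 2 ^ k)) * 2 ^ k :=
            mul_le_mul_of_nonneg_right h3 (by positivity)
          _ = (ev π ind) ^ k * M := by field_simp
      exact le_of_mul_le_mul_left h5 h4
  -- split
  set f1 : G → ℝ := fun w => if w ∈ B then 0 else f w with hf1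
  set f2 : G → ℝ := fun w => if w ∈ B then f w else 0 with hf2
  have hsplit : ev ν f = ev ν f1 + ev ν f2 := by
    rw [← ev_add_fun]
    exact ev_congr ν (fun w => by simp only [hf1, hf2]; split_ifs <;> simp)
  set Q := ev P (fun w => f w ^ 2) with hQ
  have hQ0 : 0 ≤ Q := hP _ (fun w => sq_nonneg _)
  have h1 : (ev ν f1) ^ 2 ≤ X ^ 2 * (2 * Q) := by
    refine (hd f1).trans (mul_le_mul_of_nonneg_left ?_ (sq_nonneg X))
    set S := P.coeff.support ∪ π.coeff.support with hS
    rw [hQ, cv_ev_eq (ν := π) (S := S) Finset.subset_union_right, cv_ev_eq (ν := P) (S := S) Finset.subset_union_left,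
      Finset.mul_sum]
    refine Finset.sum_le_sum (fun w _ => ?_)
    simp only [hf1]
    split_ifs with hw
    · have := mul_nonneg (hn w) (sq_nonneg (f w))
      simp only [ne_eq, OfNat.ofNat_ne_zero, not_false_eq_true, zero_pow, mul_zero]
      linarith
    · have : π.coeff w ≤ 2 * P.coeff w := by
        by_contra hcon
        exact hw (not_le.mp hcon)
      nlinarith [sq_nonneg (f w)]
  have h2 : |ev ν f2| ≤ C * (e0 * Real.sqrt Q) := by
    have h3 : |ev ν f2| ≤ C * ev P (fun w => |f2 w|) := by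
      exact Bd.abs hb f2
    have h4 : (ev P (fun w => |f2 w|)) ^ 2 ≤ ev P ind * Q := by
      have h5 := hP.cauchy ind (fun w => |f w|)
      have e1 : ev P (fun w => ind w * |f w|) = ev P (fun w => |f2 w|) :=
        ev_congr P (fun w => by simp only [hind, hf2]; split_ifs <;> simp)
      have e2 : ev P (fun w => ind w ^ 2) = ev P ind :=
        ev_congr P (fun w => by simp only [hind]; split_ifs <;> simp)
      have e3 : ev P (fun w => |f w| ^ 2) = Q := ev_congr P (fun w => sq_abs _)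
      rw [e1, e2, e3] at h5
      exact h5
    have h6 : ev P (fun w => |f2 w|) ≤ e0 * Real.sqrt Q := by
      apply abs_le_of_sq_le_sq' _ (by positivity) |>.2
      rw [mul_pow, Real.sq_sqrt hQ0]
      refine h4.trans (mul_le_mul_of_nonneg_right ?_ hQ0)
      calc ev P ind ≤ ev π ind / 2 := hPB
        _ ≤ M / 2 ^ k / 2 := by linarith
        _ ≤ e0 ^ 2 := hMe
    exact h3.trans (mul_le_mul_of_nonneg_left h6 hC)
  have h1' : |ev ν f1| ≤ √2 * X * Real.sqrt Q := by
    apply abs_le_of_sq_le_sq _ (by positivity)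
    rw [mul_pow, mul_pow, Real.sq_sqrt hQ0, Real.sq_sqrt (by norm_num : (0:ℝ) ≤ 2)]
    linarith
  have h7 : |ev ν f| ≤ (√2 * X + C * e0) * Real.sqrt Q := by
    rw [hsplit]
    refine (abs_add_le _ _).trans ?_
    nlinarith
  calc (ev ν f) ^ 2 = |ev ν f| ^ 2 := (sq_abs _).symm
    _ ≤ ((√2 * X + C * e0) * Real.sqrt Q) ^ 2 := pow_le_pow_left₀ (abs_nonneg _) h7 2
    _ = (√2 * X + C * e0) ^ 2 * Q := by rw [mul_pow, Real.sq_sqrt hQ0]

end RefChP

open RefChP in
theorem refChStatement2 : RefChStatement := by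
  intro G _ a b V u lam w ha hb hd hbd hV hu hlam hul hcount
  have hlam1 : (1 : ℝ) ≤ lam := by exact_mod_cast hlam
  have hu1 : u ≤ 1 / 4 := by nlinarith
  have hm := Mom.wd_inv hlam ha hb hV (by nlinarith : 2 * ((lam : ℝ) + 1) * u ≤ 1) hbd hd w
  refine refCh_of_mom hlam (by positivity) (ha.pos.pow _) (Wd_prob ha hb w).pos hm
    (Real.exp_pos _).le ?_
  -- numbers
  set N : ℝ := (w.count true : ℝ) with hN
  have hN0 : 0 ≤ N := Nat.cast_nonneg _
  have h1 : (1 + 6 * (lam : ℝ) ^ 2 * V) ^ (w.count true) ≤ Real.exp (3 * lam / 16) := by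
    have h2 : (1 + 6 * (lam : ℝ) ^ 2 * V) ≤ Real.exp (6 * (lam : ℝ) ^ 2 * V) := by
      have := Real.add_one_le_exp (6 * (lam : ℝ) ^ 2 * V)
      linarith
    calc (1 + 6 * (lam : ℝ) ^ 2 * V) ^ (w.count true)
        ≤ Real.exp (6 * (lam : ℝ) ^ 2 * V) ^ (w.count true) :=
          pow_le_pow_left₀ (by positivity) h2 _
      _ = Real.exp ((w.count true : ℝ) * (6 * (lam : ℝ) ^ 2 * V)) := by rw [← Real.exp_nat_mul]
      _ ≤ Real.exp (3 * lam / 16) := by
        apply Real.exp_le_exp.mpr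
        have : N * (6 * (lam : ℝ) ^ 2 * V) = (6 * lam / 32) * (32 * lam * V * N) := by ring
        rw [this]
        have h3 : (0 : ℝ) ≤ 6 * lam / 32 := by positivity
        nlinarith
  have h2 : Real.exp (lam / 2) ≤ (2 : ℝ) ^ lam := by
    have h3 : Real.exp (1 / 2) ≤ 2 := by
      have h4 : Real.exp 1 ≤ 2.7182818286 := Real.exp_one_lt_d9.le
      have h5 : Real.exp (1 / 2) ^ 2 = Real.exp 1 := by
        rw [← Real.exp_nat_mul]; norm_num
      nlinarith [Real.exp_pos (1 / 2)]
    calc Real.exp (lam / 2) = Real.exp (1 / 2) ^ lam := by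
          rw [← Real.exp_nat_mul]; congr 1; ring
      _ ≤ 2 ^ lam := pow_le_pow_left₀ (Real.exp_pos _).le h3 _
  have h3 : Real.exp (-((lam : ℝ) / 8)) ^ 2 = Real.exp (-(lam / 4)) := by
    rw [← Real.exp_nat_mul]; congr 1; push_cast; ring
  rw [h3]
  have h4 : (1 + 6 * (lam : ℝ) ^ 2 * V) ^ (w.count true) / 2 ^ lam ≤ Real.exp (-(lam / 4)) := by
    rw [div_le_iff₀ (by positivity)]
    calc (1 + 6 * (lam : ℝ) ^ 2 * V) ^ (w.count true) ≤ Real.exp (3 * lam / 16) := h1
      _ ≤ Real.exp (-(lam / 4)) * Real.exp (lam / 2) := by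
        rw [← Real.exp_add]
        apply Real.exp_le_exp.mpr
        linarith
      _ ≤ Real.exp (-(lam / 4)) * 2 ^ lam := mul_le_mul_of_nonneg_left h2 (Real.exp_pos _).le
  have h5 : 0 ≤ (1 + 6 * (lam : ℝ) ^ 2 * V) ^ (w.count true) / 2 ^ lam := by positivity
  linarith

end

end Crest.Agent.R300LB
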