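import Crest.Agent.R300.LBOrth
import Crest.Agent.R300.LBOneLevel

/-!
# Row 300, lower bounds, piece L6 (first part): common part from total variation, slip of `a'`
from closeness to the pure power.
-/

set_option autoImplicit false

namespace Crest.Agent.R300LB

open Finset

noncomputable section

variable {G : Type*} [Monoid G]

/-- positive part of a signed measure -/
def posPart (ν : MA G) : MA G :=
  MonoidAlgebra.ofCoeff (ν.coeff.mapRange (fun x => max x 0) (max_self 0))

theorem ev_posPart (ν : MA G) (f : G → ℝ) :
    ev (posPart ν) f = ev ν (fun w => (if 0 < ν.coeff w then 1 else 0) * f w) := by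
  classical
  unfold ev posPart
  rw [Finsupp.sum_mapRange_index (by simp)]
  refine Finsupp.sum_congr (fun w hw => ?_)
  show max (ν.coeff w) 0 * f w = ν.coeff w * ((if 0 < ν.coeff w then 1 else 0) * f w)
  split_ifs with h
  · rw [max_eq_left h.le]; ring
  · rw [max_eq_right (not_lt.mp h)]; ring

theorem Pos.coeff_nonneg {ν : MA G} (h : Pos ν) (w : G) : 0 ≤ ν.coeff w := by
  classical
  have h1 := h (fun v => if v = w then 1 else 0) (fun v => by split_ifs <;> norm_num)
  have h2 : ev ν (fun v => if v = w then 1 else 0) = ν.coeff w := by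
    unfold ev
    rw [Finsupp.sum_eq_single w]
    · simp
    · intro b _ hb; simp [hb]
    · intro _; simp
  rwa [h2] at h1

theorem Pos.of_coeff_nonneg {ν : MA G} (h : ∀ w, 0 ≤ ν.coeff w) : Pos ν := fun f hf => by
  unfold ev
  exact Finsupp.sum_nonneg (fun w _ => mul_nonneg (h w) (hf w))

theorem posPart_coeff (ν : MA G) (w : G) : (posPart ν).coeff w = max (ν.coeff w) 0 := by
  unfold posPart
  simp

/-- common part of two probability measures from a total variation bound -/
theorem exists_common {τ : ℝ} {P Q : MA G} (hP : Prob P) (hQ : Prob Q) (h : TVle τ (P - Q)) :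
    ∃ s : MA G, Pos s ∧ Le s P ∧ Le s Q ∧ 1 - τ / 2 ≤ mass s := by
  classical
  refine ⟨P - posPart (P - Q), ?_, ?_, ?_, ?_⟩
  · refine Pos.of_coeff_nonneg (fun w => ?_)
    rw [MonoidAlgebra.coeff_sub, Finsupp.sub_apply, posPart_coeff, MonoidAlgebra.coeff_sub,
      Finsupp.sub_apply]
    have h1 := hP.pos.coeff_nonneg w
    have h2 := hQ.pos.coeff_nonneg w
    rcases max_cases (P.coeff w - Q.coeff w) 0 with h3 | h3 <;> rw [h3.1] <;> linarith
  · unfold Le
    rw [sub_sub_cancel]
    refine Pos.of_coeff_nonneg (fun w => ?_)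
    rw [posPart_coeff]; exact le_max_right _ _
  · unfold Le
    refine Pos.of_coeff_nonneg (fun w => ?_)
    rw [MonoidAlgebra.coeff_sub, Finsupp.sub_apply, MonoidAlgebra.coeff_sub, Finsupp.sub_apply,
      posPart_coeff, MonoidAlgebra.coeff_sub, Finsupp.sub_apply]
    rcases max_cases (P.coeff w - Q.coeff w) 0 with h3 | h3 <;> rw [h3.1] <;> linarith [h3.2]
  · rw [mass_sub, hP.one]
    have h1 : mass (posPart (P - Q)) ≤ τ / 2 := by
      unfold mass
      rw [ev_posPart]
      have h2 := h (fun w => 2 * ((if 0 < (P - Q).coeff w then (1:ℝ) else 0) * 1) - 1)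
        (fun w => by split_ifs <;> norm_num)
      rw [ev_sub_fun, ev_mul_fun] at h2
      have h3 : ev (P - Q) (fun _ => (1:ℝ)) = 0 := by
        have := mass_sub P Q
        unfold mass at this
        rw [this]
        have e1 := hP.one
        have e2 := hQ.one
        unfold mass at e1 e2
        rw [e1, e2]; ring
      rw [h3, sub_zero] at h2
      have := (abs_le.mp h2).2
      linarith
    linarith

end

end Crest.Agent.R300LB
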