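import Crest.Agent.R300.LBPlan
import Crest.Agent.R300.LBSlipTV

/-!
# Row 300, lower bounds: E2c (one sided coins in `ℓ¹`) and E5b (slip of the next level)
-/

set_option autoImplicit false

namespace Crest.Agent.R300LB.SlipStep

open Finset Crest.Agent.R300LB

noncomputable section

/-! ### the walk bound -/

/-- second moment of the simple random walk -/
theorem walk_var (m : ℕ) :
    ∑ j ∈ range (m + 1), (m.choose j : ℝ) * ((m : ℝ) - 2 * j) ^ 2 = (m : ℝ) * 2 ^ m := by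
  have h := congrArg (Polynomial.eval (1 / 2 : ℝ)) (bernsteinPolynomial.variance ℝ m)
  rw [Polynomial.eval_finsetSum] at h
  simp only [bernsteinPolynomial, Polynomial.eval_mul, Polynomial.eval_pow, Polynomial.eval_sub,
    Polynomial.eval_X, Polynomial.eval_natCast, Polynomial.eval_one,
    nsmul_eq_mul] at h
  have h2 : ∀ j ∈ range (m + 1), (m.choose j : ℝ) * ((m : ℝ) - 2 * j) ^ 2
      = 4 * 2 ^ m * (((m : ℝ) * (1 / 2) - j) ^ 2 *
        ((m.choose j : ℝ) * (1 / 2) ^ j * (1 - 1 / 2) ^ (m - j))) := by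
    intro j hj
    have hj' : j ≤ m := Nat.lt_succ_iff.1 (mem_range.1 hj)
    have e1 : ((1 : ℝ) / 2) ^ j * (1 - 1 / 2) ^ (m - j) = (1 / 2) ^ m := by
      rw [show (1 : ℝ) - 1 / 2 = 1 / 2 by norm_num, ← pow_add, Nat.add_sub_cancel' hj']
    have e2 : (2 : ℝ) ^ m * (1 / 2) ^ m = 1 := by rw [← mul_pow]; norm_num
    calc (m.choose j : ℝ) * ((m : ℝ) - 2 * j) ^ 2
        = (2 ^ m * (1 / 2) ^ m) * ((m.choose j : ℝ) * ((m : ℝ) - 2 * j) ^ 2) := by rw [e2, one_mul]
      _ = _ := by rw [← e1]; ring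
  rw [Finset.sum_congr rfl h2, ← Finset.mul_sum]
  have h3 : ∑ j ∈ range (m + 1), (((m : ℝ) * (1 / 2) - j) ^ 2 *
        ((m.choose j : ℝ) * (1 / 2) ^ j * (1 - 1 / 2) ^ (m - j))) = (m : ℝ) * (1 / 2) * (1 - 1 / 2) := by
    simpa using h
  rw [h3]
  ring

/-- first absolute moment -/
theorem walk_abs (m : ℕ) :
    ∑ j ∈ range (m + 1), (m.choose j : ℝ) * |(m : ℝ) - 2 * j| ≤ √m * 2 ^ m := by
  have hc := Finset.sum_mul_sq_le_sq_mul_sq (range (m + 1)) (fun j => √(m.choose j : ℝ))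
    (fun j => √(m.choose j : ℝ) * |(m : ℝ) - 2 * j|)
  have e1 : ∑ j ∈ range (m + 1), √(m.choose j : ℝ) * (√(m.choose j : ℝ) * |(m : ℝ) - 2 * j|)
      = ∑ j ∈ range (m + 1), (m.choose j : ℝ) * |(m : ℝ) - 2 * j| :=
    Finset.sum_congr rfl fun j _ => by
      rw [← mul_assoc, Real.mul_self_sqrt (Nat.cast_nonneg _)]
  have e2 : ∑ j ∈ range (m + 1), √(m.choose j : ℝ) ^ 2 = 2 ^ m := by
    have : ∑ j ∈ range (m + 1), √(m.choose j : ℝ) ^ 2 = ∑ j ∈ range (m + 1), (m.choose j : ℝ) :=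
      Finset.sum_congr rfl fun j _ => Real.sq_sqrt (Nat.cast_nonneg _)
    rw [this]
    exact_mod_cast Nat.sum_range_choose m
  have e3 : ∑ j ∈ range (m + 1), (√(m.choose j : ℝ) * |(m : ℝ) - 2 * j|) ^ 2
      = (m : ℝ) * 2 ^ m := by
    rw [← walk_var]
    exact Finset.sum_congr rfl fun j _ => by
      rw [mul_pow, Real.sq_sqrt (Nat.cast_nonneg _), sq_abs]
  rw [e1, e2, e3] at hc
  have h0 : 0 ≤ √(m : ℝ) * 2 ^ m := by positivity
  have h1 : (∑ j ∈ range (m + 1), (m.choose j : ℝ) * |(m : ℝ) - 2 * j|) ^ 2 ≤ (√(m : ℝ) * 2 ^ m) ^ 2 := by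
    refine hc.trans (le_of_eq ?_)
    rw [mul_pow, Real.sq_sqrt (Nat.cast_nonneg _)]
    ring
  exact (abs_le_of_sq_le_sq' h1 h0).2

variable {G : Type} [Monoid G]

/-- `ℓ¹` bound for a polynomial in a probability measure -/
theorem tv_poly {a : MA G} (ha : Prob a) (m : ℕ) (c : ℕ → ℝ) :
    TVle (∑ j ∈ range m, |c j|) (∑ j ∈ range m, c j • a ^ j) := by
  refine TVle.sum fun j _ => ?_
  have := (TVle.of_prob (ha.pow j)).smul (c j)
  rwa [mul_one] at this

/-- coefficients of `2 ^ i * C ^ i * (1 - a)` -/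
theorem half_poly (a : MA G) (i : ℕ) :
    ((2 : ℝ)⁻¹ • (1 + a)) ^ i * (1 - a) =
      ∑ j ∈ range (i + 2), ((2 : ℝ)⁻¹ ^ i * ((((i + 1).choose j : ℕ) : ℝ) *
        (((i + 1 : ℕ) : ℝ) - 2 * j) / ((i + 1 : ℕ) : ℝ))) • a ^ j := by
  have hc : Commute (1 : MA G) a := Commute.one_left a
  have h1 : (1 + a) ^ i = ∑ j ∈ range (i + 1), ((i.choose j : ℕ) : ℝ) • a ^ j := by
    rw [add_comm, hc.symm.add_pow]
    refine Finset.sum_congr rfl fun j _ => ?_
    rw [one_pow, mul_one, ← nsmul_eq_mul', Nat.cast_smul_eq_nsmul]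
  have h2 : (1 + a) ^ i * (1 - a) = ∑ j ∈ range (i + 2),
      ((((i + 1).choose j : ℕ) : ℝ) * (((i + 1 : ℕ) : ℝ) - 2 * j) / ((i + 1 : ℕ) : ℝ)) • a ^ j := by
    have h3 : (1 + a) ^ i = ∑ j ∈ range (i + 2), ((i.choose j : ℕ) : ℝ) • a ^ j := by
      rw [h1, Finset.sum_range_succ _ (i + 1), Nat.choose_succ_self, Nat.cast_zero, zero_smul,
        add_zero]
    have h4 : (1 + a) ^ i * a = ∑ j ∈ range (i + 2), ((if j = 0 then 0 else (i.choose (j - 1) : ℕ)
        : ℕ) : ℝ) • a ^ j := by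
      rw [Finset.sum_range_succ' _ (i + 1)]
      simp only [if_true, Nat.cast_zero, zero_smul, add_zero, Nat.succ_ne_zero, if_false,
        Nat.add_sub_cancel]
      rw [h1, Finset.sum_mul]
      exact Finset.sum_congr rfl fun j _ => by rw [smul_mul_assoc, pow_succ]
    rw [mul_sub, mul_one, h4, h3, ← Finset.sum_sub_distrib]
    refine Finset.sum_congr rfl fun j hj => ?_
    rw [← sub_smul]
    congr 1
    have hi : ((i + 1 : ℕ) : ℝ) ≠ 0 := by positivity
    rw [eq_div_iff hi]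
    rcases Nat.eq_zero_or_pos j with h0 | h0
    · subst h0
      simp
    · obtain ⟨k, rfl⟩ : ∃ k, j = k + 1 := ⟨j - 1, by omega⟩
      have hk : k ≤ i := by have := mem_range.1 hj; omega
      simp only [Nat.succ_ne_zero, if_false, Nat.add_sub_cancel]
      have e1 : ((i + 1 : ℕ) : ℝ) * (i.choose k : ℕ) = ((i + 1).choose (k + 1) : ℕ) * ((k + 1 : ℕ) : ℝ) := by
        exact_mod_cast Nat.add_one_mul_choose_eq i k
      have e2 : (((i + 1).choose (k + 1) : ℕ) : ℝ) = (i.choose k : ℕ) + (i.choose (k + 1) : ℕ) := by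
        exact_mod_cast Nat.choose_succ_succ i k
      have e3 : ((i.choose (k + 1) : ℕ) : ℝ) = ((i + 1).choose (k + 1) : ℕ) - (i.choose k : ℕ) := by
        linarith
      rw [e3]
      push_cast at e1 ⊢
      nlinarith [e1]
  rw [smul_pow, smul_mul_assoc, h2, Finset.smul_sum]
  exact Finset.sum_congr rfl fun j _ => by rw [smul_smul]

theorem tv_half {a : MA G} (ha : Prob a) (i : ℕ) :
    TVle (2 / √((i : ℝ) + 1)) (((2 : ℝ)⁻¹ • (1 + a)) ^ i * (1 - a)) := by
  rw [half_poly]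
  refine (tv_poly ha (i + 2) _).mono ?_
  have h := walk_abs (i + 1)
  have hpos : (0 : ℝ) < ((i + 1 : ℕ) : ℝ) := by positivity
  have e : ∀ j ∈ range (i + 2), |(2 : ℝ)⁻¹ ^ i * ((((i + 1).choose j : ℕ) : ℝ) *
        (((i + 1 : ℕ) : ℝ) - 2 * j) / ((i + 1 : ℕ) : ℝ))|
      = ((2 : ℝ)⁻¹ ^ i / ((i + 1 : ℕ) : ℝ)) * ((((i + 1).choose j : ℕ) : ℝ) *
        |((i + 1 : ℕ) : ℝ) - 2 * j|) := by
    intro j _
    rw [abs_mul, abs_div, abs_mul, abs_of_pos hpos, abs_of_nonneg (by positivity : (0:ℝ) ≤ 2⁻¹ ^ i),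
      abs_of_nonneg (by positivity : (0:ℝ) ≤ (((i + 1).choose j : ℕ) : ℝ))]
    ring
  rw [Finset.sum_congr rfl e, ← Finset.mul_sum]
  calc ((2 : ℝ)⁻¹ ^ i / ((i + 1 : ℕ) : ℝ)) * ∑ j ∈ range (i + 2), ((((i + 1).choose j : ℕ) : ℝ) *
        |((i + 1 : ℕ) : ℝ) - 2 * j|)
      ≤ ((2 : ℝ)⁻¹ ^ i / ((i + 1 : ℕ) : ℝ)) * (√((i + 1 : ℕ) : ℝ) * 2 ^ (i + 1)) :=
        mul_le_mul_of_nonneg_left h (by positivity)
    _ = 2 / √((i : ℝ) + 1) := by
        have e2 : (2 : ℝ)⁻¹ ^ i * 2 ^ (i + 1) = 2 := by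
          rw [pow_succ, ← mul_assoc, ← mul_pow]; norm_num
        have hs : √((i + 1 : ℕ) : ℝ) * √((i + 1 : ℕ) : ℝ) = ((i + 1 : ℕ) : ℝ) :=
          Real.mul_self_sqrt hpos.le
        have hs0 : √((i + 1 : ℕ) : ℝ) ≠ 0 := (Real.sqrt_pos.2 hpos).ne'
        have e3 : ((i : ℝ) + 1) = ((i + 1 : ℕ) : ℝ) := by push_cast; ring
        rw [e3, div_mul_eq_mul_div, div_eq_div_iff hpos.ne' hs0]
        calc (2 : ℝ)⁻¹ ^ i * (√((i + 1 : ℕ) : ℝ) * 2 ^ (i + 1)) * √((i + 1 : ℕ) : ℝ)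
            = (2⁻¹ ^ i * 2 ^ (i + 1)) * (√((i + 1 : ℕ) : ℝ) * √((i + 1 : ℕ) : ℝ)) := by ring
          _ = 2 * ((i + 1 : ℕ) : ℝ) := by rw [e2, hs]

/-! ### the coin recursion -/

/-- average of `c` over a binomial variable -/
def bavg (η : ℝ) (k : ℕ) (c : ℕ → ℝ) : ℝ :=
  ∑ j ∈ range (k + 1), (k.choose j : ℝ) * η ^ j * (1 - η) ^ (k - j) * c j

theorem bavg_succ (η : ℝ) (k : ℕ) (c : ℕ → ℝ) :
    bavg η (k + 1) c = η * bavg η k (fun j => c (j + 1)) + (1 - η) * bavg η k c := by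
  unfold bavg
  rw [Finset.sum_range_succ' _ (k + 1)]
  have h1 : ∀ j ∈ range (k + 1), ((k + 1).choose (j + 1) : ℝ) * η ^ (j + 1) *
      (1 - η) ^ (k + 1 - (j + 1)) * c (j + 1)
      = η * ((k.choose j : ℝ) * η ^ j * (1 - η) ^ (k - j) * c (j + 1)) +
        (k.choose (j + 1) : ℝ) * η ^ (j + 1) * (1 - η) ^ (k - j) * c (j + 1) := by
    intro j _
    rw [Nat.choose_succ_succ, Nat.add_sub_add_right]
    push_cast
    ring
  rw [Finset.sum_congr rfl h1, Finset.sum_add_distrib, ← Finset.mul_sum, add_assoc]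
  congr 1
  rw [Finset.sum_range_succ' (fun j => (k.choose j : ℝ) * η ^ j * (1 - η) ^ (k - j) * c j) k,
    Finset.sum_range_succ, Nat.choose_succ_self, mul_add, Finset.mul_sum]
  congr 1
  · simp only [Nat.cast_zero, zero_mul, add_zero]
    refine Finset.sum_congr rfl fun j hj => ?_
    have : k - j = k - (j + 1) + 1 := by have := mem_range.1 hj; omega
    rw [this, pow_succ]
    ring
  · simp only [Nat.choose_zero_right, Nat.cast_one, pow_zero, Nat.sub_zero, pow_succ]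
    ring

theorem bavg_one (η : ℝ) (k : ℕ) : bavg η k (fun _ => 1) = 1 := by
  unfold bavg
  have := add_pow η (1 - η) k
  rw [add_sub_cancel, one_pow] at this
  refine Eq.trans (Finset.sum_congr rfl fun j _ => ?_) this.symm
  ring

theorem bavg_mono {η : ℝ} (h0 : 0 ≤ η) (h1 : η ≤ 1) (k : ℕ) {c d : ℕ → ℝ} (h : ∀ j, c j ≤ d j) :
    bavg η k c ≤ bavg η k d := by
  unfold bavg
  refine Finset.sum_le_sum fun j _ => mul_le_mul_of_nonneg_left (h j) ?_
  have : 0 ≤ 1 - η := by linarith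
  positivity

theorem bavg_sqrt {η : ℝ} (h0 : 0 < η) (h1 : η ≤ 1) (k : ℕ) :
    bavg η k (fun j => 2 / √((j : ℝ) + 1)) ≤ 2 / √(η * (k + 1)) := by
  have hη : 0 ≤ 1 - η := by linarith
  -- Cauchy
  have hC := Finset.sum_mul_sq_le_sq_mul_sq (range (k + 1))
    (fun j => √((k.choose j : ℝ) * η ^ j * (1 - η) ^ (k - j)))
    (fun j => √((k.choose j : ℝ) * η ^ j * (1 - η) ^ (k - j)) * (2 / √((j : ℝ) + 1)))
  have hw : ∀ j, 0 ≤ (k.choose j : ℝ) * η ^ j * (1 - η) ^ (k - j) := fun j => by positivity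
  have e1 : ∑ j ∈ range (k + 1), √((k.choose j : ℝ) * η ^ j * (1 - η) ^ (k - j)) *
      (√((k.choose j : ℝ) * η ^ j * (1 - η) ^ (k - j)) * (2 / √((j : ℝ) + 1)))
      = bavg η k (fun j => 2 / √((j : ℝ) + 1)) :=
    Finset.sum_congr rfl fun j _ => by rw [← mul_assoc, Real.mul_self_sqrt (hw j)]
  have e2 : ∑ j ∈ range (k + 1), √((k.choose j : ℝ) * η ^ j * (1 - η) ^ (k - j)) ^ 2 = 1 := by
    refine Eq.trans (Finset.sum_congr rfl fun j _ => ?_) (bavg_one η k)
    rw [Real.sq_sqrt (hw j), mul_one]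
  have e3 : ∑ j ∈ range (k + 1), (√((k.choose j : ℝ) * η ^ j * (1 - η) ^ (k - j)) *
      (2 / √((j : ℝ) + 1))) ^ 2 ≤ 4 / (η * (k + 1)) := by
    have h3 : ∀ j ∈ range (k + 1), (√((k.choose j : ℝ) * η ^ j * (1 - η) ^ (k - j)) *
      (2 / √((j : ℝ) + 1))) ^ 2 = (4 / (η * (k + 1))) *
        (((k + 1).choose (j + 1) : ℝ) * η ^ (j + 1) * (1 - η) ^ (k + 1 - (j + 1))) := by
      intro j _
      rw [mul_pow, Real.sq_sqrt (hw j), div_pow, Real.sq_sqrt (by positivity),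
        Nat.add_sub_add_right]
      have e4 : ((k : ℝ) + 1) * (k.choose j : ℕ) = ((k + 1).choose (j + 1) : ℕ) * ((j : ℝ) + 1) := by
        exact_mod_cast Nat.add_one_mul_choose_eq k j
      field_simp
      linear_combination (4 * η * η ^ j * (1 - η) ^ (k - j)) * e4
    rw [Finset.sum_congr rfl h3, ← Finset.mul_sum]
    have h4 : ∑ j ∈ range (k + 1), (((k + 1).choose (j + 1) : ℝ) * η ^ (j + 1) *
        (1 - η) ^ (k + 1 - (j + 1))) ≤ 1 := by
      have h5 := bavg_one η (k + 1)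
      unfold bavg at h5
      rw [Finset.sum_range_succ' _ (k + 1)] at h5
      simp only [mul_one] at h5
      have h6 : 0 ≤ ((k + 1).choose 0 : ℝ) * η ^ 0 * (1 - η) ^ (k + 1 - 0) := by positivity
      linarith
    calc (4 / (η * (k + 1))) * ∑ j ∈ range (k + 1), (((k + 1).choose (j + 1) : ℝ) * η ^ (j + 1) *
        (1 - η) ^ (k + 1 - (j + 1))) ≤ (4 / (η * (k + 1))) * 1 :=
          mul_le_mul_of_nonneg_left h4 (by positivity)
      _ = _ := mul_one _
  rw [e1, e2, one_mul] at hC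
  have h7 : (bavg η k (fun j => 2 / √((j : ℝ) + 1))) ^ 2 ≤ (2 / √(η * (k + 1))) ^ 2 := by
    refine (hC.trans e3).trans (le_of_eq ?_)
    rw [div_pow, Real.sq_sqrt (by positivity)]
    norm_num
  exact (abs_le_of_sq_le_sq' h7 (by positivity)).2

theorem tv_coins {a s : MA G} {R : ℕ} (ha : Prob a) (hs : Slip a R s) (c : ℕ → ℝ) (X : MA G)
    (hX : ∀ i, TVle (c i) (((2 : ℝ)⁻¹ • (1 + a)) ^ i * X)) (hcomm : Commute a X) (k : ℕ) :
    TVle (bavg (mass s) k c) (a ^ ((R + 1) * k) * X) := by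
  induction k generalizing X c with
  | zero =>
    have h := hX 0
    rw [pow_zero, one_mul] at h
    simpa [bavg] using h
  | succ k ih =>
    set C : MA G := (2 : ℝ)⁻¹ • (1 + a) with hC
    have hCa : Commute C a := by
      rw [hC]
      exact ((Commute.one_left a).add_left (Commute.refl a)).smul_left _
    have ih1 := ih (fun j => c (j + 1)) (C * X) (fun i => by
      have := hX (i + 1)
      rw [pow_succ, mul_assoc] at this
      exact this) (hCa.symm.mul_right hcomm)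
    have ih2 := ih c X hX hcomm
    -- decomposition `a ^ (R+1) = s * C + U`
    set U : MA G := a ^ (R + 1) - s * C with hU
    have hUpos : Pos U := by
      have h1 : Le (s * a) (a ^ (R + 1)) := by
        have := hs.le0.mul_right ha.pos
        rwa [← pow_succ] at this
      have h2 : Le s (a ^ (R + 1)) := hs.le1
      have h3 : U = (2 : ℝ)⁻¹ • (a ^ (R + 1) - s * a) + (2 : ℝ)⁻¹ • (a ^ (R + 1) - s) := by
        have e : a ^ (R + 1) = (2 : ℝ)⁻¹ • a ^ (R + 1) + (2 : ℝ)⁻¹ • a ^ (R + 1) := by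
          rw [← add_smul]; norm_num
        rw [hU, hC, mul_smul_comm, mul_add, mul_one, smul_sub, smul_sub, smul_add]
        nth_rewrite 1 [e]
        abel
      rw [h3]
      exact (Pos.smul h1 (by norm_num)).add (Pos.smul h2 (by norm_num))
    have hCmass : mass C = 1 := by
      rw [hC, mass_smul, mass_add, mass_one, ha.one]; norm_num
    have hUmass : mass U = 1 - mass s := by
      rw [hU, mass_sub, mass_mul, hCmass, mass_pow, ha.one, one_pow, mul_one]
    have key : a ^ ((R + 1) * (k + 1)) * X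
        = s * (a ^ ((R + 1) * k) * (C * X)) + U * (a ^ ((R + 1) * k) * X) := by
      have hCA : C * a ^ ((R + 1) * k) = a ^ ((R + 1) * k) * C := (hCa.pow_right _).eq
      rw [hU, sub_mul, mul_add, mul_one, add_comm ((R + 1) * k), pow_add]
      have : s * C * (a ^ ((R + 1) * k) * X) = s * (a ^ ((R + 1) * k) * (C * X)) := by
        rw [mul_assoc, ← mul_assoc C, hCA, mul_assoc]
      rw [this, mul_assoc]
      abel
    rw [key, bavg_succ, ← hUmass]
    exact ((TVle.of_pos hs.pos).mul ih1).add ((TVle.of_pos hUpos).mul ih2)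

theorem slip_mass_le_one {a s : MA G} {R : ℕ} (ha : Prob a) (hs : Slip a R s) : mass s ≤ 1 := by
  have := hs.le0.mass_le
  rwa [mass_pow, ha.one, one_pow] at this

/-- E2c -/
theorem tvSlip : TVSlipStatement := by
  intro G _ a s R k ha hs
  have h1 := tv_coins ha hs (fun i => 2 / √((i : ℝ) + 1)) (1 - a) (fun i => tv_half ha i)
    ((Commute.one_right a).sub_right (Commute.refl a)) k
  have h2 := h1.mono (bavg_sqrt hs.mpos (slip_mass_le_one ha hs) k)
  rwa [mul_sub, mul_one, ← pow_succ] at h2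

/-- E5b -/
theorem slipStep : SlipStepStatement := by
  intro G _ a P s R R' n ha hP hs hn hR hdom
  have hη := hs.mpos
  set k := n * R' / (R + 1) with hk
  have hk1 : (R + 1) * k ≤ n * R' := Nat.mul_div_le _ _
  have hk2 : n * R' < (R + 1) * (k + 1) := by
    rw [hk]
    exact Nat.lt_mul_div_succ _ (Nat.succ_pos R)
  have hk3 : (n : ℝ) * R' ≤ (R + 1) * (k + 1) := by exact_mod_cast hk2.le
  have hn0 : (1 : ℝ) ≤ n := by exact_mod_cast hn
  -- `η (k+1) ≥ 64 n ^ 2`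
  have h64 : 64 * (n : ℝ) ^ 2 ≤ mass s * (k + 1) := by
    have h1 : 64 * (n : ℝ) ^ 2 * (R + 1) ≤ mass s * (k + 1) * (R + 1) := by
      calc 64 * (n : ℝ) ^ 2 * (R + 1) = n * (64 * n * (R + 1)) := by ring
        _ ≤ n * (mass s * R') := mul_le_mul_of_nonneg_left hR (by linarith)
        _ = mass s * (n * R') := by ring
        _ ≤ mass s * ((R + 1) * (k + 1)) := mul_le_mul_of_nonneg_left hk3 hη.le
        _ = _ := by ring
    exact le_of_mul_le_mul_right h1 (by positivity)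
  have hstep : ∀ i : ℕ, TVle (1 / (4 * n)) (a ^ (n * R' + i) - a ^ (n * R' + i + 1)) := by
    intro i
    have h1 := tvSlip G a s R k ha hs
    have h2 := h1.mulRight (TVle.of_prob (ha.pow (n * R' + i - (R + 1) * k)))
    rw [sub_mul, ← pow_add, ← pow_add] at h2
    have e1 : (R + 1) * k + (n * R' + i - (R + 1) * k) = n * R' + i := by omega
    have e2 : (R + 1) * k + 1 + (n * R' + i - (R + 1) * k) = n * R' + i + 1 := by omega
    rw [e1, e2] at h2
    refine h2.mono ?_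
    have h3 : 8 * (n : ℝ) ≤ √(mass s * (k + 1)) := by
      apply Real.le_sqrt_of_sq_le
      nlinarith
    rw [div_le_div_iff₀ (by linarith) (by linarith)]
    linarith
  have hmid : ∀ i : ℕ, TVle (i * (1 / (4 * n))) (a ^ (n * R') - a ^ (n * R' + i)) := by
    intro i
    induction i with
    | zero => simpa using TVle.zero
    | succ i ih =>
      have h := ih.add (hstep i)
      have e : a ^ (n * R') - a ^ (n * R' + i) + (a ^ (n * R' + i) - a ^ (n * R' + i + 1))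
          = a ^ (n * R') - a ^ (n * R' + (i + 1)) := by
        rw [← add_assoc]; abel
      rw [e] at h
      refine h.mono (le_of_eq ?_)
      push_cast; ring
  have hm := hmid n
  have e0 : (n : ℝ) * (1 / (4 * n)) = 1 / 4 := by field_simp
  rw [e0] at hm
  have e1 : n * R' + n = n * (R' + 1) := by ring
  rw [e1] at hm
  have hq : Real.sqrt (1 / 16) = 1 / 4 := by
    rw [show (1 / 16 : ℝ) = (1 / 4) ^ 2 by norm_num, Real.sqrt_sq (by norm_num)]
  have hA := TVle.of_dom (hdom R' (Nat.le_succ _)) (by norm_num) (ha.pow _)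
  have hB := TVle.of_dom (hdom (R' + 1) le_rfl) (by norm_num) (ha.pow _)
  rw [hq] at hA hB
  have htot := (hA.add hm).add hB.neg
  have e2 : P ^ R' - a ^ (n * R') + (a ^ (n * R') - a ^ (n * (R' + 1))) +
      -(P ^ (R' + 1) - a ^ (n * (R' + 1))) = P ^ R' - P ^ (R' + 1) := by abel
  rw [e2] at htot
  obtain ⟨s', h1, h2, h3, h4⟩ := exists_common (hP.pow R') (hP.pow (R' + 1)) htot
  refine ⟨s', ⟨h1, h2, h3, ?_⟩, ?_⟩
  · linarith
  · linarith

end

end Crest.Agent.R300LB.SlipStep
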