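import Crest.Agent.R300.LBPlan
import Crest.Agent.R300.LBOrth
import Crest.Agent.R300.LBCoin

/-!
# Row 300, lower bounds, piece E4: Thue–Morse core (`TMStatement`)
-/

set_option autoImplicit false

namespace Crest.Agent.R300LB

namespace TM

open Finset

noncomputable section

variable {G : Type*} [Monoid G]

/-! ## algebra of `SB` (local versions) -/

theorem sb_zero {p : ℝ} {a : MA G} (ha : Pos a) (hp : 0 ≤ p) (z Pd : ℕ) : SB p a 0 z Pd := by
  intro T f
  simp only [mul_zero, zero_mul, ev_zero]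
  have := mul_nonneg hp ((ha.pow (T + z)) (fun w => f w ^ 2) (fun _ => sq_nonneg _))
  simpa using this

theorem sb_mono {p p' : ℝ} {a Z : MA G} {z Pd : ℕ} (ha : Pos a) (h : SB p a Z z Pd)
    (hp : p ≤ p') : SB p' a Z z Pd := fun T f =>
  le_trans (h T f) (mul_le_mul_of_nonneg_right hp ((ha.pow _) _ (fun _ => sq_nonneg _)))

theorem sb_pad {p : ℝ} {a Z : MA G} {z Pd Pd' : ℕ} (h : SB p a Z z Pd)
    (hP : Pd ≤ Pd') : SB p a Z z Pd' := fun T f => by
  refine le_trans (sum_le_sum_of_subset_of_nonneg ?_ (fun _ _ _ => sq_nonneg _)) (h T f)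
  exact Finset.Icc_subset_Icc hP (by omega)

/-- Minkowski in `ℓ²` -/
theorem mink {ι : Type*} (s : Finset ι) (α β : ι → ℝ) {x y E : ℝ} (hx : 0 ≤ x) (hy : 0 ≤ y)
    (hE : 0 ≤ E) (hα : ∑ i ∈ s, α i ^ 2 ≤ x ^ 2 * E) (hβ : ∑ i ∈ s, β i ^ 2 ≤ y ^ 2 * E) :
    ∑ i ∈ s, (α i + β i) ^ 2 ≤ (x + y) ^ 2 * E := by
  have h1 : ∑ i ∈ s, (α i + β i) ^ 2 =
      ∑ i ∈ s, α i ^ 2 + 2 * ∑ i ∈ s, α i * β i + ∑ i ∈ s, β i ^ 2 := by
    rw [mul_sum, ← sum_add_distrib, ← sum_add_distrib]
    exact sum_congr rfl (fun i _ => by ring)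
  have h2 : (∑ i ∈ s, α i * β i) ^ 2 ≤ (x * y * E) ^ 2 := by
    refine le_trans (sum_mul_sq_le_sq_mul_sq s α β) ?_
    have a0 : 0 ≤ ∑ i ∈ s, α i ^ 2 := sum_nonneg (fun _ _ => sq_nonneg _)
    have b0 : 0 ≤ ∑ i ∈ s, β i ^ 2 := sum_nonneg (fun _ _ => sq_nonneg _)
    calc _ ≤ (x ^ 2 * E) * (y ^ 2 * E) := mul_le_mul hα hβ b0 (by positivity)
      _ = _ := by ring
  have h3 : ∑ i ∈ s, α i * β i ≤ x * y * E :=
    (abs_le_of_sq_le_sq' h2 (by positivity)).2
  rw [h1]
  nlinarith

theorem sb_add {x y : ℝ} {a Z Z' : MA G} {z Pd : ℕ} (ha : Pos a) (hx : 0 ≤ x) (hy : 0 ≤ y)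
    (h : SB (x ^ 2) a Z z Pd) (h' : SB (y ^ 2) a Z' z Pd) : SB ((x + y) ^ 2) a (Z + Z') z Pd := by
  intro T f
  have e : ∀ i, ev (a ^ i * (Z + Z') * a ^ (T - i)) f =
      ev (a ^ i * Z * a ^ (T - i)) f + ev (a ^ i * Z' * a ^ (T - i)) f := by
    intro i
    rw [mul_add, add_mul, ev_add]
  simp only [e]
  exact mink _ _ _ hx hy ((ha.pow _) _ (fun _ => sq_nonneg _)) (h T f) (h' T f)

theorem sb_neg {p : ℝ} {a Z : MA G} {z Pd : ℕ} (h : SB p a Z z Pd) : SB p a (-Z) z Pd := by
  intro T f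
  have e : ∀ i, (ev (a ^ i * (-Z) * a ^ (T - i)) f) ^ 2 = (ev (a ^ i * Z * a ^ (T - i)) f) ^ 2 := by
    intro i
    rw [mul_neg, neg_mul, ev_neg, neg_sq]
  simp only [e]
  exact h T f

theorem sb_sub {x y : ℝ} {a Z Z' : MA G} {z Pd : ℕ} (ha : Pos a) (hx : 0 ≤ x) (hy : 0 ≤ y)
    (h : SB (x ^ 2) a Z z Pd) (h' : SB (y ^ 2) a Z' z Pd) : SB ((x + y) ^ 2) a (Z - Z') z Pd := by
  rw [sub_eq_add_neg]
  exact sb_add ha hx hy h (sb_neg h')

theorem sb_right {p : ℝ} {a Z : MA G} {z Pd : ℕ} (j : ℕ) (h : SB p a Z z Pd) :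
    SB p a (Z * a ^ j) (z + j) Pd := by
  intro T f
  have h1 := h (T + j) f
  have e : T + (z + j) = T + j + z := by ring
  rw [e]
  refine le_trans ?_ h1
  have hsub : Finset.Icc Pd (T - Pd) ⊆ Finset.Icc Pd (T + j - Pd) :=
    Finset.Icc_subset_Icc le_rfl (by omega)
  refine le_trans (le_of_eq ?_) (sum_le_sum_of_subset_of_nonneg hsub (fun _ _ _ => sq_nonneg _))
  refine sum_congr rfl (fun x hx => ?_)
  have hx := Finset.mem_Icc.mp hx
  have e2 : a ^ x * (Z * a ^ j) * a ^ (T - x) = a ^ x * Z * a ^ (T + j - x) := by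
    have : T + j - x = j + (T - x) := by omega
    rw [this, pow_add]
    simp only [mul_assoc]
  show (ev (a ^ x * (Z * a ^ j) * a ^ (T - x)) f) ^ 2 = _
  rw [e2]

theorem sb_left {p : ℝ} {a Z : MA G} {z Pd : ℕ} (j : ℕ) (h : SB p a Z z Pd) :
    SB p a (a ^ j * Z) (z + j) Pd := by
  intro T f
  have h1 := h (T + j) f
  have e : T + (z + j) = T + j + z := by ring
  rw [e]
  refine le_trans ?_ h1
  have e2 : ∀ x ∈ Finset.Icc Pd (T - Pd), (ev (a ^ x * (a ^ j * Z) * a ^ (T - x)) f) ^ 2 =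
      (ev (a ^ (x + j) * Z * a ^ (T + j - (x + j))) f) ^ 2 := by
    intro x hx
    have hx := Finset.mem_Icc.mp hx
    have : T + j - (x + j) = T - x := by omega
    rw [this, pow_add]
    simp only [mul_assoc]
  rw [sum_congr rfl e2]
  have e3 := Finset.sum_map (Finset.Icc Pd (T - Pd)) (addRightEmbedding j)
    (fun x => (ev (a ^ x * Z * a ^ (T + j - x)) f) ^ 2)
  simp only [addRightEmbedding_apply] at e3
  rw [← e3]
  refine sum_le_sum_of_subset_of_nonneg ?_ (fun _ _ _ => sq_nonneg _)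
  intro y hy
  rw [Finset.mem_map] at hy
  obtain ⟨x, hx, rfl⟩ := hy
  have hx := Finset.mem_Icc.mp hx
  rw [Finset.mem_Icc]
  simp only [addRightEmbedding_apply]
  omega

/-! ## expansion of a word -/

/-- first-order part -/
def L1 (a Δ : MA G) : List Bool → MA G
  | [] => 0
  | (c :: w) => a * L1 a Δ w - (if c then Δ * a ^ w.length else 0)

/-- second-order part -/
def L2 (a Δ : MA G) : List Bool → MA G
  | [] => 0
  | (c :: w) => a * L2 a Δ w - (if c then Δ * L1 a Δ w else 0)

/-- third- and higher-order part -/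
def L3 (a Δ : MA G) : List Bool → MA G
  | [] => 0
  | (c :: w) => a * L3 a Δ w - (if c then Δ * (L2 a Δ w + L3 a Δ w) else 0)

theorem wd_expand (a b : MA G) (w : List Bool) :
    Wd a b w = a ^ w.length + L1 a (a - b) w + L2 a (a - b) w + L3 a (a - b) w := by
  induction w with
  | nil => simp [Wd_nil, L1, L2, L3]
  | cons c w ih =>
    rw [Wd_cons, List.length_cons, L1, L2, L3]
    cases c
    · simp only [Bool.false_eq_true, if_false, sub_zero]
      rw [ih, pow_succ']
      noncomm_ring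
    · simp only [if_true]
      rw [ih, pow_succ']
      noncomm_ring

theorem L1_append (a Δ : MA G) (w v : List Bool) :
    L1 a Δ (w ++ v) = L1 a Δ w * a ^ v.length + a ^ w.length * L1 a Δ v := by
  induction w with
  | nil => simp [L1]
  | cons c w ih =>
    rw [List.cons_append, L1, ih, L1, List.length_cons, List.length_append]
    cases c
    · simp only [Bool.false_eq_true, if_false, sub_zero]
      rw [pow_succ' a]
      noncomm_ring
    · simp only [if_true]
      rw [pow_add, pow_succ' a]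
      noncomm_ring

theorem map_not_not (w : List Bool) : (w.map not).map not = w := by
  rw [List.map_map]
  have : (not ∘ not) = (id : Bool → Bool) := by funext b; simp
  rw [this, List.map_id]

theorem lin_eq_L1 (a X : MA G) (r : ℕ) :
    lin a r X = L1 a X (tm r) - L1 a X ((tm r).map not) := by
  induction r with
  | zero => simp [lin, tm, tsg, L1]
  | succ r ih =>
    rw [lin_succ, ih, tm, List.map_append, map_not_not, L1_append, L1_append, List.length_map,
      tm_length]
    noncomm_ring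

theorem mass_L2 {a Δ : MA G} (h0 : mass Δ = 0) (w : List Bool) : mass (L2 a Δ w) = 0 := by
  induction w with
  | nil => exact ev_zero _
  | cons c w ih =>
    rw [L2, mass_sub, mass_mul, ih]
    cases c
    · simp only [Bool.false_eq_true, if_false]
      have : mass (0 : MA G) = 0 := ev_zero _
      rw [this]; ring
    · simp only [if_true]
      rw [mass_mul, h0]; ring

theorem mass_L3 {a Δ : MA G} (h0 : mass Δ = 0) (w : List Bool) : mass (L3 a Δ w) = 0 := by
  induction w with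
  | nil => exact ev_zero _
  | cons c w ih =>
    rw [L3, mass_sub, mass_mul, ih]
    cases c
    · simp only [Bool.false_eq_true, if_false]
      have : mass (0 : MA G) = 0 := ev_zero _
      rw [this]; ring
    · simp only [if_true]
      rw [mass_mul, h0]; ring

/-! ## norms -/

section norms

variable {a b : MA G} {V : ℝ}

theorem ite_dom {c : Bool} {h : ℝ} {π H : MA G} (hπ : Pos π) (hh : 0 ≤ h) (hH : Dom h π H) :
    Dom h π (if c then -H else 0) := by
  cases c
  · simpa using Dom.zero π hπ hh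
  · simpa using hH.neg

/-- recursion step: `a * S - [c] Δ * H` -/
theorem step_dom {a Δ H S π : MA G} {V h T : ℝ} (c : Bool) (ha : Prob a) (hπ : Pos π)
    (hΔ0 : mass Δ = 0) (hΔ : Dom V a Δ) (hV : 0 ≤ V) (hH : Dom h π H) (hh : 0 ≤ h)
    (hS : Dom T π S) (hT : 0 ≤ T) :
    Dom (V * h + T) (a * π) (a * S - (if c then Δ * H else 0)) := by
  have h1 := orth_step ha hπ hΔ0 hΔ hV (ite_dom (c := c) hπ hh hH) hh hS hT
  have e : Δ * (if c = true then -H else 0) + a * S = a * S - (if c = true then Δ * H else 0) := by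
    cases c
    · simp
    · simp only [if_true, mul_neg]; abel
  rwa [e] at h1

theorem L23_dom (ha : Prob a) (hb : Prob b) (hV : 0 ≤ V) (h : Dom V a (a - b)) (w : List Bool)
    (hn : w.length * V ≤ 1) :
    Dom ((w.length * V) ^ 2) (a ^ w.length) (L2 a (a - b) w + L3 a (a - b) w) := by
  have h0 : mass (a - b) = 0 := by rw [mass_sub, ha.one, hb.one]; ring
  induction w with
  | nil => simpa [L2, L3] using Dom.zero (1 : MA G) Pos.one (le_refl (0:ℝ))
  | cons c w ih =>
    have hlen : ((c :: w).length : ℝ) = w.length + 1 := by simp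
    rw [hlen] at hn ⊢
    have hn' : (w.length : ℝ) * V ≤ 1 := by nlinarith
    have ih' := ih hn'
    -- L1+L2+L3 = Wd - a^n
    have h1 : Dom (2 * (w.length * V)) (a ^ w.length)
        (L1 a (a - b) w + L2 a (a - b) w + L3 a (a - b) w) := by
      have := (Wd_dom ha hb hV h w).mono (one_add_pow_sub_le hV w.length hn') (ha.pos.pow _)
      rw [wd_expand] at this
      have e : a ^ w.length + L1 a (a - b) w + L2 a (a - b) w + L3 a (a - b) w - a ^ w.length =
        L1 a (a - b) w + L2 a (a - b) w + L3 a (a - b) w := by abel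
      rwa [e] at this
    have h2 := step_dom c ha (ha.pos.pow w.length) h0 h hV h1 (by positivity) ih' (sq_nonneg _)
    have e : L2 a (a - b) (c :: w) + L3 a (a - b) (c :: w) =
        a * (L2 a (a - b) w + L3 a (a - b) w) - (if c = true then (a - b) *
          (L1 a (a - b) w + L2 a (a - b) w + L3 a (a - b) w) else 0) := by
      rw [L2, L3]
      cases c
      · simp only [Bool.false_eq_true, if_false, sub_zero]
        rw [mul_add]
      · simp only [if_true]
        noncomm_ring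
    rw [e, List.length_cons, pow_succ' a]
    refine h2.mono ?_ (ha.pos.mul (ha.pos.pow _))
    nlinarith [mul_nonneg hV hV]

theorem L3_dom (ha : Prob a) (hb : Prob b) (hV : 0 ≤ V) (h : Dom V a (a - b)) (w : List Bool)
    (hn : w.length * V ≤ 1) :
    Dom ((w.length * V) ^ 3) (a ^ w.length) (L3 a (a - b) w) := by
  have h0 : mass (a - b) = 0 := by rw [mass_sub, ha.one, hb.one]; ring
  induction w with
  | nil => simpa [L3] using Dom.zero (1 : MA G) Pos.one (le_refl (0:ℝ))
  | cons c w ih =>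
    have hlen : ((c :: w).length : ℝ) = w.length + 1 := by simp
    rw [hlen] at hn ⊢
    have hn' : (w.length : ℝ) * V ≤ 1 := by nlinarith
    have h2 := step_dom c ha (ha.pos.pow w.length) h0 h hV (L23_dom ha hb hV h w hn')
      (by positivity) (ih hn') (by positivity)
    rw [L3, List.length_cons, pow_succ' a]
    refine h2.mono ?_ (ha.pos.mul (ha.pos.pow _))
    have hw : (0:ℝ) ≤ w.length := Nat.cast_nonneg _
    have h3 : V * (w.length * V) ^ 2 + (w.length * V) ^ 3 = V ^ 3 * (w.length ^ 2 + w.length ^ 3) := by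
      ring
    have h4 : ((w.length + 1 : ℝ) * V) ^ 3 = V ^ 3 * (w.length + 1) ^ 3 := by ring
    rw [h3, h4]
    refine mul_le_mul_of_nonneg_left ?_ (by positivity)
    nlinarith [mul_nonneg hw hw]

end norms

/-! ## shift-Bessel bounds -/

theorem sb_ite {x : ℝ} {a Z : MA G} {z Pd : ℕ} (c : Bool) (ha : Pos a)
    (h : SB (x ^ 2) a Z z Pd) : SB (x ^ 2) a (if c then Z else 0) z Pd := by
  cases c
  · simpa using sb_zero ha (sq_nonneg x) z Pd
  · simpa using h

theorem L1_sb {a Δ : MA G} {x : ℝ} {gm Pd : ℕ} (ha : Prob a) (hx : 0 ≤ x)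
    (hp : ∀ g : ℕ, g ≤ gm → SB (x ^ 2) a (Δ * a ^ g * Δ) (g + 2) Pd) (w : List Bool) :
    ∀ i : ℕ, i + w.length ≤ gm + 1 →
      SB ((w.length * x) ^ 2) a (Δ * a ^ i * L1 a Δ w) (1 + i + w.length) Pd := by
  induction w with
  | nil =>
    intro i _
    rw [L1, mul_zero]
    exact sb_zero ha.pos (sq_nonneg _) _ _
  | cons c w ih =>
    intro i hi
    rw [List.length_cons] at hi ⊢
    have h1 := ih (i + 1) (by omega)
    have h2 := sb_right w.length (hp i (by omega))
    have e1 : 1 + (i + 1) + w.length = 1 + i + (w.length + 1) := by ring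
    have e2 : i + 2 + w.length = 1 + i + (w.length + 1) := by ring
    rw [e1] at h1
    rw [e2] at h2
    have h3 := sb_sub ha.pos (by positivity) hx h1 (sb_ite c ha.pos h2)
    have e : Δ * a ^ i * L1 a Δ (c :: w) = Δ * a ^ (i + 1) * L1 a Δ w -
        (if c = true then Δ * a ^ i * Δ * a ^ w.length else 0) := by
      rw [L1, mul_sub]
      cases c
      · simp only [Bool.false_eq_true, if_false, mul_zero, sub_zero]
        rw [pow_succ]
        simp only [mul_assoc]
      · simp only [if_true]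
        rw [pow_succ]
        simp only [mul_assoc]
    rw [e]
    refine sb_mono ha.pos h3 (le_of_eq ?_)
    push_cast
    ring

theorem L2_sb {a Δ : MA G} {x : ℝ} {gm Pd : ℕ} (ha : Prob a) (hx : 0 ≤ x)
    (hp : ∀ g : ℕ, g ≤ gm → SB (x ^ 2) a (Δ * a ^ g * Δ) (g + 2) Pd) (w : List Bool)
    (hw : w.length ≤ gm + 1) :
    SB ((w.length ^ 2 / 2 * x) ^ 2) a (L2 a Δ w) w.length Pd := by
  induction w with
  | nil =>
    rw [L2]
    exact sb_zero ha.pos (sq_nonneg _) _ _
  | cons c w ih =>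
    rw [List.length_cons] at hw ⊢
    have h1 := sb_left 1 (ih (by omega))
    rw [pow_one] at h1
    have h2 := L1_sb ha hx hp w 0 (by omega)
    rw [pow_zero, mul_one] at h2
    have e1 : 1 + 0 + w.length = w.length + 1 := by ring
    rw [e1] at h2
    have h3 := sb_sub ha.pos (by positivity) (by positivity) h1 (sb_ite c ha.pos h2)
    rw [L2]
    refine sb_mono ha.pos h3 ?_
    refine pow_le_pow_left₀ (by positivity) ?_ 2
    push_cast
    have : 0 ≤ x * (1 / 2) := by positivity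
    nlinarith

/-- **E4** -/
theorem tmStatement (hD : DomSBStatement) : TMStatement := by
  intro G _ a b s R m r gm Pd V p ha hb hV hp hdom hVp hNV hr hgm hpair hs hm
  have h0 : mass (a - b) = 0 := by rw [mass_sub, ha.one, hb.one]; ring
  set Δ := a - b with hΔ
  obtain ⟨x, hx, hxp⟩ : ∃ x : ℝ, 0 ≤ x ∧ x ^ 2 = p := ⟨√p, Real.sqrt_nonneg _, Real.sq_sqrt hp⟩
  rw [← hxp] at hpair
  have hlen : (tm r).length = 2 ^ r := tm_length r
  have hlen' : ((tm r).map not).length = 2 ^ r := by rw [List.length_map, hlen]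
  set N : ℝ := (2 : ℝ) ^ r with hN
  have hN0 : 0 < N := by positivity
  have hcast : (((2 : ℕ) ^ r : ℕ) : ℝ) = N := by push_cast; rfl
  -- generic bound for one word
  have key : ∀ w : List Bool, w.length = 2 ^ r →
      SB ((3 / 2 * N ^ 2 * x) ^ 2) a (L2 a Δ w + L3 a Δ w) (2 ^ r) Pd := by
    intro w hw
    have hwN : (w.length : ℝ) = N := by rw [hw, hcast]
    have h2 := L2_sb ha hx hpair w (by omega)
    rw [hwN, hw] at h2
    have h3 := L3_dom ha hb hV hdom w (by rw [hwN]; exact hNV)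
    have h4 := hD G a (L3 a Δ w) w.length _ ha (mass_L3 h0 w) (by positivity)
      (by rw [hw]; exact Nat.one_le_two_pow) h3
    rw [hwN, hw] at h4
    have h5 : SB ((N ^ 2 * x) ^ 2) a (L3 a Δ w) (2 ^ r) Pd := by
      refine sb_pad (sb_mono ha.pos h4 ?_) (Nat.zero_le _)
      rw [← hxp] at hVp
      calc N * (N * V) ^ 3 = N ^ 4 * V ^ 3 := by ring
        _ ≤ N ^ 4 * x ^ 2 := mul_le_mul_of_nonneg_left hVp (by positivity)
        _ = _ := by ring
    have h6 := sb_add ha.pos (by positivity) (by positivity) h2 h5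
    refine sb_mono ha.pos h6 (le_of_eq ?_)
    ring
  refine ⟨(L2 a Δ (tm r) + L3 a Δ (tm r)) -
    (L2 a Δ ((tm r).map not) + L3 a Δ ((tm r).map not)), lin a r Δ, ?_, ?_, ?_, ?_⟩
  · rw [lin_eq_L1, wd_expand a b (tm r), wd_expand a b ((tm r).map not), hlen, hlen']
    rw [← hΔ]
    abel
  · rw [mass_sub, mass_add, mass_add, mass_L2 h0, mass_L2 h0, mass_L3 h0, mass_L3 h0]
    ring
  · have h1 := sb_sub ha.pos (by positivity) (by positivity) (key (tm r) hlen)
      (key ((tm r).map not) hlen')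
    refine sb_mono ha.pos h1 ?_
    rw [← hxp]
    have : (3 / 2 * N ^ 2 * x + 3 / 2 * N ^ 2 * x) ^ 2 = 9 * N ^ 4 * x ^ 2 := by ring
    rw [this]
    have : 0 ≤ N ^ 4 * x ^ 2 := by positivity
    nlinarith
  · -- linear part
    have hms := hs.mpos
    have hm1 := hs.mass_le_one ha
    rw [lin_eq, mul_smul_comm, smul_mul_assoc]
    set k := m / (R + 1) with hk
    have hkm : (R + 1) * k ≤ m := Nat.mul_div_le m (R + 1)
    have hkm2 : m < (R + 1) * (k + 1) := Nat.lt_mul_div_succ m (Nat.succ_pos R)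
    have hV2 : Dom ((√V) ^ 2) a Δ := by rwa [Real.sq_sqrt hV]
    have g1 := GG_dom ha (Real.sqrt_nonneg V) hV2 r
    have g2 := deriv_bound k r (2 ^ r - r) ha hs (sq_nonneg _) g1
    obtain ⟨j, hj⟩ : ∃ j, m = (R + 1) * k + j := ⟨m - (R + 1) * k, by omega⟩
    have g3 := (g2.mulLeft (ha.pow j)).mulRight (ha.pow j) (by positivity)
      ((ha.pos.pow j).mul (ha.pos.pow _))
    have hrr : r < 2 ^ r := Nat.lt_two_pow_self
    have e1 : a ^ j * a ^ (2 * ((R + 1) * k) + r + (2 ^ r - r)) * a ^ j = a ^ (2 * m + 2 ^ r) := by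
      rw [← pow_add, ← pow_add]
      congr 1
      omega
    have e2 : a ^ j * (a ^ ((R + 1) * k) * (Dif a)^[r] (GG a r Δ) * a ^ ((R + 1) * k)) * a ^ j =
        a ^ m * (Dif a)^[r] (GG a r Δ) * a ^ m := by
      have e3 : a ^ m = a ^ j * a ^ ((R + 1) * k) := by rw [← pow_add, hj]; congr 1; ring
      have e4 : a ^ m = a ^ ((R + 1) * k) * a ^ j := by rw [← pow_add, hj]
      calc _ = (a ^ j * a ^ ((R + 1) * k)) * (Dif a)^[r] (GG a r Δ) *
            (a ^ ((R + 1) * k) * a ^ j) := by noncomm_ring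
        _ = _ := by rw [← e3, ← e4]
    rw [e1, e2] at g3
    have g4 := g3.smul ((-1 : ℝ) ^ r)
    refine g4.mono ?_ (ha.pos.pow _)
    have es : ((-1 : ℝ) ^ r) ^ 2 = 1 := by rw [← pow_mul, mul_comm r 2, pow_mul]; norm_num
    rw [es, one_mul, mul_pow, Real.sq_sqrt hV]
    set h := (mass s) ^ 2 with hh
    have hh0 : 0 < h := by positivity
    have hm0 : (0 : ℝ) < m := by exact_mod_cast hm
    have hC0 : (0 : ℝ) < ((k + r).choose r : ℝ) := by
      exact_mod_cast Nat.choose_pos (Nat.le_add_left r k)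
    have hC : ((k : ℝ) + 1) ^ r ≤ (r : ℝ) ^ r * ((k + r).choose r : ℝ) := by
      have h1 : (k + 1) ^ r ≤ r ^ r * (k + r).choose r := by
        calc (k + 1) ^ r ≤ (k + 1).ascFactorial r := Nat.pow_succ_le_ascFactorial (k + 1) r
          _ = r.factorial * (k + r).choose r := Nat.ascFactorial_eq_factorial_mul_choose _ _
          _ ≤ r ^ r * (k + r).choose r := Nat.mul_le_mul_right _ (Nat.factorial_le_pow r)
      exact_mod_cast h1
    have hmk : (m : ℝ) ≤ (R + 1) * (k + 1) := by exact_mod_cast hkm2.le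
    have h2 : ((2 : ℝ) ^ (r * (r - 1) / 2)) ^ 2 ≤ ((2 : ℝ) ^ r) ^ r := by
      rw [← pow_mul, ← pow_mul]
      refine pow_le_pow_right₀ (by norm_num) ?_
      calc r * (r - 1) / 2 * 2 ≤ r * (r - 1) := Nat.div_mul_le_self _ _
        _ ≤ r * r := Nat.mul_le_mul_left _ (Nat.sub_le _ _)
    have h3 : (4 / h) ^ r / ((k + r).choose r : ℝ) ≤ (4 * r * (R + 1) / (h * m)) ^ r := by
      have hk1 : (0 : ℝ) < (k : ℝ) + 1 := by positivity
      have a1 : 1 / ((k + r).choose r : ℝ) ≤ (r / ((k : ℝ) + 1)) ^ r := by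
        rw [div_pow, div_le_div_iff₀ hC0 (by positivity), one_mul]
        exact hC
      have a2 : (r : ℝ) / ((k : ℝ) + 1) ≤ r * (R + 1) / m := by
        rw [div_le_div_iff₀ hk1 hm0]
        have : (0 : ℝ) ≤ r := Nat.cast_nonneg r
        nlinarith
      calc (4 / h) ^ r / ((k + r).choose r : ℝ) = (4 / h) ^ r * (1 / ((k + r).choose r : ℝ)) := by
            rw [mul_one_div]
        _ ≤ (4 / h) ^ r * (r / ((k : ℝ) + 1)) ^ r :=
            mul_le_mul_of_nonneg_left a1 (by positivity)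
        _ ≤ (4 / h) ^ r * (r * (R + 1) / m) ^ r :=
            mul_le_mul_of_nonneg_left (pow_le_pow_left₀ (by positivity) a2 r) (by positivity)
        _ = (4 * r * (R + 1) / (h * m)) ^ r := by
            rw [← mul_pow]
            congr 1
            field_simp
    calc ((2 : ℝ) ^ (r * (r - 1) / 2)) ^ 2 * V * ((4 / h) ^ r / ((k + r).choose r : ℝ))
        ≤ ((2 : ℝ) ^ r) ^ r * V * (4 * r * (R + 1) / (h * m)) ^ r := by
          apply mul_le_mul (mul_le_mul_of_nonneg_right h2 hV) h3 (by positivity) (by positivity)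
      _ = (2 ^ r * 4 * r * (R + 1) / (h * m)) ^ r * V := by
          have : (2 : ℝ) ^ r * 4 * r * (R + 1) / (h * m) =
            2 ^ r * (4 * r * (R + 1) / (h * m)) := by ring
          rw [this, mul_pow]
          ring

end

end TM

end Crest.Agent.R300LB
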