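import Crest.Agent.R300.LBPlan
import Crest.Agent.R300.LBOrth
import Crest.Agent.R300.LBLaw2

/-!
# Row 300, lower bounds: words and `ℓ¹` errors of the next level (`WordStatement`)
-/

set_option autoImplicit false

namespace Crest.Agent.R300LB

open Finset

noncomputable section

namespace Word

theorem blk_length (x y : List Bool) (h : x.length = y.length) (w : List Bool) :
    (blk x y w).length = w.length * x.length := by
  induction w with
  | nil => simp [blk]
  | cons c w ih =>
    have : blk x y (c :: w) = (if c then y else x) ++ blk x y w := by simp [blk]
    rw [this, List.length_append, ih, List.length_cons]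
    cases c
    · simp; ring
    · simp only [if_true]; rw [← h]; ring

theorem blk_inj (x y : List Bool) (h : x.length = y.length) (hne : x ≠ y) :
    ∀ (w w' : List Bool), w.length = w'.length → blk x y w = blk x y w' → w = w' := by
  intro w
  induction w with
  | nil => intro w' hl _; exact (List.length_eq_zero_iff.mp hl.symm).symm
  | cons c w ih =>
    intro w' hl he
    cases w' with
    | nil => simp at hl
    | cons c' w' =>
      have e1 : blk x y (c :: w) = (if c then y else x) ++ blk x y w := by simp [blk]
      have e2 : blk x y (c' :: w') = (if c' then y else x) ++ blk x y w' := by simp [blk]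
      rw [e1, e2] at he
      have hlen : (if c = true then y else x).length = (if c' = true then y else x).length := by
        cases c <;> cases c' <;> simp [h]
      obtain ⟨h1, h2⟩ := List.append_inj he hlen
      have hc : c = c' := by
        cases c <;> cases c'
        · rfl
        · simp at h1; exact absurd h1 hne
        · simp at h1; exact absurd h1.symm hne
        · rfl
      rw [hc, ih w' (by simpa using hl) h2]

theorem pat_length (m r : ℕ) (c : Bool) : (pat m r c).length = 2 * m + 2 ^ r := by
  simp only [pat, List.length_append, List.length_replicate, List.length_map, tm_length]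
  ring

theorem pat_ne (m r : ℕ) : pat m r false ≠ pat m r true := by
  intro h
  unfold pat at h
  rw [List.append_assoc, List.append_assoc] at h
  have h1 := List.append_cancel_left h
  have h2 := List.append_cancel_right h1
  have hpos : 0 < (tm r).length := by rw [tm_length]; positivity
  cases hT : tm r with
  | nil => rw [hT] at hpos; simp at hpos
  | cons t l =>
    rw [hT] at h2
    simp at h2

theorem D_blk (q : ℝ) (x y : List Bool) (w : List Bool) :
    D q (blk x y w) = (w.map (fun c => if c then D q y else D q x)).prod := by
  induction w with
  | nil => rfl
  | cons c w ih =>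
    have e1 : blk x y (c :: w) = (if c then y else x) ++ blk x y w := by simp [blk]
    rw [e1, D_append, ih, List.map_cons, List.prod_cons]
    cases c <;> rfl

theorem tv_words {G : Type*} [Monoid G] {τ : ℝ} {a b a' b' : MA G} (ha : Prob a) (hb : Prob b)
    (ha' : Prob a') (hb' : Prob b') (h1 : TVle τ (a - a')) (h2 : TVle τ (b - b')) (w : List Bool) :
    TVle (w.length * τ) (Wd a b w - (w.map (fun c => if c then b' else a')).prod) := by
  have h := (TVle.prod (τ := τ) (w.map (fun c => ((if c then b else a), (if c then b' else a')))) (by
    intro p hp
    obtain ⟨c, -, rfl⟩ := List.mem_map.mp hp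
    cases c
    · exact ⟨TVle.of_prob ha, TVle.of_prob ha', h1⟩
    · exact ⟨TVle.of_prob hb, TVle.of_prob hb', h2⟩)).1
  rw [List.length_map, List.map_map, List.map_map] at h
  exact h

theorem Wd_replicate {G : Type*} [Monoid G] (a b : MA G) (m : ℕ) :
    Wd a b (List.replicate m false) = a ^ m := by
  simp [Wd]

end Word

open Word in
theorem wordStatement : WordStatement := by
  intro q τ x y a b m r hq hq' hτ hlen hne ha hb hta htb
  have hDx : Prob (D q x) := prob_D hq.le (by linarith) x
  have hDy : Prob (D q y) := prob_D hq.le (by linarith) y
  refine ⟨?_, ?_, ?_, ?_, ?_⟩
  · intro c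
    rw [blk_length x y hlen, pat_length]
  · intro h
    exact pat_ne m r (blk_inj x y hlen hne _ _ (by rw [pat_length, pat_length]) h)
  · intro c
    have h := tv_words ha hb hDx hDy hta htb (pat m r c)
    rw [← D_blk, pat_length] at h
    push_cast at h
    exact h
  · unfold pat
    rw [Wd_append, Wd_append, Wd_replicate]
    have : (tm r).map (fun t => xor false t) = tm r := by
      conv_rhs => rw [← List.map_id (tm r)]
      congr 1
      funext t
      simp
    rw [this]
  · unfold pat
    rw [Wd_append, Wd_append, Wd_replicate]
    have : (tm r).map (fun t => xor true t) = (tm r).map not := by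
      congr 1
      funext t
      simp
    rw [this]

end

end Crest.Agent.R300LB
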