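import Crest.Agent.R300.LBBlock
import Crest.Agent.R300.LBCoin
import Crest.Agent.R300.LBLocation
import Crest.Agent.R300.LBSlipStep
import Crest.Agent.R300.LBTM
import Crest.Agent.R300.LBWord
import Crest.Agent.R300.LBPair
import Crest.Agent.R300.LBDrift
import Crest.Agent.R300.LBRefCh2
import Crest.Agent.R300.LBIter
import Crest.Agent.R300.LBBase
import Crest.Agent.R300.LBFinal

/-! Row 300, lower bounds: final glue -/

set_option autoImplicit false

namespace Crest.Agent.R300LB

/-- all pieces used by the step -/
structure StepPieces : Prop where
  block : BlockStatement
  domSB : DomSBStatement
  tensor : TensorStatement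
  deriv : DerivStatement
  location : LocationStatement
  tvSlip : TVSlipStatement
  refCh : RefChStatement
  tmS : TMStatement
  word : WordStatement
  drift : DriftStatement
  slipStep : SlipStepStatement
  pair : PairStepStatement

theorem stepPieces : StepPieces where
  block := block
  domSB := domSB
  tensor := tensor
  deriv := derivStatement
  location := locationStatement
  tvSlip := SlipStep.tvSlip
  refCh := refChStatement2
  tmS := TM.tmStatement domSB
  word := wordStatement
  drift := drift locationStatement domSB
  slipStep := SlipStep.slipStep
  pair := pairStep block tensor locationStatement

theorem core_of (hslip : BaseDom.BaseSlipStatement) (hstep : StepStatement) : CoreStatement :=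
  Itr.iterStatement (BaseDom.base_of_slip hslip) domSB hstep

end Crest.Agent.R300LB
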