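import Crest.Agent.R300.LBRep

/-!
# Row 300, lower bounds, piece L7: the macro step in the pure reference

`Wd A B γ` for a level pair `A, B` (each a word of length `n` in `a, b`), everything measured in the
pure reference `a^(n k)`.
-/

set_option autoImplicit false

namespace Crest.Agent.R300LB

open Finset

noncomputable section

variable {G : Type*} [Monoid G]

/-- product of three norms -/
theorem Dom.mul3 {x y z : ℝ} {π₁ π₂ π₃ ν₁ ν₂ ν₃ : MA G} (h₁ : Dom (x ^ 2) π₁ ν₁)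
    (h₂ : Dom (y ^ 2) π₂ ν₂) (h₃ : Dom (z ^ 2) π₃ ν₃) (p₁ : Pos π₁) (p₂ : Pos π₂) :
    Dom ((x * y * z) ^ 2) (π₁ * π₂ * π₃) (ν₁ * ν₂ * ν₃) := by
  have := Dom.mul (Dom.mul h₁ h₂ (sq_nonneg _) p₁) h₃ (by positivity) (p₁.mul p₂)
  rwa [← mul_pow, ← mul_pow] at this

theorem Wd_replicate (A B : MA G) (k : ℕ) : Wd A B (List.replicate k false) = A ^ k := by
  simp [Wd, List.prod_replicate]

/-- difference of a word in `A, B` and the power of `A`, pure reference -/
theorem Wd_sub_pow_pure {a A B : MA G} {n L : ℕ} {x : ℝ} (ha : Prob a)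
    (hw : ∀ γ : List Bool, γ.length ≤ L → Dom (2 ^ 2) (a ^ (n * γ.length)) (Wd A B γ))
    (hx0 : 0 ≤ x) (hx : Dom (x ^ 2) (a ^ n) (A - B)) (γ : List Bool) (hγ : γ.length ≤ L) :
    Dom ((4 * γ.length * x) ^ 2) (a ^ (n * γ.length)) (Wd A B γ - A ^ γ.length) := by
  have e : Wd A B γ - A ^ γ.length = -(∑ j ∈ range γ.length, A ^ j * (A - B) *
      (if γ.getD j false then Wd A B (γ.drop (j + 1)) else 0)) := by
    conv_lhs => rw [Wd_firstMark A B γ]
    abel
  rw [e]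
  refine Dom.neg ?_
  have key := Dom.sum (π := a ^ (n * γ.length)) (range γ.length) (x := fun _ => 4 * x)
    (ν := fun j => A ^ j * (A - B) *
      (if γ.getD j false then Wd A B (γ.drop (j + 1)) else 0)) (fun j hj => ?_)
    (fun _ _ => by positivity) (ha.pos.pow _)
  · rw [sum_const, card_range, nsmul_eq_mul] at key
    have e1 : (γ.length : ℝ) * (4 * x) = 4 * γ.length * x := by ring
    rwa [e1] at key
  · have hj := mem_range.mp hj
    have h1 : Dom (2 ^ 2) (a ^ (n * j)) (A ^ j) := by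
      have := hw (List.replicate j false) (by rw [List.length_replicate]; omega)
      rwa [List.length_replicate, Wd_replicate] at this
    have h2 : Dom (2 ^ 2) (a ^ (n * (γ.length - 1 - j)))
        (if γ.getD j false then Wd A B (γ.drop (j + 1)) else 0) := by
      split
      · have := hw (γ.drop (j + 1)) (by rw [List.length_drop]; omega)
        have e2 : (γ.drop (j + 1)).length = γ.length - 1 - j := by
          rw [List.length_drop]; omega
        rwa [e2] at this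
      · exact Dom.zero _ (ha.pos.pow _) (by norm_num)
    have h3 := Dom.mul3 h1 hx h2 (ha.pos.pow _) (ha.pos.pow _)
    have e3 : a ^ (n * j) * a ^ n * a ^ (n * (γ.length - 1 - j)) = a ^ (n * γ.length) := by
      rw [← pow_add, ← pow_add]
      congr 1
      obtain ⟨l, hl⟩ : ∃ l, γ.length = j + 1 + l := ⟨γ.length - (j + 1), by omega⟩
      rw [hl]
      have : j + 1 + l - 1 - j = l := by omega
      rw [this]; ring
    have e4 : 2 * x * 2 = 4 * x := by ring
    rwa [e3, e4] at h3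

theorem Hq_pure {a A B : MA G} {n r : ℕ} {x : ℝ} (ha : Prob a)
    (hw : ∀ γ : List Bool, γ.length ≤ 2 ^ r → Dom (2 ^ 2) (a ^ (n * γ.length)) (Wd A B γ))
    (hx0 : 0 ≤ x) (hx : Dom (x ^ 2) (a ^ n) (A - B)) (j : ℕ) (hj : j < 2 ^ r) :
    Dom ((4 * 2 ^ r * x) ^ 2) (a ^ (n * (2 ^ r - 1 - j))) (Hq A B r j) := by
  have e1 : ((tm r).drop (j + 1)).length = 2 ^ r - 1 - j := by
    rw [List.length_drop, tm_length]; omega
  have e2 : (((tm r).map not).drop (j + 1)).length = 2 ^ r - 1 - j := by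
    rw [List.length_drop, List.length_map, tm_length]; omega
  have hle : ((2 ^ r - 1 - j : ℕ) : ℝ) ≤ 2 ^ r := by
    have : 2 ^ r - 1 - j ≤ 2 ^ r := by omega
    exact_mod_cast this
  have key : Dom ((4 * ((2 ^ r - 1 - j : ℕ) : ℝ) * x) ^ 2) (a ^ (n * (2 ^ r - 1 - j)))
      (Hq A B r j) := by
    unfold Hq
    split
    · have := Wd_sub_pow_pure ha hw hx0 hx ((tm r).drop (j + 1)) (by omega)
      rw [e1] at this
      exact this.neg
    · have := Wd_sub_pow_pure ha hw hx0 hx (((tm r).map not).drop (j + 1)) (by omega)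
      rwa [e2] at this
  refine key.mono ?_ (ha.pos.pow _)
  refine pow_le_pow_left₀ (by positivity) ?_ 2
  have : 4 * ((2 ^ r - 1 - j : ℕ) : ℝ) ≤ 4 * 2 ^ r := by linarith
  exact mul_le_mul_of_nonneg_right this hx0

/-- quadratic part of one level -/
def quadS (A B : MA G) (r : ℕ) : MA G := ∑ j ∈ range (2 ^ r), A ^ j * (A - B) * Hq A B r j

theorem tm_diff' (A B : MA G) (r : ℕ) :
    Wd A B (tm r) - Wd A B ((tm r).map not) = lin A r (A - B) + quadS A B r := tm_diff A B r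

/-- **quadratic part inside a window `A^w · A^w`**, representation in the pure reference. -/
theorem macro_quad {a D A B M E : MA G} {n r w : ℕ} {S x e X : ℝ} (ha : Prob a)
    (hw : ∀ γ : List Bool, γ.length ≤ w + 2 ^ r → Dom (2 ^ 2) (a ^ (n * γ.length)) (Wd A B γ))
    (hX0 : 0 ≤ X) (hX : ∀ k ≤ w + 2 ^ r, Dom (X ^ 2) (a ^ (n * k)) (A ^ k - a ^ (n * k)))
    (hx0 : 0 ≤ x) (hx : Dom (x ^ 2) (a ^ n) (A - B)) (hΔ : A - B = M + E)
    (hM : MRep a D n S M) (he0 : 0 ≤ e) (hE : Dom (e ^ 2) (a ^ n) E) :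
    ∃ M' E' : MA G,
      A ^ w * quadS A B r * A ^ w = M' + E' ∧
      M' = a ^ (n * w) * (∑ j ∈ range (2 ^ r), a ^ (n * j) * M * Hq A B r j) * A ^ w ∧
      MRep a D (n * (2 * w + 2 ^ r)) (2 ^ r * (S * (8 * 2 ^ r * x))) M' ∧
      Dom ((2 ^ r * ((8 * 2 ^ r * x) * (X * x + e))) ^ 2) (a ^ (n * (2 * w + 2 ^ r))) E' := by
  set t : ℝ := 8 * 2 ^ r * x with ht
  have ht0 : 0 ≤ t := by positivity
  have hHA : ∀ j < 2 ^ r, Dom (t ^ 2) (a ^ (n * (2 ^ r - 1 - j) + n * w)) (Hq A B r j * A ^ w) := by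
    intro j hj
    have h1 := Hq_pure ha (fun γ hγ => hw γ (by omega)) hx0 hx j hj
    have h2 : Dom (2 ^ 2) (a ^ (n * w)) (A ^ w) := by
      have := hw (List.replicate w false) (by rw [List.length_replicate]; omega)
      rwa [List.length_replicate, Wd_replicate] at this
    have h3 := Dom.mul h1 h2 (sq_nonneg _) (ha.pos.pow _)
    rw [← mul_pow, ← pow_add] at h3
    have e1 : 4 * 2 ^ r * x * 2 = t := by rw [ht]; ring
    rwa [e1] at h3
  have hlen : ∀ j < 2 ^ r, n * (w + j) + n + (n * (2 ^ r - 1 - j) + n * w) =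
      n * (2 * w + 2 ^ r) := by
    intro j hj
    obtain ⟨l, hl⟩ : ∃ l, 2 ^ r = j + 1 + l := ⟨2 ^ r - (j + 1), by omega⟩
    rw [hl]
    have : j + 1 + l - 1 - j = l := by omega
    rw [this]; ring
  set E₁ : MA G := ∑ j ∈ range (2 ^ r),
    (A ^ (w + j) - a ^ (n * (w + j))) * (A - B) * (Hq A B r j * A ^ w) with hE₁
  set E₂ : MA G := ∑ j ∈ range (2 ^ r), a ^ (n * (w + j)) * E * (Hq A B r j * A ^ w) with hE₂
  set M' : MA G := ∑ j ∈ range (2 ^ r), a ^ (n * (w + j)) * M * (Hq A B r j * A ^ w) with hM'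
  refine ⟨M', E₁ + E₂, ?_, ?_, ?_, ?_⟩
  · rw [quadS, mul_sum, sum_mul, hM', hE₁, hE₂, ← sum_add_distrib, ← sum_add_distrib]
    refine sum_congr rfl (fun j _ => ?_)
    have e1 : A ^ w * (A ^ j * (A - B) * Hq A B r j) * A ^ w =
        A ^ (w + j) * (A - B) * (Hq A B r j * A ^ w) := by
      rw [pow_add]; simp only [mul_assoc]
    rw [e1]
    have e2 : a ^ (n * (w + j)) * M * (Hq A B r j * A ^ w) +
        a ^ (n * (w + j)) * E * (Hq A B r j * A ^ w) =
        a ^ (n * (w + j)) * (A - B) * (Hq A B r j * A ^ w) := by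
      rw [hΔ]; noncomm_ring
    calc A ^ (w + j) * (A - B) * (Hq A B r j * A ^ w)
        = (A ^ (w + j) - a ^ (n * (w + j))) * (A - B) * (Hq A B r j * A ^ w) +
          a ^ (n * (w + j)) * (A - B) * (Hq A B r j * A ^ w) := by
            rw [← add_mul, ← add_mul, sub_add_cancel]
      _ = _ := by rw [← e2]; abel
  · rw [hM', mul_sum, sum_mul]
    refine sum_congr rfl (fun j _ => ?_)
    have : n * (w + j) = n * w + n * j := by ring
    rw [this, pow_add]
    simp only [mul_assoc]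
  · have := MRep.sum (D := D) ha (range (2 ^ r)) (n := n * (2 * w + 2 ^ r)) (S := fun _ => S * t)
      (F := fun j => a ^ (n * (w + j)) * M * (Hq A B r j * A ^ w)) (fun j hj => ?_)
    · rw [sum_const, card_range, nsmul_eq_mul] at this
      push_cast at this
      exact this
    · have hj := mem_range.mp hj
      have h1 := MRep.mulRight ha ht0 (MRep.powLeft ha (n * (w + j)) hM) (hHA j hj)
      rwa [hlen j hj] at h1
  · have hE₁d : Dom ((2 ^ r * (X * x * t)) ^ 2) (a ^ (n * (2 * w + 2 ^ r))) E₁ := by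
      have := Dom.sum (π := a ^ (n * (2 * w + 2 ^ r))) (range (2 ^ r)) (x := fun _ => X * x * t)
        (ν := fun j => (A ^ (w + j) - a ^ (n * (w + j))) * (A - B) * (Hq A B r j * A ^ w))
        (fun j hj => ?_) (fun _ _ => by positivity) (ha.pos.pow _)
      · rw [sum_const, card_range, nsmul_eq_mul] at this
        push_cast at this
        exact this
      · have hj := mem_range.mp hj
        have h1 := Dom.mul3 (hX (w + j) (by omega)) hx (hHA j hj) (ha.pos.pow _) (ha.pos.pow _)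
        rw [← pow_add, ← pow_add, hlen j hj] at h1
        exact h1
    have hE₂d : Dom ((2 ^ r * (e * t)) ^ 2) (a ^ (n * (2 * w + 2 ^ r))) E₂ := by
      have := Dom.sum (π := a ^ (n * (2 * w + 2 ^ r))) (range (2 ^ r)) (x := fun _ => e * t)
        (ν := fun j => a ^ (n * (w + j)) * E * (Hq A B r j * A ^ w))
        (fun j hj => ?_) (fun _ _ => by positivity) (ha.pos.pow _)
      · rw [sum_const, card_range, nsmul_eq_mul] at this
        push_cast at this
        exact this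
      · have hj := mem_range.mp hj
        have h0 : Dom (1 ^ 2) (a ^ (n * (w + j))) (a ^ (n * (w + j))) := by
          rw [one_pow]; exact Dom.self_prob (ha.pow _)
        have h1 := Dom.mul3 h0 hE (hHA j hj) (ha.pos.pow _) (ha.pos.pow _)
        rw [← pow_add, ← pow_add, hlen j hj, one_mul] at h1
        exact h1
    have h1 := Dom.add hE₁d hE₂d (by positivity) (by positivity) (ha.pos.pow _)
    have e1 : 2 ^ r * (X * x * t) + 2 ^ r * (e * t) = 2 ^ r * (t * (X * x + e)) := by ring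
    rwa [e1] at h1

/-- norm of the kernel `F = ∑_j a^(nj) M H_j` -/
theorem macro_F {a D A B M E : MA G} {n r : ℕ} {S x e : ℝ} (ha : Prob a)
    (hw : ∀ γ : List Bool, γ.length ≤ 2 ^ r → Dom (2 ^ 2) (a ^ (n * γ.length)) (Wd A B γ))
    (hx0 : 0 ≤ x) (hx : Dom (x ^ 2) (a ^ n) (A - B)) (hΔ : A - B = M + E)
    (hM : MRep a D n S M) (he0 : 0 ≤ e) (hE : Dom (e ^ 2) (a ^ n) E) :
    MRep a D (n * 2 ^ r) (2 ^ r * (S * (4 * 2 ^ r * x)))
      (∑ j ∈ range (2 ^ r), a ^ (n * j) * M * Hq A B r j) ∧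
    Dom ((2 ^ r * ((x + e) * (4 * 2 ^ r * x))) ^ 2) (a ^ (n * 2 ^ r))
      (∑ j ∈ range (2 ^ r), a ^ (n * j) * M * Hq A B r j) := by
  set t : ℝ := 4 * 2 ^ r * x with ht
  have ht0 : 0 ≤ t := by positivity
  have hlen : ∀ j < 2 ^ r, n * j + n + n * (2 ^ r - 1 - j) = n * 2 ^ r := by
    intro j hj
    obtain ⟨l, hl⟩ : ∃ l, 2 ^ r = j + 1 + l := ⟨2 ^ r - (j + 1), by omega⟩
    rw [hl]
    have : j + 1 + l - 1 - j = l := by omega
    rw [this]; ring
  have hMd : Dom ((x + e) ^ 2) (a ^ n) M := by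
    have : M = (A - B) + -E := by rw [hΔ]; abel
    rw [this]
    exact Dom.add hx hE.neg hx0 he0 (ha.pos.pow _)
  constructor
  · have := MRep.sum (D := D) ha (range (2 ^ r)) (n := n * 2 ^ r) (S := fun _ => S * t)
      (F := fun j => a ^ (n * j) * M * Hq A B r j) (fun j hj => ?_)
    · rw [sum_const, card_range, nsmul_eq_mul] at this
      push_cast at this
      exact this
    · have hj := mem_range.mp hj
      have h1 := MRep.mulRight ha ht0 (MRep.powLeft ha (n * j) hM) (Hq_pure ha hw hx0 hx j hj)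
      rwa [hlen j hj] at h1
  · have := Dom.sum (π := a ^ (n * 2 ^ r)) (range (2 ^ r)) (x := fun _ => (x + e) * t)
      (ν := fun j => a ^ (n * j) * M * Hq A B r j)
      (fun j hj => ?_) (fun _ _ => by positivity) (ha.pos.pow _)
    · rw [sum_const, card_range, nsmul_eq_mul] at this
      push_cast at this
      exact this
    · have hj := mem_range.mp hj
      have h0 : Dom (1 ^ 2) (a ^ (n * j)) (a ^ (n * j)) := by
        rw [one_pow]; exact Dom.self_prob (ha.pow _)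
      have h1 := Dom.mul3 h0 hMd (Hq_pure ha hw hx0 hx j hj) (ha.pos.pow _) (ha.pos.pow _)
      rw [← pow_add, ← pow_add, hlen j hj, one_mul] at h1
      exact h1

/-- the bound for the quadratic part (location gain with kernel order `k`, length `J`) -/
def xQ (V β : ℝ) (r k J : ℕ) (S x e X : ℝ) : ℝ :=
  2 ^ k * Real.sqrt (V / J) * (2 ^ r * (S * (4 * 2 ^ r * x))) +
    ((J : ℝ) / 2) ^ k * (Real.sqrt β * (2 ^ r * ((x + e) * (4 * 2 ^ r * x)))) +
    (2 ^ r * ((x + e) * (4 * 2 ^ r * x))) * X +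
    2 ^ r * ((8 * 2 ^ r * x) * (X * x + e))

/-- **quadratic part inside a window `A^w · A^w`**, norm in the pure reference. -/
theorem macro_quad_dom {a D A B M E : MA G} {n r w k J Mg : ℕ} {V β S x e X : ℝ} (ha : Prob a)
    (hD0 : mass D = 0) (hV : 0 ≤ V) (hD : Dom V a D)
    (hw : ∀ γ : List Bool, γ.length ≤ w + 2 ^ r → Dom (2 ^ 2) (a ^ (n * γ.length)) (Wd A B γ))
    (hX0 : 0 ≤ X) (hX : ∀ k ≤ w + 2 ^ r, Dom (X ^ 2) (a ^ (n * k)) (A ^ k - a ^ (n * k)))
    (hx0 : 0 ≤ x) (hx : Dom (x ^ 2) (a ^ n) (A - B)) (hΔ : A - B = M + E)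
    (hM : MRep a D n S M) (he0 : 0 ≤ e) (hE : Dom (e ^ 2) (a ^ n) E)
    (hJ : 2 ≤ J) (hβ : 0 ≤ β) (hB : FogB a k Mg β) (hW : Mg + k * (J - 1) ≤ n * w) :
    Dom (xQ V β r k J S x e X ^ 2) (a ^ (n * (2 * w + 2 ^ r))) (A ^ w * quadS A B r * A ^ w) := by
  obtain ⟨M', E', h1, h2, h3, h4⟩ := macro_quad ha hw hX0 hX hx0 hx hΔ hM he0 hE
  obtain ⟨hF1, hF2⟩ := macro_F (r := r) ha (fun γ hγ => hw γ (by omega)) hx0 hx hΔ hM he0 hE
  set F : MA G := ∑ j ∈ range (2 ^ r), a ^ (n * j) * M * Hq A B r j with hF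
  have hS := hM.nonneg
  have hg := MRep.gain ha hD0 hV hD hJ hβ hB hW hF1 (by positivity) hF2
  have hc : Dom (((2 ^ r * ((x + e) * (4 * 2 ^ r * x))) * X) ^ 2) (a ^ (n * (2 * w + 2 ^ r)))
      (a ^ (n * w) * F * (A ^ w - a ^ (n * w))) := by
    have h0 : Dom (1 ^ 2) (a ^ (n * w)) (a ^ (n * w)) := by
      rw [one_pow]; exact Dom.self_prob (ha.pow _)
    have := Dom.mul3 h0 hF2 (hX w (Nat.le_add_right _ _)) (ha.pos.pow _) (ha.pos.pow _)
    rw [← pow_add, ← pow_add, one_mul] at this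
    have e1 : n * w + n * 2 ^ r + n * w = n * (2 * w + 2 ^ r) := by ring
    rwa [e1] at this
  have e1 : n * w + n * 2 ^ r + n * w = n * (2 * w + 2 ^ r) := by ring
  rw [e1] at hg
  have h5 := Dom.add (Dom.add hg hc (by positivity) (by positivity) (ha.pos.pow _)) h4
    (by positivity) (by positivity) (ha.pos.pow _)
  have e2 : a ^ (n * w) * F * a ^ (n * w) + a ^ (n * w) * F * (A ^ w - a ^ (n * w)) + E' =
      A ^ w * quadS A B r * A ^ w := by
    rw [h1, h2, ← mul_add, add_sub_cancel]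
  rw [e2] at h5
  unfold xQ
  exact h5

/-- **Inner step S1**: from level `i` to level `i+1` in the pure reference. -/
theorem macro_S1 {a D A B M E : MA G} {n r m k J Mg : ℕ} {V β S x e X ε : ℝ} (ha : Prob a)
    (hD0 : mass D = 0) (hV : 0 ≤ V) (hD : Dom V a D)
    (hw : ∀ γ : List Bool, γ.length ≤ m + 2 ^ r → Dom (2 ^ 2) (a ^ (n * γ.length)) (Wd A B γ))
    (hX0 : 0 ≤ X) (hX : ∀ k ≤ m + 2 ^ r, Dom (X ^ 2) (a ^ (n * k)) (A ^ k - a ^ (n * k)))
    (hx0 : 0 ≤ x) (hx : Dom (x ^ 2) (a ^ n) (A - B)) (hΔ : A - B = M + E)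
    (hM : MRep a D n S M) (he0 : 0 ≤ e) (hE : Dom (e ^ 2) (a ^ n) E)
    (hJ : 2 ≤ J) (hβ : 0 ≤ β) (hB : FogB a k Mg β) (hW : Mg + k * (J - 1) ≤ n * m)
    (hε0 : 0 ≤ ε)
    (hlin : Dom (ε ^ 2) (a ^ (n * (2 * m + 2 ^ r))) (A ^ m * lin A r (A - B) * A ^ m)) :
    (∃ M' E' : MA G,
      A ^ m * (Wd A B (tm r) - Wd A B ((tm r).map not)) * A ^ m = M' + E' ∧
      MRep a D (n * (2 * m + 2 ^ r)) (2 ^ r * (S * (8 * 2 ^ r * x))) M' ∧
      Dom ((2 ^ r * ((8 * 2 ^ r * x) * (X * x + e)) + ε) ^ 2) (a ^ (n * (2 * m + 2 ^ r))) E') ∧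
    Dom ((xQ V β r k J S x e X + ε) ^ 2) (a ^ (n * (2 * m + 2 ^ r)))
      (A ^ m * (Wd A B (tm r) - Wd A B ((tm r).map not)) * A ^ m) := by
  have hS := hM.nonneg
  have e0 : A ^ m * (Wd A B (tm r) - Wd A B ((tm r).map not)) * A ^ m =
      A ^ m * quadS A B r * A ^ m + A ^ m * lin A r (A - B) * A ^ m := by
    rw [tm_diff', mul_add, add_mul]; abel
  constructor
  · obtain ⟨M', E', h1, h2, h3, h4⟩ := macro_quad ha hw hX0 hX hx0 hx hΔ hM he0 hE
    refine ⟨M', E' + A ^ m * lin A r (A - B) * A ^ m, ?_, h3, ?_⟩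
    · rw [e0, h1]; abel
    · exact Dom.add h4 hlin (by positivity) hε0 (ha.pos.pow _)
  · rw [e0]
    refine Dom.add (macro_quad_dom ha hD0 hV hD hw hX0 hX hx0 hx hΔ hM he0 hE hJ hβ hB hW) hlin
      ?_ hε0 (ha.pos.pow _)
    unfold xQ; positivity

/-- **Last step S2**: from the bound in the window to the reference of the new level. -/
theorem macro_S2 {A B : MA G} {r m w : ℕ} {z β V u : ℝ} (hA : Prob A) (hu : 0 ≤ u)
    (hbd : Bd u A (A - B)) (hun : 2 ^ r * u ≤ 1 / 4) (hV : 0 ≤ V) (hVd : Dom V A (A - B))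
    (hβ : 0 ≤ β) (hB : FogB A r m β) (hwm : w ≤ m) (hz : 0 ≤ z)
    (hq : Dom (z ^ 2) (A ^ (w + 2 ^ r + w)) (A ^ w * quadS A B r * A ^ w)) :
    Dom (4 / 3 * (z + (2 : ℝ) ^ (r * (r - 1) / 2) * Real.sqrt (V * β)) ^ 2)
      (A ^ m * Wd A B (tm r) * A ^ m)
      (A ^ m * Wd A B (tm r) * A ^ m - A ^ m * Wd A B ((tm r).map not) * A ^ m) := by
  have h1 := (hq.mulLeft (hA.pow (m - w))).mulRight (hA.pow (m - w)) (sq_nonneg _)
    ((hA.pos.pow _).mul (hA.pos.pow _))
  have e1 : A ^ (m - w) * A ^ (w + 2 ^ r + w) * A ^ (m - w) = A ^ (m + 2 ^ r + m) := by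
    rw [← pow_add, ← pow_add]; congr 1; omega
  have e2 : A ^ (m - w) * (A ^ w * quadS A B r * A ^ w) * A ^ (m - w) =
      A ^ m * quadS A B r * A ^ m := by
    have e3 : A ^ m = A ^ (m - w) * A ^ w := by rw [← pow_add]; congr 1; omega
    have e4 : A ^ m = A ^ w * A ^ (m - w) := by rw [← pow_add]; congr 1; omega
    calc _ = (A ^ (m - w) * A ^ w) * quadS A B r * (A ^ w * A ^ (m - w)) := by
          simp only [mul_assoc]
      _ = _ := by rw [← e3, ← e4]
  rw [e1, e2] at h1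
  have h2 := Dom.add h1 (FogB.lin_dom hA hV hβ hVd hB) hz (by positivity) (hA.pos.pow _)
  have e0 : A ^ m * Wd A B (tm r) * A ^ m - A ^ m * Wd A B ((tm r).map not) * A ^ m =
      A ^ m * quadS A B r * A ^ m + A ^ m * lin A r (A - B) * A ^ m := by
    have : A ^ m * Wd A B (tm r) * A ^ m - A ^ m * Wd A B ((tm r).map not) * A ^ m =
      A ^ m * (Wd A B (tm r) - Wd A B ((tm r).map not)) * A ^ m := by noncomm_ring
    rw [this, tm_diff', mul_add, add_mul]; abel
  rw [e0]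
  have h3 := Dom.ref (C := 4 / 3) (π' := A ^ m * Wd A B (tm r) * A ^ m) h2 (sq_nonneg _)
    (fun f hf => ?_)
  · rwa [mul_comm] at h3
  · have := oneLevel_ge hA.pos hu hbd (tm r) m (by rw [tm_length]; push_cast; exact hun) f hf
    rw [tm_length] at this
    have e5 : m + 2 ^ r + m = 2 ^ r + 2 * m := by ring
    rwa [e5]

end

end Crest.Agent.R300LB
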