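import Crest.Agent.R300.LBOrth

/-!
# Row 300, lower bounds: pushforward of measures along a monoid homomorphism.
-/

set_option autoImplicit false
set_option linter.unusedSectionVars false

namespace Crest.Agent.R300LB

open Finset

noncomputable section

variable {G K : Type*} [Monoid G] [Monoid K]

/-- pushforward of a measure along a monoid homomorphism -/
def mp (φ : G →* K) : MA G →ₐ[ℝ] MA K := MonoidAlgebra.mapDomainAlgHom ℝ ℝ φ

theorem mp_single (φ : G →* K) (w : G) (c : ℝ) :
    mp φ (MonoidAlgebra.single w c) = MonoidAlgebra.single (φ w) c := by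
  simp [mp]

theorem ev_mp (φ : G →* K) (ν : MA G) (f : K → ℝ) : ev (mp φ ν) f = ev ν fun w => f (φ w) := by
  induction ν using MonoidAlgebra.induction_linear with
  | zero => rw [map_zero, ev_zero, ev_zero]
  | add x y hx hy => rw [map_add, ev_add, hx, hy, ev_add]
  | single w c => rw [mp_single, ev_single, ev_single]

theorem mass_mp (φ : G →* K) (ν : MA G) : mass (mp φ ν) = mass ν := ev_mp _ _ _

theorem Pos.mp {ν : MA G} (h : Pos ν) (φ : G →* K) : Pos (mp φ ν) := fun f hf => by
  rw [ev_mp]; exact h _ fun w => hf _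

theorem Prob.mp {a : MA G} (h : Prob a) (φ : G →* K) : Prob (R300LB.mp φ a) :=
  ⟨h.pos.mp φ, by rw [mass_mp, h.one]⟩

theorem Le.mp {μ ν : MA G} (h : Le μ ν) (φ : G →* K) : Le (R300LB.mp φ μ) (R300LB.mp φ ν) := by
  unfold Le at *
  rw [← map_sub]; exact h.mp φ

theorem Dom.mp {V : ℝ} {π ν : MA G} (h : Dom V π ν) (φ : G →* K) :
    Dom V (R300LB.mp φ π) (R300LB.mp φ ν) := fun f => by
  rw [ev_mp, ev_mp]; exact h _

theorem Bd.mp {u : ℝ} {a Δ : MA G} (h : Bd u a Δ) (φ : G →* K) :
    Bd u (R300LB.mp φ a) (R300LB.mp φ Δ) := fun f hf => by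
  rw [ev_mp, ev_mp]; exact h _ fun w => hf _

theorem TVle.mp {t : ℝ} {ν : MA G} (h : TVle t ν) (φ : G →* K) : TVle t (R300LB.mp φ ν) :=
  fun f hf => by
    rw [ev_mp]; exact h _ fun w => hf _

theorem Slip.mp {a s : MA G} {R : ℕ} (h : Slip a R s) (φ : G →* K) :
    Slip (R300LB.mp φ a) R (R300LB.mp φ s) where
  pos := h.pos.mp φ
  le0 := by have := h.le0.mp φ; rwa [map_pow] at this
  le1 := by have := h.le1.mp φ; rwa [map_pow] at this
  mpos := by rw [mass_mp]; exact h.mpos

end

end Crest.Agent.R300LB
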