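import Crest.Agent.R300.LBInterface
import Crest.Agent.R300.LBOneLevel

/-!
# Row 300, lower bounds, piece L4 (pointwise part): one level of the hierarchy

Pointwise bounds for words in `a, b`, total variation bounds, and the words themselves.
-/

set_option autoImplicit false

namespace Crest.Agent.R300LB

open Finset

noncomputable section

variable {G : Type*} [Monoid G]

theorem Pos.olAbs_ev_le {c : MA G} (hc : Pos c) (g : G → ℝ) : |ev c g| ≤ ev c (fun w => |g w|) := by
  rw [abs_le]
  constructor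
  · have h1 := hc.mono (f := fun w => - |g w|) (g := g) (fun w => neg_abs_le _)
    have h2 : ev c (fun w => -|g w|) = - ev c (fun w => |g w|) := by
      have := ev_mul_fun c (-1) (fun w => |g w|)
      rw [← ev_congr c (fun w => by ring : ∀ w, (-1) * |g w| = -|g w|), this]; ring
    linarith
  · exact hc.mono (fun w => le_abs_self _)

theorem Bd.olMono {u v : ℝ} {a Δ : MA G} (ha : Pos a) (h : Bd u a Δ) (huv : u ≤ v) : Bd v a Δ :=
  fun f hf => le_trans (h f hf) (mul_le_mul_of_nonneg_right huv (ha f hf))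

theorem Bd.olAdd {u v : ℝ} {a Δ Δ' : MA G} (h : Bd u a Δ) (h' : Bd v a Δ') :
    Bd (u + v) a (Δ + Δ') := fun f hf => by
  rw [ev_add, add_mul]
  exact le_trans (abs_add_le _ _) (add_le_add (h f hf) (h' f hf))

theorem Bd.olNeg {u : ℝ} {a Δ : MA G} (h : Bd u a Δ) : Bd u a (-Δ) := fun f hf => by
  rw [ev_neg, abs_neg]; exact h f hf

theorem Bd.olZero {u : ℝ} {a : MA G} (ha : Pos a) (hu : 0 ≤ u) : Bd u a (0 : MA G) :=
  fun f hf => by rw [ev_zero, abs_zero]; exact mul_nonneg hu (ha f hf)

/-- pointwise bound tested on signed functions -/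
theorem Bd.olAbs {u : ℝ} {a Δ : MA G} (h : Bd u a Δ) (g : G → ℝ) :
    |ev Δ g| ≤ u * ev a (fun w => |g w|) := by
  have h1 := h (fun w => max (g w) 0) (fun w => le_max_right _ _)
  have h2 := h (fun w => max (-g w) 0) (fun w => le_max_right _ _)
  have e : ev Δ g = ev Δ (fun w => max (g w) 0) - ev Δ (fun w => max (-g w) 0) := by
    rw [← ev_sub_fun]
    refine ev_congr _ (fun w => ?_)
    rcases le_total 0 (g w) with hw | hw
    · rw [max_eq_left hw, max_eq_right (by linarith)]; ring
    · rw [max_eq_right hw, max_eq_left (by linarith)]; ring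
  have e2 : ev a (fun w => |g w|) =
      ev a (fun w => max (g w) 0) + ev a (fun w => max (-g w) 0) := by
    rw [← ev_add_fun]
    refine ev_congr _ (fun w => ?_)
    rcases le_total 0 (g w) with hw | hw
    · rw [max_eq_left hw, max_eq_right (by linarith), abs_of_nonneg hw]; ring
    · rw [max_eq_right hw, max_eq_left (by linarith), abs_of_nonpos hw]; ring
  rw [e, e2, mul_add]
  calc |ev Δ (fun w => max (g w) 0) - ev Δ (fun w => max (-g w) 0)|
      ≤ |ev Δ (fun w => max (g w) 0)| + |ev Δ (fun w => max (-g w) 0)| := abs_sub _ _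
    _ ≤ _ := add_le_add h1 h2

/-- the pointwise bound for a product -/
theorem Bd.olMul {u v : ℝ} {a c Δ ν : MA G} (h : Bd u a Δ) (h' : Bd v c ν) (hu : 0 ≤ u)
    (ha : Pos a) : Bd (u * v) (a * c) (Δ * ν) := fun f hf => by
  rw [ev_mul, ev_mul]
  refine le_trans (h.olAbs _) ?_
  rw [mul_assoc]
  refine mul_le_mul_of_nonneg_left ?_ hu
  rw [← ev_mul_fun]
  exact ha.mono (fun w => h' _ (fun v => hf _))

theorem Bd.olSelf {a : MA G} (ha : Pos a) : Bd 1 a a := fun f hf => by
  rw [one_mul, abs_of_nonneg (ha f hf)]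

theorem Bd.olSelfAbs {a b : MA G} {u : ℝ} (ha : Pos a) (h : Bd u a (b - a)) :
    Bd (1 + u) a b := by
  have := (Bd.olSelf ha).olAdd h
  rwa [add_sub_cancel] at this

theorem Wd_bd_sub {u : ℝ} {a b : MA G} (ha : Pos a) (hu : 0 ≤ u) (h : Bd u a (a - b))
    (γ : List Bool) :
    Bd ((1 + u) ^ γ.length - 1) (a ^ γ.length) (Wd a b γ - a ^ γ.length) := by
  have h' : Bd u a (b - a) := by
    have := h.olNeg
    rwa [neg_sub] at this
  induction γ with
  | nil => simpa [Wd_nil] using Bd.olZero (Pos.one (G := G)) (le_refl (0:ℝ))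
  | cons t γ ih =>
    rw [Wd_cons, List.length_cons, pow_succ' a, pow_succ' (1 + u)]
    have hn : 0 ≤ (1 + u) ^ γ.length - 1 := by
      have := one_le_pow₀ (n := γ.length) (by linarith : (1:ℝ) ≤ 1 + u)
      linarith
    have e : (if t then b else a) * Wd a b γ - a * a ^ γ.length =
        ((if t then b else a) - a) * a ^ γ.length +
          (if t then b else a) * (Wd a b γ - a ^ γ.length) := by noncomm_ring
    have e2 : (1 + u) * (1 + u) ^ γ.length - 1 = u * 1 + (1 + u) * ((1 + u) ^ γ.length - 1) := by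
      ring
    rw [e, e2]
    refine Bd.olAdd ?_ ?_
    · refine Bd.olMul ?_ (Bd.olSelf (ha.pow _)) hu ha
      cases t
      · simpa using Bd.olZero ha hu
      · simpa using h'
    · refine Bd.olMul ?_ ih (by linarith) ha
      cases t
      · simpa using (Bd.olSelf ha).olMono ha (by linarith)
      · simpa using Bd.olSelfAbs ha h'

theorem Wd_bd {u : ℝ} {a b : MA G} (ha : Pos a) (hu : 0 ≤ u) (h : Bd u a (a - b))
    (γ : List Bool) : Bd ((1 + u) ^ γ.length) (a ^ γ.length) (Wd a b γ) := by
  have := Bd.olSelfAbs (ha.pow _) (Wd_bd_sub ha hu h γ)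
  have e : 1 + ((1 + u) ^ γ.length - 1) = (1 + u) ^ γ.length := by ring
  rwa [e] at this

theorem Wd_ge {u : ℝ} {a b : MA G} (ha : Pos a) (hu : 0 ≤ u) (hu1 : u ≤ 1) (h : Bd u a (a - b))
    (γ : List Bool) (f : G → ℝ) (hf : ∀ w, 0 ≤ f w) :
    (1 - u) ^ γ.length * ev (a ^ γ.length) f ≤ ev (Wd a b γ) f := by
  have hb : ∀ g : G → ℝ, (∀ w, 0 ≤ g w) → (1 - u) * ev a g ≤ ev b g := by
    intro g hg
    have := (abs_le.mp (h g hg)).2
    rw [ev_sub] at this
    linarith
  have hbp : Pos b := fun g hg =>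
    le_trans (mul_nonneg (by linarith) (ha g hg)) (hb g hg)
  induction γ generalizing f with
  | nil => simp [Wd_nil]
  | cons t γ ih =>
    rw [Wd_cons, List.length_cons, pow_succ' a, pow_succ' (1 - u), ev_mul, ev_mul]
    have h1 : ∀ w, (1 - u) ^ γ.length * ev (a ^ γ.length) (fun v => f (w * v)) ≤
        ev (Wd a b γ) (fun v => f (w * v)) := fun w => ih _ (fun v => hf _)
    have h2 : (1 - u) * ev a (fun w => (1 - u) ^ γ.length * ev (a ^ γ.length) (fun v => f (w * v)))
        ≤ ev (if t then b else a)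
          (fun w => (1 - u) ^ γ.length * ev (a ^ γ.length) (fun v => f (w * v))) := by
      have hnn : ∀ w, 0 ≤ (1 - u) ^ γ.length * ev (a ^ γ.length) (fun v => f (w * v)) :=
        fun w => mul_nonneg (pow_nonneg (by linarith) _) ((ha.pow _) _ (fun v => hf _))
      cases t
      · simp only [Bool.false_eq_true, if_false]
        have := ha _ hnn
        nlinarith
      · simp only [if_true]
        exact hb _ hnn
    have hc : Pos (if t then b else a) := by
      cases t
      · simpa using ha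
      · simpa using hbp
    calc (1 - u) * (1 - u) ^ γ.length * ev a (fun w => ev (a ^ γ.length) (fun v => f (w * v)))
        = (1 - u) * ev a
            (fun w => (1 - u) ^ γ.length * ev (a ^ γ.length) (fun v => f (w * v))) := by
          rw [ev_mul_fun]; ring
      _ ≤ _ := h2
      _ ≤ _ := hc.mono h1

theorem Wd_diff_bd {u : ℝ} {a b : MA G} (ha : Pos a) (hu : 0 ≤ u) (h : Bd u a (a - b)) :
    ∀ (γ δ : List Bool), γ.length = δ.length →
      Bd (γ.length * u * (1 + u) ^ γ.length) (a ^ γ.length) (Wd a b γ - Wd a b δ) := by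
  have h' : Bd u a (b - a) := by
    have := h.olNeg
    rwa [neg_sub] at this
  intro γ
  induction γ with
  | nil =>
    intro δ hδ
    have : δ = [] := List.length_eq_zero_iff.mp hδ.symm
    subst this
    simpa [Wd_nil] using Bd.olZero (Pos.one (G := G)) (le_refl (0:ℝ))
  | cons t γ ih =>
    intro δ hδ
    cases δ with
    | nil => simp at hδ
    | cons s δ =>
      have hl : γ.length = δ.length := by simpa using hδ
      rw [Wd_cons, Wd_cons, List.length_cons, pow_succ' a]
      have e : (if t then b else a) * Wd a b γ - (if s then b else a) * Wd a b δ =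
          ((if t then b else a) - (if s then b else a)) * Wd a b γ +
            (if s then b else a) * (Wd a b γ - Wd a b δ) := by noncomm_ring
      rw [e]
      have hb1 : Bd (u * (1 + u) ^ γ.length) (a * a ^ γ.length)
          (((if t then b else a) - (if s then b else a)) * Wd a b γ) := by
        refine Bd.olMul ?_ (Wd_bd ha hu h γ) hu ha
        cases t <;> cases s
        · simpa using Bd.olZero ha hu
        · simpa using h
        · simpa using h'
        · simpa using Bd.olZero ha hu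
      have hb2 : Bd ((1 + u) * (γ.length * u * (1 + u) ^ γ.length)) (a * a ^ γ.length)
          ((if s then b else a) * (Wd a b γ - Wd a b δ)) := by
        refine Bd.olMul ?_ (ih δ hl) (by linarith) ha
        cases s
        · simpa using (Bd.olSelf ha).olMono ha (by linarith)
        · simpa using Bd.olSelfAbs ha h'
      refine (hb1.olAdd hb2).olMono (ha.mul (ha.pow _)) ?_
      have h1 : (1 + u) ^ γ.length ≤ (1 + u) ^ (γ.length + 1) :=
        pow_le_pow_right₀ (by linarith) (Nat.le_succ _)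
      push_cast
      have h2 : u * (1 + u) ^ γ.length ≤ u * (1 + u) ^ (γ.length + 1) :=
        mul_le_mul_of_nonneg_left h1 hu
      calc u * (1 + u) ^ γ.length + (1 + u) * (γ.length * u * (1 + u) ^ γ.length)
          = u * (1 + u) ^ γ.length + γ.length * u * (1 + u) ^ (γ.length + 1) := by ring
        _ ≤ u * (1 + u) ^ (γ.length + 1) + γ.length * u * (1 + u) ^ (γ.length + 1) := by linarith
        _ = _ := by ring

/-- the new reference measure dominates the pure power, and conversely -/
theorem oneLevel_ge {u : ℝ} {a b : MA G} (ha : Pos a) (hu : 0 ≤ u) (h : Bd u a (a - b))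
    (γ : List Bool) (m : ℕ) (hn : γ.length * u ≤ 1 / 4) (f : G → ℝ) (hf : ∀ w, 0 ≤ f w) :
    ev (a ^ (γ.length + 2 * m)) f ≤ 4 / 3 * ev (a ^ m * Wd a b γ * a ^ m) f := by
  rcases Nat.eq_zero_or_pos γ.length with hz | hpos
  · have : γ = [] := List.length_eq_zero_iff.mp hz
    subst this
    have e : a ^ (([] : List Bool).length + 2 * m) = a ^ m * Wd a b [] * a ^ m := by
      rw [Wd_nil, mul_one, ← pow_add]; congr 1; simp; ring
    rw [e]
    have hp : Pos (Wd a b []) := by rw [Wd_nil]; exact Pos.one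
    have h1 := (((ha.pow m).mul hp).mul (ha.pow m)) f hf
    linarith
  have hu1 : u ≤ 1 := by
    have : (1 : ℝ) ≤ γ.length := by exact_mod_cast hpos
    nlinarith
  have e : a ^ (γ.length + 2 * m) = a ^ m * a ^ γ.length * a ^ m := by
    rw [← pow_add, ← pow_add]; congr 1; ring
  have hbern : 3 / 4 ≤ (1 - u) ^ γ.length := by
    have := one_add_mul_le_pow (a := -u) (by linarith) γ.length
    have e1 : 1 + -u = 1 - u := by ring
    rw [e1] at this
    linarith
  rw [e, ev_mul, ev_mul, ev_mul, ev_mul]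
  rw [← ev_mul_fun]
  refine (ha.pow m).mono (fun w => ?_)
  rw [← ev_mul_fun] 
  set F : G → ℝ := fun v => ev (a ^ m) (fun z => f (w * v * z)) with hF
  have hFn : ∀ v, 0 ≤ F v := fun v => (ha.pow m) _ (fun z => hf _)
  have h1 := Wd_ge ha hu hu1 h γ F hFn
  have h2 : 0 ≤ ev (a ^ γ.length) F := (ha.pow _) _ hFn
  have h3 : ev (Wd a b γ) (fun v => 4 / 3 * F v) = 4 / 3 * ev (Wd a b γ) F := ev_mul_fun _ _ _
  rw [h3]
  nlinarith

/-- **one level, pointwise bound.** -/
theorem oneLevel_bd {u : ℝ} {a b : MA G} (ha : Pos a) (hu : 0 ≤ u) (h : Bd u a (a - b))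
    (γ δ : List Bool) (hl : γ.length = δ.length) (m : ℕ) (hn : γ.length * u ≤ 1 / 4) :
    Bd (4 * γ.length * u) (a ^ m * Wd a b γ * a ^ m)
      (a ^ m * Wd a b γ * a ^ m - a ^ m * Wd a b δ * a ^ m) := by
  have e : a ^ m * Wd a b γ * a ^ m - a ^ m * Wd a b δ * a ^ m =
      a ^ m * (Wd a b γ - Wd a b δ) * a ^ m := by noncomm_ring
  rw [e]
  have h1 := Bd.olMul (Bd.olMul (Bd.olSelf (ha.pow m)) (Wd_diff_bd ha hu h γ δ hl) zero_le_one
    (ha.pow m)) (Bd.olSelf (ha.pow m)) (by positivity) ((ha.pow m).mul (ha.pow _))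
  rw [one_mul, mul_one] at h1
  intro f hf
  refine le_trans (h1 f hf) ?_
  have h2 := oneLevel_ge ha hu h γ m hn f hf
  have e2 : a ^ (γ.length + 2 * m) = a ^ m * a ^ γ.length * a ^ m := by
    rw [← pow_add, ← pow_add]; congr 1; ring
  rw [e2] at h2
  have h3 : (1 + u) ^ γ.length ≤ 3 / 2 := by
    have h4 : (1 + u) ^ γ.length ≤ Real.exp (γ.length * u) := by
      rw [mul_comm, Real.exp_mul, Real.rpow_natCast]
      exact pow_le_pow_left₀ (by linarith) (by linarith [Real.add_one_le_exp u]) _
    have h0 : 0 ≤ γ.length * u := by positivity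
    have h5 := Real.abs_exp_sub_one_le (x := γ.length * u) (by rw [abs_of_nonneg h0]; linarith)
    rw [abs_of_nonneg h0] at h5
    have := (abs_le.mp h5).2
    linarith
  have h6 : 0 ≤ ev (a ^ m * a ^ γ.length * a ^ m) f :=
    ((ha.pow m).mul (ha.pow _)).mul (ha.pow m) f hf
  have h7 : 0 ≤ γ.length * u := by positivity
  calc γ.length * u * (1 + u) ^ γ.length * ev (a ^ m * a ^ γ.length * a ^ m) f
      ≤ γ.length * u * (3 / 2) * (4 / 3 * ev (a ^ m * Wd a b γ * a ^ m) f) := by
        apply mul_le_mul _ h2 h6 (by positivity)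
        exact mul_le_mul_of_nonneg_left h3 h7
    _ = 2 * γ.length * u * ev (a ^ m * Wd a b γ * a ^ m) f := by ring
    _ ≤ _ := by
        apply mul_le_mul_of_nonneg_right (by linarith)
        linarith

/-- `(1+u)^n - 1 ≤ 2 n u` when `n u ≤ 1`, for the pointwise bound of the right contexts `Hq` -/
theorem Hq_bd {u : ℝ} {a b : MA G} (ha : Pos a) (hu : 0 ≤ u) (h : Bd u a (a - b)) (r j : ℕ)
    (hj : j < 2 ^ r) (hn : 2 ^ r * u ≤ 1) :
    Bd (2 * (2 ^ r * u)) (a ^ (2 ^ r - 1 - j)) (Hq a b r j) := by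
  have e1 : ((tm r).drop (j + 1)).length = 2 ^ r - 1 - j := by
    rw [List.length_drop, tm_length]; omega
  have e2 : (((tm r).map not).drop (j + 1)).length = 2 ^ r - 1 - j := by
    rw [List.length_drop, List.length_map, tm_length]; omega
  have hle : ((2 ^ r - 1 - j : ℕ) : ℝ) ≤ 2 ^ r := by
    have : 2 ^ r - 1 - j ≤ 2 ^ r := by omega
    exact_mod_cast this
  have h1 : ((2 ^ r - 1 - j : ℕ) : ℝ) * u ≤ 2 ^ r * u := mul_le_mul_of_nonneg_right hle hu
  have h2 := one_add_pow_sub_le hu (2 ^ r - 1 - j) (by linarith)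
  have key : Bd ((1 + u) ^ (2 ^ r - 1 - j) - 1) (a ^ (2 ^ r - 1 - j)) (Hq a b r j) := by
    unfold Hq
    split
    · have := Wd_bd_sub ha hu h ((tm r).drop (j + 1))
      rw [e1] at this
      exact this.olNeg
    · have := Wd_bd_sub ha hu h (((tm r).map not).drop (j + 1))
      rwa [e2] at this
  exact key.olMono (ha.pow _) (by linarith)

/-- the right contexts have mass zero -/
theorem Hq_mass {a b : MA G} (ha : Prob a) (hb : Prob b) (r j : ℕ) : mass (Hq a b r j) = 0 := by
  unfold Hq
  split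
  · have e : -(Wd a b ((tm r).drop (j + 1)) - a ^ (2 ^ r - 1 - j)) =
      a ^ (2 ^ r - 1 - j) - Wd a b ((tm r).drop (j + 1)) := by abel
    rw [e, mass_sub, (ha.pow _).one, (Wd_prob ha hb _).one, sub_self]
  · rw [mass_sub, (ha.pow _).one, (Wd_prob ha hb _).one, sub_self]

end

end Crest.Agent.R300LB
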