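import Crest.Agent.R300.LBInterface
import Crest.Agent.R300.LBOneLevel

/-!
# Row 300, lower bounds: frozen statements of the pieces of the one-level recursion

Definitions and `Prop`s only.  Level `k`: `a, b` probability measures, `Δ = a - b`;
the quantity that is iterated is the Bessel constant `p` of the translates (in the `a`-lattice) of
the pairs `Δ * a ^ g * Δ`.  One step: `n = 2 m + 2 ^ r`, `P = a ^ m T⁺ a ^ m`, `P' = a ^ m T⁻ a ^ m`,
`p_new ≈ p ^ 2 / √S`.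
-/

set_option autoImplicit false

namespace Crest.Agent.R300LB

open Finset

noncomputable section

/-- Bessel inequality of a finite family w.r.t. `π`
(equivalently `Dom (p * ∑ c i ^ 2) π (∑ c i • U i)` for all `c`). -/
def Bes {G : Type*} [Monoid G] {ι : Type*} (S : Finset ι) (p : ℝ) (π : MA G) (U : ι → MA G) : Prop :=
  ∀ f : G → ℝ, ∑ i ∈ S, (ev (U i) f) ^ 2 ≤ p * ev π (fun w => f w ^ 2)

/-- shift-Bessel: the translates `a ^ x * Z * a ^ (T - x)` of `Z` (`z` = length of `Z` in units of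
`a`), with at least `Pd` copies of `a` on both sides. -/
def SB {G : Type*} [Monoid G] (p : ℝ) (a Z : MA G) (z Pd : ℕ) : Prop :=
  ∀ T : ℕ, Bes (Finset.Icc Pd (T - Pd)) p (a ^ (T + z)) (fun x => a ^ x * Z * a ^ (T - x))

/-- change of reference `π → π'` (up to a tiny additive error, for `ν` pointwise `≤ C π'`) -/
def RefCh {G : Type*} [Monoid G] (e0 : ℝ) (π π' : MA G) : Prop :=
  ∀ (ν : MA G) (X C : ℝ), 0 ≤ X → 0 ≤ C → Dom (X ^ 2) π ν → Bd C π' ν →
    Dom ((√2 * X + C * e0) ^ 2) π' ν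

/-! ## E1 : orthogonality -/

/-- E1a: a block family (window length `l`) gives a shift-Bessel inequality (split the positions in
windows of length `l`, `C` residue classes of windows, slot orthogonality in each class). -/
def BlockStatement : Prop :=
  ∀ (G : Type) [Monoid G] (a Z : MA G) (z l l0 l1 C : ℕ) (p : ℝ),
    Prob a → mass Z = 0 → 0 ≤ p → 1 ≤ l → l ≤ l1 + 1 → l0 + l1 + z ≤ C * l →
    Bes (range l) p (a ^ (l0 + l1 + z)) (fun x => a ^ (l0 + x) * Z * a ^ (l1 - x)) →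
    SB (C * p) a Z z (l0 + l1)

/-- E1b: (from E1a with `l = 1`, `l0 = l1 = 0`, `C = z`) -/
def DomSBStatement : Prop :=
  ∀ (G : Type) [Monoid G] (a Z : MA G) (z : ℕ) (V : ℝ),
    Prob a → mass Z = 0 → 0 ≤ V → 1 ≤ z → Dom V (a ^ z) Z → SB (z * V) a Z z 0

/-- E1c: tensor square.  Window `l = D - 2 Pd`; with `U x = a ^ (Pd + x) * W * a ^ (D - Pd - x)` one
has `a ^ (Pd + x) * (W * a ^ D * W) * a ^ (D - Pd - x) = U x * U x`. -/
def TensorStatement : Prop :=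
  ∀ (G : Type) [Monoid G] (a W : MA G) (w Pd D : ℕ) (p : ℝ),
    Prob a → mass W = 0 → 0 ≤ p → 1 ≤ D → 4 * Pd ≤ D → 4 * w ≤ D → SB p a W w Pd →
    SB (5 * p ^ 2) a (W * a ^ D * W) (2 * w + D) D

/-! ## E2 : coins (`0`-`2` law) -/

/-- E2a: `r`-fold commutator (`Dif a X = a * X - X * a`) inside `a ^ ((R+1) k)` -/
def DerivStatement : Prop :=
  ∀ (G : Type) [Monoid G] (a s X : MA G) (R k r l : ℕ) (V : ℝ),
    Prob a → Slip a R s → 0 ≤ V → Dom V (a ^ l) X →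
    Dom (V * ((4 / (mass s) ^ 2) ^ r / ((k + r).choose r : ℝ))) (a ^ (2 * ((R + 1) * k) + r + l))
      (a ^ ((R + 1) * k) * (Dif a)^[r] X * a ^ ((R + 1) * k))

/-- E2b: location gain for positions `X0 + n j`, `j < M` -/
def LocationStatement : Prop :=
  ∀ (G : Type) [Monoid G] (a s Z : MA G) (R k z Pd n X0 M T : ℕ) (p : ℝ),
    Prob a → Slip a R s → 0 ≤ p → SB p a Z z Pd → 1 ≤ n → 1 ≤ M →
    Pd + (R + 1) * k ≤ X0 → X0 + n * (M - 1) + (R + 1) * k + Pd ≤ T →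
    Bes (range M) (p * (1 / n + 2 / (mass s * √(k + 1)))) (a ^ (T + z))
      (fun j => a ^ (X0 + n * j) * Z * a ^ (T - (X0 + n * j)))

/-- E2c: one-sided coins in `ℓ¹` -/
def TVSlipStatement : Prop :=
  ∀ (G : Type) [Monoid G] (a s : MA G) (R k : ℕ), Prob a → Slip a R s →
    TVle (2 / √(mass s * (k + 1))) (a ^ ((R + 1) * k) - a ^ ((R + 1) * k + 1))

/-! ## E3 : change of reference (Hölder/Jensen with exponent `lam`, only `true` letters cost) -/

def RefChStatement : Prop :=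
  ∀ (G : Type) [Monoid G] (a b : MA G) (V u : ℝ) (lam : ℕ) (w : List Bool),
    Prob a → Prob b → Dom V a (a - b) → Bd u a (a - b) → 0 ≤ V → 0 ≤ u → 1 ≤ lam →
    u * lam ≤ 1 / 4 → 32 * lam * V * (w.count true : ℝ) ≤ 1 →
    RefCh (Real.exp (-((lam : ℝ) / 8))) (a ^ w.length) (Wd a b w)

/-! ## E4 : Thue–Morse core -/

/-- `T⁺ - T⁻ = W + E`, `W` = second and higher order, `E` = linear part (an `r`-fold commutator) -/
def TMStatement : Prop :=
  ∀ (G : Type) [Monoid G] (a b s : MA G) (R m r gm Pd : ℕ) (V p : ℝ),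
    Prob a → Prob b → 0 ≤ V → 0 ≤ p → Dom V a (a - b) → V ^ 3 ≤ p → 2 ^ r * V ≤ 1 → 1 ≤ r →
    2 ^ r ≤ gm → (∀ g : ℕ, g ≤ gm → SB p a ((a - b) * a ^ g * (a - b)) (g + 2) Pd) →
    Slip a R s → 1 ≤ m →
    ∃ W E : MA G, Wd a b (tm r) - Wd a b ((tm r).map not) = W + E ∧ mass W = 0 ∧
      SB (10 * (2 ^ r) ^ 4 * p) a W (2 ^ r) Pd ∧
      Dom ((2 ^ r * 4 * r * (R + 1) / ((mass s) ^ 2 * m)) ^ r * V) (a ^ (2 * m + 2 ^ r))
        (a ^ m * E * a ^ m)

/-- the two patterns of the next level -/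
def pat (m r : ℕ) (c : Bool) : List Bool :=
  List.replicate m false ++ (tm r).map (fun t => xor c t) ++ List.replicate m false

/-- substitution of words for letters -/
def blk (x y : List Bool) (w : List Bool) : List Bool := (w.map (fun c => if c then y else x)).flatten

/-- E4': words and `ℓ¹` errors of the next level -/
def WordStatement : Prop :=
  ∀ (q τ : ℝ) (x y : List Bool) (a b : MA BW) (m r : ℕ), 0 < q → q ≤ 1 / 16 → 0 ≤ τ →
    x.length = y.length → x ≠ y → Prob a → Prob b → TVle τ (a - D q x) → TVle τ (b - D q y) →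
    (∀ c, (blk x y (pat m r c)).length = (2 * m + 2 ^ r) * x.length) ∧
    blk x y (pat m r false) ≠ blk x y (pat m r true) ∧
    (∀ c, TVle ((2 * m + 2 ^ r) * τ) (Wd a b (pat m r c) - D q (blk x y (pat m r c)))) ∧
    Wd a b (pat m r false) = a ^ m * Wd a b (tm r) * a ^ m ∧
    Wd a b (pat m r true) = a ^ m * Wd a b ((tm r).map not) * a ^ m

/-! ## E5 : drift of the powers and slip of the next level -/

/-- bound `σ` for the squared norm of the first-order part of `P ^ M - a ^ (n M)`, `M ≤ 2 ^ l` -/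
def sigmaB (N0 m l : ℕ) (VZ ρ : ℝ) : ℝ := 1000 * N0 * VZ * (2 ^ l / (2 * m + N0) + ρ * √(2 ^ l))

def DriftStatement : Prop :=
  ∀ (G : Type) [Monoid G] (a c s : MA G) (R m N0 l : ℕ) (VZ ρ : ℝ),
    Prob a → Prob c → Slip a R s → 1 ≤ N0 → 1 ≤ m → 0 ≤ VZ → Dom VZ (a ^ N0) (c - a ^ N0) →
    0 ≤ ρ → ((R : ℝ) + 1) ≤ ρ ^ 2 * (mass s) ^ 2 * m →
    16 * ((l : ℝ) + 1) ^ 2 * sigmaB N0 m l VZ ρ ≤ 1 →
    ∀ M : ℕ, M ≤ 2 ^ l → Dom (4 * sigmaB N0 m l VZ ρ) (a ^ ((2 * m + N0) * M))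
      ((a ^ m * c * a ^ m) ^ M - a ^ ((2 * m + N0) * M))

def SlipStepStatement : Prop :=
  ∀ (G : Type) [Monoid G] (a P s : MA G) (R R' n : ℕ), Prob a → Prob P → Slip a R s → 1 ≤ n →
    64 * (n : ℝ) * (R + 1) ≤ mass s * R' →
    (∀ M : ℕ, M ≤ R' + 1 → Dom (1 / 16) (a ^ (n * M)) (P ^ M - a ^ (n * M))) →
    ∃ s' : MA G, Slip P R' s' ∧ 1 / 2 ≤ mass s'

/-! ## E6 : the pair recursion (location gain) -/

/-- total norm (w.r.t. the pure reference) in the pair step -/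
def XTB (S n k : ℕ) (η pW θ χ : ℝ) : ℝ :=
  √5 * pW * √(1 / n + 2 / (η * √(k + 1))) + √S * √θ * (2 * √pW + √θ) + 7 * √S * (√pW + √θ) ^ 2 * √χ

def PairStepStatement : Prop :=
  ∀ (G : Type) [Monoid G] (a P P' W E s : MA G) (R m N0 Pd S g k : ℕ) (pW θ χ u' e0 : ℝ),
    Prob a → Prob P → Prob P' → Slip a R s → 1 ≤ N0 → 1 ≤ S → 1 ≤ m →
    P - P' = a ^ m * W * a ^ m + E → mass W = 0 → 0 ≤ pW → SB pW a W N0 Pd →
    2 * Pd ≤ m → 2 * N0 ≤ m →
    0 ≤ θ → Dom θ (a ^ (2 * m + N0)) E → 0 ≤ χ → χ ≤ 1 →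
    (∀ M : ℕ, M ≤ 3 * S → Dom χ (a ^ ((2 * m + N0) * M)) (P ^ M - a ^ ((2 * m + N0) * M))) →
    2 * (g + 1) ≤ S → 2 * ((R + 1) * k) ≤ (2 * m + N0) * S →
    0 ≤ u' → Bd u' P (P - P') → 0 ≤ e0 →
    RefCh e0 (a ^ ((2 * m + N0) * (3 * S + g + 2))) (P ^ (3 * S + g + 2)) →
    SB (5 * (√2 * XTB S (2 * m + N0) k (mass s) pW θ χ + √S * u' ^ 2 * e0) ^ 2) P
      ((P - P') * P ^ g * (P - P')) (g + 2) (3 * S)

/-! ## E7, E8 : one step in exponential form, iteration -/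

/-- state of the recursion; `L` = log-scale, `V = e^{-cL}`, pair constant `e^{-PL}` -/
structure St2 (q L c P u τ : ℝ) (x y : List Bool) (a b : MA BW) : Prop where
  len : x.length = y.length
  ne : x ≠ y
  lenL : (x.length : ℝ) ≤ Real.exp L
  pa : Prob a
  pb : Prob b
  ta : TVle τ (a - D q x)
  tb : TVle τ (b - D q y)
  bd : Bd u a (a - b)
  dom : Dom (Real.exp (-(c * L))) a (a - b)
  pair : ∀ g Pd : ℕ, (g : ℝ) ≤ Real.exp (L / 100) → Real.exp L ≤ Pd →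
    SB (Real.exp (-(P * L))) a ((a - b) * a ^ g * (a - b)) (g + 2) Pd
  slip : ∃ (R : ℕ) (s : MA BW), Slip a R s ∧ ((R : ℝ) + 1) ≤ Real.exp L * (mass s) ^ 2

/-- E7 -/
def StepStatement : Prop :=
  ∀ δ : ℝ, 0 < δ → δ ≤ 1 / 10 →
    ∃ C : ℝ, 1 ≤ C ∧ ∀ q : ℝ, 0 < q → q ≤ 1 / 16 → ∀ L c P u τ : ℝ,
      11 / 10 ≤ c → 27 / 10 ≤ P → P ≤ 3 * c → C * P ^ 4 ≤ L →
      0 < u → u * (Real.exp (C * P ^ 2) * L) ≤ 1 → 0 ≤ τ →
      ∀ (x y : List Bool) (a b : MA BW), St2 q L c P u τ x y a b →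
        ∃ (x' y' : List Bool) (a' b' : MA BW),
          St2 q ((2 + δ / P) * L) (P / 2 - δ) (P + min (1 / 2) (c / 8) - δ)
            (Real.exp (C * P ^ 2) * u) (Real.exp ((2 + δ / P) * L) * τ) x' y' a' b'

/-- E8 -/
def IterStatement : Prop := BaseStatement → DomSBStatement → StepStatement → CoreStatement

end

end Crest.Agent.R300LB
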