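import Crest.Agent.R300.LBOneLevelPt
import Crest.Agent.R300.LBOrth
import Crest.Agent.R300.LBLocGain

/-!
# Row 300, lower bounds, piece L7a: first-mark representations and the location gain

`MRep a D n S F`: `F = ∑_{p<n} a^p D G_p` with `‖G_p‖ ≤ g_p` (in `L²(a^{n-1-p})`), `∑ g_p ≤ S`.
-/

set_option autoImplicit false

namespace Crest.Agent.R300LB

open Finset

noncomputable section

variable {G : Type*} [Monoid G]

/-- first-mark representation with total weight `≤ S` -/
def MRep (a D : MA G) (n : ℕ) (S : ℝ) (F : MA G) : Prop :=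
  ∃ (Gf : ℕ → MA G) (g : ℕ → ℝ), (∀ p, 0 ≤ g p) ∧
    (∀ p < n, Dom ((g p) ^ 2) (a ^ (n - 1 - p)) (Gf p)) ∧
    (∑ p ∈ range n, g p ≤ S) ∧ F = ∑ p ∈ range n, a ^ p * D * Gf p

theorem MRep.mono {a D F : MA G} {n : ℕ} {S T : ℝ} (h : MRep a D n S F) (hST : S ≤ T) :
    MRep a D n T F := by
  obtain ⟨Gf, g, h1, h2, h3, h4⟩ := h
  exact ⟨Gf, g, h1, h2, h3.trans hST, h4⟩

theorem MRep.nonneg {a D F : MA G} {n : ℕ} {S : ℝ} (h : MRep a D n S F) : 0 ≤ S := by
  obtain ⟨Gf, g, h1, h2, h3, h4⟩ := h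
  exact (sum_nonneg (fun p _ => h1 p)).trans h3

theorem MRep.base (a D : MA G) : MRep a D 1 1 D := by
  refine ⟨fun _ => 1, fun _ => 1, fun _ => zero_le_one, fun p hp => ?_, by simp, by simp⟩
  have : p = 0 := by omega
  subst this
  simp only [Nat.sub_self, pow_zero, one_pow]
  exact Dom.self_prob Prob.one'

theorem MRep.zero {a D : MA G} (ha : Prob a) (n : ℕ) : MRep a D n 0 0 :=
  ⟨fun _ => 0, fun _ => 0, fun _ => le_rfl,
    fun p _ => Dom.zero _ (ha.pos.pow _) (by norm_num), by simp, by simp⟩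

theorem MRep.add {a D F F' : MA G} {n : ℕ} {S S' : ℝ} (ha : Prob a) (h : MRep a D n S F)
    (h' : MRep a D n S' F') : MRep a D n (S + S') (F + F') := by
  obtain ⟨Gf, g, h1, h2, h3, h4⟩ := h
  obtain ⟨Gf', g', h1', h2', h3', h4'⟩ := h'
  refine ⟨fun p => Gf p + Gf' p, fun p => g p + g' p, fun p => add_nonneg (h1 p) (h1' p),
    fun p hp => Dom.add (h2 p hp) (h2' p hp) (h1 p) (h1' p) (ha.pos.pow _), ?_, ?_⟩
  · rw [sum_add_distrib]; exact add_le_add h3 h3'
  · rw [h4, h4', ← sum_add_distrib]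
    exact sum_congr rfl (fun p _ => by rw [mul_add])

theorem MRep.sum {ι : Type*} {a D : MA G} {n : ℕ} (ha : Prob a) (s : Finset ι) {S : ι → ℝ}
    {F : ι → MA G} (h : ∀ i ∈ s, MRep a D n (S i) (F i)) :
    MRep a D n (∑ i ∈ s, S i) (∑ i ∈ s, F i) := by
  classical
  induction s using Finset.induction_on with
  | empty => simpa using MRep.zero ha n
  | insert i s hi ih =>
    rw [sum_insert hi, sum_insert hi]
    exact MRep.add ha (h i (mem_insert_self i s)) (ih (fun j hj => h j (mem_insert_of_mem hj)))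

/-- left multiplication by a pure power -/
theorem MRep.powLeft {a D F : MA G} {n : ℕ} {S : ℝ} (ha : Prob a) (k : ℕ)
    (h : MRep a D n S F) : MRep a D (k + n) S (a ^ k * F) := by
  obtain ⟨Gf, g, h1, h2, h3, h4⟩ := h
  refine ⟨fun q => if q < k then 0 else Gf (q - k), fun q => if q < k then 0 else g (q - k),
    fun q => ?_, fun q hq => ?_, ?_, ?_⟩
  · show 0 ≤ (if q < k then (0:ℝ) else g (q - k))
    split_ifs
    · exact le_rfl
    · exact h1 _
  · show Dom ((if q < k then (0:ℝ) else g (q - k)) ^ 2) _ (if q < k then 0 else Gf (q - k))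
    split_ifs with hk
    · exact Dom.zero _ (ha.pos.pow _) (by norm_num)
    · have := h2 (q - k) (by omega)
      have e : n - 1 - (q - k) = k + n - 1 - q := by omega
      rwa [e] at this
  · rw [sum_range_add]
    have e1 : ∑ x ∈ range k, (if x < k then (0:ℝ) else g (x - k)) = 0 :=
      sum_eq_zero (fun x hx => by rw [if_pos (mem_range.mp hx)])
    have e2 : ∑ x ∈ range n, (if k + x < k then (0:ℝ) else g (k + x - k)) =
        ∑ x ∈ range n, g x :=
      sum_congr rfl (fun x _ => by rw [if_neg (by omega), Nat.add_sub_cancel_left])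
    rw [e1, e2, zero_add]; exact h3
  · rw [sum_range_add]
    have e1 : ∑ x ∈ range k, a ^ x * D * (if x < k then (0 : MA G) else Gf (x - k)) = 0 :=
      sum_eq_zero (fun x hx => by rw [if_pos (mem_range.mp hx), mul_zero])
    have e2 : ∑ x ∈ range n, a ^ (k + x) * D * (if k + x < k then (0 : MA G) else Gf (k + x - k)) =
        a ^ k * F := by
      rw [h4, mul_sum]
      refine sum_congr rfl (fun x _ => ?_)
      rw [if_neg (by omega), Nat.add_sub_cancel_left, pow_add]
      simp only [mul_assoc]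
    rw [e1, e2, zero_add]

/-- right multiplication by something dominated -/
theorem MRep.mulRight {a D F Q : MA G} {n l : ℕ} {S t : ℝ} (ha : Prob a) (ht : 0 ≤ t)
    (h : MRep a D n S F) (hQ : Dom (t ^ 2) (a ^ l) Q) : MRep a D (n + l) (S * t) (F * Q) := by
  obtain ⟨Gf, g, h1, h2, h3, h4⟩ := h
  refine ⟨fun q => if q < n then Gf q * Q else 0, fun q => if q < n then g q * t else 0,
    fun q => ?_, fun q hq => ?_, ?_, ?_⟩
  · show 0 ≤ (if q < n then g q * t else 0)
    split_ifs
    · exact mul_nonneg (h1 _) ht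
    · exact le_rfl
  · show Dom ((if q < n then g q * t else 0) ^ 2) _ (if q < n then Gf q * Q else 0)
    split_ifs with hk
    · have := Dom.mul (h2 q hk) hQ (sq_nonneg _) (ha.pos.pow _)
      rw [← pow_add, ← mul_pow] at this
      have e : n - 1 - q + l = n + l - 1 - q := by omega
      rwa [e] at this
    · exact Dom.zero _ (ha.pos.pow _) (by norm_num)
  · rw [sum_range_add]
    have e1 : ∑ x ∈ range n, (if x < n then g x * t else 0) = (∑ x ∈ range n, g x) * t := by
      rw [sum_mul]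
      exact sum_congr rfl (fun x hx => by rw [if_pos (mem_range.mp hx)])
    have e2 : ∑ x ∈ range l, (if n + x < n then g (n + x) * t else 0) = 0 :=
      sum_eq_zero (fun x _ => by rw [if_neg (by omega)])
    rw [e1, e2, add_zero]
    exact mul_le_mul_of_nonneg_right h3 ht
  · rw [sum_range_add]
    have e1 : ∑ x ∈ range n, a ^ x * D * (if x < n then Gf x * Q else 0) = F * Q := by
      rw [h4, sum_mul]
      refine sum_congr rfl (fun x hx => ?_)
      rw [if_pos (mem_range.mp hx)]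
      simp only [mul_assoc]
    have e2 : ∑ x ∈ range l, a ^ (n + x) * D * (if n + x < n then Gf (n + x) * Q else 0) = 0 :=
      sum_eq_zero (fun x _ => by rw [if_neg (by omega), mul_zero])
    rw [e1, e2, add_zero]

/-- Lemma B in the form used everywhere: gain `β` for the `r`-th difference inside `a^M · a^M` -/
def FogB (a : MA G) (r M : ℕ) (β : ℝ) : Prop :=
  ∀ (n : ℕ) (x : ℝ) (F : MA G), 0 ≤ x → Dom x (a ^ n) F →
    Dom (x * β) (a ^ (M + (n + r) + M))
      (a ^ M * homL a r F ((1 - Polynomial.X) ^ r) * a ^ M)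

/-- location gain for first-mark representations -/
theorem MRep.gain {a D F : MA G} {V β S x : ℝ} {n M r J W : ℕ} (ha : Prob a) (hD0 : mass D = 0)
    (hV : 0 ≤ V) (hD : Dom V a D) (hJ : 2 ≤ J) (hβ : 0 ≤ β) (hB : FogB a r M β)
    (hW : M + r * (J - 1) ≤ W) (h : MRep a D n S F) (hx : 0 ≤ x) (hF : Dom (x ^ 2) (a ^ n) F) :
    Dom ((2 ^ r * Real.sqrt (V / J) * S + ((J : ℝ) / 2) ^ r * (Real.sqrt β * x)) ^ 2)
      (a ^ (W + n + W)) (a ^ W * F * a ^ W) := by
  obtain ⟨Gf, g, h1, h2, h3, h4⟩ := h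
  have hY : Dom ((Real.sqrt β * x) ^ 2) (a ^ (M + (n + r) + M))
      (a ^ M * homL a r F ((1 - Polynomial.X) ^ r) * a ^ M) := by
    have := hB n (x ^ 2) F (sq_nonneg _) hF
    rwa [mul_pow, Real.sq_sqrt hβ, mul_comm β]
  have key := locGain ha hD0 hV hD (M := M) (M' := M) (r := r) hJ (fun p _ => h1 p) h2 h4
    (by positivity) hY
  have key2 : Dom ((2 ^ r * Real.sqrt (V / J) * S + ((J : ℝ) / 2) ^ r * (Real.sqrt β * x)) ^ 2)
      (a ^ (M + (n + r * (J - 1)) + M)) (a ^ M * F * a ^ (r * (J - 1) + M)) := by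
    refine key.mono ?_ (ha.pos.pow _)
    have hs : 0 ≤ ∑ p ∈ range n, g p := sum_nonneg (fun p _ => h1 p)
    refine pow_le_pow_left₀ (by positivity) ?_ 2
    have : 2 ^ r * Real.sqrt (V / J) * (∑ p ∈ range n, g p) ≤ 2 ^ r * Real.sqrt (V / J) * S :=
      mul_le_mul_of_nonneg_left h3 (by positivity)
    linarith
  have key3 := (key2.mulLeft (ha.pow (W - M))).mulRight (ha.pow (W - M - r * (J - 1)))
    (sq_nonneg _) ((ha.pos.pow _).mul (ha.pos.pow _))
  have e1 : a ^ (W - M) * a ^ (M + (n + r * (J - 1)) + M) * a ^ (W - M - r * (J - 1)) =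
      a ^ (W + n + W) := by
    rw [← pow_add, ← pow_add]; congr 1; omega
  have e2 : a ^ (W - M) * (a ^ M * F * a ^ (r * (J - 1) + M)) * a ^ (W - M - r * (J - 1)) =
      a ^ W * F * a ^ W := by
    have e3 : a ^ W = a ^ (W - M) * a ^ M := by rw [← pow_add]; congr 1; omega
    have e4 : a ^ W = a ^ (r * (J - 1) + M) * a ^ (W - M - r * (J - 1)) := by
      rw [← pow_add]; congr 1; omega
    calc _ = (a ^ (W - M) * a ^ M) * F * (a ^ (r * (J - 1) + M) * a ^ (W - M - r * (J - 1))) := by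
          simp only [mul_assoc]
      _ = _ := by rw [← e3, ← e4]
  rw [e1, e2] at key3
  exact key3

/-! ## the `r`-fold commutator and the linear part -/

theorem homL_one_sub_pow (a : MA G) (r : ℕ) (F : MA G) :
    homL a r F ((1 - Polynomial.X) ^ r) = (-1 : ℝ) ^ r • (Dif a)^[r] F := by
  induction r with
  | zero => simp [homL_one]
  | succ r ih =>
    have h1 : ((1 - Polynomial.X : Polynomial ℝ)).natDegree ≤ 1 := by
      have := kern_natDegree_one_sub_X_pow 1
      rwa [pow_one] at this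
    have h2 : homL a (1 + r) F ((1 - Polynomial.X) * (1 - Polynomial.X) ^ r) =
        homL a 1 (homL a r F ((1 - Polynomial.X) ^ r)) (1 - Polynomial.X) :=
      homL_mul a h1 (kern_natDegree_one_sub_X_pow r) F
    have h3 : ∀ Y : MA G, homL a 1 Y (1 - Polynomial.X) = -(Dif a Y) := by
      intro Y
      rw [map_sub, homL_one]
      have := homL_X_pow a (le_refl 1) Y
      rw [pow_one, pow_one, Nat.sub_self, pow_zero, mul_one] at this
      rw [this, pow_one, Dif]; abel
    rw [pow_succ', add_comm r 1, h2, h3, ih, add_comm 1 r, Function.iterate_succ_apply']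
    rw [pow_succ]
    have h4 : Dif a ((-1 : ℝ) ^ r • (Dif a)^[r] F) = (-1 : ℝ) ^ r • Dif a ((Dif a)^[r] F) := by
      unfold Dif
      rw [mul_smul_comm, smul_mul_assoc, smul_sub]
    rw [h4, mul_neg_one, neg_smul]

/-- the linear part of one level, in the reference of the level itself -/
theorem FogB.lin_dom {A B : MA G} {r m : ℕ} {β V : ℝ} (hA : Prob A) (hV : 0 ≤ V) (hβ : 0 ≤ β)
    (h : Dom V A (A - B)) (hB : FogB A r m β) :
    Dom (((2 : ℝ) ^ (r * (r - 1) / 2) * Real.sqrt (V * β)) ^ 2) (A ^ (m + 2 ^ r + m))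
      (A ^ m * lin A r (A - B) * A ^ m) := by
  have h2 : Dom ((Real.sqrt V) ^ 2) A (A - B) := by rwa [Real.sq_sqrt hV]
  have h3 := hB _ _ _ (sq_nonneg _) (GG_dom hA (Real.sqrt_nonneg V) h2 r)
  rw [homL_one_sub_pow] at h3
  rw [lin_eq]
  have hr : r ≤ 2 ^ r := (Nat.lt_two_pow_self).le
  have e0 : m + (2 ^ r - r + r) + m = m + 2 ^ r + m := by omega
  rw [e0] at h3
  have e : ((2 : ℝ) ^ (r * (r - 1) / 2) * Real.sqrt V) ^ 2 * β =
      ((2 : ℝ) ^ (r * (r - 1) / 2) * Real.sqrt (V * β)) ^ 2 := by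
    rw [mul_pow, mul_pow, Real.sq_sqrt hV, Real.sq_sqrt (mul_nonneg hV hβ)]
    ring
  rwa [e] at h3

/-- pointwise bound for the linear part -/
theorem lin_bd {A B : MA G} {u : ℝ} (hA : Pos A) (hu : 0 ≤ u) (h : Bd u A (A - B)) (r : ℕ) :
    Bd (2 ^ r * u) (A ^ (2 ^ r)) (lin A r (A - B)) := by
  unfold lin
  have := Bd.sum (s := range (2 ^ r)) (u := fun _ => u) (a := A ^ (2 ^ r)) (hA.pow _)
    (ν := fun j => tsg r j • (A ^ j * (A - B) * A ^ (2 ^ r - 1 - j))) (fun j hj => ?_)
  · rw [sum_const, card_range, nsmul_eq_mul] at this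
    push_cast at this
    exact this
  · have hj := mem_range.mp hj
    have h1 := Bd.olMul (Bd.olMul (Bd.olSelf (hA.pow j)) h zero_le_one (hA.pow j))
      (Bd.olSelf (hA.pow (2 ^ r - 1 - j))) (by positivity) ((hA.pow j).mul hA)
    rw [one_mul, mul_one, ← pow_succ, ← pow_add] at h1
    have e1 : j + 1 + (2 ^ r - 1 - j) = 2 ^ r := by omega
    rw [e1] at h1
    have h2 := h1.smul (tsg r j)
    have e2 : |tsg r j| = 1 := by
      have := tsg_sq r j
      rw [← sq_abs] at this
      have h0 := abs_nonneg (tsg r j)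
      nlinarith
    rwa [e2, one_mul] at h2

end

end Crest.Agent.R300LB
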