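import Mathlib

/-!
# Row 300, lower bounds, piece L10 (base slip): binomial coefficient facts

`coin r = (1-r) + r X`.
-/

set_option autoImplicit false

namespace Crest.Agent.R300LB.Sl

open Polynomial Finset

noncomputable section

/-- probability generating polynomial of a coin: `(1-r) + r X` -/
def coin (r : ℝ) : ℝ[X] := C (1 - r) + C r * X

/-- binomial weights -/
def bw (r : ℝ) (A l : ℕ) : ℝ := (A.choose l : ℝ) * r ^ l * (1 - r) ^ (A - l)

theorem bw_nonneg {r : ℝ} (h0 : 0 ≤ r) (h1 : r ≤ 1) (A l : ℕ) : 0 ≤ bw r A l := by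
  unfold bw
  have : 0 ≤ 1 - r := by linarith
  positivity

theorem coeff_coin_pow (r : ℝ) (A l : ℕ) : ((coin r) ^ A).coeff l = bw r A l := by
  unfold coin bw
  rw [add_comm, add_pow, finsetSum_coeff]
  have h : ∀ m ∈ range (A + 1), ((C r * X) ^ m * (C (1 - r)) ^ (A - m) * ((A.choose m : ℕ) : ℝ[X])).coeff l
      = if m = l then (A.choose l : ℝ) * r ^ l * (1 - r) ^ (A - l) else 0 := by
    intro m _
    have e : (C r * X) ^ m * (C (1 - r)) ^ (A - m) * ((A.choose m : ℕ) : ℝ[X])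
        = C (((A.choose m : ℕ) : ℝ) * r ^ m * (1 - r) ^ (A - m)) * X ^ m := by
      rw [mul_pow, ← C_pow, ← C_pow, ← C_eq_natCast, C_mul, C_mul]
      ring
    rw [e, coeff_C_mul_X_pow]
    by_cases h : m = l
    · subst h; simp
    · rw [if_neg h, if_neg (fun h' => h h'.symm)]
  rw [Finset.sum_congr rfl h, Finset.sum_ite_eq' (range (A + 1)) l]
  by_cases hl : l ∈ range (A + 1)
  · rw [if_pos hl]
  · rw [if_neg hl]
    have : A < l := by simpa using hl
    rw [Nat.choose_eq_zero_of_lt this]; simp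

theorem sum_bw (r : ℝ) (A : ℕ) : ∑ l ∈ range (A + 1), bw r A l = 1 := by
  have h := (add_pow r (1 - r) A).symm
  rw [show r + (1 - r) = 1 by ring, one_pow] at h
  rw [← h]
  refine Finset.sum_congr rfl (fun l _ => ?_)
  unfold bw; ring

theorem sum_bw_var (r : ℝ) (A : ℕ) :
    ∑ l ∈ range (A + 1), bw r A l * ((A : ℝ) * r - l) ^ 2 = A * r * (1 - r) := by
  have h := congrArg (Polynomial.eval r) (bernsteinPolynomial.variance ℝ A)
  rw [eval_finsetSum] at h
  simp only [bernsteinPolynomial, nsmul_eq_mul, eval_mul, eval_pow, eval_sub, eval_natCast, eval_X,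
    eval_one] at h
  rw [← h]
  refine Finset.sum_congr rfl (fun l _ => ?_)
  unfold bw; ring

theorem coeff_shift (r : ℝ) (A l : ℕ) :
    ((A : ℝ) + 1) * r * (1 - r) * (((coin r) ^ A * (1 - X)).coeff l) =
      bw r (A + 1) l * (((A + 1 : ℕ) : ℝ) * r - l) := by
  rw [show (coin r) ^ A * (1 - X) = (coin r) ^ A - (coin r) ^ A * X by ring, coeff_sub,
    coeff_coin_pow]
  cases l with
  | zero =>
    have : ((coin r) ^ A * X).coeff 0 = 0 := by rw [coeff_mul_X_zero]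
    rw [this]
    unfold bw
    simp only [Nat.choose_zero_right, Nat.cast_one, pow_zero, Nat.sub_zero, Nat.cast_zero]
    push_cast
    ring
  | succ j =>
    rw [coeff_mul_X, coeff_coin_pow]
    unfold bw
    have e1 : ((A : ℝ) + 1) * (A.choose j) = ((A + 1).choose (j + 1)) * ((j : ℝ) + 1) := by
      have := Nat.add_one_mul_choose_eq A j
      exact_mod_cast this
    have e2 : (((A + 1).choose (j + 1) : ℕ) : ℝ) = A.choose j + A.choose (j + 1) := by
      rw [Nat.choose_succ_succ]; push_cast; ring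
    have e3 : ((A : ℝ) + 1) * (A.choose (j + 1)) = ((A + 1).choose (j + 1)) * ((A : ℝ) - j) := by
      have : ((A : ℝ) + 1) * (A.choose (j + 1)) =
        ((A : ℝ) + 1) * ((A + 1).choose (j + 1)) - ((A : ℝ) + 1) * A.choose j := by rw [e2]; ring
      rw [this, e1]; ring
    have hA : A + 1 - (j + 1) = A - j := by omega
    rw [hA]
    by_cases hj : j + 1 ≤ A
    · have e4 : (1 - r) ^ (A - j) = (1 - r) * (1 - r) ^ (A - (j + 1)) := by
        rw [← pow_succ']; congr 1; omega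
      rw [e4]
      push_cast
      have : ((A : ℝ) + 1) * r * (1 - r) *
          ((A.choose (j + 1) : ℝ) * r ^ (j + 1) * (1 - r) ^ (A - (j + 1)) -
            (A.choose j : ℝ) * r ^ j * ((1 - r) * (1 - r) ^ (A - (j + 1)))) =
          (((A : ℝ) + 1) * (A.choose (j + 1))) * (r ^ (j + 2) * (1 - r) * (1 - r) ^ (A - (j + 1))) -
          (((A : ℝ) + 1) * (A.choose j)) * (r ^ (j + 1) * (1 - r) * ((1 - r) * (1 - r) ^ (A - (j + 1)))) := by
        ring
      rw [this, e3, e1]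
      ring
    · have hj' : A < j + 1 := by omega
      have e5 : (((A.choose (j + 1) : ℕ)) : ℝ) = 0 := by rw [Nat.choose_eq_zero_of_lt hj']; simp
      rw [e5]
      by_cases hj2 : j = A
      · subst hj2
        simp only [Nat.choose_self, Nat.cast_one, Nat.sub_self, pow_zero]
        push_cast
        ring
      · have hj3 : A < j := by omega
        have e6 : (((A.choose j : ℕ)) : ℝ) = 0 := by rw [Nat.choose_eq_zero_of_lt hj3]; simp
        have e7 : ((((A + 1).choose (j + 1) : ℕ)) : ℝ) = 0 := by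
          rw [Nat.choose_eq_zero_of_lt (by omega)]; simp
        rw [e6, e7]; ring

/-- total variation of the binomial law under a shift by one -/
theorem shift_l1 {r : ℝ} (h0 : 0 < r) (h1 : r < 1) (A : ℕ) :
    ∑ l ∈ range (A + 2), |((coin r) ^ A * (1 - X)).coeff l| ≤
      1 / Real.sqrt (((A : ℝ) + 1) * r * (1 - r)) := by
  set v : ℝ := ((A : ℝ) + 1) * r * (1 - r) with hv
  have hvpos : 0 < v := by
    have : 0 < 1 - r := by linarith
    positivity
  have h2 : ∀ l, |((coin r) ^ A * (1 - X)).coeff l| =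
      v⁻¹ * (bw r (A + 1) l * |((A + 1 : ℕ) : ℝ) * r - l|) := by
    intro l
    have := coeff_shift r A l
    have e : ((coin r) ^ A * (1 - X)).coeff l =
      v⁻¹ * (bw r (A + 1) l * (((A + 1 : ℕ) : ℝ) * r - l)) := by
      rw [← this, ← hv, ← mul_assoc, inv_mul_cancel₀ hvpos.ne', one_mul]
    rw [e, abs_mul, abs_mul, abs_of_pos (inv_pos.mpr hvpos),
      abs_of_nonneg (bw_nonneg h0.le h1.le _ _)]
  rw [Finset.sum_congr rfl (fun l _ => h2 l), ← Finset.mul_sum]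
  have hcs : (∑ l ∈ range (A + 2), bw r (A + 1) l * |((A + 1 : ℕ) : ℝ) * r - l|) ≤ Real.sqrt v := by
    apply Real.le_sqrt_of_sq_le
    have key := Finset.sum_mul_sq_le_sq_mul_sq (range (A + 2)) (fun l => Real.sqrt (bw r (A + 1) l))
      (fun l => Real.sqrt (bw r (A + 1) l) * |((A + 1 : ℕ) : ℝ) * r - l|)
    have e1 : ∀ l ∈ range (A + 2), Real.sqrt (bw r (A + 1) l) *
        (Real.sqrt (bw r (A + 1) l) * |((A + 1 : ℕ) : ℝ) * r - l|) =
        bw r (A + 1) l * |((A + 1 : ℕ) : ℝ) * r - l| := by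
      intro l _
      rw [← mul_assoc, Real.mul_self_sqrt (bw_nonneg h0.le h1.le _ _)]
    have e2 : ∀ l ∈ range (A + 2), Real.sqrt (bw r (A + 1) l) ^ 2 = bw r (A + 1) l := by
      intro l _
      rw [Real.sq_sqrt (bw_nonneg h0.le h1.le _ _)]
    have e3 : ∀ l ∈ range (A + 2), (Real.sqrt (bw r (A + 1) l) * |((A + 1 : ℕ) : ℝ) * r - l|) ^ 2 =
        bw r (A + 1) l * (((A + 1 : ℕ) : ℝ) * r - l) ^ 2 := by
      intro l _
      rw [mul_pow, Real.sq_sqrt (bw_nonneg h0.le h1.le _ _), sq_abs]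
    rw [Finset.sum_congr rfl e1, Finset.sum_congr rfl e2, Finset.sum_congr rfl e3,
      sum_bw r (A + 1), sum_bw_var r (A + 1), one_mul] at key
    refine le_trans key (le_of_eq ?_)
    rw [hv]; push_cast; ring
  have hs : 0 < Real.sqrt v := Real.sqrt_pos.mpr hvpos
  calc v⁻¹ * (∑ l ∈ range (A + 2), bw r (A + 1) l * |((A + 1 : ℕ) : ℝ) * r - l|)
      ≤ v⁻¹ * Real.sqrt v := mul_le_mul_of_nonneg_left hcs (inv_pos.mpr hvpos).le
    _ = 1 / Real.sqrt v := by
        rw [eq_div_iff hs.ne', mul_assoc, Real.mul_self_sqrt hvpos.le, inv_mul_cancel₀ hvpos.ne']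

/-- largest binomial weight -/
theorem bw_le {r : ℝ} (h0 : 0 < r) (h1 : r < 1) (A l : ℕ) :
    bw r A l ≤ 1 / Real.sqrt (((A : ℝ) + 1) * r * (1 - r)) := by
  by_cases hl : l < A + 1
  · have htel : ∀ N, ∑ k ∈ range (N + 1), ((coin r) ^ A * (1 - X)).coeff k = bw r A N := by
      intro N
      induction N with
      | zero =>
        rw [Finset.sum_range_one, mul_sub, mul_one, coeff_sub, coeff_mul_X_zero, sub_zero,
          coeff_coin_pow]
      | succ N ih =>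
        rw [Finset.sum_range_succ, ih, mul_sub, mul_one, coeff_sub, coeff_mul_X, coeff_coin_pow,
          coeff_coin_pow]
        ring
    rw [← htel l]
    refine le_trans (Finset.sum_le_sum (fun k _ => le_abs_self _)) ?_
    refine le_trans (Finset.sum_le_sum_of_subset_of_nonneg ?_ (fun _ _ _ => abs_nonneg _))
      (shift_l1 h0 h1 A)
    intro k hk
    simp only [Finset.mem_range] at hk ⊢
    omega
  · have : bw r A l = 0 := by
      unfold bw
      rw [Nat.choose_eq_zero_of_lt (by omega)]; simp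
    rw [this]; positivity

/-! ### products of two coins -/

/-- coefficients of `coin r ^ A * coin s ^ k` are nonneg and bounded by the largest weight of the
first factor -/
theorem NN_coin_pow {r : ℝ} (h0 : 0 ≤ r) (h1 : r ≤ 1) (A l : ℕ) : 0 ≤ ((coin r) ^ A).coeff l := by
  rw [coeff_coin_pow]; exact bw_nonneg h0 h1 A l

theorem coin_eval (r y : ℝ) : (coin r).eval y = (1 - r) + r * y := by
  simp [coin]

theorem natDegree_coin_pow_lt (r : ℝ) (A : ℕ) : ((coin r) ^ A).natDegree < A + 1 := by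
  have h1 : (coin r).natDegree ≤ 1 := by
    unfold coin
    refine le_trans (natDegree_add_le _ _) ?_
    rw [natDegree_C]
    exact max_le (by omega) (natDegree_C_mul_X_pow_le r 1 |>.trans_eq' (by rw [pow_one]))
  have h2 := natDegree_pow_le (p := coin r) (n := A)
  have : A * (coin r).natDegree ≤ A * 1 := Nat.mul_le_mul_left A h1
  omega

theorem NN_mul {P Q : ℝ[X]} (hP : ∀ l, 0 ≤ P.coeff l) (hQ : ∀ l, 0 ≤ Q.coeff l) (l : ℕ) :
    0 ≤ (P * Q).coeff l := by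
  rw [coeff_mul]
  exact Finset.sum_nonneg (fun x _ => mul_nonneg (hP _) (hQ _))

/-- `P * Q` has coefficients at most `sup P * Q(1)` -/
theorem coeff_mul_le {P Q : ℝ[X]} {S : ℝ} (hP : ∀ l, P.coeff l ≤ S) (hS : 0 ≤ S)
    (hQ : ∀ l, 0 ≤ Q.coeff l) (l : ℕ) : (P * Q).coeff l ≤ S * Q.eval 1 := by
  rw [coeff_mul]
  have h1 : ∑ x ∈ antidiagonal l, P.coeff x.1 * Q.coeff x.2 ≤
      ∑ x ∈ antidiagonal l, S * Q.coeff x.2 :=
    Finset.sum_le_sum (fun x _ => mul_le_mul_of_nonneg_right (hP _) (hQ _))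
  refine le_trans h1 ?_
  rw [← Finset.mul_sum]
  refine mul_le_mul_of_nonneg_left ?_ hS
  rw [Finset.Nat.sum_antidiagonal_eq_sum_range_succ_mk]
  have e : ∑ k ∈ range l.succ, Q.coeff (k, l - k).2 = ∑ k ∈ range (l + 1), Q.coeff k := by
    rw [← Finset.sum_range_reflect (fun k => Q.coeff k) (l + 1)]
    refine Finset.sum_congr rfl (fun k hk => ?_)
    simp only [Finset.mem_range] at hk
    show Q.coeff (l - k) = _
    congr 1
  rw [e, eval_eq_sum_range' (n := max (l + 1) (Q.natDegree + 1)) (by omega)]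
  simp only [one_pow, mul_one]
  refine Finset.sum_le_sum_of_subset_of_nonneg ?_ (fun k _ _ => hQ k)
  intro k hk
  simp only [Finset.mem_range] at hk ⊢
  omega

theorem exp_factor {ε θ : ℝ} (h0 : 0 ≤ ε) (_h1 : ε ≤ 1) (hθ : |θ| ≤ 1) :
    (coin (1 - ε)).eval (Real.exp θ) ≤ Real.exp (θ * (1 - ε) + ε * θ ^ 2) := by
  have e1 : (coin (1 - ε)).eval (Real.exp θ) = Real.exp θ * (1 + ε * (Real.exp (-θ) - 1)) := by
    rw [coin_eval, mul_add, mul_one]
    have : Real.exp θ * Real.exp (-θ) = 1 := by rw [← Real.exp_add]; simp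
    linear_combination (-ε) * this
  rw [e1]
  have h2 : Real.exp (-θ) - 1 + θ ≤ θ ^ 2 := by
    have := Real.abs_exp_sub_one_sub_id_le (x := -θ) (by rwa [abs_neg])
    have h3 := (abs_le.mp this).2
    nlinarith
  have h4 : 1 + ε * (Real.exp (-θ) - 1) ≤ Real.exp (ε * (Real.exp (-θ) - 1)) := by
    have := Real.add_one_le_exp (ε * (Real.exp (-θ) - 1))
    linarith
  calc Real.exp θ * (1 + ε * (Real.exp (-θ) - 1))
      ≤ Real.exp θ * Real.exp (ε * (Real.exp (-θ) - 1)) :=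
        mul_le_mul_of_nonneg_left h4 (Real.exp_pos _).le
    _ = Real.exp (θ + ε * (Real.exp (-θ) - 1)) := by rw [Real.exp_add]
    _ ≤ Real.exp (θ * (1 - ε) + ε * θ ^ 2) := by
        apply Real.exp_le_exp.mpr
        nlinarith

/-- exponential moment of a sum of coins -/
theorem exp_bound {ε₁ ε₂ θ : ℝ} (h0 : 0 ≤ ε₁) (h1 : ε₁ ≤ 1) (h0' : 0 ≤ ε₂) (h1' : ε₂ ≤ 1)
    (hθ : |θ| ≤ 1) (A k : ℕ) :
    ((coin (1 - ε₁)) ^ A * (coin (1 - ε₂)) ^ k).eval (Real.exp θ) ≤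
      Real.exp (θ * (A * (1 - ε₁) + k * (1 - ε₂)) + θ ^ 2 * (A * ε₁ + k * ε₂)) := by
  rw [eval_mul, eval_pow, eval_pow]
  have p1 : 0 ≤ (coin (1 - ε₁)).eval (Real.exp θ) := by
    rw [coin_eval]; have := Real.exp_pos θ; have : 0 ≤ 1 - ε₁ := by linarith
    nlinarith
  have p2 : 0 ≤ (coin (1 - ε₂)).eval (Real.exp θ) := by
    rw [coin_eval]; have := Real.exp_pos θ; have : 0 ≤ 1 - ε₂ := by linarith
    nlinarith
  have b1 := pow_le_pow_left₀ p1 (exp_factor h0 h1 hθ) A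
  have b2 := pow_le_pow_left₀ p2 (exp_factor h0' h1' hθ) k
  refine le_trans (mul_le_mul b1 b2 (pow_nonneg p2 k) (by positivity)) (le_of_eq ?_)
  rw [← Real.exp_nat_mul, ← Real.exp_nat_mul, ← Real.exp_add]
  congr 1; ring

theorem partial_eval_le {P : ℝ[X]} (hP : ∀ l, 0 ≤ P.coeff l) {y : ℝ} (hy : 0 ≤ y) (N : ℕ) :
    ∑ l ∈ range N, P.coeff l * y ^ l ≤ P.eval y := by
  rw [eval_eq_sum_range' (n := max N (P.natDegree + 1)) (by omega)]
  refine Finset.sum_le_sum_of_subset_of_nonneg ?_ (fun k _ _ => mul_nonneg (hP k) (pow_nonneg hy k))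
  intro k hk
  simp only [Finset.mem_range] at hk ⊢
  omega

/-- inner product of two well separated laws -/
theorem inner_le {P Q : ℝ[X]} (hP : ∀ l, 0 ≤ P.coeff l) (hQ : ∀ l, 0 ≤ Q.coeff l) {SP SQ : ℝ}
    (hSP : ∀ l, P.coeff l ≤ SP) (hSQ : ∀ l, Q.coeff l ≤ SQ) {θ μ μ' v w : ℝ}
    (h1 : P.eval (Real.exp θ) ≤ Real.exp (θ * μ + v))
    (h2 : Q.eval (Real.exp (-θ)) ≤ Real.exp (-θ * μ' + v))
    (hw : v - θ * (μ' - μ) / 2 ≤ w) (N : ℕ) :
    ∑ l ∈ range N, P.coeff l * Q.coeff l ≤ (SP + SQ) * Real.exp w := by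
  set δ := μ' - μ with hδ
  have hSP0 : 0 ≤ SP := le_trans (hP 0) (hSP 0)
  have hSQ0 : 0 ≤ SQ := le_trans (hQ 0) (hSQ 0)
  have key : ∀ l : ℕ, P.coeff l * Q.coeff l ≤
      SQ * Real.exp (-θ * μ - θ * δ / 2) * (P.coeff l * (Real.exp θ) ^ l) +
      SP * Real.exp (θ * μ' - θ * δ / 2) * (Q.coeff l * (Real.exp (-θ)) ^ l) := by
    intro l
    have e1 : Real.exp (-θ * μ - θ * δ / 2) * (Real.exp θ) ^ l = Real.exp (θ * (l - μ - δ / 2)) := by
      rw [← Real.exp_nat_mul, ← Real.exp_add]; congr 1; ring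
    have e2 : Real.exp (θ * μ' - θ * δ / 2) * (Real.exp (-θ)) ^ l = Real.exp (-(θ * (l - μ - δ / 2))) := by
      rw [← Real.exp_nat_mul, ← Real.exp_add]; congr 1; rw [hδ]; ring
    have e3 : SQ * Real.exp (-θ * μ - θ * δ / 2) * (P.coeff l * (Real.exp θ) ^ l) =
        SQ * P.coeff l * Real.exp (θ * (l - μ - δ / 2)) := by rw [← e1]; ring
    have e4 : SP * Real.exp (θ * μ' - θ * δ / 2) * (Q.coeff l * (Real.exp (-θ)) ^ l) =
        SP * Q.coeff l * Real.exp (-(θ * (l - μ - δ / 2))) := by rw [← e2]; ring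
    rw [e3, e4]
    rcases le_total 0 (θ * (l - μ - δ / 2)) with h | h
    · have a1 : 1 ≤ Real.exp (θ * (l - μ - δ / 2)) := Real.one_le_exp h
      have a2 : P.coeff l * Q.coeff l ≤ SQ * P.coeff l := by
        rw [mul_comm]; exact mul_le_mul_of_nonneg_right (hSQ l) (hP l)
      have a3 : 0 ≤ SP * Q.coeff l * Real.exp (-(θ * (l - μ - δ / 2))) :=
        mul_nonneg (mul_nonneg hSP0 (hQ l)) (Real.exp_pos _).le
      have a4 : SQ * P.coeff l * 1 ≤ SQ * P.coeff l * Real.exp (θ * (l - μ - δ / 2)) :=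
        mul_le_mul_of_nonneg_left a1 (mul_nonneg hSQ0 (hP l))
      linarith
    · have a1 : 1 ≤ Real.exp (-(θ * (l - μ - δ / 2))) := Real.one_le_exp (by linarith)
      have a2 : P.coeff l * Q.coeff l ≤ SP * Q.coeff l :=
        mul_le_mul_of_nonneg_right (hSP l) (hQ l)
      have a3 : 0 ≤ SQ * P.coeff l * Real.exp (θ * (l - μ - δ / 2)) :=
        mul_nonneg (mul_nonneg hSQ0 (hP l)) (Real.exp_pos _).le
      have a4 : SP * Q.coeff l * 1 ≤ SP * Q.coeff l * Real.exp (-(θ * (l - μ - δ / 2))) :=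
        mul_le_mul_of_nonneg_left a1 (mul_nonneg hSP0 (hQ l))
      linarith
  refine le_trans (Finset.sum_le_sum (fun l _ => key l)) ?_
  rw [Finset.sum_add_distrib, ← Finset.mul_sum, ← Finset.mul_sum]
  have b1 := le_trans (partial_eval_le hP (Real.exp_pos θ).le N) h1
  have b2 := le_trans (partial_eval_le hQ (Real.exp_pos (-θ)).le N) h2
  have c1 : SQ * Real.exp (-θ * μ - θ * δ / 2) * ∑ l ∈ range N, P.coeff l * (Real.exp θ) ^ l ≤
      SQ * Real.exp w := by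
    refine le_trans (mul_le_mul_of_nonneg_left b1 (mul_nonneg hSQ0 (Real.exp_pos _).le)) ?_
    rw [mul_assoc, ← Real.exp_add]
    refine mul_le_mul_of_nonneg_left (Real.exp_le_exp.mpr ?_) hSQ0
    linarith
  have c2 : SP * Real.exp (θ * μ' - θ * δ / 2) * ∑ l ∈ range N, Q.coeff l * (Real.exp (-θ)) ^ l ≤
      SP * Real.exp w := by
    refine le_trans (mul_le_mul_of_nonneg_left b2 (mul_nonneg hSP0 (Real.exp_pos _).le)) ?_
    rw [mul_assoc, ← Real.exp_add]
    refine mul_le_mul_of_nonneg_left (Real.exp_le_exp.mpr ?_) hSP0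
    linarith
  linarith

/-! ### the two elementary sums -/

theorem sum_inv_sqrt_le (N : ℕ) :
    ∑ j ∈ range N, 1 / Real.sqrt ((j : ℝ) + 1) ≤ 2 * Real.sqrt N := by
  induction N with
  | zero => simp
  | succ N ih =>
    rw [Finset.sum_range_succ]
    have h1 : 0 < Real.sqrt ((N : ℝ) + 1) := Real.sqrt_pos.mpr (by positivity)
    have h2 : 0 ≤ Real.sqrt (N : ℝ) := Real.sqrt_nonneg _
    have s1 : Real.sqrt ((N : ℝ) + 1) ^ 2 = N + 1 := Real.sq_sqrt (by positivity)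
    have s2 : Real.sqrt (N : ℝ) ^ 2 = N := Real.sq_sqrt (by positivity)
    have h3 : 1 / Real.sqrt ((N : ℝ) + 1) ≤ 2 * Real.sqrt ((N : ℝ) + 1) - 2 * Real.sqrt N := by
      rw [div_le_iff₀ h1]
      nlinarith [sq_nonneg (Real.sqrt ((N : ℝ) + 1) - Real.sqrt N)]
    push_cast
    linarith

theorem beta_sum (k : ℕ) :
    ∑ i ∈ range (k + 1), 1 / (Real.sqrt ((i : ℝ) + 1) * Real.sqrt (((k - i : ℕ) : ℝ) + 1)) ≤ 4 := by
  have h : ∀ i ∈ range (k + 1), 1 / (Real.sqrt ((i : ℝ) + 1) * Real.sqrt (((k - i : ℕ) : ℝ) + 1)) ≤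
      1 / Real.sqrt ((k : ℝ) + 2) * (1 / Real.sqrt ((i : ℝ) + 1) + 1 / Real.sqrt (((k - i : ℕ) : ℝ) + 1)) := by
    intro i hi
    have hik : i ≤ k := by simp only [Finset.mem_range] at hi; omega
    have hx : 0 < Real.sqrt ((i : ℝ) + 1) := Real.sqrt_pos.mpr (by positivity)
    have hy : 0 < Real.sqrt (((k - i : ℕ) : ℝ) + 1) := Real.sqrt_pos.mpr (by positivity)
    have hz : 0 < Real.sqrt ((k : ℝ) + 2) := Real.sqrt_pos.mpr (by positivity)
    have hsum : Real.sqrt ((k : ℝ) + 2) ≤ Real.sqrt ((i : ℝ) + 1) + Real.sqrt (((k - i : ℕ) : ℝ) + 1) := by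
      apply Real.sqrt_le_iff.mpr
      refine ⟨by positivity, ?_⟩
      have s1 : Real.sqrt ((i : ℝ) + 1) ^ 2 = i + 1 := Real.sq_sqrt (by positivity)
      have s2 : Real.sqrt (((k - i : ℕ) : ℝ) + 1) ^ 2 = ((k - i : ℕ) : ℝ) + 1 := Real.sq_sqrt (by positivity)
      have e : ((k - i : ℕ) : ℝ) = k - i := by push_cast [hik]; ring
      nlinarith [mul_pos hx hy]
    rw [div_mul_eq_mul_div, one_mul, le_div_iff₀ hz, div_add_div _ _ hx.ne' hy.ne',
      div_mul_eq_mul_div, div_le_div_iff_of_pos_right (mul_pos hx hy)]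
    linarith
  refine le_trans (Finset.sum_le_sum h) ?_
  rw [← Finset.mul_sum, Finset.sum_add_distrib]
  have r : ∑ i ∈ range (k + 1), 1 / Real.sqrt (((k - i : ℕ) : ℝ) + 1) =
      ∑ i ∈ range (k + 1), 1 / Real.sqrt ((i : ℝ) + 1) := by
    rw [← Finset.sum_range_reflect (fun i : ℕ => 1 / Real.sqrt ((i : ℝ) + 1)) (k + 1)]
    refine Finset.sum_congr rfl (fun i hi => ?_)
    simp only [Finset.mem_range] at hi
    have : k + 1 - 1 - i = k - i := by omega
    rw [this]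
  rw [r]
  have h2 := sum_inv_sqrt_le (k + 1)
  have hz : 0 < Real.sqrt ((k : ℝ) + 2) := Real.sqrt_pos.mpr (by positivity)
  have h3 : Real.sqrt (((k + 1 : ℕ) : ℝ)) ≤ Real.sqrt ((k : ℝ) + 2) :=
    Real.sqrt_le_sqrt (by push_cast; linarith)
  rw [one_div, inv_mul_le_iff₀ hz]
  linarith

/-- `∑_{i'} (2/3)^{|i-i'|} ≤ 6` -/
theorem geo_sum (i N : ℕ) : ∑ j ∈ range N, ((2 : ℝ) / 3) ^ ((i - j) + (j - i)) ≤ 6 := by
  have hgeo : ∀ M : ℕ, ∑ j ∈ range M, ((2 : ℝ) / 3) ^ j ≤ 3 := by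
    intro M
    have := geom_sum_eq (show ((2 : ℝ) / 3) ≠ 1 by norm_num) M
    rw [this]
    have : 0 ≤ ((2 : ℝ) / 3) ^ M := by positivity
    rw [div_le_iff_of_neg (by norm_num)]
    linarith
  have h1 : ∀ j ∈ range N, ((2 : ℝ) / 3) ^ ((i - j) + (j - i)) ≤
      (if j ≤ i then ((2 : ℝ) / 3) ^ (i - j) else 0) + (if i ≤ j then ((2 : ℝ) / 3) ^ (j - i) else 0) := by
    intro j _
    rcases le_total j i with h | h
    · rw [if_pos h, Nat.sub_eq_zero_of_le h, add_zero]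
      have : 0 ≤ (if i ≤ j then ((2 : ℝ) / 3) ^ (0 : ℕ) else 0) := by split_ifs <;> positivity
      linarith
    · rw [if_pos h, Nat.sub_eq_zero_of_le h, zero_add]
      have : 0 ≤ (if j ≤ i then ((2 : ℝ) / 3) ^ (0 : ℕ) else 0) := by split_ifs <;> positivity
      linarith
  refine le_trans (Finset.sum_le_sum h1) ?_
  rw [Finset.sum_add_distrib]
  have h2 : ∑ j ∈ range N, (if j ≤ i then ((2 : ℝ) / 3) ^ (i - j) else 0) ≤ 3 := by
    rw [← Finset.sum_filter]
    refine le_trans (Finset.sum_le_sum_of_subset_of_nonneg (t := range (i + 1)) ?_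
      (fun _ _ _ => by positivity)) ?_
    · intro j hj
      simp only [Finset.mem_filter, Finset.mem_range] at hj ⊢
      omega
    · refine le_trans (le_of_eq ?_) (hgeo (i + 1))
      rw [← Finset.sum_range_reflect (fun j : ℕ => ((2 : ℝ) / 3) ^ j) (i + 1)]
      refine Finset.sum_congr rfl (fun j _ => ?_)
      congr 1
  have h3 : ∑ j ∈ range N, (if i ≤ j then ((2 : ℝ) / 3) ^ (j - i) else 0) ≤ 3 := by
    refine le_trans ?_ (hgeo N)
    rw [← Finset.sum_filter]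
    have : ∑ j ∈ (range N).filter (fun j => i ≤ j), ((2 : ℝ) / 3) ^ (j - i) =
        ∑ j ∈ ((range N).filter (fun j => i ≤ j)).image (fun j => j - i), ((2 : ℝ) / 3) ^ j := by
      rw [Finset.sum_image]
      intro a ha b hb hab
      simp only [Finset.coe_filter, Finset.mem_range, Set.mem_ofPred_eq] at ha hb
      simp only at hab
      omega
    rw [this]
    refine Finset.sum_le_sum_of_subset_of_nonneg ?_ (fun _ _ _ => by positivity)
    intro j hj
    simp only [Finset.mem_image, Finset.mem_filter, Finset.mem_range] at hj ⊢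
    obtain ⟨a, ⟨h1, h2⟩, h3⟩ := hj
    omega
  linarith

/-- kernel comparison: `(1/√(i+1) + 1/√(j+1)) e^{-|i-j|} ≤ 2 (2/3)^{|i-j|} / √(i+1)` -/
theorem kernel_le (i j : ℕ) :
    (1 / Real.sqrt ((i : ℝ) + 1) + 1 / Real.sqrt ((j : ℝ) + 1)) *
      Real.exp (-(((i - j) + (j - i) : ℕ) : ℝ)) ≤
      2 * (1 / Real.sqrt ((i : ℝ) + 1)) * ((2 : ℝ) / 3) ^ ((i - j) + (j - i)) := by
  set δ : ℕ := (i - j) + (j - i) with hδ
  have hi : 0 < Real.sqrt ((i : ℝ) + 1) := Real.sqrt_pos.mpr (by positivity)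
  have hj : 0 < Real.sqrt ((j : ℝ) + 1) := Real.sqrt_pos.mpr (by positivity)
  have hd : 0 ≤ (δ : ℝ) := Nat.cast_nonneg _
  -- i + 1 ≤ (j+1)(1+δ)
  have h1 : (i : ℝ) + 1 ≤ ((j : ℝ) + 1) * (1 + δ) := by
    have : i ≤ j + δ := by omega
    have h' : (i : ℝ) ≤ j + δ := by exact_mod_cast this
    nlinarith [Nat.cast_nonneg (α := ℝ) j]
  have h2 : Real.sqrt ((i : ℝ) + 1) ≤ Real.sqrt ((j : ℝ) + 1) * (1 + δ / 2) := by
    apply Real.sqrt_le_iff.mpr
    refine ⟨by positivity, ?_⟩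
    rw [mul_pow, Real.sq_sqrt (by positivity)]
    refine le_trans h1 (mul_le_mul_of_nonneg_left ?_ (by positivity))
    nlinarith
  have h3 : 1 / Real.sqrt ((j : ℝ) + 1) ≤ (1 + δ / 2) * (1 / Real.sqrt ((i : ℝ) + 1)) := by
    rw [mul_one_div, div_le_div_iff₀ hj hi]
    linarith
  have h4 : (2 + (δ : ℝ) / 2) * Real.exp (-(δ : ℝ)) ≤ 2 * ((2 : ℝ) / 3) ^ δ := by
    have e1 : (2 + (δ : ℝ) / 2) ≤ 2 * Real.exp ((δ : ℝ) / 2) := by
      have := Real.add_one_le_exp ((δ : ℝ) / 2)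
      nlinarith
    have e2 : Real.exp ((δ : ℝ) / 2) * Real.exp (-(δ : ℝ)) = Real.exp (-(1 / 2 : ℝ)) ^ δ := by
      rw [← Real.exp_add, ← Real.exp_nat_mul]; congr 1; ring
    have e3 : Real.exp (-(1 / 2 : ℝ)) ≤ 2 / 3 := by
      have h := Real.add_one_le_exp (1 / 2 : ℝ)
      rw [Real.exp_neg]
      rw [inv_le_comm₀ (Real.exp_pos _) (by norm_num)]
      linarith
    calc (2 + (δ : ℝ) / 2) * Real.exp (-(δ : ℝ))
        ≤ 2 * Real.exp ((δ : ℝ) / 2) * Real.exp (-(δ : ℝ)) :=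
          mul_le_mul_of_nonneg_right e1 (Real.exp_pos _).le
      _ = 2 * Real.exp (-(1 / 2 : ℝ)) ^ δ := by rw [mul_assoc, e2]
      _ ≤ 2 * ((2 : ℝ) / 3) ^ δ :=
          mul_le_mul_of_nonneg_left (pow_le_pow_left₀ (Real.exp_pos _).le e3 δ) (by norm_num)
  calc (1 / Real.sqrt ((i : ℝ) + 1) + 1 / Real.sqrt ((j : ℝ) + 1)) * Real.exp (-(δ : ℝ))
      ≤ (1 / Real.sqrt ((i : ℝ) + 1) + (1 + δ / 2) * (1 / Real.sqrt ((i : ℝ) + 1))) *
          Real.exp (-(δ : ℝ)) :=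
        mul_le_mul_of_nonneg_right (by linarith) (Real.exp_pos _).le
    _ = (1 / Real.sqrt ((i : ℝ) + 1)) * ((2 + (δ : ℝ) / 2) * Real.exp (-(δ : ℝ))) := by ring
    _ ≤ (1 / Real.sqrt ((i : ℝ) + 1)) * (2 * ((2 : ℝ) / 3) ^ δ) :=
        mul_le_mul_of_nonneg_left h4 (by positivity)
    _ = 2 * (1 / Real.sqrt ((i : ℝ) + 1)) * ((2 : ℝ) / 3) ^ δ := by ring

theorem conv_bound {B E₀ : ℝ} (hB : 0 ≤ B) (hE : 0 ≤ E₀) (k : ℕ) (I : ℕ → ℕ → ℝ) (φ : ℕ → ℝ)
    (hφ0 : ∀ j, 0 ≤ φ j) (hφ : ∀ j, φ j ^ 2 = 4 * B / Real.sqrt ((j : ℝ) + 1))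
    (hI : ∀ i ≤ k, ∀ j ≤ k, I i j ≤ E₀ * (B / Real.sqrt ((i : ℝ) + 1) + B / Real.sqrt ((j : ℝ) + 1)) *
      Real.exp (-(((i - j) + (j - i) : ℕ) : ℝ))) :
    ∑ i ∈ range (k + 1), ∑ j ∈ range (k + 1), I i j * (φ (k - i) * φ (k - j)) ≤ 192 * E₀ * B ^ 2 := by
  set w : ℕ → ℕ → ℝ := fun i j => E₀ * (B / Real.sqrt ((i : ℝ) + 1) + B / Real.sqrt ((j : ℝ) + 1)) *
      Real.exp (-(((i - j) + (j - i) : ℕ) : ℝ)) with hw
  have hw0 : ∀ i j, 0 ≤ w i j := by
    intro i j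
    simp only [hw]
    positivity
  have hsym : ∀ i j, w i j = w j i := by
    intro i j
    simp only [hw]
    rw [add_comm (B / Real.sqrt ((i : ℝ) + 1)), Nat.add_comm (i - j)]
  have s1 : ∀ i ∈ range (k + 1), ∀ j ∈ range (k + 1), I i j * (φ (k - i) * φ (k - j)) ≤
      w i j * (φ (k - i) ^ 2) / 2 + w i j * (φ (k - j) ^ 2) / 2 := by
    intro i hi j hj
    simp only [Finset.mem_range] at hi hj
    have a1 : I i j ≤ w i j := hI i (by omega) j (by omega)
    have a2 : 0 ≤ φ (k - i) * φ (k - j) := mul_nonneg (hφ0 _) (hφ0 _)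
    have a3 : φ (k - i) * φ (k - j) ≤ φ (k - i) ^ 2 / 2 + φ (k - j) ^ 2 / 2 := by
      nlinarith [sq_nonneg (φ (k - i) - φ (k - j))]
    calc I i j * (φ (k - i) * φ (k - j)) ≤ w i j * (φ (k - i) * φ (k - j)) :=
          mul_le_mul_of_nonneg_right a1 a2
      _ ≤ w i j * (φ (k - i) ^ 2 / 2 + φ (k - j) ^ 2 / 2) := mul_le_mul_of_nonneg_left a3 (hw0 _ _)
      _ = _ := by ring
  refine le_trans (Finset.sum_le_sum (fun i hi => Finset.sum_le_sum (fun j hj => s1 i hi j hj))) ?_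
  have s2 : ∑ i ∈ range (k + 1), ∑ j ∈ range (k + 1),
      (w i j * (φ (k - i) ^ 2) / 2 + w i j * (φ (k - j) ^ 2) / 2) =
      ∑ i ∈ range (k + 1), ∑ j ∈ range (k + 1), w i j * (φ (k - i) ^ 2) := by
    simp_rw [Finset.sum_add_distrib]
    have : ∑ i ∈ range (k + 1), ∑ j ∈ range (k + 1), w i j * (φ (k - j) ^ 2) / 2 =
        ∑ i ∈ range (k + 1), ∑ j ∈ range (k + 1), w i j * (φ (k - i) ^ 2) / 2 := by
      rw [Finset.sum_comm]
      refine Finset.sum_congr rfl (fun i _ => Finset.sum_congr rfl (fun j _ => ?_))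
      rw [hsym]
    rw [this, ← Finset.sum_add_distrib]
    refine Finset.sum_congr rfl (fun i _ => ?_)
    rw [← Finset.sum_add_distrib]
    exact Finset.sum_congr rfl (fun j _ => by ring)
  rw [s2]
  have s3 : ∀ i ∈ range (k + 1), ∑ j ∈ range (k + 1), w i j * (φ (k - i) ^ 2) ≤
      48 * E₀ * B ^ 2 * (1 / (Real.sqrt ((i : ℝ) + 1) * Real.sqrt (((k - i : ℕ) : ℝ) + 1))) := by
    intro i hi
    have b1 : ∀ j ∈ range (k + 1), w i j * (φ (k - i) ^ 2) ≤
        (E₀ * B * (2 * (1 / Real.sqrt ((i : ℝ) + 1))) * (φ (k - i) ^ 2)) *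
          ((2 : ℝ) / 3) ^ ((i - j) + (j - i)) := by
      intro j _
      have := kernel_le i j
      have e : w i j = E₀ * B * ((1 / Real.sqrt ((i : ℝ) + 1) + 1 / Real.sqrt ((j : ℝ) + 1)) *
          Real.exp (-(((i - j) + (j - i) : ℕ) : ℝ))) := by
        simp only [hw]; ring
      rw [e]
      have := mul_le_mul_of_nonneg_left this (mul_nonneg hE hB)
      have := mul_le_mul_of_nonneg_right this (sq_nonneg (φ (k - i)))
      refine le_trans this (le_of_eq (by ring))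
    refine le_trans (Finset.sum_le_sum b1) ?_
    rw [← Finset.mul_sum]
    have hs := geo_sum i (k + 1)
    refine le_trans (mul_le_mul_of_nonneg_left hs (by positivity)) (le_of_eq ?_)
    rw [hφ]
    have hi' : Real.sqrt ((i : ℝ) + 1) ≠ 0 := (Real.sqrt_pos.mpr (by positivity)).ne'
    have hj' : Real.sqrt (((k - i : ℕ) : ℝ) + 1) ≠ 0 := (Real.sqrt_pos.mpr (by positivity)).ne'
    field_simp
    ring
  refine le_trans (Finset.sum_le_sum s3) ?_
  rw [← Finset.mul_sum]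
  have := beta_sum k
  have h0 : 0 ≤ 48 * E₀ * B ^ 2 := by positivity
  nlinarith

end

end Crest.Agent.R300LB.Sl
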