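import Crest.Agent.R300.LBSlipRec

/-!
# Row 300, lower bounds, piece L10 (base slip): the `L²` estimate for arrays of marks
-/

set_option autoImplicit false

namespace Crest.Agent.R300LB.Sl

open Polynomial Finset

noncomputable section

variable {G : Type*} [Monoid G]

theorem bgP_natDegree (q : ℝ) (A k : ℕ) : (bgP q A k).natDegree ≤ A + k := by
  unfold bgP
  have h1 := natDegree_coin_pow_lt (1 - q ^ 2) A
  have h2 := natDegree_coin_pow_lt (1 - q) k
  have h3 := natDegree_mul_le (p := (coin (1 - q ^ 2)) ^ A) (q := (coin (1 - q)) ^ k)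
  omega

theorem bgP_eval_one (q : ℝ) (A k : ℕ) : (bgP q A k).eval 1 = 1 := by
  unfold bgP
  rw [eval_mul, eval_pow, eval_pow, coin_eval, coin_eval]
  simp

/-- size of the coefficients of the background law -/
theorem bgP_coeff_le {q : ℝ} (h0 : 0 < q) (h1 : q ≤ 1 / 16) (A k l : ℕ) :
    (bgP q A k).coeff l ≤ 1 / Real.sqrt (((A : ℝ) + 1) * (1 - q ^ 2) * (1 - (1 - q ^ 2))) := by
  have hr0 : 0 < 1 - q ^ 2 := by nlinarith
  have hr1 : 1 - q ^ 2 < 1 := by nlinarith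
  have := coeff_mul_le (P := (coin (1 - q ^ 2)) ^ A) (Q := (coin (1 - q)) ^ k)
    (S := 1 / Real.sqrt (((A : ℝ) + 1) * (1 - q ^ 2) * (1 - (1 - q ^ 2))))
    (fun l => by rw [coeff_coin_pow]; exact bw_le hr0 hr1 A l) (by positivity)
    (fun l => NN_coin_pow (by linarith) (by linarith) k l) l
  have e : ((coin (1 - q)) ^ k).eval 1 = 1 := by
    rw [eval_pow, coin_eval]; simp
  rw [e, mul_one] at this
  exact this

/-- uniform version -/
theorem bgP_coeff_le' {q : ℝ} (h0 : 0 < q) (h1 : q ≤ 1 / 16) {n : ℕ} (hn : 1 ≤ n) {A i : ℕ}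
    (hA : ((i : ℝ) + 1) * n ≤ 16 * A) (k l : ℕ) :
    (bgP q A k).coeff l ≤ (5 / (q * Real.sqrt n)) / Real.sqrt ((i : ℝ) + 1) := by
  refine le_trans (bgP_coeff_le h0 h1 A k l) ?_
  have hn' : (0 : ℝ) < n := by exact_mod_cast hn
  have hx : 0 < Real.sqrt ((i : ℝ) + 1) := Real.sqrt_pos.mpr (by positivity)
  have hy : 0 < Real.sqrt (n : ℝ) := Real.sqrt_pos.mpr hn'
  have hq2 : q ^ 2 ≤ 1 / 256 := by nlinarith
  have key : q * Real.sqrt n * Real.sqrt ((i : ℝ) + 1) ≤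
      5 * Real.sqrt (((A : ℝ) + 1) * (1 - q ^ 2) * (1 - (1 - q ^ 2))) := by
    have h5 : (5 : ℝ) * Real.sqrt (((A : ℝ) + 1) * (1 - q ^ 2) * (1 - (1 - q ^ 2))) =
        Real.sqrt (25 * (((A : ℝ) + 1) * (1 - q ^ 2) * (1 - (1 - q ^ 2)))) := by
      have e25 : Real.sqrt 25 = 5 := by
        rw [show (25 : ℝ) = 5 ^ 2 by norm_num, Real.sqrt_sq (by norm_num)]
      rw [Real.sqrt_mul (show (0 : ℝ) ≤ 25 by norm_num)
        (((A : ℝ) + 1) * (1 - q ^ 2) * (1 - (1 - q ^ 2))), e25]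
    rw [h5]
    apply Real.le_sqrt_of_sq_le
    rw [mul_pow, mul_pow, Real.sq_sqrt hn'.le, Real.sq_sqrt (by positivity)]
    have hA' : ((i : ℝ) + 1) * n ≤ 16 * ((A : ℝ) + 1) := by linarith
    have : q ^ 2 * (((i : ℝ) + 1) * n) ≤ q ^ 2 * (16 * ((A : ℝ) + 1)) :=
      mul_le_mul_of_nonneg_left hA' (sq_nonneg q)
    have h6 : 0 ≤ q ^ 2 * ((A : ℝ) + 1) := by positivity
    nlinarith
  have hs : 0 < Real.sqrt (((A : ℝ) + 1) * (1 - q ^ 2) * (1 - (1 - q ^ 2))) := by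
    have : 0 < q * Real.sqrt n * Real.sqrt ((i : ℝ) + 1) := by positivity
    nlinarith
  rw [div_div, div_le_div_iff₀ hs (by positivity)]
  linarith

theorem bgP_sum_sq_le {q : ℝ} (h0 : 0 < q) (h1 : q ≤ 1 / 16) {A k : ℕ} {S : ℝ}
    (hS : ∀ l, (bgP q A k).coeff l ≤ S) (N : ℕ) :
    ∑ l ∈ range N, (bgP q A k).coeff l ^ 2 ≤ S := by
  have hnn := bgP_nn h0.le (show q ≤ 1 by linarith) A k
  have hS0 : 0 ≤ S := le_trans (hnn 0) (hS 0)
  calc ∑ l ∈ range N, (bgP q A k).coeff l ^ 2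
      ≤ ∑ l ∈ range N, S * ((bgP q A k).coeff l * 1 ^ l) := by
        refine Finset.sum_le_sum (fun l _ => ?_)
        rw [one_pow, mul_one, sq]
        exact mul_le_mul_of_nonneg_right (hS l) (hnn l)
    _ = S * ∑ l ∈ range N, (bgP q A k).coeff l * 1 ^ l := by rw [Finset.mul_sum]
    _ ≤ S * (bgP q A k).eval 1 := mul_le_mul_of_nonneg_left (partial_eval_le hnn zero_le_one N) hS0
    _ = S := by rw [bgP_eval_one, mul_one]

/-- exponential moments of the background law -/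
theorem bgP_exp {q : ℝ} (h0 : 0 < q) (h1 : q ≤ 1 / 16) {θ : ℝ} (hθ : |θ| ≤ 1) (A k : ℕ) {v : ℝ}
    (hv : θ ^ 2 * (A * q ^ 2 + k * q) ≤ v) :
    (bgP q A k).eval (Real.exp θ) ≤
      Real.exp (θ * (A * (1 - q ^ 2) + k * (1 - q)) + v) := by
  refine le_trans (exp_bound (ε₁ := q ^ 2) (ε₂ := q) (sq_nonneg q) (by nlinarith) h0.le (by linarith)
    hθ A k) (Real.exp_le_exp.mpr ?_)
  linarith

/-- inner products of the laws of the locations of two marks -/
theorem bgP_inner {q : ℝ} (h0 : 0 < q) (h1 : q ≤ 1 / 16) {n k : ℕ} (hn : 1 ≤ n)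
    (hk : ((k : ℝ) + 2) * 10 ^ 7 ≤ q ^ 4 * n) {α : ℕ} (hα : n ≤ 16 * α) (hα' : α ≤ n) (L : ℕ) :
    ∀ i ≤ k, ∀ j ≤ k, ∑ l ∈ range L, (bgP q (α + i * n) i).coeff l * (bgP q (α + j * n) j).coeff l ≤
      Real.exp 1 * ((5 / (q * Real.sqrt n)) / Real.sqrt ((i : ℝ) + 1) +
        (5 / (q * Real.sqrt n)) / Real.sqrt ((j : ℝ) + 1)) *
      Real.exp (-(((i - j) + (j - i) : ℕ) : ℝ)) := by
  have hn' : (0 : ℝ) < n := by exact_mod_cast hn
  have hαr : (n : ℝ) ≤ 16 * α := by exact_mod_cast hα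
  have hαr' : (α : ℝ) ≤ n := by exact_mod_cast hα'
  have hS : ∀ i : ℕ, ∀ l, (bgP q (α + i * n) i).coeff l ≤
      (5 / (q * Real.sqrt n)) / Real.sqrt ((i : ℝ) + 1) := by
    intro i l
    refine bgP_coeff_le' h0 h1 hn ?_ i l
    push_cast
    nlinarith [Nat.cast_nonneg (α := ℝ) i]
  have hnn : ∀ i : ℕ, ∀ l, 0 ≤ (bgP q (α + i * n) i).coeff l :=
    fun i l => bgP_nn h0.le (by linarith) _ _ _
  have hkn : 10 ^ 7 * ((k : ℝ) + 2) ≤ n := by
    have : q ^ 4 ≤ 1 := by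
      have : q ^ 4 ≤ 1 ^ 4 := pow_le_pow_left₀ h0.le (by linarith) 4
      simpa using this
    nlinarith
  -- variance bound
  have hvar : ∀ i ≤ k, ∀ θ : ℝ, θ ^ 2 = 9 / (n : ℝ) ^ 2 →
      θ ^ 2 * (((α + i * n : ℕ) : ℝ) * q ^ 2 + (i : ℝ) * q) ≤ 1 := by
    intro i hi θ hθ
    have hik : (i : ℝ) ≤ k := by exact_mod_cast hi
    rw [hθ, div_mul_eq_mul_div, div_le_one (by positivity)]
    push_cast
    have e1 : ((α : ℝ) + i * n) * q ^ 2 ≤ ((k : ℝ) + 1) * n := by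
      have : (α : ℝ) + i * n ≤ ((k : ℝ) + 1) * n := by nlinarith
      have hq : q ^ 2 ≤ 1 := by nlinarith
      have h' : 0 ≤ (α : ℝ) + i * n := by positivity
      nlinarith
    have e2 : (i : ℝ) * q ≤ ((k : ℝ) + 1) * n := by
      have : (1 : ℝ) ≤ n := by exact_mod_cast hn
      have : (i : ℝ) * q ≤ i := by nlinarith [Nat.cast_nonneg (α := ℝ) i]
      nlinarith [Nat.cast_nonneg (α := ℝ) k]
    nlinarith [Nat.cast_nonneg (α := ℝ) k]
  -- ordered case
  have hlt : ∀ i ≤ k, ∀ j ≤ k, i < j →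
      ∑ l ∈ range L, (bgP q (α + i * n) i).coeff l * (bgP q (α + j * n) j).coeff l ≤
      ((5 / (q * Real.sqrt n)) / Real.sqrt ((i : ℝ) + 1) +
        (5 / (q * Real.sqrt n)) / Real.sqrt ((j : ℝ) + 1)) * Real.exp (1 - ((j : ℝ) - i)) := by
    intro i hi j hj hij
    have hθ1 : |(3 / (n : ℝ))| ≤ 1 := by
      rw [abs_of_pos (by positivity), div_le_one hn']
      nlinarith [Nat.cast_nonneg (α := ℝ) k]
    refine inner_le (hnn i) (hnn j) (hS i) (hS j) (θ := 3 / n)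
      (μ := ((α + i * n : ℕ) : ℝ) * (1 - q ^ 2) + (i : ℝ) * (1 - q))
      (μ' := ((α + j * n : ℕ) : ℝ) * (1 - q ^ 2) + (j : ℝ) * (1 - q)) (v := 1) ?_ ?_ ?_ L
    · exact bgP_exp h0 h1 hθ1 _ _ (hvar i hi _ (by ring))
    · refine le_trans (bgP_exp (v := 1) h0 h1 (by rwa [abs_neg]) _ _ (hvar j hj _ (by ring))) ?_
      exact le_of_eq (by ring_nf)
    · have hji : (1 : ℝ) ≤ (j : ℝ) - i := by
        have : (i : ℝ) + 1 ≤ j := by exact_mod_cast hij
        linarith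
      push_cast
      have e : ((α : ℝ) + j * n) * (1 - q ^ 2) + j * (1 - q) -
          (((α : ℝ) + i * n) * (1 - q ^ 2) + i * (1 - q)) =
          ((j : ℝ) - i) * (n * (1 - q ^ 2) + (1 - q)) := by ring
      rw [e]
      have e2 : (3 : ℝ) / n * (((j : ℝ) - i) * (n * (1 - q ^ 2) + (1 - q))) / 2 =
          ((j : ℝ) - i) * (3 / 2 * (1 - q ^ 2) + 3 / 2 * ((1 - q) / n)) := by
        field_simp
      rw [e2]
      have hq2 : q ^ 2 ≤ 1 / 256 := by nlinarith
      have h3 : 0 ≤ (1 - q) / (n : ℝ) := div_nonneg (by linarith) hn'.le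
      nlinarith
  intro i hi j hj
  have hpos : ∀ i : ℕ, 0 ≤ (5 / (q * Real.sqrt n)) / Real.sqrt ((i : ℝ) + 1) := by
    intro i; positivity
  rcases lt_trichotomy i j with h | h | h
  · have := hlt i hi j hj h
    refine le_trans this (le_of_eq ?_)
    rw [Nat.sub_eq_zero_of_le h.le, zero_add, Nat.cast_sub h.le, sub_eq_add_neg, Real.exp_add]
    ring
  · subst h
    have h2 := bgP_sum_sq_le h0 h1 (hS i) L
    have e : ∑ l ∈ range L, (bgP q (α + i * n) i).coeff l * (bgP q (α + i * n) i).coeff l =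
        ∑ l ∈ range L, (bgP q (α + i * n) i).coeff l ^ 2 :=
      Finset.sum_congr rfl (fun l _ => by ring)
    rw [e, Nat.sub_self]
    simp only [add_zero, Nat.cast_zero, neg_zero, Real.exp_zero, mul_one]
    have he : 1 ≤ Real.exp 1 := Real.one_le_exp (by norm_num)
    have := hpos i
    nlinarith
  · have := hlt j hj i hi h
    refine le_trans (le_of_eq ?_) (le_trans this (le_of_eq ?_))
    · exact Finset.sum_congr rfl (fun l _ => by ring)
    · rw [Nat.sub_eq_zero_of_le h.le, add_zero, Nat.cast_sub h.le, sub_eq_add_neg, Real.exp_add]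
      ring

/-- `φ_j = 2 √B / (j+1)^{1/4}` -/
def phi (B : ℝ) (j : ℕ) : ℝ := 2 * Real.sqrt (B / Real.sqrt ((j : ℝ) + 1))

theorem phi_nonneg (B : ℝ) (j : ℕ) : 0 ≤ phi B j := by unfold phi; positivity

theorem phi_sq {B : ℝ} (hB : 0 ≤ B) (j : ℕ) : phi B j ^ 2 = 4 * B / Real.sqrt ((j : ℝ) + 1) := by
  unfold phi
  rw [mul_pow, Real.sq_sqrt (by positivity)]
  ring

/-- one step: array of `k+1` marks against the background -/
theorem array_dom {ν z : MA G} (hν : Prob ν) {q : ℝ} (h0 : 0 < q) (h1 : q ≤ 1 / 16)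
    (hz : Dom (1 / q) ν (z - ν)) (hz1 : mass (z - ν) = 0) {n k : ℕ} (hn : 1 ≤ n)
    (hk : ((k : ℝ) + 2) * 10 ^ 7 ≤ q ^ 4 * n) {α β : ℕ} (hα : n ≤ 16 * α) (hα' : α ≤ n)
    {T : ℕ} (hU : ∀ j ≤ k, Dom (phi (5 / (q * Real.sqrt n)) j ^ 2) (Ref ν T) (U ν z q n β j))
    {L : ℕ} (hL : (k + 1) * (n + 1) ≤ L) :
    Dom (1 / q * (192 * Real.exp 1 * (5 / (q * Real.sqrt n)) ^ 2)) (Ref ν (T + L))
      (gg ν q ^ α * dd z q * U ν z q n β k - bg ν q (α + k * n + β) (k + 1)) := by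
  have hB : 0 ≤ 5 / (q * Real.sqrt n) := by positivity
  refine F_dom hν (by positivity) hz hz1 h0.le (by linarith) hB (Real.exp_pos _).le _
    (phi_nonneg _) (phi_sq hB) ?_ (bgP_inner h0 h1 hn hk hα hα' L) hU
  intro i hi
  refine lt_of_le_of_lt (bgP_natDegree q _ _) ?_
  have : i * n ≤ k * n := Nat.mul_le_mul_right n hi
  nlinarith

theorem half_bound {q : ℝ} (h0 : 0 < q) {n k : ℕ} (hn : 1 ≤ n)
    (hk : ((k : ℝ) + 2) * 10 ^ 7 ≤ q ^ 4 * n) :
    1 / q * (192 * Real.exp 1 * (5 / (q * Real.sqrt n)) ^ 2) ≤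
      (5 / (q * Real.sqrt n)) / Real.sqrt ((k : ℝ) + 2) := by
  have hn' : (0 : ℝ) < n := by exact_mod_cast hn
  have hy : 0 < Real.sqrt (n : ℝ) := Real.sqrt_pos.mpr hn'
  have hk2 : 0 < Real.sqrt ((k : ℝ) + 2) := Real.sqrt_pos.mpr (by positivity)
  have he : Real.exp 1 ≤ 2.7182818286 := Real.exp_one_lt_d9.le
  have e1 : 1 / q * (192 * Real.exp 1 * (5 / (q * Real.sqrt n)) ^ 2) =
      (5 / (q * Real.sqrt n)) * (960 * Real.exp 1 / (q ^ 2 * Real.sqrt n)) := by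
    field_simp
    ring
  rw [e1, div_eq_mul_inv (5 / (q * Real.sqrt n)) (Real.sqrt ((k : ℝ) + 2))]
  refine mul_le_mul_of_nonneg_left ?_ (by positivity)
  rw [← one_div, div_le_div_iff₀ (by positivity) hk2, one_mul]
  have h3 : 2700 * Real.sqrt ((k : ℝ) + 2) ≤ q ^ 2 * Real.sqrt n := by
    have e2 : q ^ 2 * Real.sqrt n = Real.sqrt (q ^ 4 * n) := by
      rw [Real.sqrt_mul (by positivity), show q ^ 4 = (q ^ 2) ^ 2 by ring,
        Real.sqrt_sq (by positivity)]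
    rw [e2]
    apply Real.le_sqrt_of_sq_le
    rw [mul_pow, Real.sq_sqrt (by positivity)]
    have : (0 : ℝ) ≤ (k : ℝ) + 2 := by positivity
    nlinarith
  nlinarith

/-- squared norm of the tail with `j` marks -/
theorem U_dom {ν z : MA G} (hν : Prob ν) {q : ℝ} (h0 : 0 < q) (h1 : q ≤ 1 / 16)
    (hz : Dom (1 / q) ν (z - ν)) (hz1 : mass (z - ν) = 0) {n K : ℕ} (hn : 1 ≤ n)
    (hK : ((K : ℝ) + 2) * 10 ^ 7 ≤ q ^ 4 * n) {β : ℕ} (hβ : n ≤ 16 * β) (hβ' : β ≤ n) :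
    ∀ j ≤ K + 1, Dom (phi (5 / (q * Real.sqrt n)) j ^ 2) (Ref ν ((j + 1) * ((K + 3) * (n + 1))))
      (U ν z q n β j) := by
  set B : ℝ := 5 / (q * Real.sqrt n) with hBdef
  have hB : 0 ≤ B := by positivity
  set L : ℕ := (K + 3) * (n + 1) with hL
  have hβr : (n : ℝ) ≤ 16 * β := by exact_mod_cast hβ
  -- pure part
  have hpure : ∀ j ≤ K + 1, ∀ T, L ≤ T →
      Dom ((Real.sqrt (B / Real.sqrt ((j : ℝ) + 1))) ^ 2) (Ref ν T) (bg ν q (j * n + β) j) := by
    intro j hj T hT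
    rw [bg_eq, Real.sq_sqrt (by positivity)]
    have hdeg : (bgP q (j * n + β) j).natDegree < T := by
      refine lt_of_le_of_lt (bgP_natDegree q _ _) (lt_of_lt_of_le ?_ hT)
      have : j * n ≤ (K + 1) * n := Nat.mul_le_mul_right n hj
      rw [hL]; nlinarith
    refine Dom.mono (pureDom_aeval hν _ hdeg) ?_ (Ref_pos hν T)
    refine bgP_sum_sq_le h0 h1 (fun l => bgP_coeff_le' h0 h1 hn ?_ j l) T
    push_cast
    nlinarith [Nat.cast_nonneg (α := ℝ) j]
  intro j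
  induction j using Nat.strong_induction_on with
  | _ j ih =>
    intro hj
    cases j with
    | zero =>
      have h := hpure 0 (by omega) ((0 + 1) * L) (by omega)
      have e : bg ν q (0 * n + β) 0 = U ν z q n β 0 := by
        unfold bg U; rw [pow_zero, mul_one, zero_mul, zero_add]
      rw [e] at h
      refine Dom.mono h ?_ (Ref_pos hν _)
      rw [phi_sq hB, Real.sq_sqrt (by positivity)]
      have : 0 ≤ B / Real.sqrt (((0 : ℕ) : ℝ) + 1) := by positivity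
      rw [mul_div_assoc]
      linarith
    | succ k =>
      have hkK : k ≤ K := by omega
      have hkr : (k : ℝ) ≤ K := by exact_mod_cast hkK
      have hk : ((k : ℝ) + 2) * 10 ^ 7 ≤ q ^ 4 * n := by
        refine le_trans ?_ hK
        linarith
      have hU : ∀ i ≤ k, Dom (phi B i ^ 2) (Ref ν ((k + 1) * L)) (U ν z q n β i) := by
        intro i hi
        refine Dom.refMono hν (sq_nonneg _) ?_ (ih i (by omega) (by omega))
        exact Nat.mul_le_mul_right L (by omega)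
      have hA := array_dom hν h0 h1 hz hz1 hn hk (α := n) (β := β) (by omega) le_rfl hU
        (L := L) (by rw [hL]; exact Nat.mul_le_mul_right _ (by omega))
      have hA2 : Dom ((Real.sqrt (B / Real.sqrt (((k + 1 : ℕ) : ℝ) + 1))) ^ 2)
          (Ref ν ((k + 1 + 1) * L))
          (gg ν q ^ n * dd z q * U ν z q n β k - bg ν q (n + k * n + β) (k + 1)) := by
        have e : (k + 1) * L + L = (k + 1 + 1) * L := by ring
        rw [← e]
        refine Dom.mono hA ?_ (Ref_pos hν _)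
        rw [Real.sq_sqrt (by positivity)]
        refine le_trans (half_bound h0 hn hk) (le_of_eq ?_)
        push_cast
        congr 2
        ring
      have hp := hpure (k + 1) hj ((k + 1 + 1) * L) (by nlinarith)
      have hsum := Dom.add hp hA2 (Real.sqrt_nonneg _) (Real.sqrt_nonneg _) (Ref_pos hν _)
      have e2 : bg ν q ((k + 1) * n + β) (k + 1) +
          (gg ν q ^ n * dd z q * U ν z q n β k - bg ν q (n + k * n + β) (k + 1)) =
          U ν z q n β (k + 1) := by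
        rw [show (k + 1) * n + β = n + k * n + β by ring, U]
        abel
      rw [e2] at hsum
      refine Dom.mono hsum (le_of_eq ?_) (Ref_pos hν _)
      unfold phi
      ring

/-- the `L²` estimate for an array of `k+1` marks -/
theorem array_final {ν z : MA G} (hν : Prob ν) {q : ℝ} (h0 : 0 < q) (h1 : q ≤ 1 / 16)
    (hz : Dom (1 / q) ν (z - ν)) (hz1 : mass (z - ν) = 0) {n k : ℕ} (hn : 1 ≤ n)
    (hk : ((k : ℝ) + 2) * 10 ^ 7 ≤ q ^ 4 * n) {α β : ℕ} (hα : n ≤ 16 * α) (hα' : α ≤ n)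
    (hβ : n ≤ 16 * β) (hβ' : β ≤ n) :
    ∃ T : ℕ, Dom (13100 / (q ^ 3 * n)) (Ref ν T)
      (gg ν q ^ α * dd z q * U ν z q n β k - bg ν q (α + k * n + β) (k + 1)) := by
  have hn' : (0 : ℝ) < n := by exact_mod_cast hn
  refine ⟨(k + 2) * ((k + 3) * (n + 1)) + (k + 1) * (n + 1), ?_⟩
  have hU := U_dom hν h0 h1 hz hz1 hn hk hβ hβ'
  have := array_dom hν h0 h1 hz hz1 hn hk hα hα' (β := β) (T := (k + 2) * ((k + 3) * (n + 1)))
    (fun j hj => Dom.refMono hν (sq_nonneg _) (Nat.mul_le_mul_right _ (by omega)) (hU j (by omega)))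
    (L := (k + 1) * (n + 1)) le_rfl
  refine Dom.mono this ?_ (Ref_pos hν _)
  have he : Real.exp 1 ≤ 2.7182818286 := Real.exp_one_lt_d9.le
  have e1 : 1 / q * (192 * Real.exp 1 * (5 / (q * Real.sqrt n)) ^ 2) = 4800 * Real.exp 1 / (q ^ 3 * n) := by
    rw [div_pow, mul_pow, Real.sq_sqrt hn'.le]
    field_simp
    ring
  rw [e1, div_le_div_iff_of_pos_right (by positivity)]
  nlinarith

end

end Crest.Agent.R300LB.Sl
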