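import Crest.Agent.R300.LBInterface
import Crest.Agent.R300.LBSlipU

/-!
# Row 300, lower bounds, piece L10 (base slip): concrete model and the local `ℓ¹` estimates
-/

set_option autoImplicit false

namespace Crest.Agent.R300LB.Sl

open Polynomial Finset

noncomputable section

/-! ### `TVle` calculus -/

section TV
variable {G : Type*} [Monoid G]

theorem tv_mono {τ τ' : ℝ} {X : MA G} (h : TVle τ X) (hτ : τ ≤ τ') : TVle τ' X :=
  fun f hf => le_trans (h f hf) hτ

theorem tv_zero : TVle (0 : ℝ) (0 : MA G) := fun f _ => by rw [ev_zero]; simp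

theorem tv_add {s t : ℝ} {X Y : MA G} (hX : TVle s X) (hY : TVle t Y) : TVle (s + t) (X + Y) :=
  fun f hf => by
    rw [ev_add]
    exact le_trans (abs_add_le _ _) (add_le_add (hX f hf) (hY f hf))

theorem tv_neg {s : ℝ} {X : MA G} (hX : TVle s X) : TVle s (-X) := fun f hf => by
  rw [ev_neg, abs_neg]; exact hX f hf

theorem tv_smul {s c : ℝ} {X : MA G} (hX : TVle s X) : TVle (|c| * s) (c • X) := fun f hf => by
  rw [ev_smul, abs_mul]; exact mul_le_mul_of_nonneg_left (hX f hf) (abs_nonneg c)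

theorem tv_mul_prob {s : ℝ} {X b : MA G} (hX : TVle s X) (hb : Prob b) : TVle s (X * b) :=
  fun f hf => by
    rw [ev_mul]
    refine hX _ (fun u => ?_)
    rw [abs_le]
    constructor
    · have := hb.pos.mono (f := fun _ => (-1 : ℝ)) (g := fun v => f (u * v))
        (fun v => (abs_le.mp (hf (u * v))).1)
      rwa [ev_const hb] at this
    · have := hb.pos.mono (f := fun v => f (u * v)) (g := fun _ => (1 : ℝ))
        (fun v => (abs_le.mp (hf (u * v))).2)
      rwa [ev_const hb] at this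

theorem tv_prob_mul {s : ℝ} {X b : MA G} (hX : TVle s X) (hb : Prob b) : TVle s (b * X) :=
  fun f hf => by
    rw [ev_mul, ev_swap]
    refine hX _ (fun v => ?_)
    rw [abs_le]
    constructor
    · have := hb.pos.mono (f := fun _ => (-1 : ℝ)) (g := fun u => f (u * v))
        (fun u => (abs_le.mp (hf (u * v))).1)
      rwa [ev_const hb] at this
    · have := hb.pos.mono (f := fun u => f (u * v)) (g := fun _ => (1 : ℝ))
        (fun u => (abs_le.mp (hf (u * v))).2)
      rwa [ev_const hb] at this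

theorem prob_ev_abs_le {b : MA G} (hb : Prob b) {f : G → ℝ} (hf : ∀ w, |f w| ≤ 1) :
    |ev b f| ≤ 1 := by
  rw [abs_le]
  constructor
  · have := hb.pos.mono (f := fun _ => (-1 : ℝ)) (g := f) (fun v => (abs_le.mp (hf v)).1)
    rwa [ev_const hb] at this
  · have := hb.pos.mono (f := f) (g := fun _ => (1 : ℝ)) (fun v => (abs_le.mp (hf v)).2)
    rwa [ev_const hb] at this

theorem gg_prob {ν : MA G} (hν : Prob ν) {q : ℝ} (h0 : 0 ≤ q) (h1 : q ≤ 1) : Prob (gg ν q) := by
  rw [gg_eq]
  refine ⟨(Pos.one.smul (sq_nonneg q)).add (hν.pos.smul (by nlinarith)), ?_⟩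
  rw [mass_add, mass_smul, mass_smul, mass_one, hν.one]; ring

theorem ee_prob {ν : MA G} (hν : Prob ν) {q : ℝ} (h0 : 0 ≤ q) (h1 : q ≤ 1) : Prob (ee ν q) := by
  rw [ee_eq]
  refine ⟨(Pos.one.smul h0).add (hν.pos.smul (by linarith)), ?_⟩
  rw [mass_add, mass_smul, mass_smul, mass_one, hν.one]; ring

theorem dd_prob {z : MA G} (hz : Prob z) {q : ℝ} (h0 : 0 ≤ q) (h1 : q ≤ 1) : Prob (dd z q) := by
  unfold dd
  refine ⟨(Pos.one.smul h0).add (hz.pos.smul (by linarith)), ?_⟩
  rw [mass_add, mass_smul, mass_smul, mass_one, hz.one]; ring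

theorem bg_prob {ν : MA G} (hν : Prob ν) {q : ℝ} (h0 : 0 ≤ q) (h1 : q ≤ 1) (A k : ℕ) :
    Prob (bg ν q A k) := ((gg_prob hν h0 h1).pow A).mul ((ee_prob hν h0 h1).pow k)

theorem U_prob {ν z : MA G} (hν : Prob ν) (hz : Prob z) {q : ℝ} (h0 : 0 ≤ q) (h1 : q ≤ 1) (n β k : ℕ) :
    Prob (U ν z q n β k) := by
  induction k with
  | zero => exact (gg_prob hν h0 h1).pow β
  | succ k ih => exact (((gg_prob hν h0 h1).pow n).mul (dd_prob hz h0 h1)).mul ih

/-! ### pure against pure -/

/-- cost of one shift -/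
def tauA (q : ℝ) (A : ℕ) : ℝ := 1 / Real.sqrt (((A : ℝ) + 1) * (1 - q ^ 2) * (1 - (1 - q ^ 2)))

theorem tauA_anti {q : ℝ} (h0 : 0 < q) (h1 : q ≤ 1 / 16) {A A' : ℕ} (h : A ≤ A') :
    tauA q A' ≤ tauA q A := by
  unfold tauA
  have hr0 : 0 < 1 - q ^ 2 := by nlinarith
  have hr1 : 0 < 1 - (1 - q ^ 2) := by nlinarith
  have hA : (A : ℝ) ≤ A' := by exact_mod_cast h
  refine one_div_le_one_div_of_le (Real.sqrt_pos.mpr (by positivity)) (Real.sqrt_le_sqrt ?_)
  refine mul_le_mul_of_nonneg_right (mul_le_mul_of_nonneg_right ?_ hr0.le) hr1.le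
  linarith

theorem shift_TV {ν : MA G} (hν : Prob ν) {q : ℝ} (h0 : 0 < q) (h1 : q ≤ 1 / 16) (A : ℕ) :
    TVle (tauA q A) (gg ν q ^ A * (1 - ν)) := by
  have e : gg ν q ^ A * (1 - ν) = aeval ν ((coin (1 - q ^ 2)) ^ A * (1 - X)) := by
    unfold gg
    rw [map_mul, map_pow, map_sub, map_one, aeval_X]
  have hdeg : ((coin (1 - q ^ 2)) ^ A * (1 - X)).natDegree < A + 2 := by
    have h1 := natDegree_coin_pow_lt (1 - q ^ 2) A
    have h2 := natDegree_mul_le (p := (coin (1 - q ^ 2)) ^ A) (q := (1 - X : ℝ[X]))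
    have h3 : (1 - X : ℝ[X]).natDegree ≤ 1 := by
      refine le_trans (natDegree_sub_le _ _) ?_
      rw [natDegree_one, natDegree_X]
      simp
    omega
  rw [e, aeval_eq_sum_range' hdeg]
  intro f hf
  rw [ev_sum]
  refine le_trans (Finset.abs_sum_le_sum_abs _ _) ?_
  refine le_trans (Finset.sum_le_sum (g := fun l => |((coin (1 - q ^ 2)) ^ A * (1 - X)).coeff l|)
    (fun l _ => ?_)) (shift_l1 (by nlinarith) (by nlinarith) A)
  rw [ev_smul, abs_mul]
  have := prob_ev_abs_le (hν.pow l) hf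
  have h2 := abs_nonneg (((coin (1 - q ^ 2)) ^ A * (1 - X)).coeff l)
  nlinarith

theorem pure_TV {ν : MA G} (hν : Prob ν) {q : ℝ} (h0 : 0 < q) (h1 : q ≤ 1 / 16) (A k a b : ℕ) :
    TVle (((a : ℝ) + b) * tauA q A) (bg ν q (A + a) (k + b) - bg ν q A k) := by
  have hA : ∀ a : ℕ, TVle ((a : ℝ) * tauA q A) (bg ν q (A + a) k - bg ν q A k) := by
    intro a
    induction a with
    | zero => simpa using (tv_zero (G := G))
    | succ a ih =>
      have e : bg ν q (A + (a + 1)) k - bg ν q A k =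
          (-(1 - q ^ 2)) • (gg ν q ^ (A + a) * (1 - ν) * ee ν q ^ k) + (bg ν q (A + a) k - bg ν q A k) := by
        have : gg ν q - 1 = (-(1 - q ^ 2)) • (1 - ν) := by
          rw [gg_eq]
          module
        have h2 : bg ν q (A + (a + 1)) k - bg ν q (A + a) k = gg ν q ^ (A + a) * (gg ν q - 1) * ee ν q ^ k := by
          unfold bg
          rw [← add_assoc, pow_succ, mul_sub, sub_mul, mul_one]
        rw [this, mul_smul_comm, smul_mul_assoc] at h2
        rw [← h2]
        abel
      rw [e]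
      have h3 : TVle (tauA q A) ((-(1 - q ^ 2)) • (gg ν q ^ (A + a) * (1 - ν) * ee ν q ^ k)) := by
        have h4 := tv_smul (c := -(1 - q ^ 2))
          (tv_mul_prob (tv_mono (shift_TV hν h0 h1 (A + a)) (tauA_anti h0 h1 (Nat.le_add_right A a)))
          ((ee_prob hν h0.le (by linarith)).pow k))
        refine tv_mono h4 ?_
        rw [abs_neg, abs_of_nonneg (by nlinarith)]
        have : 0 ≤ tauA q A := by unfold tauA; positivity
        nlinarith
      refine tv_mono (tv_add h3 ih) (le_of_eq ?_)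
      push_cast; ring
  have hB : ∀ b : ℕ, TVle ((b : ℝ) * tauA q A) (bg ν q (A + a) (k + b) - bg ν q (A + a) k) := by
    intro b
    induction b with
    | zero => simpa using (tv_zero (G := G))
    | succ b ih =>
      have e : bg ν q (A + a) (k + (b + 1)) - bg ν q (A + a) k =
          (-(1 - q)) • (gg ν q ^ (A + a) * (1 - ν) * ee ν q ^ (k + b)) +
            (bg ν q (A + a) (k + b) - bg ν q (A + a) k) := by
        have : ee ν q - 1 = (-(1 - q)) • (1 - ν) := by
          rw [ee_eq]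
          module
        have h2 : bg ν q (A + a) (k + (b + 1)) - bg ν q (A + a) (k + b) =
            gg ν q ^ (A + a) * (ee ν q - 1) * ee ν q ^ (k + b) := by
          unfold bg
          rw [← add_assoc, pow_succ', mul_sub, sub_mul, mul_one, mul_assoc]
        rw [this, mul_smul_comm, smul_mul_assoc] at h2
        rw [← h2]
        abel
      rw [e]
      have h3 : TVle (tauA q A) ((-(1 - q)) • (gg ν q ^ (A + a) * (1 - ν) * ee ν q ^ (k + b))) := by
        have h4 := tv_smul (c := -(1 - q))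
          (tv_mul_prob (tv_mono (shift_TV hν h0 h1 (A + a)) (tauA_anti h0 h1 (Nat.le_add_right A a)))
          ((ee_prob hν h0.le (by linarith)).pow (k + b)))
        refine tv_mono h4 ?_
        rw [abs_neg, abs_of_nonneg (by linarith)]
        have : 0 ≤ tauA q A := by unfold tauA; positivity
        nlinarith
      refine tv_mono (tv_add h3 ih) (le_of_eq ?_)
      push_cast; ring
  have := tv_add (hB b) (hA a)
  rw [sub_add_sub_cancel] at this
  exact tv_mono this (le_of_eq (by ring))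

end TV

end

end Crest.Agent.R300LB.Sl
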