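import Crest.Agent.R300.LBSlipLoc

/-!
# Row 300, lower bounds, piece L10 (base slip): the model with revealed number of symbols
-/

set_option autoImplicit false

namespace Crest.Agent.R300LB.Sl

open Polynomial Finset

noncomputable section

/-- words together with a counter -/
abbrev HH := BW × Multiplicative ℕ

/-- a symbol (nonempty outcome) -/
def sym (w : List Bool) : HH := (FreeMonoid.ofList w, Multiplicative.ofAdd 1)

/-- law of a nonempty outcome of the block `01` -/
def nu (q : ℝ) : MA HH :=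
  (q / (1 + q)) • MonoidAlgebra.single (sym [false]) 1 +
  (q / (1 + q)) • MonoidAlgebra.single (sym [true]) 1 +
  ((1 - q) / (1 + q)) • MonoidAlgebra.single (sym [false, true]) 1

def zz : MA HH := MonoidAlgebra.single (sym [false]) 1

theorem ev_nu (q : ℝ) (f : HH → ℝ) : ev (nu q) f =
    (q / (1 + q)) * f (sym [false]) + (q / (1 + q)) * f (sym [true]) +
    ((1 - q) / (1 + q)) * f (sym [false, true]) := by
  unfold nu
  rw [ev_add, ev_add, ev_smul, ev_smul, ev_smul, ev_single, ev_single, ev_single]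
  ring

theorem ev_zz (f : HH → ℝ) : ev zz f = f (sym [false]) := by
  unfold zz
  rw [ev_single, one_mul]

theorem nu_prob {q : ℝ} (h0 : 0 < q) (h1 : q ≤ 1 / 16) : Prob (nu q) := by
  constructor
  · intro f hf
    rw [ev_nu]
    have a := hf (sym [false])
    have b := hf (sym [true])
    have c := hf (sym [false, true])
    have h2 : 0 ≤ q / (1 + q) := by positivity
    have h3 : 0 ≤ (1 - q) / (1 + q) := div_nonneg (by linarith) (by linarith)
    positivity
  · unfold mass
    rw [ev_nu]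
    field_simp
    ring

theorem zz_prob : Prob zz := by
  constructor
  · intro f hf
    rw [ev_zz]; exact hf _
  · unfold mass
    rw [ev_zz]

theorem zz_dom {q : ℝ} (h0 : 0 < q) (h1 : q ≤ 1 / 16) : Dom (1 / q) (nu q) (zz - nu q) := by
  intro f
  rw [ev_sub, ev_nu, ev_nu, ev_zz]
  set x := f (sym [false])
  set y := f (sym [true])
  set w := f (sym [false, true])
  have h2 : 0 < 1 + q := by linarith
  have h3 : 0 ≤ 1 - q := by linarith
  have key : 1 / q * (q / (1 + q) * x ^ 2 + q / (1 + q) * y ^ 2 + (1 - q) / (1 + q) * w ^ 2) -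
      (x - (q / (1 + q) * x + q / (1 + q) * y + (1 - q) / (1 + q) * w)) ^ 2 =
      (q / (1 + q) * x + (1 - q / (1 + q)) * y) ^ 2 +
      ((1 - q) / q) * (q / (1 + q) * x + (1 - q / (1 + q)) * w) ^ 2 +
      (q / (1 + q)) * ((1 - q) / (1 + q)) * (w - y) ^ 2 := by
    field_simp
    ring
  have : 0 ≤ (q / (1 + q) * x + (1 - q / (1 + q)) * y) ^ 2 +
      ((1 - q) / q) * (q / (1 + q) * x + (1 - q / (1 + q)) * w) ^ 2 +
      (q / (1 + q)) * ((1 - q) / (1 + q)) * (w - y) ^ 2 := by positivity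
  linarith

theorem zz_mass {q : ℝ} (h0 : 0 < q) (h1 : q ≤ 1 / 16) : mass (zz - nu q) = 0 := by
  rw [mass_sub, zz_prob.one, (nu_prob h0 h1).one, sub_self]

/-- number of symbols -/
def cnt (w : HH) : ℕ := Multiplicative.toAdd w.2

theorem cnt_mul (u v : HH) : cnt (u * v) = cnt u + cnt v := by
  unfold cnt
  simp

theorem cnt_one : cnt (1 : HH) = 0 := by
  unfold cnt
  simp

theorem cnt_sym (w : List Bool) : cnt (sym w) = 1 := by
  unfold cnt sym
  simp

/-- exponential moment -/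
def em (y : ℝ) (X : MA HH) : ℝ := ev X (fun w => y ^ cnt w)

theorem em_mul (y : ℝ) (X Y : MA HH) : em y (X * Y) = em y X * em y Y := by
  unfold em
  rw [ev_mul]
  have : (fun u : HH => ev Y (fun v => y ^ cnt (u * v))) =
      fun u => ev Y (fun v => y ^ cnt v) * y ^ cnt u := by
    funext u
    have : (fun v : HH => y ^ cnt (u * v)) = fun v => y ^ cnt u * y ^ cnt v := by
      funext v; rw [cnt_mul, pow_add]
    rw [this, ev_mul_fun, mul_comm]
  rw [this, ev_mul_fun, mul_comm]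

theorem em_one (y : ℝ) : em y 1 = 1 := by
  unfold em; rw [ev_one, cnt_one, pow_zero]

theorem em_pow (y : ℝ) (X : MA HH) (k : ℕ) : em y (X ^ k) = em y X ^ k := by
  induction k with
  | zero => rw [pow_zero, pow_zero, em_one]
  | succ k ih => rw [pow_succ, em_mul, ih, pow_succ]

theorem em_nu {q : ℝ} (h0 : 0 < q) (y : ℝ) : em y (nu q) = y := by
  unfold em
  rw [ev_nu, cnt_sym, cnt_sym, cnt_sym]
  field_simp
  ring

theorem em_zz (y : ℝ) : em y zz = y := by
  unfold em
  rw [ev_zz, cnt_sym, pow_one]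

theorem em_smul (y c : ℝ) (X : MA HH) : em y (c • X) = c * em y X := ev_smul _ _ _
theorem em_add (y : ℝ) (X Y : MA HH) : em y (X + Y) = em y X + em y Y := ev_add _ _ _

theorem em_gg {q : ℝ} (h0 : 0 < q) (y : ℝ) : em y (gg (nu q) q) = (coin (1 - q ^ 2)).eval y := by
  rw [gg_eq, em_add, em_smul, em_smul, em_one, em_nu h0, coin_eval]; ring

theorem em_ee {q : ℝ} (h0 : 0 < q) (y : ℝ) : em y (ee (nu q) q) = (coin (1 - q)).eval y := by
  rw [ee_eq, em_add, em_smul, em_smul, em_one, em_nu h0, coin_eval]; ring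

theorem em_dd (q y : ℝ) : em y (dd zz q) = (coin (1 - q)).eval y := by
  rw [dd, em_add, em_smul, em_smul, em_one, em_zz, coin_eval]; ring

theorem em_bg {q : ℝ} (h0 : 0 < q) (y : ℝ) (A k : ℕ) :
    em y (bg (nu q) q A k) = (bgP q A k).eval y := by
  unfold bg bgP
  rw [em_mul, em_pow, em_pow, em_gg h0, em_ee h0, eval_mul, eval_pow, eval_pow]

theorem em_U {q : ℝ} (h0 : 0 < q) (y : ℝ) (n β k : ℕ) :
    em y (U (nu q) zz q n β k) = (bgP q (k * n + β) k).eval y := by
  induction k with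
  | zero =>
    unfold U bgP
    rw [em_pow, em_gg h0, zero_mul, zero_add, pow_zero, mul_one, eval_pow]
  | succ k ih =>
    rw [U, em_mul, em_mul, ih, em_pow, em_gg h0, em_dd]
    unfold bgP
    rw [eval_mul, eval_mul, eval_pow, eval_pow, eval_pow, eval_pow]
    rw [show (k + 1) * n + β = n + (k * n + β) by ring, pow_add, pow_succ]
    ring

/-- the array with `k+1` marks -/
def Arr (q : ℝ) (n α β k : ℕ) : MA HH := gg (nu q) q ^ α * dd zz q * U (nu q) zz q n β k

theorem em_Arr {q : ℝ} (h0 : 0 < q) (y : ℝ) (n α β k : ℕ) :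
    em y (Arr q n α β k) = (bgP q (α + k * n + β) (k + 1)).eval y := by
  unfold Arr
  rw [em_mul, em_mul, em_U h0, em_pow, em_gg h0, em_dd]
  unfold bgP
  rw [eval_mul, eval_mul, eval_pow, eval_pow, eval_pow, eval_pow]
  rw [show α + k * n + β = α + (k * n + β) by ring, pow_add, pow_succ]
  ring

theorem Arr_prob {q : ℝ} (h0 : 0 < q) (h1 : q ≤ 1 / 16) (n α β k : ℕ) : Prob (Arr q n α β k) := by
  have hν := nu_prob h0 h1
  exact (((gg_prob hν h0.le (by linarith)).pow α).mul (dd_prob zz_prob h0.le (by linarith))).mul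
    (U_prob hν zz_prob h0.le (by linarith) n β k)

/-- two sided tail bound for the counter -/
theorem tail_le {X : MA HH} (hX : Pos X) {θ μ v x : ℝ}
    (h1 : em (Real.exp θ) X ≤ Real.exp (θ * μ + v))
    (h2 : em (Real.exp (-θ)) X ≤ Real.exp (-θ * μ + v)) :
    ev X (fun w => if θ * x ≤ |θ * (cnt w - μ)| then 1 else 0) ≤ 2 * Real.exp (v - θ * x) := by
  have key : ∀ w : HH, (if θ * x ≤ |θ * ((cnt w : ℝ) - μ)| then (1 : ℝ) else 0) ≤
      Real.exp (-θ * μ - θ * x) * (Real.exp θ) ^ cnt w +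
      Real.exp (θ * μ - θ * x) * (Real.exp (-θ)) ^ cnt w := by
    intro w
    rw [← Real.exp_nat_mul, ← Real.exp_nat_mul, ← Real.exp_add, ← Real.exp_add]
    split_ifs with h
    · rcases le_total 0 (θ * ((cnt w : ℝ) - μ)) with h3 | h3
      · rw [abs_of_nonneg h3] at h
        have : 1 ≤ Real.exp (-θ * μ - θ * x + (cnt w : ℝ) * θ) := Real.one_le_exp (by linarith)
        have := Real.exp_pos (θ * μ - θ * x + (cnt w : ℝ) * -θ)
        linarith
      · rw [abs_of_nonpos h3] at h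
        have : 1 ≤ Real.exp (θ * μ - θ * x + (cnt w : ℝ) * -θ) := Real.one_le_exp (by linarith)
        have := Real.exp_pos (-θ * μ - θ * x + (cnt w : ℝ) * θ)
        linarith
    · positivity
  refine le_trans (hX.mono key) ?_
  rw [ev_add_fun, ev_mul_fun, ev_mul_fun]
  have a1 : Real.exp (-θ * μ - θ * x) * em (Real.exp θ) X ≤ Real.exp (v - θ * x) := by
    refine le_trans (mul_le_mul_of_nonneg_left h1 (Real.exp_pos _).le) ?_
    rw [← Real.exp_add]
    exact Real.exp_le_exp.mpr (by linarith)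
  have a2 : Real.exp (θ * μ - θ * x) * em (Real.exp (-θ)) X ≤ Real.exp (v - θ * x) := by
    refine le_trans (mul_le_mul_of_nonneg_left h2 (Real.exp_pos _).le) ?_
    rw [← Real.exp_add]
    exact Real.exp_le_exp.mpr (by linarith)
  unfold em at a1 a2
  linarith

/-- `X` is homogeneous of degree `k` -/
def Hom (k : ℕ) (X : MA HH) : Prop :=
  ∀ (φ : ℕ → ℝ) (h : HH → ℝ), ev X (fun w => φ (cnt w) * h w) = φ k * ev X h

theorem Hom.one : Hom 0 1 := by
  intro φ h
  rw [ev_one, ev_one, cnt_one]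

theorem Hom.nu (q : ℝ) : Hom 1 (nu q) := by
  intro φ h
  rw [ev_nu, ev_nu, cnt_sym, cnt_sym, cnt_sym]
  ring

theorem Hom.mul {a b : ℕ} {X Y : MA HH} (hX : Hom a X) (hY : Hom b Y) : Hom (a + b) (X * Y) := by
  intro φ h
  rw [ev_mul, ev_mul]
  have : (fun u : HH => ev Y (fun v => φ (cnt (u * v)) * h (u * v))) =
      fun u => φ (cnt u + b) * ev Y (fun v => h (u * v)) := by
    funext u
    rw [← hY (fun m => φ (cnt u + m)) (fun v => h (u * v))]
    refine ev_congr _ (fun v => ?_)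
    rw [cnt_mul]
  rw [this]
  exact hX (fun m => φ (m + b)) (fun u => ev Y (fun v => h (u * v)))

theorem Hom.pow (q : ℝ) (k : ℕ) : Hom k ((Sl.nu q) ^ k) := by
  induction k with
  | zero => rw [pow_zero]; exact Hom.one
  | succ k ih => rw [pow_succ]; exact ih.mul (Hom.nu q)

/-- number of integers in a window -/
theorem window_card (μ x : ℝ) (hx : 0 ≤ x) (T : ℕ) :
    ∑ k ∈ range T, (if |(k : ℝ) - μ| < x then (1 : ℝ) else 0) ≤ 2 * x + 1 := by
  rw [← Finset.sum_filter, Finset.sum_const, nsmul_eq_mul, mul_one]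
  set S := (range T).filter (fun k : ℕ => |(k : ℝ) - μ| < x) with hS
  rcases S.eq_empty_or_nonempty with h | h
  · rw [h]; simp; linarith
  · set a := S.min' h
    set b := S.max' h
    have ha : a ∈ S := S.min'_mem h
    have hb : b ∈ S := S.max'_mem h
    have hsub : S ⊆ Finset.Icc a b := by
      intro k hk
      rw [Finset.mem_Icc]
      exact ⟨S.min'_le k hk, S.le_max' k hk⟩
    have hcard := Finset.card_le_card hsub
    rw [Nat.card_Icc] at hcard
    have hab : a ≤ b := S.min'_le b hb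
    have ha' : |(a : ℝ) - μ| < x := (Finset.mem_filter.mp ha).2
    have hb' : |(b : ℝ) - μ| < x := (Finset.mem_filter.mp hb).2
    have h1 := (abs_lt.mp ha').1
    have h2 := (abs_lt.mp hb').2
    have h3 : (S.card : ℝ) ≤ (b : ℝ) + 1 - a := by
      have : S.card + a ≤ b + 1 := by omega
      have : (S.card : ℝ) + a ≤ b + 1 := by exact_mod_cast this
      linarith
    linarith

theorem ev_Ref_window {q : ℝ} (h0 : 0 < q) (h1 : q ≤ 1 / 16) (μ x : ℝ) (hx : 0 ≤ x) (T : ℕ) :
    ev (Ref (nu q) T) (fun w => if |(cnt w : ℝ) - μ| < x then 1 else 0) ≤ 2 * x + 1 := by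
  unfold Ref
  rw [ev_sum]
  refine le_trans (le_of_eq (Finset.sum_congr rfl (fun k _ => ?_))) (window_card μ x hx T)
  have := Hom.pow q k (fun m => if |(m : ℝ) - μ| < x then 1 else 0) (fun _ => 1)
  simp only [mul_one] at this
  rw [this]
  have h2 := ((nu_prob h0 h1).pow k).one
  unfold mass at h2
  rw [h2, mul_one]

set_option maxHeartbeats 1600000 in
/-- **local estimate**: the array is `ℓ¹`-close to the pure background -/
theorem local_TV {q : ℝ} (h0 : 0 < q) (h1 : q ≤ 1 / 16) {n k : ℕ} (hn : 1 ≤ n)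
    (hk : ((k : ℝ) + 2) * 10 ^ 15 ≤ q ^ 4 * n) {α β : ℕ} (hα : n ≤ 16 * α) (hα' : α ≤ n)
    (hβ : n ≤ 16 * β) (hβ' : β ≤ n) :
    TVle (1 / 8) (Arr q n α β k - bg (nu q) q (α + k * n + β) (k + 1)) := by
  have hn' : (0 : ℝ) < n := by exact_mod_cast hn
  have hν := nu_prob h0 h1
  obtain ⟨T, hdom⟩ := array_final hν h0 h1 (zz_dom h0 h1) (zz_mass h0 h1) hn
    (show ((k : ℝ) + 2) * 10 ^ 7 ≤ q ^ 4 * n by
      refine le_trans ?_ hk
      have : (0 : ℝ) ≤ k + 2 := by positivity
      nlinarith) hα hα' hβ hβ'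
  change Dom _ _ (Arr q n α β k - bg (nu q) q (α + k * n + β) (k + 1)) at hdom
  set A : ℕ := α + k * n + β with hA
  set W := Arr q n α β k with hW
  set P := bg (nu q) q A (k + 1) with hP
  have hWp : Prob W := Arr_prob h0 h1 n α β k
  have hPp : Prob P := bg_prob hν h0.le (by linarith) A (k + 1)
  -- scales
  have hk0 : (0 : ℝ) ≤ k := Nat.cast_nonneg k
  have hq4 : q ^ 4 ≤ q := by
    have h3 : q ^ 3 ≤ 1 := by
      have : q ^ 3 ≤ 1 ^ 3 := pow_le_pow_left₀ h0.le (by linarith) 3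
      simpa using this
    calc q ^ 4 = q ^ 3 * q := by ring
      _ ≤ 1 * q := mul_le_mul_of_nonneg_right h3 h0.le
      _ = q := one_mul q
  have hqn : 1 ≤ q * n := by
    have : q ^ 4 * n ≤ q * n := mul_le_mul_of_nonneg_right hq4 hn'.le
    nlinarith
  have hqn2 : 1 ≤ q ^ 2 * n := by
    have h3 : q ^ 4 ≤ q ^ 2 := by nlinarith [sq_nonneg q, sq_nonneg (q * (1 - q))]
    have : q ^ 4 * n ≤ q ^ 2 * n := mul_le_mul_of_nonneg_right h3 hn'.le
    nlinarith
  set σ : ℝ := Real.sqrt (2 * ((k : ℝ) + 2) * n * q ^ 2) with hσ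
  have hσ2 : σ ^ 2 = 2 * ((k : ℝ) + 2) * n * q ^ 2 := Real.sq_sqrt (by positivity)
  have hσ1 : 1 ≤ σ := by
    rw [hσ]
    apply Real.le_sqrt_of_sq_le
    nlinarith
  have hσpos : 0 < σ := by linarith
  set θ : ℝ := 1 / σ with hθ
  have hθpos : 0 < θ := by positivity
  have hθ1 : |θ| ≤ 1 := by
    rw [abs_of_pos hθpos, hθ, div_le_one hσpos]; exact hσ1
  set μ : ℝ := (A : ℝ) * (1 - q ^ 2) + ((k + 1 : ℕ) : ℝ) * (1 - q) with hμ
  have hvar : θ ^ 2 * ((A : ℝ) * q ^ 2 + ((k + 1 : ℕ) : ℝ) * q) ≤ 1 := by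
    rw [hθ, div_pow, one_pow, div_mul_eq_mul_div, one_mul, div_le_one (by positivity), hσ2]
    have hAr : (A : ℝ) ≤ ((k : ℝ) + 2) * n := by
      rw [hA]
      have a1 : (α : ℝ) ≤ n := by exact_mod_cast hα'
      have a2 : (β : ℝ) ≤ n := by exact_mod_cast hβ'
      push_cast
      nlinarith
    push_cast
    have e1 : (A : ℝ) * q ^ 2 ≤ ((k : ℝ) + 2) * n * q ^ 2 := mul_le_mul_of_nonneg_right hAr (sq_nonneg q)
    have e2 : ((k : ℝ) + 1) * q ≤ ((k : ℝ) + 2) * n * q ^ 2 := by
      have : ((k : ℝ) + 1) * q * 1 ≤ ((k : ℝ) + 2) * q * (q * n) :=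
        mul_le_mul (by nlinarith) hqn zero_le_one (by positivity)
      nlinarith
    linarith
  set x : ℝ := 8 * σ with hx
  have hθx : θ * x = 8 := by rw [hθ, hx]; field_simp
  -- tails
  have hiff : ∀ w : HH, (θ * x ≤ |θ * ((cnt w : ℝ) - μ)|) ↔ ¬ (|(cnt w : ℝ) - μ| < x) := by
    intro w
    rw [abs_mul, abs_of_pos hθpos, not_lt]
    exact mul_le_mul_iff_of_pos_left hθpos
  have tailW := tail_le hWp.pos (θ := θ) (μ := μ) (v := 1) (x := x)
    (by rw [em_Arr h0]; exact bgP_exp h0 h1 hθ1 A (k + 1) hvar)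
    (by
      rw [em_Arr h0]
      refine le_trans (bgP_exp (θ := -θ) (v := 1) h0 h1 (by rwa [abs_neg]) A (k + 1)
        (by rw [neg_sq]; exact hvar)) (le_of_eq rfl))
  have tailP := tail_le hPp.pos (θ := θ) (μ := μ) (v := 1) (x := x)
    (by rw [em_bg h0]; exact bgP_exp h0 h1 hθ1 A (k + 1) hvar)
    (by
      rw [em_bg h0]
      refine le_trans (bgP_exp (θ := -θ) (v := 1) h0 h1 (by rwa [abs_neg]) A (k + 1)
        (by rw [neg_sq]; exact hvar)) (le_of_eq rfl))
  rw [hθx] at tailW tailP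
  have he7 : Real.exp (1 - 8) ≤ 1 / 1000 := by
    have h7 : Real.exp (1 - 8) = (Real.exp 1 ^ 7)⁻¹ := by
      rw [← Real.exp_nat_mul, ← Real.exp_neg]; norm_num
    rw [h7, inv_le_comm₀ (by positivity) (by norm_num)]
    have : (2.7 : ℝ) ≤ Real.exp 1 := by
      have := Real.exp_one_gt_d9
      linarith
    calc (1 / 1000 : ℝ)⁻¹ ≤ 2.7 ^ 7 := by norm_num
      _ ≤ Real.exp 1 ^ 7 := pow_le_pow_left₀ (by norm_num) this 7
  set g8 : HH → ℝ := fun w => if (8 : ℝ) ≤ |θ * ((cnt w : ℝ) - μ)| then (1 : ℝ) else 0 with hg8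
  have tailW' : ev W g8 ≤ 1 / 500 := le_trans tailW (by linarith)
  have tailP' : ev P g8 ≤ 1 / 500 := le_trans tailP (by linarith)
  clear tailW tailP
  intro f hf
  -- split
  set ind : HH → ℝ := fun w => if |(cnt w : ℝ) - μ| < x then 1 else 0 with hind
  have hsplit : ev (W - P) f = ev (W - P) (fun w => f w * ind w) +
      ev (W - P) (fun w => f w * (1 - ind w)) := by
    rw [← ev_add_fun]
    exact ev_congr _ (fun w => by ring)
  have hind01 : ∀ w, ind w = 0 ∨ ind w = 1 := by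
    intro w
    simp only [hind]
    split_ifs
    · exact Or.inr rfl
    · exact Or.inl rfl
  -- main part
  have m1 : (ev (W - P) (fun w => f w * ind w)) ^ 2 ≤ 13100 / (q ^ 3 * n) * (2 * x + 1) := by
    refine le_trans (hdom _) ?_
    refine mul_le_mul_of_nonneg_left ?_ (by positivity)
    refine le_trans ((Ref_pos hν T).mono (g := ind) (fun w => ?_))
      (ev_Ref_window h0 h1 μ x (by positivity) T)
    have hfw : f w ^ 2 ≤ 1 := by
      have := abs_le.mp (hf w)
      nlinarith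
    rcases hind01 w with h | h
    · rw [h]; simp
    · rw [h]; simpa using hfw
  have m2 : 13100 / (q ^ 3 * n) * (2 * x + 1) ≤ (1 / 10) ^ 2 := by
    have e1 : 2 * x + 1 ≤ 17 * σ := by rw [hx]; linarith
    have e2 : 13100 / (q ^ 3 * n) * (2 * x + 1) ≤ 13100 / (q ^ 3 * n) * (17 * σ) :=
      mul_le_mul_of_nonneg_left e1 (by positivity)
    refine le_trans e2 ?_
    have e3 : σ ≤ q ^ 3 * n / 22360000 := by
      rw [hσ]
      apply Real.sqrt_le_iff.mpr
      refine ⟨by positivity, ?_⟩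
      rw [div_pow, le_div_iff₀ (by positivity)]
      have h6 : 0 ≤ ((k : ℝ) + 2) * n * q ^ 2 := by positivity
      have h8 : 2 * ((k : ℝ) + 2) * n * q ^ 2 * 22360000 ^ 2 ≤ (((k : ℝ) + 2) * 10 ^ 15) * (n * q ^ 2) := by
        have e6 : 2 * ((k : ℝ) + 2) * n * q ^ 2 * 22360000 ^ 2 =
          (((k : ℝ) + 2) * n * q ^ 2) * (2 * 22360000 ^ 2) := by ring
        have e7 : (((k : ℝ) + 2) * 10 ^ 15) * (n * q ^ 2) = (((k : ℝ) + 2) * n * q ^ 2) * 10 ^ 15 := by ring
        rw [e6, e7]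
        exact mul_le_mul_of_nonneg_left (by norm_num) h6
      refine le_trans h8 ?_
      have h7 : (((k : ℝ) + 2) * 10 ^ 15) * (n * q ^ 2) ≤ (q ^ 4 * n) * (n * q ^ 2) :=
        mul_le_mul_of_nonneg_right hk (by positivity)
      refine le_trans h7 (le_of_eq (by ring))
    have e4 : 13100 / (q ^ 3 * n) * (17 * σ) ≤ 13100 / (q ^ 3 * n) * (17 * (q ^ 3 * n / 22360000)) := by
      refine mul_le_mul_of_nonneg_left (by linarith) (by positivity)
    refine le_trans e4 ?_
    have e5 : 13100 / (q ^ 3 * n) * (17 * (q ^ 3 * n / 22360000)) = 13100 * 17 / 22360000 := by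
      field_simp
    rw [e5]
    norm_num
  have m3 : |ev (W - P) (fun w => f w * ind w)| ≤ 1 / 10 :=
    abs_le_of_sq_le_sq (le_trans m1 m2) (by norm_num)
  -- tail part
  have t1 : ∀ {X : MA HH}, Pos X → ev X g8 ≤ 1 / 500 →
      |ev X (fun w => f w * (1 - ind w))| ≤ 1 / 500 := by
    intro X hX ht
    have hle : ∀ w : HH, |f w * (1 - ind w)| ≤ g8 w := by
      intro w
      rw [hg8]
      show _ ≤ (if (8 : ℝ) ≤ |θ * ((cnt w : ℝ) - μ)| then (1 : ℝ) else 0)
      have hi := hiff w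
      rw [hθx] at hi
      by_cases h : |(cnt w : ℝ) - μ| < x
      · have : ind w = 1 := by simp only [hind]; rw [if_pos h]
        rw [this, sub_self, mul_zero, abs_zero]
        split_ifs <;> norm_num
      · have h2 : ind w = 0 := by simp only [hind]; rw [if_neg h]
        rw [h2, sub_zero, mul_one, if_pos (hi.mpr h)]
        exact hf w
    have a1 := hX.mono (f := fun w => f w * (1 - ind w)) (g := g8)
      (fun w => le_trans (le_abs_self _) (hle w))
    have a2 := hX.mono (f := fun w => (-1) * g8 w)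
      (g := fun w => f w * (1 - ind w)) (fun w => by
        have := neg_abs_le (f w * (1 - ind w))
        have := hle w
        linarith)
    rw [ev_mul_fun] at a2
    rw [abs_le]
    constructor <;> linarith
  have t2 := t1 hWp.pos tailW'
  have t3 := t1 hPp.pos tailP'
  rw [hsplit, ev_sub W P (fun w => f w * (1 - ind w))]
  have := abs_add_le (ev (W - P) (fun w => f w * ind w))
    (ev W (fun w => f w * (1 - ind w)) - ev P (fun w => f w * (1 - ind w)))
  have := abs_sub (ev W (fun w => f w * (1 - ind w))) (ev P (fun w => f w * (1 - ind w)))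
  linarith

end

end Crest.Agent.R300LB.Sl
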