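import Crest.Agent.R300.LBDefs
import Crest.Agent.R300.LBSlipBin

/-!
# Row 300, lower bounds, piece L10 (base slip): first-mark recursion

`Π T = ∑_{k<T} ν^k` (unnormalised reference), `f = z - ν` a defect of mass zero.
-/

set_option autoImplicit false

namespace Crest.Agent.R300LB.Sl

open Polynomial Finset

noncomputable section

variable {G : Type*} [Monoid G]

/-- unnormalised reference -/
def Ref (ν : MA G) (T : ℕ) : MA G := ∑ k ∈ range T, ν ^ k

theorem Ref_pos {ν : MA G} (hν : Prob ν) (T : ℕ) : Pos (Ref ν T) :=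
  Pos.sum (fun k _ => hν.pos.pow k)

theorem Ref_mono {ν : MA G} (hν : Prob ν) {T T' : ℕ} (h : T ≤ T') {f : G → ℝ} (hf : ∀ w, 0 ≤ f w) :
    ev (Ref ν T) f ≤ ev (Ref ν T') f := by
  unfold Ref
  rw [ev_sum, ev_sum]
  refine Finset.sum_le_sum_of_subset_of_nonneg ?_ (fun k _ _ => hν.pos.pow k f hf)
  intro k hk
  simp only [Finset.mem_range] at hk ⊢
  omega

theorem Dom.refMono {ν X : MA G} (hν : Prob ν) {V : ℝ} (hV : 0 ≤ V) {T T' : ℕ} (h : T ≤ T')
    (hX : Dom V (Ref ν T) X) : Dom V (Ref ν T') X := fun f =>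
  le_trans (hX f) (mul_le_mul_of_nonneg_left (Ref_mono hν h (fun _ => sq_nonneg _)) hV)

theorem Ref_succ (ν : MA G) (T : ℕ) : Ref ν (T + 1) = 1 + ν * Ref ν T := by
  unfold Ref
  rw [Finset.sum_range_succ', pow_zero, Finset.mul_sum, add_comm]
  congr 1
  exact Finset.sum_congr rfl (fun k _ => by rw [pow_succ'])

/-- first-mark orthogonality for the unnormalised reference -/
theorem firstMark {ν z : MA G} (hν : Prob ν) {κ : ℝ} (hκ : 0 ≤ κ) (hz : Dom κ ν (z - ν))
    (hz1 : mass (z - ν) = 0) (T : ℕ) (L : ℕ) : ∀ (Y : ℕ → MA G) (y : ℕ → ℝ), (∀ l, 0 ≤ y l) →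
      (∀ l < L, Dom (y l) (Ref ν T) (Y l)) →
      Dom (κ * ∑ l ∈ range L, y l) (Ref ν (T + L)) (∑ l ∈ range L, ν ^ l * (z - ν) * Y l) := by
  induction L with
  | zero =>
    intro Y y _ _
    simp only [Finset.range_zero, Finset.sum_empty, mul_zero]
    exact Dom.zero _ (Ref_pos hν _) le_rfl
  | succ L ih =>
    intro Y y hy hY
    set f := z - ν with hf
    have IH := ih (fun l => Y (l + 1)) (fun l => y (l + 1)) (fun l => hy _)
      (fun l hl => hY (l + 1) (by omega))
    set Z := ∑ l ∈ range L, ν ^ l * f * Y (l + 1) with hZ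
    have e1 : ∑ l ∈ range (L + 1), ν ^ l * f * Y l = f * Y 0 + ν * Z := by
      rw [Finset.sum_range_succ', pow_zero, one_mul, add_comm, hZ, Finset.mul_sum]
      congr 1
      exact Finset.sum_congr rfl (fun l _ => by rw [pow_succ']; simp only [mul_assoc])
    rw [e1, Finset.sum_range_succ']
    intro h
    rw [ev_add]
    -- averaged test function
    set hb : G → ℝ := fun u => ev ν (fun w => h (w * u)) with hhb
    have eB : ev (ν * Z) h = ev Z hb := by
      rw [ev_mul, ev_swap]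
    have eA : ev (f * Y 0) h = ev f (fun w => ev (Y 0) (fun u => h (w * u) - hb u)) := by
      rw [ev_mul]
      have : (fun w => ev (Y 0) (fun u => h (w * u) - hb u)) =
          fun w => ev (Y 0) (fun u => h (w * u)) - ev (Y 0) hb := by
        funext w
        rw [ev_sub_fun]
      rw [this, ev_sub_fun]
      have hc : ev f (fun _ => ev (Y 0) hb) = 0 := by
        have : (fun _ : G => ev (Y 0) hb) = fun _ => ev (Y 0) hb * 1 := by funext w; ring
        rw [this, ev_mul_fun]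
        unfold mass at hz1
        rw [hz1, mul_zero]
      rw [hc, sub_zero]
    -- variance
    set var : G → ℝ := fun u => ev ν (fun w => (h (w * u) - hb u) ^ 2) with hvar
    have hvar0 : ∀ u, 0 ≤ var u := fun u => hν.pos _ (fun w => sq_nonneg _)
    have hve : ∀ u, var u + hb u ^ 2 = ev ν (fun w => h (w * u) ^ 2) := by
      intro u
      have : (fun w => (h (w * u) - hb u) ^ 2) =
          fun w => (h (w * u) ^ 2 - (2 * hb u) * h (w * u)) + hb u ^ 2 := by
        funext w; ring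
      simp only [hvar]
      rw [this, ev_add_fun, ev_sub_fun, ev_mul_fun, ev_const hν]
      simp only [hhb]
      ring
    have bA : (ev (f * Y 0) h) ^ 2 ≤ (κ * y 0) * ev (Ref ν (T + L)) var := by
      rw [eA]
      refine le_trans (hz _) ?_
      rw [mul_assoc]
      refine mul_le_mul_of_nonneg_left ?_ hκ
      have step : ev ν (fun w => (ev (Y 0) (fun u => h (w * u) - hb u)) ^ 2) ≤
          ev ν (fun w => y 0 * ev (Ref ν T) (fun u => (h (w * u) - hb u) ^ 2)) :=
        hν.pos.mono (fun w => hY 0 (by omega) _)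
      refine le_trans step ?_
      rw [ev_mul_fun, ev_swap]
      exact mul_le_mul_of_nonneg_left (Ref_mono hν (by omega) hvar0) (hy 0)
    have bB : (ev (ν * Z) h) ^ 2 ≤ (κ * ∑ l ∈ range L, y (l + 1)) *
        ev (Ref ν (T + L)) (fun u => hb u ^ 2) := by
      rw [eB]; exact IH hb
    have tot : ev (Ref ν (T + L)) var + ev (Ref ν (T + L)) (fun u => hb u ^ 2) ≤
        ev (Ref ν (T + (L + 1))) (fun w => h w ^ 2) := by
      rw [← ev_add_fun]
      rw [ev_congr _ hve, ← ev_swap]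
      rw [← add_assoc, Ref_succ, ev_add, ev_one, ev_mul]
      have := sq_nonneg (h 1)
      linarith
    set A := ev (f * Y 0) h
    set Bv := ev (ν * Z) h
    set X := ev (Ref ν (T + L)) var
    set X2 := ev (Ref ν (T + L)) (fun u => hb u ^ 2)
    have hX : 0 ≤ X := Ref_pos hν _ _ hvar0
    have hX2 : 0 ≤ X2 := Ref_pos hν _ _ (fun _ => sq_nonneg _)
    set α := κ * y 0
    set β := κ * ∑ l ∈ range L, y (l + 1)
    have hα : 0 ≤ α := mul_nonneg hκ (hy 0)
    have hβ : 0 ≤ β := mul_nonneg hκ (Finset.sum_nonneg (fun _ _ => hy _))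
    have hfin : (A + Bv) ^ 2 ≤ (α + β) * (X + X2) := by
      have h1 : (A * Bv) ^ 2 ≤ (α * X) * (β * X2) := by
        rw [mul_pow]
        exact mul_le_mul bA bB (sq_nonneg _) (mul_nonneg hα hX)
      have h2 : 2 * (A * Bv) ≤ α * X2 + β * X := by
        have h3 : (2 * (A * Bv)) ^ 2 ≤ (α * X2 + β * X) ^ 2 := by
          nlinarith [sq_nonneg (α * X2 - β * X)]
        exact le_trans (le_abs_self _) (abs_le_of_sq_le_sq h3 (by positivity))
      nlinarith
    refine le_trans hfin ?_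
    have : κ * (∑ l ∈ range L, y (l + 1) + y 0) = α + β := by
      simp only [α, β]; ring
    rw [this]
    exact mul_le_mul_of_nonneg_left tot (add_nonneg hα hβ)

/-- combination of powers of `ν` -/
theorem pureDom {ν : MA G} (hν : Prob ν) (c : ℕ → ℝ) (T : ℕ) :
    Dom (∑ k ∈ range T, c k ^ 2) (Ref ν T) (∑ k ∈ range T, c k • ν ^ k) := by
  intro h
  rw [ev_sum]
  have e1 : ∑ k ∈ range T, ev (c k • ν ^ k) h = ∑ k ∈ range T, c k * ev (ν ^ k) h :=
    Finset.sum_congr rfl (fun k _ => ev_smul _ _ _)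
  rw [e1]
  refine le_trans (Finset.sum_mul_sq_le_sq_mul_sq (range T) c (fun k => ev (ν ^ k) h)) ?_
  refine mul_le_mul_of_nonneg_left ?_ (Finset.sum_nonneg (fun _ _ => sq_nonneg _))
  unfold Ref
  rw [ev_sum]
  refine Finset.sum_le_sum (fun k _ => ?_)
  have := Dom.self_prob (hν.pow k) h
  rwa [one_mul] at this

theorem pureDom_aeval {ν : MA G} (hν : Prob ν) (P : ℝ[X]) {T : ℕ} (hT : P.natDegree < T) :
    Dom (∑ k ∈ range T, P.coeff k ^ 2) (Ref ν T) (aeval ν P) := by
  rw [aeval_eq_sum_range' hT]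
  exact pureDom hν _ _

/-- background block -/
def gg (ν : MA G) (q : ℝ) : MA G := aeval ν (coin (1 - q ^ 2))
/-- background letter -/
def ee (ν : MA G) (q : ℝ) : MA G := aeval ν (coin (1 - q))
/-- mark -/
def dd (z : MA G) (q : ℝ) : MA G := q • (1 : MA G) + (1 - q) • z

theorem ee_eq (ν : MA G) (q : ℝ) : ee ν q = q • (1 : MA G) + (1 - q) • ν := by
  unfold ee coin
  rw [map_add, map_mul, aeval_C, aeval_C, aeval_X, Algebra.algebraMap_eq_smul_one,
    Algebra.algebraMap_eq_smul_one, smul_one_mul]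
  congr 2
  ring

theorem gg_eq (ν : MA G) (q : ℝ) : gg ν q = q ^ 2 • (1 : MA G) + (1 - q ^ 2) • ν := by
  unfold gg coin
  rw [map_add, map_mul, aeval_C, aeval_C, aeval_X, Algebra.algebraMap_eq_smul_one,
    Algebra.algebraMap_eq_smul_one, smul_one_mul]
  congr 2
  ring

theorem dd_eq (ν z : MA G) (q : ℝ) : dd z q = ee ν q + (1 - q) • (z - ν) := by
  rw [ee_eq, dd, smul_sub]
  abel

theorem ge_comm (ν : MA G) (q : ℝ) (a b : ℕ) :
    gg ν q ^ a * ee ν q ^ b = ee ν q ^ b * gg ν q ^ a := by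
  unfold gg ee
  rw [← map_pow, ← map_pow, ← map_mul, ← map_mul, mul_comm]

/-- background law with `A` blocks and `k` background letters -/
def bg (ν : MA G) (q : ℝ) (A k : ℕ) : MA G := gg ν q ^ A * ee ν q ^ k

/-- its generating polynomial -/
def bgP (q : ℝ) (A k : ℕ) : ℝ[X] := (coin (1 - q ^ 2)) ^ A * (coin (1 - q)) ^ k

theorem bg_eq (ν : MA G) (q : ℝ) (A k : ℕ) : bg ν q A k = aeval ν (bgP q A k) := by
  unfold bg bgP gg ee
  rw [map_mul, map_pow, map_pow]

/-- tail with `k` marks, each preceded by `n` blocks, and `β` blocks at the end -/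
def U (ν z : MA G) (q : ℝ) (n β : ℕ) : ℕ → MA G
  | 0 => gg ν q ^ β
  | k + 1 => gg ν q ^ n * dd z q * U ν z q n β k

/-- first-mark decomposition -/
theorem decomp (ν z : MA G) (q : ℝ) (n β k : ℕ) : ∀ α : ℕ,
    gg ν q ^ α * dd z q * U ν z q n β k = bg ν q (α + k * n + β) (k + 1) +
      (1 - q) • ∑ i ∈ range (k + 1), bg ν q (α + i * n) i * (z - ν) * U ν z q n β (k - i) := by
  induction k with
  | zero =>
    intro α
    rw [dd_eq ν z q]
    simp only [U, bg, zero_mul, add_zero, zero_add, Finset.sum_range_one, pow_one, pow_zero, mul_one,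
      Nat.sub_self]
    rw [mul_add, add_mul, mul_smul_comm, smul_mul_assoc]
    congr 1
    rw [pow_add, mul_assoc, mul_assoc]
    congr 1
    have := ge_comm ν q β 1
    rw [pow_one] at this
    exact this.symm
  | succ k ih =>
    intro α
    have h1 : gg ν q ^ α * dd z q * U ν z q n β (k + 1) =
        ee ν q * (gg ν q ^ (α + n) * dd z q * U ν z q n β k) +
          (1 - q) • (gg ν q ^ α * (z - ν) * U ν z q n β (k + 1)) := by
      conv_lhs => rw [dd_eq ν z q]
      rw [mul_add, add_mul, mul_smul_comm, smul_mul_assoc]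
      congr 1
      have hc := ge_comm ν q α 1
      rw [pow_one] at hc
      rw [hc, U, pow_add]
      simp only [mul_assoc]
    rw [h1, ih (α + n), mul_add, mul_smul_comm, Finset.mul_sum, Finset.sum_range_succ' _ (k + 1),
      smul_add]
    have e1 : ee ν q * bg ν q (α + n + k * n + β) (k + 1) = bg ν q (α + (k + 1) * n + β) (k + 1 + 1) := by
      unfold bg
      have hc := ge_comm ν q (α + n + k * n + β) 1
      rw [pow_one] at hc
      rw [← mul_assoc, ← hc, mul_assoc, ← pow_succ']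
      congr 2
      ring
    have e2 : ∑ i ∈ range (k + 1), ee ν q * (bg ν q (α + n + i * n) i * (z - ν) * U ν z q n β (k - i)) =
        ∑ i ∈ range (k + 1), bg ν q (α + (i + 1) * n) (i + 1) * (z - ν) *
          U ν z q n β (k + 1 - (i + 1)) := by
      refine Finset.sum_congr rfl (fun i _ => ?_)
      have : ee ν q * bg ν q (α + n + i * n) i = bg ν q (α + (i + 1) * n) (i + 1) := by
        unfold bg
        have hc := ge_comm ν q (α + n + i * n) 1
        rw [pow_one] at hc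
        rw [← mul_assoc, ← hc, mul_assoc, ← pow_succ']
        congr 2
        ring
      rw [← this, Nat.add_sub_add_right]
      simp only [mul_assoc]
    rw [e1, e2]
    have e3 : bg ν q (α + 0 * n) 0 = gg ν q ^ α := by
      unfold bg; rw [pow_zero, mul_one, zero_mul, add_zero]
    rw [e3, Nat.sub_zero, add_assoc]

theorem bgP_nn {q : ℝ} (h0 : 0 ≤ q) (h1 : q ≤ 1) (A k l : ℕ) : 0 ≤ (bgP q A k).coeff l := by
  unfold bgP
  refine NN_mul (fun l => NN_coin_pow ?_ ?_ _ _) (fun l => NN_coin_pow ?_ ?_ _ _) l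
  · nlinarith
  · nlinarith
  · linarith
  · linarith

theorem F_dom {ν z : MA G} (hν : Prob ν) {κ : ℝ} (hκ : 0 ≤ κ) (hz : Dom κ ν (z - ν))
    (hz1 : mass (z - ν) = 0) {q : ℝ} (h0 : 0 ≤ q) (h1 : q ≤ 1) {n β k α L T : ℕ} {B E₀ : ℝ}
    (hB : 0 ≤ B) (hE : 0 ≤ E₀) (φ : ℕ → ℝ) (hφ0 : ∀ j, 0 ≤ φ j)
    (hφ : ∀ j, φ j ^ 2 = 4 * B / Real.sqrt ((j : ℝ) + 1))
    (hdeg : ∀ i ≤ k, (bgP q (α + i * n) i).natDegree < L)
    (hI : ∀ i ≤ k, ∀ j ≤ k, ∑ l ∈ range L, (bgP q (α + i * n) i).coeff l * (bgP q (α + j * n) j).coeff l ≤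
      E₀ * (B / Real.sqrt ((i : ℝ) + 1) + B / Real.sqrt ((j : ℝ) + 1)) *
      Real.exp (-(((i - j) + (j - i) : ℕ) : ℝ)))
    (hU : ∀ j ≤ k, Dom (φ j ^ 2) (Ref ν T) (U ν z q n β j)) :
    Dom (κ * (192 * E₀ * B ^ 2)) (Ref ν (T + L))
      (gg ν q ^ α * dd z q * U ν z q n β k - bg ν q (α + k * n + β) (k + 1)) := by
  rw [decomp, add_sub_cancel_left]
  set c : ℕ → ℕ → ℝ := fun i l => (bgP q (α + i * n) i).coeff l with hc
  have hc0 : ∀ i l, 0 ≤ c i l := fun i l => bgP_nn h0 h1 _ _ _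
  have e1 : ∑ i ∈ range (k + 1), bg ν q (α + i * n) i * (z - ν) * U ν z q n β (k - i) =
      ∑ l ∈ range L, ν ^ l * (z - ν) * (∑ i ∈ range (k + 1), c i l • U ν z q n β (k - i)) := by
    have : ∀ i ∈ range (k + 1), bg ν q (α + i * n) i * (z - ν) * U ν z q n β (k - i) =
        ∑ l ∈ range L, ν ^ l * (z - ν) * (c i l • U ν z q n β (k - i)) := by
      intro i hi
      simp only [Finset.mem_range] at hi
      rw [bg_eq, aeval_eq_sum_range' (hdeg i (by omega)), Finset.sum_mul, Finset.sum_mul]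
      refine Finset.sum_congr rfl (fun l _ => ?_)
      rw [mul_smul_comm, smul_mul_assoc, smul_mul_assoc]
    rw [Finset.sum_congr rfl this, Finset.sum_comm]
    refine Finset.sum_congr rfl (fun l _ => ?_)
    rw [Finset.mul_sum]
  rw [e1]
  have hY : ∀ l < L, Dom ((∑ i ∈ range (k + 1), c i l * φ (k - i)) ^ 2) (Ref ν T)
      (∑ i ∈ range (k + 1), c i l • U ν z q n β (k - i)) := by
    intro l _
    refine Dom.sum (range (k + 1)) (x := fun i => c i l * φ (k - i)) ?_ ?_ (Ref_pos hν T)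
    · intro i _
      rw [mul_pow]
      exact Dom.smul (hU (k - i) (by omega)) (c i l)
    · intro i _
      exact mul_nonneg (hc0 _ _) (hφ0 _)
  have hmain := firstMark hν hκ hz hz1 T L _ (fun l => (∑ i ∈ range (k + 1), c i l * φ (k - i)) ^ 2)
    (fun l => sq_nonneg _) hY
  have hq2 : (1 - q) ^ 2 ≤ 1 := by nlinarith
  have hsum0 : 0 ≤ ∑ l ∈ range L, (∑ i ∈ range (k + 1), c i l * φ (k - i)) ^ 2 :=
    Finset.sum_nonneg (fun _ _ => sq_nonneg _)
  have hsm := Dom.smul hmain (1 - q)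
  refine Dom.mono hsm ?_ (Ref_pos hν _)
  have hbound : ∑ l ∈ range L, (∑ i ∈ range (k + 1), c i l * φ (k - i)) ^ 2 ≤ 192 * E₀ * B ^ 2 := by
    have hcb := conv_bound hB hE k (fun i j => ∑ l ∈ range L, c i l * c j l) φ hφ0 hφ hI
    refine le_trans (le_of_eq ?_) hcb
    have e3 : ∀ l ∈ range L, (∑ i ∈ range (k + 1), c i l * φ (k - i)) ^ 2 =
        ∑ i ∈ range (k + 1), ∑ j ∈ range (k + 1), (c i l * c j l) * (φ (k - i) * φ (k - j)) := by
      intro l _
      rw [sq, Finset.sum_mul_sum]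
      refine Finset.sum_congr rfl (fun i _ => Finset.sum_congr rfl (fun j _ => by ring))
    rw [Finset.sum_congr rfl e3, Finset.sum_comm]
    refine Finset.sum_congr rfl (fun i _ => ?_)
    rw [Finset.sum_comm]
    refine Finset.sum_congr rfl (fun j _ => ?_)
    rw [Finset.sum_mul]
  calc (1 - q) ^ 2 * (κ * ∑ l ∈ range L, (∑ i ∈ range (k + 1), c i l * φ (k - i)) ^ 2)
      ≤ 1 * (κ * ∑ l ∈ range L, (∑ i ∈ range (k + 1), c i l * φ (k - i)) ^ 2) :=
        mul_le_mul_of_nonneg_right hq2 (mul_nonneg hκ hsum0)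
    _ = κ * ∑ l ∈ range L, (∑ i ∈ range (k + 1), c i l * φ (k - i)) ^ 2 := one_mul _
    _ ≤ κ * (192 * E₀ * B ^ 2) := mul_le_mul_of_nonneg_left hbound hκ

end

end Crest.Agent.R300LB.Sl
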