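import Crest.Agent.R300.LBSlipStep

/-!
# Row 300, lower bounds, base: `ℓ¹` smoothing for lazy measures `g = κ 1 + (1 - κ) γ`
-/

set_option autoImplicit false

namespace Crest.Agent.R300LB.Smooth

open Finset Crest.Agent.R300LB Crest.Agent.R300LB.SlipStep

noncomputable section

variable {G : Type} [Monoid G]

/-- the lazy measure -/
def lazy (κ : ℝ) (γ : MA G) : MA G := κ • 1 + (1 - κ) • γ

theorem lazy_prob {κ : ℝ} {γ : MA G} (hγ : Prob γ) (h0 : 0 ≤ κ) (h1 : κ ≤ 1) :
    Prob (lazy κ γ) := by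
  refine ⟨(Pos.one.smul h0).add (hγ.pos.smul (by linarith)), ?_⟩
  rw [lazy, mass_add, mass_smul, mass_smul, mass_one, hγ.one]; ring

theorem commute_lazy (κ : ℝ) (γ : MA G) : Commute (lazy κ γ) γ := by
  unfold lazy
  exact ((Commute.one_left γ).smul_left κ).add_left ((Commute.refl γ).smul_left (1 - κ))

theorem one_sub_lazy (κ : ℝ) (γ : MA G) : 1 - lazy κ γ = (1 - κ) • (1 - γ) := by
  unfold lazy
  rw [smul_sub, sub_smul, sub_smul, one_smul, one_smul]
  abel

/-- coin recursion for the lazy measure -/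
theorem tv_lazy {κ : ℝ} {γ : MA G} (hγ : Prob γ) (h0 : 0 ≤ κ) (h1 : 2 * κ ≤ 1) (c : ℕ → ℝ)
    (X : MA G) (hX : ∀ i, TVle (c i) (((2 : ℝ)⁻¹ • (1 + γ)) ^ i * X)) (hcomm : Commute γ X) (k : ℕ) :
    TVle (bavg (2 * κ) k c) (lazy κ γ ^ k * X) := by
  induction k generalizing X c with
  | zero =>
    have h := hX 0
    rw [pow_zero, one_mul] at h
    simpa [bavg] using h
  | succ k ih =>
    set C : MA G := (2 : ℝ)⁻¹ • (1 + γ) with hC
    have hCg : Commute C γ := by
      rw [hC]
      exact ((Commute.one_left γ).add_left (Commute.refl γ)).smul_left _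
    have ih1 := ih (fun j => c (j + 1)) (C * X) (fun i => by
      have := hX (i + 1)
      rw [pow_succ, mul_assoc] at this
      exact this) (hCg.symm.mul_right hcomm)
    have ih2 := ih c X hX hcomm
    have hdec : lazy κ γ = (2 * κ) • C + (1 - 2 * κ) • γ := by
      rw [lazy, hC, smul_smul, smul_add]
      have e1 : 2 * κ * (2 : ℝ)⁻¹ = κ := by ring
      have e2 : (1 - κ) = κ + (1 - 2 * κ) := by ring
      rw [e1, e2, add_smul, add_assoc]
    have hLg : Commute (lazy κ γ ^ k) γ := (commute_lazy κ γ).pow_left k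
    have hLC : Commute (lazy κ γ ^ k) C := by
      rw [hC]
      exact ((Commute.one_right _).add_right hLg).smul_right _
    have key : lazy κ γ ^ (k + 1) * X
        = (2 * κ) • (lazy κ γ ^ k * (C * X)) + (1 - 2 * κ) • (lazy κ γ ^ k * X * γ) := by
      have e1 : lazy κ γ ^ (k + 1) = (2 * κ) • (lazy κ γ ^ k * C) + (1 - 2 * κ) • (lazy κ γ ^ k * γ) := by
        calc lazy κ γ ^ (k + 1) = lazy κ γ ^ k * ((2 * κ) • C + (1 - 2 * κ) • γ) := by
              rw [pow_succ, ← hdec]
          _ = _ := by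
              rw [mul_add]
              congr 1
              · exact mul_smul_comm _ _ _
              · exact mul_smul_comm _ _ _
      rw [e1, add_mul, smul_mul_assoc, smul_mul_assoc, mul_assoc, mul_assoc, mul_assoc,
        hcomm.eq]
    rw [key, bavg_succ]
    have t1 := ih1.smul (2 * κ)
    have t2 := (ih2.mulRight (TVle.of_prob hγ)).smul (1 - 2 * κ)
    rw [abs_of_nonneg (by linarith : (0:ℝ) ≤ 2 * κ)] at t1
    rw [abs_of_nonneg (by linarith : (0:ℝ) ≤ 1 - 2 * κ)] at t2
    exact t1.add t2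

/-- smoothing -/
theorem tv_smooth {κ : ℝ} {γ : MA G} (hγ : Prob γ) (h0 : 0 < κ) (h1 : 2 * κ ≤ 1) (M : ℕ) :
    TVle (2 / √(2 * κ * (M + 1))) (lazy κ γ ^ M * (1 - γ)) := by
  have h := tv_lazy hγ h0.le h1 (fun i => 2 / √((i : ℝ) + 1)) (1 - γ) (fun i => tv_half hγ i)
    ((Commute.one_right γ).sub_right (Commute.refl γ)) M
  exact h.mono (bavg_sqrt (by linarith) h1 M)

/-- `ℓ¹` distance of two powers of the lazy measure -/
theorem tv_powers {κ : ℝ} {γ : MA G} (hγ : Prob γ) (h0 : 0 < κ) (h1 : 2 * κ ≤ 1) (M r : ℕ) :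
    TVle (r * (2 / √(2 * κ * (M + 1)))) (lazy κ γ ^ M - lazy κ γ ^ (M + r)) := by
  induction r with
  | zero => simpa using TVle.zero
  | succ r ih =>
    have hg := lazy_prob hγ h0.le (by linarith : κ ≤ 1)
    have h2 : TVle (2 / √(2 * κ * (M + 1))) (lazy κ γ ^ (M + r) - lazy κ γ ^ (M + r + 1)) := by
      have e : lazy κ γ ^ (M + r) - lazy κ γ ^ (M + r + 1)
          = (1 - κ) • (lazy κ γ ^ r * (lazy κ γ ^ M * (1 - γ))) := by
        rw [pow_succ, ← mul_one_sub, one_sub_lazy, mul_smul_comm, add_comm M r, pow_add, mul_assoc]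
      rw [e]
      have h3 := ((tv_smooth hγ h0 h1 M).mulLeft (TVle.of_prob (hg.pow r))).smul (1 - κ)
      refine h3.mono ?_
      rw [abs_of_nonneg (by linarith)]
      have : 0 ≤ 2 / √(2 * κ * ((M : ℝ) + 1)) := by positivity
      nlinarith
    have h := ih.add h2
    have e : lazy κ γ ^ M - lazy κ γ ^ (M + r) + (lazy κ γ ^ (M + r) - lazy κ γ ^ (M + r + 1))
        = lazy κ γ ^ M - lazy κ γ ^ (M + (r + 1)) := by
      rw [← add_assoc]; abel
    rw [e] at h
    refine h.mono (le_of_eq ?_)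
    push_cast; ring

end

end Crest.Agent.R300LB.Smooth
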