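import Mathlib
import Crest.Agent.R300.ContourSum

/-!
# Row 300: level product and size of composites (interface helper862)
-/

set_option autoImplicit false

namespace Crest.Agent.R300

open Complex

/-- LEVEL PRODUCT: products of windowed transforms from one-sided transforms of composites. -/
theorem levelProduct : ∃ C : ℝ, 1 ≤ C ∧ ∀ (n t : ℕ) (om iv ep sig h B : ℝ) (R : ℕ)
    (fl : Fin 4 → Fin 3) (nu : Fin 4 → ℝ) (f : ℕ → ℂ),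
    2 ≤ (Node.mk fl nu 0).k → t ≤ n → 1 ≤ om → 0 ≤ iv → iv * om ^ 2 ≤ 1 / 256 →
    0 ≤ ep → ep * om ≤ 1 / 1024 → 1 / 2 ≤ om * sig → om * sig ≤ 1 → 0 < h → h ≤ 1 → 1 ≤ B →
    (∀ m, ‖f m‖ ≤ B) → |(Node.mk fl nu 0).Om| ≤ sig →
    ‖Tprod n t om (Node.mk fl nu 0) f - Kprod t om (Node.mk fl nu 0) f
      - ∑ l ∈ Finset.Icc (-(R : ℤ)) R, (h * om : ℝ) * cWt (l * h) *
          Uval n t iv ep (nodeF om iv ep (Node.mk fl nu (cPt sig (l * h))) f)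
            (cPt sig (l * h) + I * (Node.mk fl nu 0).Om)‖
      ≤ C * B ^ 4 * (om * (1 + h * R)) ^ C *
          (Real.exp (-(om ^ 2 * (h * R) ^ 2) / C) + h) := by
  sorry

/-- size of the composites (contour points only) -/
theorem nodeF_bound : ∃ C : ℝ, 1 ≤ C ∧ ∀ (om iv ep sig τ B : ℝ) (fl : Fin 4 → Fin 3)
    (nu : Fin 4 → ℝ) (f : ℕ → ℂ),
    2 ≤ (Node.mk fl nu 0).k → 1 ≤ om → 0 ≤ iv → iv * om ^ 2 ≤ 1 / 256 →
    0 ≤ ep → ep * om ≤ 1 / 1024 → 1 / 2 ≤ om * sig → om * sig ≤ 1 → 1 ≤ B → (∀ m, ‖f m‖ ≤ B) →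
    ∀ M, ‖nodeF om iv ep (Node.mk fl nu (cPt sig τ)) f M‖ ≤ C * om ^ C * B ^ 4 := by
  sorry

end Crest.Agent.R300
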