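import Mathlib

/-!
# Row 300: the perceptron / Kaczmarz solver (mathematical part)

Real linear constraints `|⟨row, u⟩ - t| ≤ β` with rational rows; unknown `u ∈ [-M, M]^K`.
The solver projects on a violated constraint, clips and rounds to `D` bits, `T` times.
-/

set_option autoImplicit false

namespace Crest.Agent.R300

open Finset

/-- a constraint: (row, target, tolerance) -/
abbrev PCon := List ℚ × ℚ × ℚ

/-- scalar product of lists -/
def dotQ (a b : List ℚ) : ℚ := (List.zipWith (fun x y => x * y) a b).sum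

/-- residual of a constraint -/
def residQ (u : List ℚ) (c : PCon) : ℚ := dotQ c.1 u - c.2.1

/-- clip to `[-M, M]` -/
def clipQ (M : ℕ) (x : ℚ) : ℚ := max (-(M : ℚ)) (min (M : ℚ) x)

/-- round down to a multiple of `2 ^ (-D)` -/
def rndQ (D : ℕ) (x : ℚ) : ℚ := (⌊x * 2 ^ D⌋ : ℚ) / 2 ^ D

/-- projection on the hyperplane of a constraint, clipped and rounded -/
def updQ (D M : ℕ) (u : List ℚ) (c : PCon) : List ℚ :=
  List.zipWith (fun x r => rndQ D (clipQ M (x - r * (residQ u c / dotQ c.1 c.1)))) u c.1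

/-- one step of the solver -/
def pstepQ (D M : ℕ) (cons : List PCon) (u : List ℚ) : List ℚ :=
  match cons.find? (fun c => decide (3 * c.2.2 < |residQ u c|)) with
  | none => u
  | some c => updQ D M u c

/-- the solver -/
def psolveQ (T D M K : ℕ) (cons : List PCon) : List ℚ :=
  (pstepQ D M cons)^[T] (List.replicate K 0)

/-! ### elementary facts -/

theorem dotQ_eq {K : ℕ} {a b : List ℚ} (ha : a.length = K) (hb : b.length = K) :
    dotQ a b = ∑ k ∈ range K, a.getD k 0 * b.getD k 0 := by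
  subst ha
  unfold dotQ
  induction a generalizing b with
  | nil => simp
  | cons x a ih =>
    cases b with
    | nil => simp at hb
    | cons y b =>
      simp only [List.length_cons, add_left_inj] at hb
      rw [List.zipWith_cons_cons, List.sum_cons, ih hb, List.length_cons, Finset.sum_range_succ']
      simp [add_comm]

theorem clipQ_abs_le (M : ℕ) (x : ℚ) : |clipQ M x| ≤ M := by
  unfold clipQ
  have h0 : (0 : ℚ) ≤ M := Nat.cast_nonneg M
  rw [abs_le]
  exact ⟨le_max_left _ _, max_le (by linarith) (min_le_left _ _)⟩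

theorem clipQ_dist {M : ℕ} {x : ℚ} {u : ℝ} (hu : |u| ≤ M) :
    ((clipQ M x : ℚ) - u : ℝ) ^ 2 ≤ ((x : ℝ) - u) ^ 2 := by
  rw [abs_le] at hu
  unfold clipQ
  push_cast
  rcases le_total (M : ℝ) (x : ℝ) with h | h
  · rw [min_eq_left h, max_eq_right (by linarith)]
    apply pow_le_pow_left₀ <;> linarith
  · rw [min_eq_right h]
    rcases le_total (-(M : ℝ)) (x : ℝ) with h' | h'
    · rw [max_eq_right h']
    · rw [max_eq_left h']
      have : (u - -(M : ℝ)) ^ 2 ≤ (u - x) ^ 2 := by
        apply pow_le_pow_left₀ <;> linarith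
      nlinarith

theorem rndQ_le (D : ℕ) (x : ℚ) : rndQ D x ≤ x := by
  unfold rndQ
  rw [div_le_iff₀ (by positivity)]
  exact Int.floor_le _

theorem lt_rndQ (D : ℕ) (x : ℚ) : x - 1 / 2 ^ D ≤ rndQ D x := by
  unfold rndQ
  have h : (0 : ℚ) < 2 ^ D := by positivity
  rw [le_div_iff₀ h, sub_mul, one_div, inv_mul_cancel₀ h.ne']
  exact (Int.sub_one_lt_floor _).le

theorem rndQ_abs_le {D M : ℕ} {x : ℚ} (hx : |x| ≤ M) : |rndQ D x| ≤ M := by
  rw [abs_le] at *
  refine ⟨?_, (rndQ_le D x).trans hx.2⟩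
  unfold rndQ
  have h : (0 : ℚ) < 2 ^ D := by positivity
  rw [le_div_iff₀ h]
  have : ((-(M : ℤ) * 2 ^ D : ℤ) : ℚ) ≤ (⌊x * 2 ^ D⌋ : ℤ) := by
    rw [Int.cast_le, Int.le_floor]
    push_cast
    exact mul_le_mul_of_nonneg_right hx.1 h.le
  push_cast at this
  exact this

theorem rndQ_dist {D M : ℕ} {x : ℚ} {u : ℝ} (hx : |x| ≤ M) (hu : |u| ≤ M) :
    ((rndQ D x : ℚ) - u : ℝ) ^ 2 ≤ ((x : ℝ) - u) ^ 2 + (4 * M / 2 ^ D + (1 / 2 ^ D) ^ 2) := by
  rw [abs_le] at hx hu
  have h1 : ((rndQ D x : ℚ) : ℝ) ≤ x := by exact_mod_cast rndQ_le D x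
  have h2 : (x : ℝ) - 1 / 2 ^ D ≤ ((rndQ D x : ℚ) : ℝ) := by
    have h := (Rat.cast_le (K := ℝ)).2 (lt_rndQ D x)
    push_cast at h
    exact h
  have hx1 : -(M : ℝ) ≤ x := by exact_mod_cast hx.1
  have hx2 : (x : ℝ) ≤ M := by exact_mod_cast hx.2
  have hD : (0 : ℝ) < 1 / 2 ^ D := by positivity
  have e : 4 * (M : ℝ) / 2 ^ D = 4 * M * (1 / 2 ^ D) := by ring
  rw [e]
  set δ : ℝ := 1 / 2 ^ D
  set y : ℝ := ((rndQ D x : ℚ) : ℝ)
  set t : ℝ := x - y
  have ht0 : 0 ≤ t := by simp only [t]; linarith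
  have ht1 : t ≤ δ := by simp only [t]; linarith
  have ey : y = x - t := by simp only [t]; ring
  rw [ey]
  have hM : (0 : ℝ) ≤ M := Nat.cast_nonneg M
  nlinarith [mul_le_mul_of_nonneg_left ht1 hM, mul_nonneg ht0 (sub_nonneg.2 ht1)]

/-- the projection step decreases the distance to a solution -/
theorem proj_decrease {K : ℕ} (r v u : ℕ → ℝ) (t β N : ℝ) (hβ : 0 < β)
    (hN : ∑ k ∈ range K, r k ^ 2 ≤ N)
    (hu : |∑ k ∈ range K, r k * u k - t| ≤ β)
    (hv : 3 * β < |∑ k ∈ range K, r k * v k - t|) :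
    ∑ k ∈ range K, (v k - r k * ((∑ k ∈ range K, r k * v k - t) / ∑ k ∈ range K, r k * r k)
      - u k) ^ 2 ≤ ∑ k ∈ range K, (v k - u k) ^ 2 - 3 * β ^ 2 / N := by
  set S := ∑ k ∈ range K, r k * v k - t with hS
  set Su := ∑ k ∈ range K, r k * u k - t with hSu
  have e2 : ∑ k ∈ range K, r k * r k = ∑ k ∈ range K, r k ^ 2 :=
    Finset.sum_congr rfl fun k _ => by ring
  rw [e2]
  set R := ∑ k ∈ range K, r k ^ 2 with hR
  have hR0 : 0 ≤ R := Finset.sum_nonneg fun k _ => sq_nonneg _
  have hRpos : 0 < R := by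
    rcases hR0.lt_or_eq with h | h
    · exact h
    · exfalso
      have hz : ∀ k ∈ range K, r k = 0 := by
        intro k hk
        have := (Finset.sum_eq_zero_iff_of_nonneg (fun k _ => sq_nonneg (r k))).1 (hR.symm.trans h.symm) k hk
        exact pow_eq_zero_iff (two_ne_zero) |>.1 this
      have h1 : ∑ k ∈ range K, r k * v k = ∑ k ∈ range K, r k * u k :=
        Finset.sum_congr rfl fun k hk => by rw [hz k hk]; ring
      rw [hS, h1] at hv
      rw [hSu] at hu
      linarith
  have hNpos : 0 < N := hRpos.trans_le hN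
  have hdiff : S - Su = ∑ k ∈ range K, r k * (v k - u k) := by
    simp only [hS, hSu, mul_sub, Finset.sum_sub_distrib]; ring
  have e1 : ∑ k ∈ range K, (v k - r k * (S / R) - u k) ^ 2
      = ∑ k ∈ range K, (v k - u k) ^ 2 - 2 * (S / R) * (S - Su) + (S / R) ^ 2 * R := by
    rw [hdiff, hR, Finset.mul_sum, Finset.mul_sum, ← Finset.sum_sub_distrib,
      ← Finset.sum_add_distrib]
    exact Finset.sum_congr rfl fun k _ => by ring
  rw [e1]
  have e3 : 2 * (S / R) * (S - Su) - (S / R) ^ 2 * R = (S ^ 2 - 2 * S * Su) / R := by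
    field_simp
    ring
  have h4 : 3 * β ^ 2 ≤ S ^ 2 - 2 * S * Su := by
    have a1 : S * Su ≤ |S| * |Su| := by rw [← abs_mul]; exact le_abs_self _
    have a2 : |S| * |Su| ≤ |S| * β := mul_le_mul_of_nonneg_left hu (abs_nonneg _)
    have a3 : S ^ 2 = |S| ^ 2 := (sq_abs S).symm
    nlinarith
  have h5 : 3 * β ^ 2 / N ≤ (S ^ 2 - 2 * S * Su) / R := by
    calc 3 * β ^ 2 / N ≤ 3 * β ^ 2 / R := by
          apply div_le_div_of_nonneg_left (by positivity) hRpos hN
      _ ≤ _ := div_le_div_of_nonneg_right h4 hRpos.le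
  linarith

/-- invariants of the state -/
structure PInv (D M K : ℕ) (v : List ℚ) : Prop where
  len : v.length = K
  bd : ∀ x ∈ v, |x| ≤ M
  grid : ∀ x ∈ v, ∃ z : ℤ, x = z / 2 ^ D

theorem PInv.zero (D M K : ℕ) : PInv D M K (List.replicate K 0) where
  len := by simp
  bd := by
    intro x hx
    rw [List.eq_of_mem_replicate hx]
    simp
  grid := by
    intro x hx
    rw [List.eq_of_mem_replicate hx]
    exact ⟨0, by simp⟩

theorem updQ_getElem {D M : ℕ} {v : List ℚ} {c : PCon} {k : ℕ} (hk : k < (updQ D M v c).length)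
    (hkv : k < v.length) (hkc : k < c.1.length) :
    (updQ D M v c)[k] = rndQ D (clipQ M (v[k] - c.1[k] * (residQ v c / dotQ c.1 c.1))) :=
  List.getElem_zipWith ..

theorem PInv.updQ {D M K : ℕ} {v : List ℚ} (hv : PInv D M K v) {c : PCon}
    (hc : c.1.length = K) : PInv D M K (updQ D M v c) where
  len := by
    unfold R300.updQ
    rw [List.length_zipWith, hv.len, hc, min_self]
  bd := by
    intro x hx
    unfold R300.updQ at hx
    obtain ⟨i, hi, rfl⟩ := List.mem_iff_getElem.1 hx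
    rw [List.getElem_zipWith]
    exact rndQ_abs_le (clipQ_abs_le _ _)
  grid := by
    intro x hx
    unfold R300.updQ at hx
    obtain ⟨i, hi, rfl⟩ := List.mem_iff_getElem.1 hx
    rw [List.getElem_zipWith]
    exact ⟨_, rfl⟩

theorem PInv.pstepQ {D M K : ℕ} {v : List ℚ} (hv : PInv D M K v) {cons : List PCon}
    (hc : ∀ c ∈ cons, c.1.length = K) : PInv D M K (pstepQ D M cons v) := by
  unfold R300.pstepQ
  split
  · exact hv
  · rename_i c h
    exact hv.updQ (hc c (List.mem_of_find?_eq_some h))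

theorem PInv.iterate {D M K : ℕ} {v : List ℚ} (hv : PInv D M K v) {cons : List PCon}
    (hc : ∀ c ∈ cons, c.1.length = K) (T : ℕ) : PInv D M K ((R300.pstepQ D M cons)^[T] v) := by
  induction T with
  | zero => exact hv
  | succ T ih =>
    rw [Function.iterate_succ_apply']
    exact ih.pstepQ hc

/-- squared distance to a real vector -/
noncomputable def distQ (K : ℕ) (v : List ℚ) (u : ℕ → ℝ) : ℝ :=
  ∑ k ∈ range K, ((v.getD k 0 : ℚ) - u k : ℝ) ^ 2

theorem updQ_decrease {D M K : ℕ} {v : List ℚ} (hv : PInv D M K v) {c : PCon}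
    (hc : c.1.length = K) {u : ℕ → ℝ} {β N : ℝ} (hβ : 0 < β) (hβc : β ≤ c.2.2)
    (hu : ∀ k < K, |u k| ≤ M) (hN : ((dotQ c.1 c.1 : ℚ) : ℝ) ≤ N)
    (hsol : |∑ k ∈ range K, (c.1.getD k 0 : ℝ) * u k - c.2.1| ≤ c.2.2)
    (hD : K * (4 * M / 2 ^ D + (1 / 2 ^ D) ^ 2) ≤ β ^ 2 / N)
    (hviol : 3 * c.2.2 < |residQ v c|) :
    distQ K (updQ D M v c) u ≤ distQ K v u - 2 * β ^ 2 / N := by
  have hdot : dotQ c.1 c.1 = ∑ k ∈ range K, c.1.getD k 0 * c.1.getD k 0 := dotQ_eq hc hc
  have hres : residQ v c = ∑ k ∈ range K, c.1.getD k 0 * v.getD k 0 - c.2.1 := by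
    unfold residQ; rw [dotQ_eq hc hv.len]
  have hcβ : (0 : ℝ) < c.2.2 := hβ.trans_le hβc
  -- step 1 : pointwise
  have h1 : distQ K (updQ D M v c) u ≤ ∑ k ∈ range K,
      ((((v.getD k 0 : ℚ) : ℝ) - (c.1.getD k 0 : ℚ) * ((residQ v c : ℚ) / (dotQ c.1 c.1 : ℚ)) - u k) ^ 2
        + (4 * M / 2 ^ D + (1 / 2 ^ D) ^ 2)) := by
    unfold distQ
    refine Finset.sum_le_sum fun k hk => ?_
    have hk' : k < K := Finset.mem_range.1 hk
    have hkv : k < v.length := by rw [hv.len]; exact hk'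
    have hkc : k < c.1.length := by rw [hc]; exact hk'
    have hku : k < (updQ D M v c).length := by rw [(hv.updQ hc).len]; exact hk'
    have e : (updQ D M v c).getD k 0 = rndQ D (clipQ M (v.getD k 0 - c.1.getD k 0 * (residQ v c / dotQ c.1 c.1))) := by
      rw [List.getD_eq_getElem _ _ hku, List.getD_eq_getElem _ _ hkv, List.getD_eq_getElem _ _ hkc,
        updQ_getElem hku hkv hkc]
    rw [e]
    refine (rndQ_dist (clipQ_abs_le _ _) (hu k hk')).trans ?_
    refine add_le_add_left ?_ _ |>.trans_eq rfl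
    refine (clipQ_dist (hu k hk')).trans_eq ?_
    push_cast
    rfl
  rw [Finset.sum_add_distrib, Finset.sum_const, Finset.card_range, nsmul_eq_mul] at h1
  -- step 2 : projection
  have h2 := proj_decrease (K := K) (fun k => ((c.1.getD k 0 : ℚ) : ℝ))
    (fun k => ((v.getD k 0 : ℚ) : ℝ)) u c.2.1 c.2.2 N hcβ (by
      have : (∑ k ∈ range K, (((c.1.getD k 0 : ℚ) : ℝ)) ^ 2) = ((dotQ c.1 c.1 : ℚ) : ℝ) := by
        rw [hdot]; push_cast
        exact Finset.sum_congr rfl fun k _ => by ring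
      rw [this]; exact hN) hsol (by
      have : ((residQ v c : ℚ) : ℝ) = ∑ k ∈ range K, ((c.1.getD k 0 : ℚ) : ℝ) * ((v.getD k 0 : ℚ) : ℝ) - c.2.1 := by
        rw [hres]; push_cast; rfl
      rw [← this]
      exact_mod_cast hviol)
  have e3 : ((residQ v c : ℚ) : ℝ) / ((dotQ c.1 c.1 : ℚ) : ℝ)
      = (∑ k ∈ range K, ((c.1.getD k 0 : ℚ) : ℝ) * ((v.getD k 0 : ℚ) : ℝ) - c.2.1)
        / ∑ k ∈ range K, ((c.1.getD k 0 : ℚ) : ℝ) * ((c.1.getD k 0 : ℚ) : ℝ) := by
    rw [hres, hdot]; push_cast; rfl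
  rw [e3] at h1
  have h6 : 3 * β ^ 2 / N ≤ 3 * (c.2.2 : ℝ) ^ 2 / N := by
    have hN0 : 0 ≤ N := le_trans (by
      rw [hdot]; push_cast
      exact Finset.sum_nonneg fun k _ => mul_self_nonneg _) hN
    apply div_le_div_of_nonneg_right _ hN0
    have : β ^ 2 ≤ (c.2.2 : ℝ) ^ 2 := pow_le_pow_left₀ hβ.le hβc 2
    linarith
  have h7 : 3 * β ^ 2 / N = 2 * β ^ 2 / N + β ^ 2 / N := by ring
  unfold distQ at *
  linarith

/-- **correctness of the solver** -/
theorem psolveQ_spec {T D M K : ℕ} {cons : List PCon} (hlen : ∀ c ∈ cons, c.1.length = K)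
    {u : ℕ → ℝ} {β N : ℝ} (hβ : 0 < β) (hN0 : 0 < N)
    (hβc : ∀ c ∈ cons, β ≤ c.2.2) (hN : ∀ c ∈ cons, ((dotQ c.1 c.1 : ℚ) : ℝ) ≤ N)
    (hu : ∀ k < K, |u k| ≤ M)
    (hsol : ∀ c ∈ cons, |∑ k ∈ range K, (c.1.getD k 0 : ℝ) * u k - c.2.1| ≤ c.2.2)
    (hD : K * (4 * M / 2 ^ D + (1 / 2 ^ D) ^ 2) ≤ β ^ 2 / N)
    (hT : K * (M : ℝ) ^ 2 * N < 2 * β ^ 2 * T) :
    PInv D M K (psolveQ T D M K cons) ∧
      ∀ c ∈ cons, |residQ (psolveQ T D M K cons) c| ≤ 3 * c.2.2 := by
  refine ⟨(PInv.zero D M K).iterate hlen T, ?_⟩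
  by_contra hcon
  push Not at hcon
  obtain ⟨c₀, hc₀, hviol⟩ := hcon
  -- if no violation at step i then the state is constant afterwards
  have key : ∀ i ≤ T, distQ K ((pstepQ D M cons)^[i] (List.replicate K 0)) u
      ≤ K * (M : ℝ) ^ 2 - i * (2 * β ^ 2 / N) := by
    intro i
    induction i with
    | zero =>
      intro _
      simp only [Function.iterate_zero, id_eq, CharP.cast_eq_zero, zero_mul, sub_zero]
      unfold distQ
      have : ∀ k ∈ range K, (((List.replicate K (0:ℚ)).getD k 0 : ℚ) - u k : ℝ) ^ 2 ≤ (M : ℝ) ^ 2 := by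
        intro k hk
        have hk' := Finset.mem_range.1 hk
        have : (List.replicate K (0:ℚ)).getD k 0 = 0 := by simp
        rw [this]
        simp only [Rat.cast_zero, zero_sub, even_two, Even.neg_pow]
        rw [← sq_abs]
        exact pow_le_pow_left₀ (abs_nonneg _) (hu k hk') 2
      refine (Finset.sum_le_sum this).trans ?_
      simp
    | succ i ih =>
      intro hi
      have hi' := ih (by omega)
      rw [Function.iterate_succ_apply']
      set v := (pstepQ D M cons)^[i] (List.replicate K 0) with hv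
      have hinv : PInv D M K v := (PInv.zero D M K).iterate hlen i
      have hstep : distQ K (pstepQ D M cons v) u ≤ distQ K v u - 2 * β ^ 2 / N := by
        rcases hfind : cons.find? (fun c => decide (3 * c.2.2 < |residQ v c|)) with _ | c
        · exfalso
          have hfix : pstepQ D M cons v = v := by
            unfold pstepQ; rw [hfind]
          have hall : ∀ j, (pstepQ D M cons)^[j] v = v := by
            intro j
            induction j with
            | zero => rfl
            | succ j ihj => rw [Function.iterate_succ_apply', ihj, hfix]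
          have : psolveQ T D M K cons = v := by
            unfold psolveQ
            have : T = (T - i) + i := by omega
            rw [this, Function.iterate_add_apply, ← hv, hall]
          rw [this] at hviol
          rw [List.find?_eq_none] at hfind
          have := hfind c₀ hc₀
          simp only [decide_eq_true_eq] at this
          exact this hviol
        · have hmem := List.mem_of_find?_eq_some hfind
          have hvi : 3 * c.2.2 < |residQ v c| := by
            have := List.find?_some hfind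
            simpa using this
          have : pstepQ D M cons v = updQ D M v c := by
            unfold pstepQ; rw [hfind]
          rw [this]
          exact updQ_decrease hinv (hlen c hmem) hβ (hβc c hmem) hu (hN c hmem) (hsol c hmem) hD hvi
      push_cast
      linarith
  have h1 := key T le_rfl
  have h2 : 0 ≤ distQ K ((pstepQ D M cons)^[T] (List.replicate K 0)) u :=
    Finset.sum_nonneg fun k _ => sq_nonneg _
  have h3 : (T : ℝ) * (2 * β ^ 2 / N) = 2 * β ^ 2 * T / N := by ring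
  have h4 : K * (M : ℝ) ^ 2 < 2 * β ^ 2 * T / N := by
    rw [lt_div_iff₀ hN0]; exact hT
  linarith

end Crest.Agent.R300
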