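import Crest.Agent.R300.Perceptron

/-!
# Row 300: perceptron with an additional one-sided cut oracle
-/

set_option autoImplicit false

namespace Crest.Agent.R300

open Finset

/-- one step: violated linear constraint, else cut of the oracle -/
def ostepQ (D M : ℕ) (cons : List PCon) (orc : List ℚ → Option (List ℚ)) (u : List ℚ) : List ℚ :=
  match cons.find? (fun c => decide (3 * c.2.2 < |residQ u c|)) with
  | none => match orc u with
    | none => u
    | some P => updQ D M u (P, 0, 0)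
  | some c => updQ D M u c

/-- solver with oracle -/
def osolveQ (T D M K : ℕ) (cons : List PCon) (orc : List ℚ → Option (List ℚ)) : List ℚ :=
  (ostepQ D M cons orc)^[T] (List.replicate K 0)

theorem PInv.ostepQ {D M K : ℕ} {v : List ℚ} (hv : PInv D M K v) {cons : List PCon}
    (hc : ∀ c ∈ cons, c.1.length = K) {orc : List ℚ → Option (List ℚ)}
    (ho : ∀ v, PInv D M K v → ∀ P, orc v = some P → P.length = K) :
    PInv D M K (ostepQ D M cons orc v) := by
  unfold R300.ostepQ
  split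
  · split
    · exact hv
    · rename_i P h
      exact hv.updQ (c := (P, 0, 0)) (ho v hv P h)
  · rename_i c h
    exact hv.updQ (hc c (List.mem_of_find?_eq_some h))

theorem PInv.oiterate {D M K : ℕ} {v : List ℚ} (hv : PInv D M K v) {cons : List PCon}
    (hc : ∀ c ∈ cons, c.1.length = K) {orc : List ℚ → Option (List ℚ)}
    (ho : ∀ v, PInv D M K v → ∀ P, orc v = some P → P.length = K) (T : ℕ) :
    PInv D M K ((R300.ostepQ D M cons orc)^[T] v) := by
  induction T with
  | zero => exact hv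
  | succ T ih =>
    rw [Function.iterate_succ_apply']
    exact ih.ostepQ hc ho

/-- effect of clipping and rounding -/
theorem updQ_dist {D M K : ℕ} {v : List ℚ} (hv : PInv D M K v) {c : PCon}
    (hc : c.1.length = K) {u : ℕ → ℝ} (hu : ∀ k < K, |u k| ≤ M) :
    distQ K (updQ D M v c) u ≤ ∑ k ∈ range K,
      (((v.getD k 0 : ℚ) : ℝ) - (c.1.getD k 0 : ℚ) * ((residQ v c : ℚ) / (dotQ c.1 c.1 : ℚ)) - u k) ^ 2
        + K * (4 * M / 2 ^ D + (1 / 2 ^ D) ^ 2) := by
  have h1 : distQ K (updQ D M v c) u ≤ ∑ k ∈ range K,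
      ((((v.getD k 0 : ℚ) : ℝ) - (c.1.getD k 0 : ℚ) * ((residQ v c : ℚ) / (dotQ c.1 c.1 : ℚ)) - u k) ^ 2
        + (4 * M / 2 ^ D + (1 / 2 ^ D) ^ 2)) := by
    unfold distQ
    refine Finset.sum_le_sum fun k hk => ?_
    have hk' : k < K := Finset.mem_range.1 hk
    have hkv : k < v.length := by rw [hv.len]; exact hk'
    have hkc : k < c.1.length := by rw [hc]; exact hk'
    have hku : k < (updQ D M v c).length := by rw [(hv.updQ hc).len]; exact hk'
    have e : (updQ D M v c).getD k 0 = rndQ D (clipQ M (v.getD k 0 - c.1.getD k 0 * (residQ v c / dotQ c.1 c.1))) := by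
      rw [List.getD_eq_getElem _ _ hku, List.getD_eq_getElem _ _ hkv, List.getD_eq_getElem _ _ hkc,
        updQ_getElem hku hkv hkc]
    rw [e]
    refine (rndQ_dist (clipQ_abs_le _ _) (hu k hk')).trans ?_
    refine add_le_add_left ?_ _ |>.trans_eq rfl
    refine (clipQ_dist (hu k hk')).trans_eq ?_
    push_cast
    rfl
  rw [Finset.sum_add_distrib, Finset.sum_const, Finset.card_range, nsmul_eq_mul] at h1
  exact h1

/-- one-sided projection -/
theorem proj_decrease_one {K : ℕ} (r v u : ℕ → ℝ) {L : ℝ}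
    (hu : 0 ≤ ∑ k ∈ range K, r k * u k) (hv : ∑ k ∈ range K, r k * v k < 0)
    (hL : ∑ k ∈ range K, r k ^ 2 ≤ L * (∑ k ∈ range K, r k * v k) ^ 2) (hL0 : 0 < L) :
    ∑ k ∈ range K, (v k - r k * ((∑ k ∈ range K, r k * v k) / ∑ k ∈ range K, r k * r k)
      - u k) ^ 2 ≤ ∑ k ∈ range K, (v k - u k) ^ 2 - 1 / L := by
  set S := ∑ k ∈ range K, r k * v k with hS
  set Su := ∑ k ∈ range K, r k * u k with hSu
  have e2 : ∑ k ∈ range K, r k * r k = ∑ k ∈ range K, r k ^ 2 :=
    Finset.sum_congr rfl fun k _ => by ring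
  rw [e2]
  set R := ∑ k ∈ range K, r k ^ 2 with hR
  have hR0 : 0 ≤ R := Finset.sum_nonneg fun k _ => sq_nonneg _
  have hRpos : 0 < R := by
    rcases hR0.lt_or_eq with h | h
    · exact h
    · exfalso
      have hz : ∀ k ∈ range K, r k = 0 := by
        intro k hk
        have := (Finset.sum_eq_zero_iff_of_nonneg (fun k _ => sq_nonneg (r k))).1 (hR.symm.trans h.symm) k hk
        exact pow_eq_zero_iff (two_ne_zero) |>.1 this
      have h1 : S = 0 := by
        rw [hS]; exact Finset.sum_eq_zero fun k hk => by rw [hz k hk]; ring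
      linarith
  have hdiff : S - Su = ∑ k ∈ range K, r k * (v k - u k) := by
    simp only [hS, hSu, mul_sub, Finset.sum_sub_distrib]
  have e1 : ∑ k ∈ range K, (v k - r k * (S / R) - u k) ^ 2
      = ∑ k ∈ range K, (v k - u k) ^ 2 - 2 * (S / R) * (S - Su) + (S / R) ^ 2 * R := by
    rw [hdiff, hR, Finset.mul_sum, Finset.mul_sum, ← Finset.sum_sub_distrib,
      ← Finset.sum_add_distrib]
    exact Finset.sum_congr rfl fun k _ => by ring
  rw [e1]
  have e3 : 2 * (S / R) * (S - Su) - (S / R) ^ 2 * R = (S ^ 2 - 2 * S * Su) / R := by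
    field_simp
    ring
  have h4 : S ^ 2 ≤ S ^ 2 - 2 * S * Su := by
    nlinarith [mul_nonneg hu (neg_nonneg.2 hv.le)]
  have h5 : 1 / L ≤ S ^ 2 / R := by
    rw [div_le_div_iff₀ hL0 hRpos]; linarith
  have h6 : S ^ 2 / R ≤ (S ^ 2 - 2 * S * Su) / R := div_le_div_of_nonneg_right h4 hRpos.le
  linarith

/-- the properties required from the oracle (relative to the true solution `u`) -/
structure OrcOK (D M K : ℕ) (L : ℝ) (u : ℕ → ℝ) (v P : List ℚ) : Prop where
  len : P.length = K
  sol : 0 ≤ ∑ k ∈ range K, (P.getD k 0 : ℝ) * u k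
  neg : ∑ k ∈ range K, (P.getD k 0 : ℝ) * (v.getD k 0 : ℝ) < 0
  big : ∑ k ∈ range K, (P.getD k 0 : ℝ) ^ 2 ≤ L * (∑ k ∈ range K, (P.getD k 0 : ℝ) * (v.getD k 0 : ℝ)) ^ 2

theorem updQ_decrease_one {D M K : ℕ} {v P : List ℚ} (hv : PInv D M K v) {u : ℕ → ℝ} {L : ℝ}
    (hL : 0 < L) (hu : ∀ k < K, |u k| ≤ M) (ho : OrcOK D M K L u v P) :
    distQ K (updQ D M v (P, 0, 0)) u ≤ distQ K v u - 1 / L + K * (4 * M / 2 ^ D + (1 / 2 ^ D) ^ 2) := by
  have h1 := updQ_dist hv (c := (P, 0, 0)) ho.len hu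
  have h2 := proj_decrease_one (K := K) (fun k => ((P.getD k 0 : ℚ) : ℝ))
    (fun k => ((v.getD k 0 : ℚ) : ℝ)) u ho.sol ho.neg ho.big hL
  have e3 : ((residQ v (P, 0, 0) : ℚ) : ℝ) / ((dotQ P P : ℚ) : ℝ)
      = (∑ k ∈ range K, ((P.getD k 0 : ℚ) : ℝ) * ((v.getD k 0 : ℚ) : ℝ))
        / ∑ k ∈ range K, ((P.getD k 0 : ℚ) : ℝ) * ((P.getD k 0 : ℚ) : ℝ) := by
    unfold residQ
    rw [dotQ_eq ho.len hv.len, dotQ_eq ho.len ho.len]; push_cast; rw [sub_zero]
  rw [e3] at h1
  unfold distQ at *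
  linarith

theorem updQ_decrease_two {D M K : ℕ} {v : List ℚ} (hv : PInv D M K v) {c : PCon}
    (hc : c.1.length = K) {u : ℕ → ℝ} {β N : ℝ} (hβ : 0 < β) (hβc : β ≤ c.2.2)
    (hu : ∀ k < K, |u k| ≤ M) (hN : ((dotQ c.1 c.1 : ℚ) : ℝ) ≤ N)
    (hsol : |∑ k ∈ range K, (c.1.getD k 0 : ℝ) * u k - c.2.1| ≤ c.2.2)
    (hviol : 3 * c.2.2 < |residQ v c|) :
    distQ K (updQ D M v c) u ≤ distQ K v u - 3 * β ^ 2 / N
      + K * (4 * M / 2 ^ D + (1 / 2 ^ D) ^ 2) := by
  have hdot : dotQ c.1 c.1 = ∑ k ∈ range K, c.1.getD k 0 * c.1.getD k 0 := dotQ_eq hc hc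
  have hres : residQ v c = ∑ k ∈ range K, c.1.getD k 0 * v.getD k 0 - c.2.1 := by
    unfold residQ; rw [dotQ_eq hc hv.len]
  have hcβ : (0 : ℝ) < c.2.2 := hβ.trans_le hβc
  have h1 := updQ_dist hv hc hu
  have h2 := proj_decrease (K := K) (fun k => ((c.1.getD k 0 : ℚ) : ℝ))
    (fun k => ((v.getD k 0 : ℚ) : ℝ)) u c.2.1 c.2.2 N hcβ (by
      have : (∑ k ∈ range K, (((c.1.getD k 0 : ℚ) : ℝ)) ^ 2) = ((dotQ c.1 c.1 : ℚ) : ℝ) := by
        rw [hdot]; push_cast
        exact Finset.sum_congr rfl fun k _ => by ring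
      rw [this]; exact hN) hsol (by
      have : ((residQ v c : ℚ) : ℝ) = ∑ k ∈ range K, ((c.1.getD k 0 : ℚ) : ℝ) * ((v.getD k 0 : ℚ) : ℝ) - c.2.1 := by
        rw [hres]; push_cast; rfl
      rw [← this]
      exact_mod_cast hviol)
  have e3 : ((residQ v c : ℚ) : ℝ) / ((dotQ c.1 c.1 : ℚ) : ℝ)
      = (∑ k ∈ range K, ((c.1.getD k 0 : ℚ) : ℝ) * ((v.getD k 0 : ℚ) : ℝ) - c.2.1)
        / ∑ k ∈ range K, ((c.1.getD k 0 : ℚ) : ℝ) * ((c.1.getD k 0 : ℚ) : ℝ) := by
    rw [hres, hdot]; push_cast; rfl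
  rw [e3] at h1
  have h6 : 3 * β ^ 2 / N ≤ 3 * (c.2.2 : ℝ) ^ 2 / N := by
    have hN0 : 0 ≤ N := le_trans (by
      rw [hdot]; push_cast
      exact Finset.sum_nonneg fun k _ => mul_self_nonneg _) hN
    apply div_le_div_of_nonneg_right _ hN0
    have : β ^ 2 ≤ (c.2.2 : ℝ) ^ 2 := pow_le_pow_left₀ hβ.le hβc 2
    linarith
  unfold distQ at *
  linarith

/-- **correctness of the solver with oracle** -/
theorem osolveQ_spec {T D M K : ℕ} {cons : List PCon} {orc : List ℚ → Option (List ℚ)}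
    (hlen : ∀ c ∈ cons, c.1.length = K)
    {u : ℕ → ℝ} {β N L γ : ℝ} (hβ : 0 < β) (hL : 0 < L)
    (hβc : ∀ c ∈ cons, β ≤ c.2.2) (hN : ∀ c ∈ cons, ((dotQ c.1 c.1 : ℚ) : ℝ) ≤ N)
    (hu : ∀ k < K, |u k| ≤ M)
    (hsol : ∀ c ∈ cons, |∑ k ∈ range K, (c.1.getD k 0 : ℝ) * u k - c.2.1| ≤ c.2.2)
    (ho' : ∀ v, PInv D M K v → ∀ P, orc v = some P → OrcOK D M K L u v P)
    (hγ1 : γ + K * (4 * M / 2 ^ D + (1 / 2 ^ D) ^ 2) ≤ 3 * β ^ 2 / N)
    (hγ2 : γ + K * (4 * M / 2 ^ D + (1 / 2 ^ D) ^ 2) ≤ 1 / L)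
    (hT : K * (M : ℝ) ^ 2 < T * γ) :
    PInv D M K (osolveQ T D M K cons orc) ∧
      (∀ c ∈ cons, |residQ (osolveQ T D M K cons orc) c| ≤ 3 * c.2.2) ∧
      orc (osolveQ T D M K cons orc) = none := by
  have ho : ∀ v, PInv D M K v → ∀ P, orc v = some P → P.length = K :=
    fun v hv P hP => (ho' v hv P hP).len
  refine ⟨(PInv.zero D M K).oiterate hlen ho T, ?_⟩
  -- a fixed point is reached
  have key : ∀ i ≤ T, (∃ j ≤ i, ostepQ D M cons orc ((ostepQ D M cons orc)^[j] (List.replicate K 0))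
        = (ostepQ D M cons orc)^[j] (List.replicate K 0)
        ∧ (∀ c ∈ cons, |residQ ((ostepQ D M cons orc)^[j] (List.replicate K 0)) c| ≤ 3 * c.2.2)
        ∧ orc ((ostepQ D M cons orc)^[j] (List.replicate K 0)) = none) ∨
      distQ K ((ostepQ D M cons orc)^[i] (List.replicate K 0)) u ≤ K * (M : ℝ) ^ 2 - i * γ := by
    intro i
    induction i with
    | zero =>
      intro _
      right
      simp only [Function.iterate_zero, id_eq, CharP.cast_eq_zero, zero_mul, sub_zero]
      unfold distQ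
      have : ∀ k ∈ range K, (((List.replicate K (0:ℚ)).getD k 0 : ℚ) - u k : ℝ) ^ 2 ≤ (M : ℝ) ^ 2 := by
        intro k hk
        have hk' := Finset.mem_range.1 hk
        have : (List.replicate K (0:ℚ)).getD k 0 = 0 := by simp
        rw [this]
        simp only [Rat.cast_zero, zero_sub, even_two, Even.neg_pow]
        rw [← sq_abs]
        exact pow_le_pow_left₀ (abs_nonneg _) (hu k hk') 2
      refine (Finset.sum_le_sum this).trans ?_
      simp
    | succ i ih =>
      intro hi
      rcases ih (by omega) with ⟨j, hj, hfix⟩ | hi'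
      · exact Or.inl ⟨j, by omega, hfix⟩
      · set v := (ostepQ D M cons orc)^[i] (List.replicate K 0) with hv
        have hinv : PInv D M K v := (PInv.zero D M K).oiterate hlen ho i
        rcases hfind : cons.find? (fun c => decide (3 * c.2.2 < |residQ v c|)) with _ | c
        · have hall : ∀ c ∈ cons, |residQ v c| ≤ 3 * c.2.2 := by
            intro c hc
            rw [List.find?_eq_none] at hfind
            have := hfind c hc
            simp only [decide_eq_true_eq, not_lt] at this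
            exact this
          rcases horc : orc v with _ | P
          · left
            refine ⟨i, by omega, ?_, hall, horc⟩
            rw [← hv]
            unfold ostepQ
            rw [hfind, horc]
          · right
            have hstep : ostepQ D M cons orc v = updQ D M v (P, 0, 0) := by
              unfold ostepQ; rw [hfind, horc]
            rw [Function.iterate_succ_apply', ← hv, hstep]
            have := updQ_decrease_one hinv hL hu (ho' v hinv P horc)
            push_cast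
            linarith
        · right
          have hmem := List.mem_of_find?_eq_some hfind
          have hvi : 3 * c.2.2 < |residQ v c| := by
            have := List.find?_some hfind
            simpa using this
          have hstep : ostepQ D M cons orc v = updQ D M v c := by
            unfold ostepQ; rw [hfind]
          rw [Function.iterate_succ_apply', ← hv, hstep]
          have := updQ_decrease_two hinv (hlen c hmem) hβ (hβc c hmem) hu (hN c hmem) (hsol c hmem) hvi
          push_cast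
          linarith
  have h2 : 0 ≤ distQ K ((ostepQ D M cons orc)^[T] (List.replicate K 0)) u :=
    Finset.sum_nonneg fun k _ => sq_nonneg _
  rcases key T le_rfl with ⟨j, hj, hfix, hall, hnone⟩ | h
  · have hit : ∀ s, (ostepQ D M cons orc)^[s] ((ostepQ D M cons orc)^[j] (List.replicate K 0))
        = (ostepQ D M cons orc)^[j] (List.replicate K 0) := by
      intro s
      induction s with
      | zero => rfl
      | succ s ihs => rw [Function.iterate_succ_apply', ihs, hfix]
    have : osolveQ T D M K cons orc = (ostepQ D M cons orc)^[j] (List.replicate K 0) := by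
      unfold osolveQ
      have e : T = (T - j) + j := by omega
      rw [e, Function.iterate_add_apply, hit]
    rw [this]
    exact ⟨hall, hnone⟩
  · exfalso
    linarith

end Crest.Agent.R300
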