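import Mathlib

set_option autoImplicit false

/-!
Row 300, upper bound: the disc lemma and the sum rule
(items (1c) and (1d) of the blueprint of helper300).
-/

namespace Crest.Agent.R300

open Complex

/-- `1 - cos F ≤ min 4 (F^2) / 2`. -/
theorem one_sub_cos_le_min (F : ℝ) : 1 - Real.cos F ≤ min 4 (F ^ 2) / 2 := by
  rcases le_total 4 (F ^ 2) with h | h
  · rw [min_eq_left h]
    have := Real.neg_one_le_cos F
    linarith
  · rw [min_eq_right h]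
    have := Real.one_sub_sq_div_two_le_cos (x := F)
    linarith

/-- Membership in the disc `|ζ - q| ≤ 1 - q` for `ζ = exp(-a + iF)`. -/
theorem exp_mem_disc {q a F : ℝ} (hq0 : 0 ≤ q) (hq : q ≤ 1 / 8) (ha : 2 * q * min 4 (F ^ 2) ≤ a) :
    ‖Complex.exp (-(a : ℂ) + F * I) - q‖ ≤ 1 - q := by
  have hmin : 0 ≤ min 4 (F ^ 2) := le_min (by norm_num) (sq_nonneg F)
  have ha0 : 0 ≤ a := le_trans (by positivity) ha
  set ρ := Real.exp (-a) with hρ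
  have hρ0 : 0 < ρ := Real.exp_pos _
  have hρ1 : ρ ≤ 1 := by rw [hρ]; exact Real.exp_le_one_iff.mpr (by linarith)
  have hρa : ρ * a ≤ 1 - ρ := by
    have h1 : 1 + a ≤ Real.exp a := by linarith [Real.add_one_le_exp a]
    have h2 : ρ * Real.exp a = 1 := by rw [hρ, ← Real.exp_add]; simp
    have h3 : ρ * (1 + a) ≤ ρ * Real.exp a := mul_le_mul_of_nonneg_left h1 hρ0.le
    rw [h2] at h3
    linarith
  have hcos : 2 * q * (1 - Real.cos F) ≤ a / 2 := by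
    have := one_sub_cos_le_min F
    have h4 : 2 * q * (1 - Real.cos F) ≤ 2 * q * (min 4 (F ^ 2) / 2) :=
      mul_le_mul_of_nonneg_left this (by positivity)
    linarith
  have hkey : 2 * q * ρ * (1 - Real.cos F) ≤ (1 - ρ) * (1 + ρ - 2 * q) := by
    have h5 : ρ * (2 * q * (1 - Real.cos F)) ≤ ρ * (a / 2) :=
      mul_le_mul_of_nonneg_left hcos hρ0.le
    have h6 : (1 - ρ) * (3 / 4) ≤ (1 - ρ) * (1 + ρ - 2 * q) :=
      mul_le_mul_of_nonneg_left (by linarith) (by linarith)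
    nlinarith
  have hsq : ‖Complex.exp (-(a : ℂ) + F * I) - q‖ ^ 2 = ρ ^ 2 - 2 * q * ρ * Real.cos F + q ^ 2 := by
    rw [Complex.sq_norm, Complex.normSq_apply]
    have hre : (Complex.exp (-(a : ℂ) + F * I) - q).re = ρ * Real.cos F - q := by
      simp [Complex.exp_re, hρ]
    have him : (Complex.exp (-(a : ℂ) + F * I) - q).im = ρ * Real.sin F := by
      simp [Complex.exp_im, hρ]
    rw [hre, him]
    have := Real.sin_sq_add_cos_sq F
    nlinarith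
  have h7 : ‖Complex.exp (-(a : ℂ) + F * I) - q‖ ^ 2 ≤ (1 - q) ^ 2 := by
    rw [hsq]; nlinarith
  exact le_of_sq_le_sq h7 (by linarith)

/-- `min(4,(U+V)^2) ≤ 3|U| + 2V^2`. -/
theorem min_four_sq_le (U V : ℝ) : min 4 ((U + V) ^ 2) ≤ 3 * |U| + 2 * V ^ 2 := by
  rcases le_total |U| (3 / 2) with h | h
  · refine (min_le_right _ _).trans ?_
    have h1 : (U + V) ^ 2 ≤ 2 * U ^ 2 + 2 * V ^ 2 := by nlinarith [sq_nonneg (U - V)]
    have h2 : U ^ 2 = |U| ^ 2 := (sq_abs U).symm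
    nlinarith [abs_nonneg U]
  · refine (min_le_left _ _).trans ?_
    nlinarith [sq_nonneg V]

/-- Cauchy-Schwarz with weights: `(∑ v)^2 ≤ ∑ λ v^2` if `∑ 1/λ ≤ 1`. -/
theorem sq_sum_le_weighted {ι : Type*} (s : Finset ι) (lam v : ι → ℝ)
    (hlam : ∀ i ∈ s, 0 < lam i) (hsum : ∑ i ∈ s, 1 / lam i ≤ 1) :
    (∑ i ∈ s, v i) ^ 2 ≤ ∑ i ∈ s, lam i * v i ^ 2 := by
  have h := Finset.sum_mul_sq_le_sq_mul_sq s (fun i => Real.sqrt (1 / lam i))
    (fun i => Real.sqrt (lam i) * v i)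
  have e1 : ∑ i ∈ s, Real.sqrt (1 / lam i) * (Real.sqrt (lam i) * v i) = ∑ i ∈ s, v i := by
    refine Finset.sum_congr rfl fun i hi => ?_
    have hl := hlam i hi
    rw [← mul_assoc, ← Real.sqrt_mul (by positivity), one_div, inv_mul_cancel₀ hl.ne',
      Real.sqrt_one, one_mul]
  have e2 : ∑ i ∈ s, Real.sqrt (1 / lam i) ^ 2 = ∑ i ∈ s, 1 / lam i := by
    refine Finset.sum_congr rfl fun i hi => ?_
    have hl := hlam i hi
    rw [Real.sq_sqrt (by positivity)]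
  have e3 : ∑ i ∈ s, (Real.sqrt (lam i) * v i) ^ 2 = ∑ i ∈ s, lam i * v i ^ 2 := by
    refine Finset.sum_congr rfl fun i hi => ?_
    have hl := hlam i hi
    rw [mul_pow, Real.sq_sqrt hl.le]
  rw [e1, e2, e3] at h
  have h0 : 0 ≤ ∑ i ∈ s, lam i * v i ^ 2 :=
    Finset.sum_nonneg fun i hi => mul_nonneg (hlam i hi).le (sq_nonneg _)
  calc (∑ i ∈ s, v i) ^ 2 ≤ (∑ i ∈ s, 1 / lam i) * ∑ i ∈ s, lam i * v i ^ 2 := h
    _ ≤ 1 * ∑ i ∈ s, lam i * v i ^ 2 := mul_le_mul_of_nonneg_right hsum h0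
    _ = _ := one_mul _

/-- Sum rule: exponents of the open nodes add up at each gap and stay in the disc. -/
theorem sum_rule {ι : Type*} (s : Finset ι) {q : ℝ} (hq0 : 0 ≤ q) (lam u v a : ι → ℝ)
    (hlam : ∀ i ∈ s, 0 < lam i) (hsum : ∑ i ∈ s, 1 / lam i ≤ 1)
    (ha : ∀ i ∈ s, 6 * q * |u i| + 4 * q * (lam i * v i ^ 2) ≤ a i) :
    2 * q * min 4 ((∑ i ∈ s, (u i + v i)) ^ 2) ≤ ∑ i ∈ s, a i := by
  have h1 : ∑ i ∈ s, (6 * q * |u i| + 4 * q * (lam i * v i ^ 2)) ≤ ∑ i ∈ s, a i :=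
    Finset.sum_le_sum ha
  have h2 := sq_sum_le_weighted s lam v hlam hsum
  have h3 := min_four_sq_le (∑ i ∈ s, u i) (∑ i ∈ s, v i)
  have h4 : |∑ i ∈ s, u i| ≤ ∑ i ∈ s, |u i| := Finset.abs_sum_le_sum_abs _ _
  rw [Finset.sum_add_distrib, ← Finset.mul_sum, ← Finset.mul_sum] at h1
  rw [Finset.sum_add_distrib]
  have h5 : min 4 ((∑ i ∈ s, u i + ∑ i ∈ s, v i) ^ 2) ≤
      3 * ∑ i ∈ s, |u i| + 2 * ∑ i ∈ s, lam i * v i ^ 2 := by linarith
  have h6 := mul_le_mul_of_nonneg_left h5 (by positivity : 0 ≤ 2 * q)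
  linarith

/-- Disc lemma + sum rule combined. -/
theorem exp_mem_disc_of_sum_rule {ι : Type*} (s : Finset ι) {q : ℝ} (hq0 : 0 ≤ q) (hq : q ≤ 1 / 8)
    (lam u v a : ι → ℝ)
    (hlam : ∀ i ∈ s, 0 < lam i) (hsum : ∑ i ∈ s, 1 / lam i ≤ 1)
    (ha : ∀ i ∈ s, 6 * q * |u i| + 4 * q * (lam i * v i ^ 2) ≤ a i) :
    ‖Complex.exp (-((∑ i ∈ s, a i : ℝ) : ℂ) + ((∑ i ∈ s, (u i + v i) : ℝ) : ℂ) * I) - q‖ ≤ 1 - q :=
  exp_mem_disc hq0 hq (sum_rule s hq0 lam u v a hlam hsum ha)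

end Crest.Agent.R300
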