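import Mathlib

set_option autoImplicit false

open Complex MeasureTheory Metric Set Filter Topology

namespace Crest.Agent.R300.U1

/-! ### (1c), (1d): the disc `D(p)`, the disc lemma, the sum rule -/

/-- `D(p) = {ζ : |ζ - q| ≤ p}`, `q = 1 - p`. -/
def Dp (p : ℝ) : Set ℂ := {ζ | ‖ζ - ((1 - p : ℝ) : ℂ)‖ ≤ p}

theorem mem_Dp {p : ℝ} {ζ : ℂ} : ζ ∈ Dp p ↔ ‖ζ - ((1 - p : ℝ) : ℂ)‖ ≤ p := Iff.rfl

theorem Dp_mono {p' p : ℝ} (h : p' ≤ p) : Dp p' ⊆ Dp p := by
  intro ζ hζ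
  rw [mem_Dp] at *
  have e : ζ - ((1 - p : ℝ) : ℂ) = (ζ - ((1 - p' : ℝ) : ℂ)) + ((p - p' : ℝ) : ℂ) := by
    push_cast; ring
  rw [e]
  refine (norm_add_le _ _).trans ?_
  rw [Complex.norm_real, Real.norm_eq_abs, abs_of_nonneg (by linarith)]
  linarith

theorem norm_le_one_of_mem_Dp {p : ℝ} (hp1 : p ≤ 1) {ζ : ℂ} (h : ζ ∈ Dp p) : ‖ζ‖ ≤ 1 := by
  have := Dp_mono hp1 h
  rw [mem_Dp] at this
  simpa using this

theorem one_mem_Dp {p : ℝ} (hp : 0 ≤ p) : (1:ℂ) ∈ Dp p := by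
  rw [mem_Dp]
  have : (1:ℂ) - ((1 - p : ℝ) : ℂ) = ((p:ℝ):ℂ) := by push_cast; ring
  rw [this, Complex.norm_real, Real.norm_eq_abs, abs_of_nonneg hp]

theorem zero_mem_Dp {p : ℝ} (hp : 1 / 2 ≤ p) (hp1 : p ≤ 1) : (0:ℂ) ∈ Dp p := by
  rw [mem_Dp, zero_sub, norm_neg, Complex.norm_real, Real.norm_eq_abs, abs_of_nonneg (by linarith)]
  linarith

/-- `ζ ∈ D(1-q)` in terms of real and imaginary parts. -/
theorem mem_Dp_iff_normSq {q : ℝ} (hq1 : q ≤ 1) {ζ : ℂ} :
    ζ ∈ Dp (1 - q) ↔ Complex.normSq ζ + 2 * q ≤ 1 + 2 * q * ζ.re := by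
  rw [mem_Dp]
  have e : ((1 - (1 - q) : ℝ) : ℂ) = ((q:ℝ):ℂ) := by push_cast; ring
  rw [e]
  have h0 : 0 ≤ 1 - q := by linarith
  rw [← sq_le_sq₀ (norm_nonneg _) h0, ← Complex.normSq_eq_norm_sq, Complex.normSq_apply,
    Complex.normSq_apply]
  simp only [Complex.sub_re, Complex.sub_im, Complex.ofReal_re, Complex.ofReal_im]
  constructor <;> intro h <;> nlinarith

/-- (1c) DISC LEMMA. -/
theorem disc_lemma {q a F : ℝ} (hq0 : 0 ≤ q) (hq : q ≤ 1 / 8) (ha : 2 * q * min 4 (F ^ 2) ≤ a) :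
    cexp (-a + F * I) ∈ Dp (1 - q) := by
  rw [mem_Dp_iff_normSq (by linarith)]
  set ρ : ℝ := Real.exp (-a) with hρ
  have hm0 : 0 ≤ min 4 (F ^ 2) := le_min (by norm_num) (sq_nonneg F)
  have ha0 : 0 ≤ a := le_trans (by positivity) ha
  have hρ0 : 0 < ρ := Real.exp_pos _
  have hρ1 : ρ ≤ 1 := by rw [hρ]; exact Real.exp_le_one_iff.mpr (by linarith)
  have hre : (cexp (-a + F * I)).re = ρ * Real.cos F := by
    rw [Complex.exp_re]; simp [hρ]
  have hns : Complex.normSq (cexp (-a + F * I)) = ρ ^ 2 := by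
    rw [Complex.normSq_eq_norm_sq, Complex.norm_exp]; simp [hρ]
  rw [hre, hns]
  -- 1 - cos F ≤ m / 2
  have hcos : 1 - Real.cos F ≤ min 4 (F ^ 2) / 2 := by
    rcases min_choice 4 (F ^ 2) with h | h
    · rw [h]; linarith [Real.neg_one_le_cos F]
    · rw [h]; linarith [Real.one_sub_sq_div_two_le_cos (x := F)]
  have hcos0 : 0 ≤ 1 - Real.cos F := by linarith [Real.cos_le_one F]
  -- 1 - ρ ≥ ρ a
  have h1 : ρ * a ≤ 1 - ρ := by
    have h2 : a + 1 ≤ Real.exp a := Real.add_one_le_exp a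
    have h3 : ρ * Real.exp a = 1 := by rw [hρ, ← Real.exp_add]; simp
    nlinarith
  set m := min 4 (F ^ 2) with hm
  have h2 : ρ * (2 * q * m) ≤ 1 - ρ := le_trans (mul_le_mul_of_nonneg_left ha hρ0.le) h1
  have h4 : (1 - ρ) * (1 + ρ - 2 * q) ≥ (ρ * (2 * q * m)) * (1 / 2) := by
    have h5 : 1 / 2 ≤ 1 + ρ - 2 * q := by linarith
    have h6 : 0 ≤ 1 - ρ := by linarith
    nlinarith [mul_nonneg hρ0.le (mul_nonneg (mul_nonneg zero_le_two hq0) hm0)]
  have h7 : 2 * q * ρ * (1 - Real.cos F) ≤ 2 * q * ρ * (m / 2) :=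
    mul_le_mul_of_nonneg_left hcos (by positivity)
  nlinarith

theorem min_four_sq_le (U V : ℝ) : min 4 ((U + V) ^ 2) ≤ 3 * |U| + 2 * V ^ 2 := by
  -- reduce to nonnegative
  have key : ∀ u v : ℝ, 0 ≤ u → 0 ≤ v → min 4 ((u + v) ^ 2) ≤ 3 * u + 2 * v ^ 2 := by
    intro u v hu hv
    by_cases h2 : u + v ≤ 2
    · refine (min_le_right _ _).trans ?_
      by_cases hv1 : v ≤ 1
      · nlinarith [mul_nonneg hu (by linarith : (0:ℝ) ≤ 3 - (u + 2 * v))]
      · have h3 : u * (u + 2 * v - 3) ≤ (2 - v) * (v - 1) := by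
          have : u + 2 * v - 3 ≤ v - 1 := by linarith
          have h5 : u * (u + 2 * v - 3) ≤ u * (v - 1) := mul_le_mul_of_nonneg_left this hu
          have h6 : u * (v - 1) ≤ (2 - v) * (v - 1) :=
            mul_le_mul_of_nonneg_right (by linarith) (by linarith)
          linarith
        nlinarith [sq_nonneg (v - 3 / 4)]
    · refine (min_le_left _ _).trans ?_
      push Not at h2
      by_cases hv2 : v ≤ 2
      · nlinarith [sq_nonneg (v - 3 / 4)]
      · nlinarith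
  have h1 : (U + V) ^ 2 ≤ (|U| + |V|) ^ 2 := by
    rw [← sq_abs (U + V)]
    exact pow_le_pow_left₀ (abs_nonneg _) (abs_add_le U V) 2
  calc min 4 ((U + V) ^ 2) ≤ min 4 ((|U| + |V|) ^ 2) := min_le_min le_rfl h1
    _ ≤ 3 * |U| + 2 * |V| ^ 2 := key _ _ (abs_nonneg _) (abs_nonneg _)
    _ = 3 * |U| + 2 * V ^ 2 := by rw [sq_abs]

/-- (1d) SUM RULE. -/
theorem sum_rule {ι : Type*} (s : Finset ι) {q : ℝ} (hq : 0 ≤ q) (u v lam a : ι → ℝ)
    (hlam : ∀ i ∈ s, 0 < lam i) (hsum : ∑ i ∈ s, 1 / lam i ≤ 1)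
    (ha : ∀ i ∈ s, 6 * q * |u i| + 4 * q * lam i * v i ^ 2 ≤ a i) :
    2 * q * min 4 ((∑ i ∈ s, (u i + v i)) ^ 2) ≤ ∑ i ∈ s, a i := by
  have h1 : ∑ i ∈ s, (6 * q * |u i| + 4 * q * lam i * v i ^ 2) ≤ ∑ i ∈ s, a i :=
    Finset.sum_le_sum ha
  have hV : (∑ i ∈ s, v i) ^ 2 ≤ ∑ i ∈ s, lam i * v i ^ 2 := by
    have hcs := Finset.sum_sq_le_sum_mul_sum_of_sq_le_mul s (r := v) (f := fun i => 1 / lam i)
      (g := fun i => lam i * v i ^ 2)
      (fun i hi => by have := hlam i hi; positivity)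
      (fun i hi => by have := hlam i hi; positivity)
      (fun i hi => le_of_eq (by have := hlam i hi; field_simp))
    have h0 : 0 ≤ ∑ i ∈ s, lam i * v i ^ 2 :=
      Finset.sum_nonneg fun i hi => by have := hlam i hi; positivity
    nlinarith
  have hU : |∑ i ∈ s, u i| ≤ ∑ i ∈ s, |u i| := Finset.abs_sum_le_sum_abs _ _
  have h2 := min_four_sq_le (∑ i ∈ s, u i) (∑ i ∈ s, v i)
  have e1 : ∑ i ∈ s, (6 * q * |u i| + 4 * q * lam i * v i ^ 2)
      = 6 * q * ∑ i ∈ s, |u i| + 4 * q * ∑ i ∈ s, lam i * v i ^ 2 := by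
    rw [Finset.sum_add_distrib, Finset.mul_sum, Finset.mul_sum]
    congr 1
    apply Finset.sum_congr rfl
    intro i _; ring
  rw [Finset.sum_add_distrib]
  have h3 : 2 * q * min 4 ((∑ i ∈ s, u i + ∑ i ∈ s, v i) ^ 2)
      ≤ 2 * q * (3 * (∑ i ∈ s, |u i|) + 2 * ∑ i ∈ s, lam i * v i ^ 2) := by
    apply mul_le_mul_of_nonneg_left _ (by positivity)
    linarith
  linarith

/-- combination of (1c) and (1d): the product of gap factors over a family of open nodes lies in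
the disc. -/
theorem exp_sum_mem_Dp {ι : Type*} (s : Finset ι) {q : ℝ} (hq : 0 ≤ q) (hq8 : q ≤ 1 / 8)
    (u v lam a : ι → ℝ)
    (hlam : ∀ i ∈ s, 0 < lam i) (hsum : ∑ i ∈ s, 1 / lam i ≤ 1)
    (ha : ∀ i ∈ s, 6 * q * |u i| + 4 * q * lam i * v i ^ 2 ≤ a i) :
    cexp (∑ i ∈ s, (-(a i : ℂ) + ((u i + v i : ℝ) : ℂ) * I)) ∈ Dp (1 - q) := by
  have h := sum_rule s hq u v lam a hlam hsum ha
  have := disc_lemma hq hq8 h
  convert this using 2
  rw [Finset.sum_add_distrib, Finset.sum_neg_distrib, ← Finset.sum_mul]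
  push_cast
  rfl

/-! ### (1b): three lines -/

/-- `1/(1-ζ)` has large real part on the disc. -/
theorem re_inv_ge {p : ℝ} (hp : 0 < p) {ζ : ℂ} (h : ζ ∈ Dp p) (h1 : ζ ≠ 1) :
    1 / (2 * p) ≤ ((1 - ζ)⁻¹).re := by
  have hne : 1 - ζ ≠ 0 := sub_ne_zero.mpr (Ne.symm h1)
  have hpos : 0 < Complex.normSq (1 - ζ) := Complex.normSq_pos.mpr hne
  rw [Complex.inv_re, div_le_div_iff₀ (by positivity) hpos]
  rw [mem_Dp, ← sq_le_sq₀ (norm_nonneg _) hp.le, ← Complex.normSq_eq_norm_sq,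
    Complex.normSq_apply] at h
  rw [Complex.normSq_apply]
  simp only [Complex.sub_re, Complex.sub_im, Complex.ofReal_re, Complex.ofReal_im, Complex.one_re,
    Complex.one_im] at *
  nlinarith

/-- conversely. -/
theorem mem_Dp_of_re_ge {p : ℝ} (hp : 0 < p) {W : ℂ} (h : 1 / (2 * p) ≤ W.re) :
    1 - W⁻¹ ∈ Dp p := by
  have hW : 0 < W.re := lt_of_lt_of_le (by positivity) h
  have hne : W ≠ 0 := by intro h0; rw [h0] at hW; simp at hW
  have hpos : 0 < Complex.normSq W := Complex.normSq_pos.mpr hne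
  rw [mem_Dp, ← sq_le_sq₀ (norm_nonneg _) hp.le, ← Complex.normSq_eq_norm_sq, Complex.normSq_apply]
  have e1 : (1 - W⁻¹ - ((1 - p : ℝ) : ℂ)).re = p - W.re / Complex.normSq W := by
    simp only [Complex.sub_re, Complex.one_re, Complex.inv_re, Complex.ofReal_re]; ring
  have e2 : (1 - W⁻¹ - ((1 - p : ℝ) : ℂ)).im = W.im / Complex.normSq W := by
    simp only [Complex.sub_im, Complex.one_im, Complex.inv_im, Complex.ofReal_im]; ring
  rw [e1, e2]
  have e3 : (p - W.re / Complex.normSq W) * (p - W.re / Complex.normSq W)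
      + W.im / Complex.normSq W * (W.im / Complex.normSq W)
      = p ^ 2 - 2 * p * W.re / Complex.normSq W + 1 / Complex.normSq W := by
    have : W.re * W.re + W.im * W.im = Complex.normSq W := (Complex.normSq_apply W).symm
    field_simp
    nlinarith
  rw [e3]
  have h2 : 1 / Complex.normSq W ≤ 2 * p * W.re / Complex.normSq W := by
    apply div_le_div_of_nonneg_right _ hpos.le
    rw [div_le_iff₀ (by positivity)] at h
    linarith
  linarith

/-- the shifted point. -/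
noncomputable def shift (ζ w : ℂ) : ℂ := if ζ = 1 then 1 else 1 - ((1 - ζ)⁻¹ + w)⁻¹

theorem shift_zero (ζ : ℂ) : shift ζ 0 = ζ := by
  unfold shift
  split_ifs with h
  · exact h.symm
  · rw [add_zero, inv_inv]; ring

theorem shift_mem {p : ℝ} (hp : 0 < p) {p' : ℝ} (hp' : 0 < p') {ζ : ℂ} (h : ζ ∈ Dp p') {w : ℂ}
    (hw : 1 / (2 * p) - 1 / (2 * p') ≤ w.re) : shift ζ w ∈ Dp p := by
  unfold shift
  split_ifs with h1
  · exact one_mem_Dp hp.le
  · apply mem_Dp_of_re_ge hp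
    have := re_inv_ge hp' h h1
    rw [Complex.add_re]
    linarith

theorem shift_differentiableAt {p' : ℝ} (hp' : 0 < p') {ζ : ℂ} (h : ζ ∈ Dp p') {w : ℂ}
    (hw : -(1 / (2 * p')) < w.re) : DifferentiableAt ℂ (shift ζ) w := by
  unfold shift
  split_ifs with h1
  · exact differentiableAt_const _
  · have := re_inv_ge hp' h h1
    have hne : (1 - ζ)⁻¹ + w ≠ 0 := by
      intro h0
      have := congrArg Complex.re h0
      rw [Complex.add_re, Complex.zero_re] at this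
      linarith
    apply DifferentiableAt.const_sub
    exact (DifferentiableAt.inv (by fun_prop) hne)

/-- (1b) THREE LINES, polydisc version. -/
theorem three_lines {ι : Type*} [Fintype ι] {F : (ι → ℂ) → ℂ} (hF : Differentiable ℂ F)
    {p p' : ℝ} (hp : 0 < p) (hpp : p ≤ p') (hp1 : p' < 1) {M ε : ℝ}
    (hM : ∀ z : ι → ℂ, (∀ j, ‖z j‖ ≤ 1) → ‖F z‖ ≤ M)
    (hε : ∀ z : ι → ℂ, (∀ j, z j ∈ Dp p) → ‖F z‖ ≤ ε)
    {ζ : ι → ℂ} (hζ : ∀ j, ζ j ∈ Dp p') :
    ‖F ζ‖ ≤ M ^ (1 - (1 - p') * p / (p' * (1 - p))) * ε ^ ((1 - p') * p / (p' * (1 - p))) := by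
  have hp' : 0 < p' := lt_of_lt_of_le hp hpp
  rcases hpp.eq_or_lt with h | hlt
  · subst h
    have h1 : (1 - p) * p / (p * (1 - p)) = 1 := by
      have : 1 - p ≠ 0 := by linarith
      field_simp
    rw [h1, sub_self, Real.rpow_zero, one_mul, Real.rpow_one]
    exact hε ζ hζ
  · set l : ℝ := -(1 / (2 * p') - 1 / 2) with hl
    set u : ℝ := 1 / (2 * p) - 1 / (2 * p') with hu
    have hl0 : l < 0 := by
      rw [hl, neg_lt_zero, sub_pos]
      exact one_div_lt_one_div_of_lt (by linarith) (by linarith)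
    have hu0 : 0 < u := by
      rw [hu, sub_pos]
      exact one_div_lt_one_div_of_lt (by linarith) (by linarith)
    have hlu : l < u := hl0.trans hu0
    set f : ℂ → ℂ := fun w => F (fun j => shift (ζ j) w) with hf
    have hre : ∀ w : ℂ, l ≤ w.re → ∀ j, ‖shift (ζ j) w‖ ≤ 1 := by
      intro w hw j
      apply norm_le_one_of_mem_Dp le_rfl
      apply shift_mem one_pos hp' (hζ j)
      rw [mul_one]
      linarith
    have hdiff : ∀ w : ℂ, l ≤ w.re → DifferentiableAt ℂ f w := by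
      intro w hw
      apply (hF _).comp w
      rw [differentiableAt_pi]
      intro j
      apply shift_differentiableAt hp' (hζ j)
      have : -(1 / (2 * p')) < l := by rw [hl]; linarith
      linarith
    have hd : DiffContOnCl ℂ f (HadamardThreeLines.verticalStrip l u) := by
      apply DifferentiableOn.diffContOnCl
      intro w hw
      apply (hdiff w _).differentiableWithinAt
      have hcl : closure (HadamardThreeLines.verticalStrip l u) ⊆
          HadamardThreeLines.verticalClosedStrip l u := by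
        apply closure_minimal
        · intro x hx
          exact ⟨hx.1.le, hx.2.le⟩
        · exact isClosed_Icc.preimage Complex.continuous_re
      exact (hcl hw).1
    have hB : BddAbove ((norm ∘ f) '' HadamardThreeLines.verticalClosedStrip l u) := by
      refine ⟨M, ?_⟩
      rintro _ ⟨w, hw, rfl⟩
      exact hM _ (hre w hw.1)
    have ha : ∀ z ∈ Complex.re ⁻¹' {l}, ‖f z‖ ≤ M := by
      intro w hw
      have : w.re = l := hw
      exact hM _ (hre w this.ge)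
    have hb : ∀ z ∈ Complex.re ⁻¹' {u}, ‖f z‖ ≤ ε := by
      intro w hw
      have : w.re = u := hw
      exact hε _ (fun j => shift_mem hp hp' (hζ j) this.ge)
    have key := HadamardThreeLines.norm_le_interp_of_mem_verticalClosedStrip' (f := f) (z := 0)
      hlu (show (0:ℂ).re ∈ Icc l u by simp [hl0.le, hu0.le]) hd hB ha hb
    have hs : ((0:ℂ).re - l) / (u - l) = (1 - p') * p / (p' * (1 - p)) := by
      rw [Complex.zero_re, hl, hu]
      have h1 : 1 - p ≠ 0 := by linarith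
      have h2 : (1 / (2 * p) - 1 / (2 * p') - -(1 / (2 * p') - 1 / 2)) = (1 - p) / (2 * p) := by
        field_simp; ring
      have h3 : (0 - -(1 / (2 * p') - 1 / 2)) = (1 - p') / (2 * p') := by
        field_simp; ring
      rw [h2, h3]
      field_simp
    rw [hs] at key
    have hf0 : f 0 = F ζ := by
      simp only [hf, shift_zero]
    rwa [hf0] at key

end Crest.Agent.R300.U1
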