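import Mathlib
import Crest.Agent.R300.An2

/-!
# Row 300, upper bound, level step: real analysis (Claim B and the Poisson average)
-/

open MeasureTheory Set Filter Topology
open scoped Real

namespace Crest.Agent.R300

/-- Claim B, discrete form. -/
theorem claimB_disc (G : ℕ → ℝ) (hG : Monotone G) : ∀ (l : ℕ) (f : ℕ → ℝ),
    (∀ h < l, ∃ h' ≤ h, ∀ i, i + h' < l → G h ≤ f i + f (i + h')) →
    ∑ h ∈ Finset.range l, G h ≤ 2 * ∑ i ∈ Finset.range l, f i := by
  intro l
  induction l using Nat.strong_induction_on with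
  | _ l ih =>
    intro f H
    rcases Nat.eq_zero_or_pos l with rfl | hl
    · simp
    obtain ⟨d, hd, hpair⟩ := H (l - 1) (by omega)
    have hdl : d < l := by omega
    have e1 : ∑ i ∈ Finset.range l, f i
        = ∑ i ∈ Finset.range (l - d), f i + ∑ i ∈ Finset.range d, f (l - d + i) := by
      rw [← Finset.sum_range_add, Nat.sub_add_cancel hdl.le]
    have e2 : ∑ i ∈ Finset.range l, f i
        = ∑ i ∈ Finset.range d, f i + ∑ i ∈ Finset.range (l - d), f (d + i) := by
      rw [← Finset.sum_range_add, Nat.add_sub_cancel' hdl.le]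
    have i1 := ih d hdl f (fun h hh => by
      obtain ⟨h', h1, h2⟩ := H h (by omega)
      exact ⟨h', h1, fun i hi => h2 i (by omega)⟩)
    have i2 := ih d hdl (fun i => f (l - d + i)) (fun h hh => by
      obtain ⟨h', h1, h2⟩ := H h (by omega)
      refine ⟨h', h1, fun i hi => ?_⟩
      have := h2 (l - d + i) (by omega)
      simpa [add_assoc] using this)
    have e3 : ((l - d : ℕ) : ℝ) * G (l - 1)
        ≤ ∑ i ∈ Finset.range (l - d), f i + ∑ i ∈ Finset.range (l - d), f (d + i) := by
      rw [← Finset.sum_add_distrib]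
      have : ∑ i ∈ Finset.range (l - d), G (l - 1) ≤
          ∑ i ∈ Finset.range (l - d), (f i + f (d + i)) := by
        refine Finset.sum_le_sum fun i hi => ?_
        have := hpair i (by have := Finset.mem_range.1 hi; omega)
        rwa [add_comm d i]
      simpa using this
    have e4 : ∑ h ∈ Finset.range l, G h
        ≤ ∑ h ∈ Finset.range d, G h + ((l - d : ℕ) : ℝ) * G (l - 1) := by
      have : ∑ h ∈ Finset.range l, G h
        = ∑ i ∈ Finset.range d, G i + ∑ i ∈ Finset.range (l - d), G (d + i) := by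
        rw [← Finset.sum_range_add, Nat.add_sub_cancel' hdl.le]
      rw [this]
      have : ∑ i ∈ Finset.range (l - d), G (d + i) ≤ ∑ i ∈ Finset.range (l - d), G (l - 1) :=
        Finset.sum_le_sum fun i hi => hG (by have := Finset.mem_range.1 hi; omega)
      simp only [Finset.sum_const, Finset.card_range, nsmul_eq_mul] at this
      linarith
    linarith

/-- the step function `x ↦ G ⌊x / η⌋₊` -/
noncomputable def stp (G : ℕ → ℝ) (η x : ℝ) : ℝ := G ⌊x / η⌋₊

theorem stp_mono {G : ℕ → ℝ} (hG : Monotone G) {η : ℝ} (hη : 0 < η) : Monotone (stp G η) :=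
  fun _ _ h => hG (Nat.floor_mono (div_le_div_of_nonneg_right h hη.le))

theorem stp_intervalIntegrable {G : ℕ → ℝ} (hG : Monotone G) {η : ℝ} (hη : 0 < η) (u v : ℝ) :
    IntervalIntegrable (stp G η) volume u v :=
  (stp_mono hG hη).intervalIntegrable

/-- Claim B, continuous form. -/
theorem claimB {G : ℕ → ℝ} (hG : Monotone G) {η : ℝ} (hη : 0 < η) {a : ℝ → ℝ}
    (ha : ∀ u v, IntervalIntegrable a volume u v) : ∀ (k : ℕ) (α β : ℝ), α ≤ β → β - α ≤ k * η →
    (∀ h : ℕ, h * η < β - α → ∃ h' ≤ h, ∀ x, α ≤ x → x + h' * η ≤ β → G h ≤ a x + a (x + h' * η)) →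
    ∫ x in (0 : ℝ)..(β - α), stp G η x ≤ 2 * ∫ x in α..β, a x := by
  intro k
  induction k using Nat.strong_induction_on with
  | _ k ih =>
    intro α β hαβ hk H
    rcases Nat.eq_zero_or_pos k with rfl | hkpos
    · have : β = α := by
        push_cast at hk
        linarith
      subst this
      simp
    by_cases hlt : β - α ≤ (k - 1 : ℕ) * η
    · exact ih (k - 1) (by omega) α β hαβ hlt H
    push Not at hlt
    obtain ⟨d, hd, hpair⟩ := H (k - 1) hlt
    set δ : ℝ := d * η with hδ
    have hd1 : (d : ℝ) ≤ ((k - 1 : ℕ) : ℝ) := by exact_mod_cast hd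
    have hδ1 : δ ≤ (k - 1 : ℕ) * η := mul_le_mul_of_nonneg_right hd1 hη.le
    have hδ2 : δ < β - α := lt_of_le_of_lt hδ1 hlt
    have hδ0 : 0 ≤ δ := by positivity
    have i1 : ∫ x in (0 : ℝ)..δ, stp G η x ≤ 2 * ∫ x in α..(α + δ), a x := by
      have := ih d (by omega) α (α + δ) (by linarith) (by rw [add_sub_cancel_left]) (fun h hh => by
        rw [add_sub_cancel_left] at hh
        obtain ⟨h', h1, h2⟩ := H h (by linarith)
        exact ⟨h', h1, fun x hx1 hx2 => h2 x hx1 (by linarith)⟩)
      rwa [add_sub_cancel_left] at this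
    have i2 : ∫ x in (0 : ℝ)..δ, stp G η x ≤ 2 * ∫ x in (β - δ)..β, a x := by
      have := ih d (by omega) (β - δ) β (by linarith) (by rw [sub_sub_cancel]) (fun h hh => by
        rw [sub_sub_cancel] at hh
        obtain ⟨h', h1, h2⟩ := H h (by linarith)
        exact ⟨h', h1, fun x hx1 hx2 => h2 x (by linarith) hx2⟩)
      rwa [sub_sub_cancel] at this
    have e1 : ∫ x in α..β, a x = (∫ x in α..(β - δ), a x) + ∫ x in (β - δ)..β, a x :=
      (intervalIntegral.integral_add_adjacent_intervals (ha _ _) (ha _ _)).symm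
    have e2 : ∫ x in α..β, a x = (∫ x in α..(α + δ), a x) + ∫ x in (α + δ)..β, a x :=
      (intervalIntegral.integral_add_adjacent_intervals (ha _ _) (ha _ _)).symm
    have e3 : ∫ x in (α + δ)..β, a x = ∫ x in α..(β - δ), a (x + δ) := by
      rw [intervalIntegral.integral_comp_add_right (fun x => a x) δ]
      congr 1; ring
    have hint2 : IntervalIntegrable (fun x => a (x + δ)) volume α (β - δ) := by
      have := (ha (α + δ) (β - δ + δ)).comp_add_right δ
      simpa using this
    have e4 : (β - δ - α) * G (k - 1) ≤ (∫ x in α..(β - δ), a x) + ∫ x in (α + δ)..β, a x := by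
      rw [e3, ← intervalIntegral.integral_add (ha _ _) hint2]
      have : ∫ x in α..(β - δ), G (k - 1) ≤ ∫ x in α..(β - δ), (a x + a (x + δ)) := by
        refine intervalIntegral.integral_mono_on (by linarith) (by simp) ((ha _ _).add hint2) ?_
        intro x hx
        exact hpair x hx.1 (by linarith [hx.2])
      simpa using this
    have e5 : ∫ x in (0 : ℝ)..(β - α), stp G η x
        ≤ (∫ x in (0 : ℝ)..δ, stp G η x) + (β - δ - α) * G (k - 1) := by
      rw [← intervalIntegral.integral_add_adjacent_intervals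
        (stp_intervalIntegrable hG hη 0 δ) (stp_intervalIntegrable hG hη δ (β - α))]
      have : ∫ x in δ..(β - α), stp G η x ≤ ∫ x in δ..(β - α), G (k - 1) := by
        refine intervalIntegral.integral_mono_on_of_le_Ioo (by linarith)
          (stp_intervalIntegrable hG hη _ _) (by simp) ?_
        intro x hx
        apply hG
        have h1 : x / η < k := by
          rw [div_lt_iff₀ hη]
          linarith [hx.2]
        have h2 : ⌊x / η⌋₊ < k := by
          rw [Nat.floor_lt' (by omega)]
          exact h1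
        omega
      simp only [intervalIntegral.integral_const, smul_eq_mul] at this
      linarith
    linarith

/-- Abel summation for integrals. -/
theorem abel_integral {T : ℝ} (hT : 0 ≤ T) {W e : ℝ → ℝ} (hW : ContDiff ℝ 1 W)
    (hW' : ∀ x ∈ Icc 0 T, deriv W x ≤ 0) (hWT : 0 ≤ W T)
    (he : IntervalIntegrable e volume 0 T)
    (hpos : ∀ x ∈ Icc 0 T, 0 ≤ ∫ t in (0 : ℝ)..x, e t) :
    0 ≤ ∫ x in (0 : ℝ)..T, W x * e x := by
  set g : ℝ → ℝ := fun x => ∫ t in (0 : ℝ)..x, e t with hg
  have hgac : AbsolutelyContinuousOnInterval g 0 T :=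
    he.absolutelyContinuousOnInterval_intervalIntegral (by simp)
  have hWac : AbsolutelyContinuousOnInterval W 0 T :=
    (hW.contDiffOn).absolutelyContinuousOnInterval
  have key := hWac.integral_mul_deriv_eq_deriv_mul hgac
  have e1 : ∫ x in (0 : ℝ)..T, W x * deriv g x = ∫ x in (0 : ℝ)..T, W x * e x := by
    apply intervalIntegral.integral_congr_ae
    filter_upwards [he.ae_hasDerivAt_integral] with x hx hx2
    rw [(hx (uIoc_subset_uIcc hx2) 0 (by simp)).deriv]
  rw [← e1, key]
  have h0 : g 0 = 0 := by simp [hg]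
  have h1 : ∫ x in (0 : ℝ)..T, deriv W x * g x ≤ 0 := by
    have : ∫ x in (0 : ℝ)..T, -(deriv W x * g x) ≥ 0 := by
      apply intervalIntegral.integral_nonneg hT
      intro x hx
      have := mul_nonneg (neg_nonneg.2 (hW' x hx)) (hpos x hx)
      simpa [hg] using this
    rw [intervalIntegral.integral_neg] at this
    linarith
  have h2 : 0 ≤ W T * g T := mul_nonneg hWT (hpos T ⟨hT, le_rfl⟩)
  rw [h0]
  linarith

end Crest.Agent.R300
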